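import Vale.Agent.P251.M.Chain
import Vale.Agent.P251.Q.LazWt

/-!
# P251, part M4b: homogeneity of the evaluation of `Cob Laz n` on a homogeneous chain

If the law of a chain over a graded ring is homogeneous of degree `1` and the coefficient of
`X^(m+1)` of each of its strict series has degree `-m`, then functions of weight `w` on chains
take values of degree `-w`.
-/

open MvPowerSeries Vale.Agent.P251.Q Vale.Agent.P251.F Vale.Agent.P217

universe u

namespace Vale.Agent.P251.M

namespace ChainWt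

theorem c_conj_lin {B : Type*} [CommRing B] (u : Bˣ) (g : InvSeries B) (m : ℕ) :
    ((InvSeries.lin u)⁻¹ * g * InvSeries.lin u).c m = (u : B) ^ m * g.c m := by
  rw [← map_inv]
  have h1 : (InvSeries.lin u⁻¹ * g).val = PowerSeries.C ((u⁻¹ : Bˣ) : B) * g.val := by
    rw [InvSeries.mul_val, InvSeries.lin_val, PowerSeries.subst_mul g.hs, PowerSeries.subst_X g.hs,
      PowerSeries.subst_C]
    rfl
  rw [InvSeries.c, InvSeries.mul_val, h1, InvSeries.lin_val]
  have h2 : PowerSeries.subst (PowerSeries.C (u : B) * PowerSeries.X)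
      (PowerSeries.C ((u⁻¹ : Bˣ) : B) * g.val) =
      PowerSeries.rescale (u : B) (PowerSeries.C ((u⁻¹ : Bˣ) : B) * g.val) := by
    rw [PowerSeries.rescale_eq_subst, PowerSeries.smul_eq_C_mul]
  rw [h2, PowerSeries.coeff_rescale, PowerSeries.coeff_C_mul, InvSeries.c, pow_succ]
  calc (u : B) ^ m * (u : B) * (((u⁻¹ : Bˣ) : B) * (PowerSeries.coeff (m + 1)) g.val) =
      (u : B) ^ m * ((u : B) * ((u⁻¹ : Bˣ) : B)) * (PowerSeries.coeff (m + 1)) g.val := by ring
    _ = (u : B) ^ m * (PowerSeries.coeff (m + 1)) g.val := by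
      rw [Units.mul_inv, mul_one]

/-- The variable `(i,m)` has weight `m + 1`. -/
theorem isWt_X {N : Type} [CommRing N] [LawRing N] {n : ℕ} (i : Fin n) (m : ℕ) :
    Cob.IsWt ((m + 1 : ℕ) : ℤ) (MvPolynomial.X (i, m) : Cob N n) := by
  intro B _ c u
  rw [Cob.ev_X, Cob.ev_X, zpow_natCast, Units.val_pow_eq_pow_val]
  exact c_conj_lin u (c.g i.succ) (m + 1)

/-- The coefficients of the universal law at the vertex `0` are homogeneous. -/
theorem isWt_C {n : ℕ} {w : ℤ} {a : Laz} (h : Cob.IsWt w (MvPolynomial.C a : Cob Laz 0)) :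
    Cob.IsWt w (MvPolynomial.C a : Cob Laz n) := by
  have h1 := h.map (fun _ => (0 : Fin (n + 1)))
  have h2 : Cob.map (fun _ => (0 : Fin (n + 1))) (MvPolynomial.C a : Cob Laz 0) =
      (MvPolynomial.C a : Cob Laz n) := by
    apply Cob.ext_ev
    intro B _ c
    rw [Cob.ev_map_res, Cob.ev_C, Cob.ev_C, Chain.res_pt, c.zero]
    rw [LawRing.act_one]
  rw [h2] at h1
  exact h1

variable {A : Type u} [CommRing A] {gA : ℤ → AddSubgroup A} {n : ℕ}

/-- A chain is homogeneous with respect to a family of subgroups. -/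
structure IsHom (gA : ℤ → AddSubgroup A) (c : LChain n A) : Prop where
  law : HomPS gA 1 c.law.ps
  g : ∀ (i : Fin (n + 1)) (m : ℕ), (c.g i).c m ∈ gA (-(m : ℤ))

/-- homogeneous pairs -/
def Good (gA : ℤ → AddSubgroup A) (c : LChain n A) (y : Cob Laz n) : Prop :=
  ∃ w : ℤ, Cob.IsWt w y ∧ LChain.ev c y ∈ gA (-w)

theorem Good.one (hA : IsMulGr gA) (c : LChain n A) : Good gA c (1 : Cob Laz n) :=
  ⟨0, Cob.isWt_one, by rw [map_one, neg_zero]; exact hA.one_mem⟩

theorem Good.mul (hA : IsMulGr gA) {c : LChain n A} {x y : Cob Laz n} (hx : Good gA c x)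
    (hy : Good gA c y) : Good gA c (x * y) := by
  obtain ⟨w, h1, h2⟩ := hx
  obtain ⟨v, h3, h4⟩ := hy
  refine ⟨w + v, h1.mul h3, ?_⟩
  rw [map_mul, neg_add]
  exact hA.mul_mem _ _ _ _ h2 h4

/-- The additive subgroup generated by the good elements. -/
noncomputable def span (gA : ℤ → AddSubgroup A) (c : LChain n A) : AddSubgroup (Cob Laz n) :=
  AddSubgroup.closure {y | Good gA c y}

theorem span_mul (hA : IsMulGr gA) {c : LChain n A} {x y : Cob Laz n}
    (hx : x ∈ span gA c) (hy : y ∈ span gA c) : x * y ∈ span gA c := by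
  refine AddSubgroup.closure_induction (p := fun x _ => x * y ∈ span gA c) ?_ ?_ ?_ ?_ hx
  · intro x hx
    refine AddSubgroup.closure_induction (p := fun y _ => x * y ∈ span gA c) ?_ ?_ ?_ ?_ hy
    · intro y hy
      exact AddSubgroup.subset_closure (Good.mul hA hx hy)
    · rw [mul_zero]; exact zero_mem _
    · intro a b _ _ ha hb
      rw [mul_add]; exact add_mem ha hb
    · intro a _ ha
      rw [mul_neg]; exact neg_mem ha
  · rw [zero_mul]; exact zero_mem _
  · intro a b _ _ ha hb
    rw [add_mul]; exact add_mem ha hb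
  · intro a _ ha
    rw [neg_mul]; exact neg_mem ha

theorem C_mem_span (hA : IsMulGr gA) {c : LChain n A} (hc : IsHom gA c) (a : Laz) :
    (MvPolynomial.C a : Cob Laz n) ∈ span gA c := by
  have h0 : ∀ x ∈ ⨆ i, lazDeg i, (MvPolynomial.C x : Cob Laz n) ∈ span gA c := by
    intro x hx
    refine AddSubgroup.iSup_induction (C := fun x => (MvPolynomial.C x : Cob Laz n) ∈ span gA c)
      lazDeg hx ?_ ?_ ?_
    · intro k y hy
      refine AddSubgroup.subset_closure ⟨-k, isWt_C hy, ?_⟩
      rw [LChain.ev_C]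
      exact lift_mem_of_isWt hA hc.law hy
    · rw [map_zero]; exact zero_mem _
    · intro y z hy hz
      rw [map_add]; exact add_mem hy hz
  exact h0 a (lazDeg_total a)

theorem span_eq_top (hA : IsMulGr gA) {c : LChain n A} (hc : IsHom gA c) (y : Cob Laz n) :
    y ∈ span gA c := by
  induction y using MvPolynomial.induction_on with
  | C a => exact C_mem_span hA hc a
  | add p q hp hq => exact add_mem hp hq
  | mul_X p im hp =>
    refine span_mul hA hp (AddSubgroup.subset_closure ⟨((im.2 + 1 : ℕ) : ℤ), isWt_X im.1 im.2, ?_⟩)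
    rw [LChain.ev_X]
    exact hc.g im.1.succ (im.2 + 1)

/-- Functions of weight `w` take values of degree `-w` on homogeneous chains. -/
theorem ev_mem (hA : IsMulGr gA) {c : LChain n A} (hc : IsHom gA c) {w : ℤ} {x : Cob Laz n}
    (hx : Cob.IsWt w x) : LChain.ev c x ∈ gA (-w) := by
  have h0 : ∀ y ∈ span gA c, LChain.ev c (Cob.proj w y) ∈ gA (-w) := by
    intro y hy
    refine AddSubgroup.closure_induction
      (p := fun y _ => LChain.ev c (Cob.proj w y) ∈ gA (-w)) ?_ ?_ ?_ ?_ hy
    · rintro y ⟨v, h1, h2⟩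
      rw [Cob.proj_of_isWt h1]
      split_ifs with h
      · rw [← h]; exact h2
      · rw [map_zero]; exact zero_mem _
    · rw [Cob.proj_zero, map_zero]; exact zero_mem _
    · intro a b _ _ ha hb
      rw [Cob.proj_add, map_add]; exact add_mem ha hb
    · intro a _ ha
      have h3 : Cob.proj w (-a) = -Cob.proj w a := _root_.map_neg (Cob.projHom Laz n w) a
      rw [h3, map_neg]; exact neg_mem ha
  have h1 := h0 x (span_eq_top hA hc x)
  rw [Cob.proj_of_isWt hx, if_pos rfl] at h1
  exact h1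

end ChainWt

end Vale.Agent.P251.M
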