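import Vale.Agent.P251.M.Conn
import Vale.Agent.P251.S.Defs
import Mathlib.CategoryTheory.Triangulated.Triangulated

/-!
# P251, part M (task M5): finite even complexes

* `EvenCell T d` : the smallest class of objects containing the zero objects and `𝟙⟦2k⟧`,
  `k ≥ d`, closed under extensions (finite complexes with cells in even dimensions `≥ 2d`);
  closed under isomorphism, even shifts, tensor products.
* `EvenCell.odd_zero` : if `π_odd R = 0`, then `π_odd (R ⊗ Z) = 0`.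
* `RelEven d f` : the cofibre of `f` is in `EvenCell d`; closed under composition, ...
* `BigCell.tel`, `BigCell.cofibre_tel`: telescopes, and the cofibre of a map of telescopes.
-/

open CategoryTheory MonoidalCategory Limits Pretriangulated ZeroObject
open Vale.Agent.P251.T Vale.Agent.P251.S

universe v u

set_option linter.unusedSectionVars false
set_option linter.style.haveILetI false

namespace Vale.Agent.P251.M

variable {T : Type u} [Category.{v} T] [Preadditive T] [HasZeroObject T]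
    [HasShift T ℤ] [∀ n : ℤ, (shiftFunctor T n).Additive] [Pretriangulated T]

section Compact

variable [HasCoproducts.{0} T]

open Classical in
/-- the idempotent of a coproduct projecting to a finite subcoproduct -/
noncomputable def projFin {I : Type} (Y : I → T) (s : Finset I) : ∐ Y ⟶ ∐ Y :=
  Sigma.desc fun i => if i ∈ s then Sigma.ι Y i else 0

lemma ι_projFin_of_mem {I : Type} (Y : I → T) (s : Finset I) {i : I} (h : i ∈ s) :
    Sigma.ι Y i ≫ projFin Y s = Sigma.ι Y i := by simp [projFin, h]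

lemma ι_projFin_of_notMem {I : Type} (Y : I → T) (s : Finset I) {i : I} (h : i ∉ s) :
    Sigma.ι Y i ≫ projFin Y s = 0 := by simp [projFin, h]

lemma projFin_comp {I : Type} (Y : I → T) (s t : Finset I) (h : s ⊆ t) :
    projFin Y s ≫ projFin Y t = projFin Y s := by
  refine Sigma.hom_ext _ _ fun i => ?_
  by_cases hi : i ∈ s
  · rw [← Category.assoc, ι_projFin_of_mem Y s hi, ι_projFin_of_mem Y t (h hi)]
  · rw [← Category.assoc, ι_projFin_of_notMem Y s hi, zero_comp]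

/-- `Z` is compact: every map to a coproduct factors through a finite subcoproduct. -/
def CompactObj (Z : T) : Prop :=
  ∀ {I : Type} (Y : I → T) (f : Z ⟶ ∐ Y), ∃ s : Finset I, f ≫ projFin Y s = f

lemma exists_factor_iff {Z : T} {I : Type} (Y : I → T) (f : Z ⟶ ∐ Y) (s : Finset I) :
    (∃ g : Z ⟶ ∐ (fun i : s => Y i), g ≫ Sigma.desc (fun i : s => Sigma.ι Y i) = f) ↔
      f ≫ projFin Y s = f := by
  classical
  constructor
  · rintro ⟨g, rfl⟩
    rw [Category.assoc]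
    congr 1
    refine Sigma.hom_ext _ _ fun i => ?_
    simp only [Sigma.ι_desc, colimit.ι_desc_assoc, Cofan.mk_ι_app]
    exact ι_projFin_of_mem Y s i.2
  · intro h
    refine ⟨f ≫ Sigma.desc (fun i => if hi : i ∈ s then
      Sigma.ι (fun i : s => Y i) ⟨i, hi⟩ else 0), ?_⟩
    rw [Category.assoc]
    convert h using 2
    refine Sigma.hom_ext _ _ fun i => ?_
    rw [Sigma.ι_desc_assoc]
    by_cases hi : i ∈ s
    · rw [dif_pos hi, Sigma.ι_desc, ι_projFin_of_mem Y s hi]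
    · rw [dif_neg hi, zero_comp, ι_projFin_of_notMem Y s hi]

lemma CompactObj.of_factor {Z : T}
    (h : ∀ {I : Type} (Y : I → T) (f : Z ⟶ ∐ Y),
      ∃ (s : Finset I) (g : Z ⟶ ∐ (fun i : s => Y i)),
        g ≫ Sigma.desc (fun i : s => Sigma.ι Y i) = f) : CompactObj Z := by
  intro I Y f
  obtain ⟨s, hs⟩ := h Y f
  exact ⟨s, (exists_factor_iff Y f s).mp hs⟩

lemma CompactObj.factor {Z : T} (h : CompactObj Z) {I : Type} (Y : I → T) (f : Z ⟶ ∐ Y) :
    ∃ (s : Finset I) (g : Z ⟶ ∐ (fun i : s => Y i)),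
        g ≫ Sigma.desc (fun i : s => Sigma.ι Y i) = f := by
  obtain ⟨s, hs⟩ := h Y f
  exact ⟨s, (exists_factor_iff Y f s).mpr hs⟩

lemma CompactObj.of_iso {Z Z' : T} (e : Z ≅ Z') (h : CompactObj Z) : CompactObj Z' := by
  intro I Y f
  obtain ⟨s, hs⟩ := h Y (e.hom ≫ f)
  refine ⟨s, ?_⟩
  rw [← cancel_epi e.hom, ← Category.assoc, hs]

lemma CompactObj.ext (Δ : Triangle T) (hΔ : Δ ∈ distTriang T) (h₁ : CompactObj Δ.obj₁)
    (h₃ : CompactObj Δ.obj₃) : CompactObj Δ.obj₂ := by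
  classical
  intro I Y f
  obtain ⟨s, hs⟩ := h₁ Y (Δ.mor₁ ≫ f)
  obtain ⟨g, hg⟩ := Triangle.yoneda_exact₂ Δ hΔ (f - f ≫ projFin Y s) (by
    rw [Preadditive.comp_sub, ← Category.assoc, hs, sub_self])
  obtain ⟨t, ht⟩ := h₃ Y g
  refine ⟨s ∪ t, ?_⟩
  have h1 : f = f ≫ projFin Y s + Δ.mor₂ ≫ g ≫ projFin Y t := by
    rw [ht, ← hg]; abel
  have h2 : (f ≫ projFin Y s + Δ.mor₂ ≫ g ≫ projFin Y t) ≫ projFin Y (s ∪ t) =
      f ≫ projFin Y s + Δ.mor₂ ≫ g ≫ projFin Y t := by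
    rw [Preadditive.add_comp]
    simp only [Category.assoc]
    rw [projFin_comp Y s _ Finset.subset_union_left, projFin_comp Y t _ Finset.subset_union_right]
  rw [← h1] at h2
  exact h2

lemma CompactObj.shift {Z : T} (h : CompactObj Z) (n : ℤ) : CompactObj (Z⟦n⟧) := by
  intro I Y f
  let e : (∐ Y)⟦-n⟧ ≅ ∐ (fun i => (Y i)⟦-n⟧) := PreservesCoproduct.iso (shiftFunctor T (-n)) Y
  obtain ⟨s, hs⟩ := h (fun i => (Y i)⟦-n⟧)
    ((shiftShiftNeg Z n).inv ≫ f⟦-n⟧' ≫ e.hom)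
  refine ⟨s, ?_⟩
  have key : (projFin Y s)⟦-n⟧' ≫ e.hom = e.hom ≫ projFin (fun i => (Y i)⟦-n⟧) s := by
    rw [← cancel_epi e.inv, Iso.inv_hom_id_assoc]
    refine Sigma.hom_ext _ _ fun i => ?_
    rw [← Category.assoc]
    have h1 : Sigma.ι (fun i => (Y i)⟦-n⟧) i ≫ e.inv = (Sigma.ι Y i)⟦-n⟧' := by
      simp [e, PreservesCoproduct.iso]
    have h2 : (Sigma.ι Y i)⟦-n⟧' ≫ e.hom = Sigma.ι (fun i => (Y i)⟦-n⟧) i := by
      rw [← h1, Category.assoc, Iso.inv_hom_id, Category.comp_id]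
    rw [h1, ← Category.assoc, ← Functor.map_comp]
    by_cases hi : i ∈ s
    · rw [ι_projFin_of_mem Y s hi, h2, ι_projFin_of_mem _ s hi]
    · rw [ι_projFin_of_notMem Y s hi, ι_projFin_of_notMem _ s hi, Functor.map_zero, zero_comp]
  apply (shiftFunctor T (-n)).map_injective
  rw [← cancel_mono e.hom, ← cancel_epi (shiftShiftNeg Z n).inv, Functor.map_comp, Category.assoc,
    key]
  simpa only [Category.assoc] using hs

end Compact

lemma eq_zero_of_shift [MonoidalCategory T] {Y : T} (a b c : ℤ) (h : a + b = c)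
    (hY : ∀ f : (𝟙_ T)⟦a⟧ ⟶ Y, f = 0) (f : (𝟙_ T)⟦c⟧ ⟶ Y⟦b⟧) : f = 0 := by
  have e : (𝟙_ T)⟦c⟧ ≅ (((𝟙_ T)⟦a⟧))⟦b⟧ := (shiftFunctorAdd' T a b c h).app (𝟙_ T)
  obtain ⟨g, hg⟩ := (shiftFunctor T b).map_surjective (e.inv ≫ f)
  rw [hY g, Functor.map_zero] at hg
  rw [← cancel_epi e.inv, ← hg, comp_zero]

section EvenCell

variable [MonoidalCategory T]

variable (T) in
/-- Finite complexes with cells in even dimensions `≥ 2d`. -/
inductive EvenCell (d : ℤ) : T → Prop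
  | zero (X : T) (hX : IsZero X) : EvenCell d X
  | sphere (k : ℤ) (hk : d ≤ k) : EvenCell d ((𝟙_ T)⟦2 * k⟧)
  | ext (Δ : Triangle T) (hΔ : Δ ∈ distTriang T) (h₁ : EvenCell d Δ.obj₁)
      (h₃ : EvenCell d Δ.obj₃) : EvenCell d Δ.obj₂

namespace EvenCell

lemma mono {d d' : ℤ} (h : d ≤ d') {X : T} (hX : EvenCell T d' X) : EvenCell T d X := by
  induction hX with
  | zero X hX => exact zero X hX
  | sphere k hk => exact sphere k (h.trans hk)
  | ext Δ hΔ _ _ ih₁ ih₃ => exact ext Δ hΔ ih₁ ih₃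

lemma of_iso {d : ℤ} {X Y : T} (e : X ≅ Y) (hX : EvenCell T d X) : EvenCell T d Y := by
  refine ext (Triangle.mk e.hom (0 : Y ⟶ (0 : T)) 0) ?_ hX (zero _ (isZero_zero T))
  rw [Triangle.distinguished_iff_of_isZero₃ _ (isZero_zero T)]
  change IsIso e.hom
  infer_instance

lemma unit : EvenCell T 0 (𝟙_ T) :=
  of_iso ((shiftFunctorZero' T (2 * (0 : ℤ)) (by ring)).app (𝟙_ T)) (sphere 0 le_rfl)

lemma sphere' (n k : ℤ) (hn : 2 * k = n) {d : ℤ} (hk : d ≤ k) : EvenCell T d ((𝟙_ T)⟦n⟧) := by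
  subst hn; exact sphere k hk

lemma shift {d : ℤ} {X : T} (hX : EvenCell T d X) (m d' : ℤ) (h : d + m = d') :
    EvenCell T d' (X⟦2 * m⟧) := by
  induction hX with
  | zero X hX => exact zero _ ((shiftFunctor T (2 * m)).map_isZero hX)
  | sphere k hk =>
    exact of_iso ((shiftFunctorAdd' T (2 * k) (2 * m) (2 * (k + m)) (by ring)).app (𝟙_ T))
      (sphere (k + m) (by omega))
  | ext Δ hΔ _ _ ih₁ ih₃ =>
    exact ext _ (Triangle.shift_distinguished Δ hΔ (2 * m)) ih₁ ih₃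

lemma prod {d : ℤ} {X Y : T} [HasBinaryBiproduct X Y] (hX : EvenCell T d X)
    (hY : EvenCell T d Y) : EvenCell T d (X ⊞ Y) :=
  ext _ (binaryBiproductTriangle_distinguished X Y) hX hY

/-- Induction principle for properties of the homology of even complexes: a property of objects
which is invariant under... (extensions) and holds for even spheres holds for even complexes. -/
lemma rec' {d : ℤ} {P : T → Prop} (h0 : ∀ X, IsZero X → P X)
    (hs : ∀ k, d ≤ k → P ((𝟙_ T)⟦2 * k⟧))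
    (hext : ∀ Δ : Triangle T, Δ ∈ distTriang T → EvenCell T d Δ.obj₁ → EvenCell T d Δ.obj₃ →
      P Δ.obj₁ → P Δ.obj₃ → P Δ.obj₂) {X : T} (hX : EvenCell T d X) : P X := by
  induction hX with
  | zero X hX => exact h0 X hX
  | sphere k hk => exact hs k hk
  | ext Δ hΔ h₁ h₃ ih₁ ih₃ => exact hext Δ hΔ h₁ h₃ ih₁ ih₃

lemma bigCell [HasCoproducts.{0} T] {d : ℤ} {X : T} (hX : EvenCell T d X) (m : ℤ)
    (hm : m ≤ 2 * d) : BigCell T m X := by
  induction hX with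
  | zero X hX => exact BigCell.zero hX
  | sphere k hk => exact BigCell.sphere (2 * k) (by omega)
  | ext Δ hΔ _ _ ih₁ ih₃ => exact BigCell.ext Δ hΔ ih₁ ih₃

/-- even complexes are compact -/
lemma compact [HasCoproducts.{0} T] {d : ℤ} {Z : T} (hZ : EvenCell T d Z)
    (hcomp : ∀ k : ℤ, CompactObj ((𝟙_ T)⟦k⟧)) : CompactObj Z := by
  induction hZ with
  | zero X hX =>
    intro I Y f
    exact ⟨∅, hX.eq_of_src _ _⟩
  | sphere k hk => exact hcomp (2 * k)
  | ext Δ hΔ _ _ ih₁ ih₃ => exact CompactObj.ext Δ hΔ ih₁ ih₃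

section Tensor

variable [SymmetricCategory T] [TensorTriangulated T]

lemma tensorLeft_shift {d : ℤ} {X : T} (hX : EvenCell T d X) (k d' : ℤ) (h : d + k = d') :
    EvenCell T d' (X ⊗ ((𝟙_ T)⟦2 * k⟧)) :=
  of_iso (tensorUnitShiftIso X (2 * k)).symm (hX.shift k d' h)

lemma tensor {d d' : ℤ} {X Y : T} (hX : EvenCell T d X) (hY : EvenCell T d' Y) (p : ℤ)
    (h : d + d' = p) : EvenCell T p (X ⊗ Y) := by
  induction hY with
  | zero Y hY =>
    refine zero _ ?_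
    rw [IsZero.iff_id_eq_zero, ← MonoidalCategory.whiskerLeft_id,
      (IsZero.iff_id_eq_zero Y).mp hY, MonoidalPreadditive.whiskerLeft_zero]
  | sphere k hk => exact (hX.tensorLeft_shift k (d + k) rfl).mono (by omega)
  | ext Δ hΔ _ _ ih₁ ih₃ =>
    exact ext _ (TensorTriangulated.distinguished X Δ hΔ) ih₁ ih₃

/-- the swap for objects: `Y ⊗ X` -/
lemma tensor' {d d' : ℤ} {X Y : T} (hX : EvenCell T d X) (hY : EvenCell T d' Y) (p : ℤ)
    (h : d + d' = p) : EvenCell T p (Y ⊗ X) :=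
  of_iso (β_ X Y) (tensor hX hY p h)

/-- If `π_odd R = 0` then `π_odd (R ⊗ Z) = 0` for an even complex `Z`. -/
lemma odd_zero {d : ℤ} {Z : T} (hZ : EvenCell T d Z) {R : T}
    (hR : ∀ (k : ℤ) (f : (𝟙_ T)⟦2 * k + 1⟧ ⟶ R), f = 0) :
    ∀ (k : ℤ) (f : (𝟙_ T)⟦2 * k + 1⟧ ⟶ R ⊗ Z), f = 0 := by
  induction hZ with
  | zero Z hZ =>
    intro k f
    refine IsZero.eq_of_tgt ?_ _ _
    rw [IsZero.iff_id_eq_zero, ← MonoidalCategory.whiskerLeft_id,
      (IsZero.iff_id_eq_zero Z).mp hZ, MonoidalPreadditive.whiskerLeft_zero]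
  | sphere j hj =>
    intro k f
    have e : (𝟙_ T)⟦2 * k + 1⟧ ≅ (((𝟙_ T)⟦2 * (k - j) + 1⟧))⟦2 * j⟧ :=
      (shiftFunctorAdd' T (2 * (k - j) + 1) (2 * j) (2 * k + 1) (by ring)).app (𝟙_ T)
    obtain ⟨g, hg⟩ := (shiftFunctor T (2 * j)).map_surjective
      (e.inv ≫ f ≫ (tensorUnitShiftIso R (2 * j)).hom)
    rw [hR _ g, Functor.map_zero] at hg
    rw [← cancel_epi e.inv, ← cancel_mono (tensorUnitShiftIso R (2 * j)).hom, Category.assoc,
      ← hg, comp_zero, zero_comp]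
  | ext Δ hΔ _ _ ih₁ ih₃ =>
    intro k f
    obtain ⟨g, hg⟩ := Triangle.coyoneda_exact₂ _ (TensorTriangulated.distinguished R Δ hΔ) f
      (ih₃ k _)
    rw [hg, ih₁ k g]
    exact zero_comp

/-- The short exact sequences in the homology of even complexes: surjectivity. -/
lemma exists_lift {d : ℤ} (Δ : Triangle T) (hΔ : Δ ∈ distTriang T) (h₁ : EvenCell T d Δ.obj₁)
    {R : T} (hR : ∀ (k : ℤ) (f : (𝟙_ T)⟦2 * k + 1⟧ ⟶ R), f = 0) (k : ℤ)
    (f : (𝟙_ T)⟦2 * k⟧ ⟶ R ⊗ Δ.obj₃) : ∃ g : (𝟙_ T)⟦2 * k⟧ ⟶ R ⊗ Δ.obj₂,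
      g ≫ (R ◁ Δ.mor₂) = f := by
  obtain ⟨g, hg⟩ := Triangle.coyoneda_exact₃ _ (TensorTriangulated.distinguished R Δ hΔ) f
    (eq_zero_of_shift (2 * (k - 1) + 1) 1 (2 * k) (by ring) (h₁.odd_zero hR (k - 1)) _)
  exact ⟨g, hg.symm⟩

/-- The short exact sequences in the homology of even complexes: injectivity. -/
lemma eq_zero_of_comp {d : ℤ} (Δ : Triangle T) (hΔ : Δ ∈ distTriang T)
    (h₃ : EvenCell T d Δ.obj₃)
    {R : T} (hR : ∀ (k : ℤ) (f : (𝟙_ T)⟦2 * k + 1⟧ ⟶ R), f = 0) (k : ℤ)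
    (f : (𝟙_ T)⟦2 * k⟧ ⟶ R ⊗ Δ.obj₁) (hf : f ≫ (R ◁ Δ.mor₁) = 0) : f = 0 := by
  obtain ⟨g, hg⟩ := Triangle.coyoneda_exact₂ _
    (inv_rot_of_distTriang _ (TensorTriangulated.distinguished R Δ hΔ)) f hf
  have h0 : g = 0 := eq_zero_of_shift (2 * k + 1) (-1) (2 * k) (by ring) (h₃.odd_zero hR k) g
  rw [hg, h0]
  exact zero_comp

/-- exactness in the middle -/
lemma exists_of_comp_eq_zero (Δ : Triangle T) (hΔ : Δ ∈ distTriang T)
    {R W : T} (f : W ⟶ R ⊗ Δ.obj₂) (hf : f ≫ (R ◁ Δ.mor₂) = 0) :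
    ∃ g : W ⟶ R ⊗ Δ.obj₁, f = g ≫ (R ◁ Δ.mor₁) :=
  Triangle.coyoneda_exact₂ _ (TensorTriangulated.distinguished R Δ hΔ) f hf

end Tensor

end EvenCell

end EvenCell

end Vale.Agent.P251.M
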