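import Vale.Agent.P251.M.EvenCell
import Vale.Agent.P251.H.Dist

/-!
# P251, part M (task M5): classes of maps with cofibre in a given class; telescopes

* `ExtClosed P` : the class `P` of objects contains zero objects and is closed under extensions;
* `CofIn P f` : the cofibre of `f` is in `P`; closed under composition (octahedral axiom);
* `BigCell.tel` : telescopes of objects of `BigCell m` are in `BigCell m`;
* `CofIn.tel` : for a map of sequences `g n : X n ⟶ Y n`, `X n` compact, with `CofIn P (g n)` the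
  map of telescopes is in `CofIn P`.
-/

open CategoryTheory MonoidalCategory Limits Pretriangulated ZeroObject
open Vale.Agent.P251.T Vale.Agent.P251.S Vale.Agent.P251.H

universe v u

set_option linter.unusedSectionVars false
set_option linter.style.haveILetI false

namespace Vale.Agent.P251.M

variable {T : Type u} [Category.{v} T] [Preadditive T] [HasZeroObject T]
    [HasShift T ℤ] [∀ n : ℤ, (shiftFunctor T n).Additive] [Pretriangulated T]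

/-- Octahedral axiom, unbundled. -/
lemma exists_octa [IsTriangulated T] {X₁ X₂ X₃ Z₁₂ Z₂₃ Z₁₃ : T} {u₁₂ : X₁ ⟶ X₂} {u₂₃ : X₂ ⟶ X₃}
    {u₁₃ : X₁ ⟶ X₃} (comm : u₁₂ ≫ u₂₃ = u₁₃)
    {v₁₂ : X₂ ⟶ Z₁₂} {w₁₂ : Z₁₂ ⟶ X₁⟦(1 : ℤ)⟧} (h₁₂ : Dist u₁₂ v₁₂ w₁₂)
    {v₂₃ : X₃ ⟶ Z₂₃} {w₂₃ : Z₂₃ ⟶ X₂⟦(1 : ℤ)⟧} (h₂₃ : Dist u₂₃ v₂₃ w₂₃)
    {v₁₃ : X₃ ⟶ Z₁₃} {w₁₃ : Z₁₃ ⟶ X₁⟦(1 : ℤ)⟧} (h₁₃ : Dist u₁₃ v₁₃ w₁₃) :
    ∃ (m₁ : Z₁₂ ⟶ Z₁₃) (m₃ : Z₁₃ ⟶ Z₂₃), v₁₂ ≫ m₁ = u₂₃ ≫ v₁₃ ∧ m₁ ≫ w₁₃ = w₁₂ ∧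
      v₁₃ ≫ m₃ = v₂₃ ∧ w₁₃ ≫ u₁₂⟦(1 : ℤ)⟧' = m₃ ≫ w₂₃ ∧
      Dist m₁ m₃ (w₂₃ ≫ v₁₂⟦(1 : ℤ)⟧') :=
  let O := Triangulated.someOctahedron comm h₁₂ h₂₃ h₁₃
  ⟨O.m₁, O.m₃, O.comm₁, O.comm₂, O.comm₃, O.comm₄, O.mem⟩

lemma Dist.invRot' {X Y Z : T} {f : X ⟶ Y} {g : Y ⟶ Z} {h : Z ⟶ X⟦(1 : ℤ)⟧} (D : Dist f g h) :
    ∃ (a : Z⟦(-1 : ℤ)⟧ ⟶ X) (b : Y ⟶ (Z⟦(-1 : ℤ)⟧)⟦(1 : ℤ)⟧), Dist a f b :=
  ⟨_, _, inv_rot_of_distTriang _ D⟩

/-- A class of objects containing the zero objects and closed under extensions. -/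
structure ExtClosed (P : T → Prop) : Prop where
  zero : ∀ X, IsZero X → P X
  ext : ∀ {X Y Z : T} {f : X ⟶ Y} {g : Y ⟶ Z} {h : Z ⟶ X⟦(1 : ℤ)⟧}, Dist f g h → P X → P Z → P Y

namespace ExtClosed

variable {P : T → Prop} (hP : ExtClosed P)
include hP

lemma iso {X Y : T} (e : X ≅ Y) (hX : P X) : P Y := by
  refine hP.ext (f := e.hom) (g := (0 : Y ⟶ (0 : T))) (h := 0) ?_ hX
    (hP.zero _ (isZero_zero T))
  refine (Triangle.distinguished_iff_of_isZero₃ _ (isZero_zero T)).mpr ?_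
  change IsIso e.hom
  infer_instance

end ExtClosed

lemma evenCell_extClosed [MonoidalCategory T] (d : ℤ) : ExtClosed (EvenCell T d) where
  zero X hX := EvenCell.zero X hX
  ext D hX hZ := EvenCell.ext _ D hX hZ

lemma bigCell_extClosed [MonoidalCategory T] [HasCoproducts.{0} T] (d : ℤ) :
    ExtClosed (BigCell T d) where
  zero _ hX := BigCell.zero hX
  ext D hX hZ := BigCell.ext _ D hX hZ

lemma conn_extClosed [MonoidalCategory T] (d : ℤ) : ExtClosed (Conn (T := T) d) where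
  zero _ hX := Conn.zero hX
  ext D hX hZ := Conn.ext _ D hX hZ

/-- The cofibre of `f` is in `P`. -/
def CofIn (P : T → Prop) {X Y : T} (f : X ⟶ Y) : Prop :=
  ∃ (Z : T) (g : Y ⟶ Z) (h : Z ⟶ X⟦(1 : ℤ)⟧), Dist f g h ∧ P Z

namespace CofIn

variable {P : T → Prop}

lemma mono {Q : T → Prop} (h : ∀ X, P X → Q X) {X Y : T} {f : X ⟶ Y} (hf : CofIn P f) :
    CofIn Q f := by
  obtain ⟨Z, g, w, D, hZ⟩ := hf
  exact ⟨Z, g, w, D, h Z hZ⟩

lemma of_dist (hP : ExtClosed P) {X Y Z : T} {f : X ⟶ Y} {g : Y ⟶ Z} {h : Z ⟶ X⟦(1 : ℤ)⟧}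
    (D : Dist f g h) (hf : CofIn P f) : P Z := by
  obtain ⟨Z', g', h', D', hZ'⟩ := hf
  obtain ⟨c, h₂, h₃⟩ := D'.map₃ D (𝟙 X) (𝟙 Y) (by simp)
  have : IsIso c := D'.iso₃ D c (by simpa using h₂) (by simpa using h₃)
  exact hP.iso (asIso c) hZ'

lemma of_isIso (hP : ExtClosed P) {X Y : T} (f : X ⟶ Y) [IsIso f] : CofIn P f := by
  refine ⟨0, 0, 0, ?_, hP.zero _ (isZero_zero T)⟩
  exact (Triangle.distinguished_iff_of_isZero₃ _ (isZero_zero T)).mpr ‹_›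

lemma comp [IsTriangulated T] (hP : ExtClosed P) {X Y Z : T} {f : X ⟶ Y} {g : Y ⟶ Z}
    (hf : CofIn P f) (hg : CofIn P g) : CofIn P (f ≫ g) := by
  obtain ⟨A, a, a', D, hA⟩ := hf
  obtain ⟨B, b, b', D', hB⟩ := hg
  obtain ⟨E, c, c', D''⟩ := exists_cone (f ≫ g)
  obtain ⟨m₁, m₃, -, -, -, -, O⟩ := exists_octa (rfl : f ≫ g = f ≫ g) D D' D''
  exact ⟨E, c, c', D'', hP.ext O hA hB⟩

/-- If `f ≫ g` and `g` have their cofibres in `P` and `P⟦-1⟧`, ... : the cofibre of `f`. -/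
lemma of_comp_left [IsTriangulated T] (hP : ExtClosed P) {X Y Z : T} {f : X ⟶ Y} {g : Y ⟶ Z}
    (hfg : CofIn P (f ≫ g)) (hg : CofIn (fun A => P (A⟦(-1 : ℤ)⟧)) g) : CofIn P f := by
  obtain ⟨A, a, a', D⟩ := exists_cone f
  obtain ⟨B, b, b', D', hB⟩ := hg
  obtain ⟨E, c, c', D'', hE⟩ := hfg
  obtain ⟨m₁, m₃, -, -, -, -, O⟩ := exists_octa (rfl : f ≫ g = f ≫ g) D D' D''
  obtain ⟨_, _, O'⟩ := Dist.invRot' O
  exact ⟨A, a, a', D, hP.ext O' hB hE⟩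

lemma of_comp_right [IsTriangulated T] (hP : ExtClosed P) {X Y Z : T} {f : X ⟶ Y} {g : Y ⟶ Z}
    (hfg : CofIn P (f ≫ g)) (hf : CofIn (fun A => P (A⟦(1 : ℤ)⟧)) f) : CofIn P g := by
  obtain ⟨A, a, a', D, hA⟩ := hf
  obtain ⟨B, b, b', D'⟩ := exists_cone g
  obtain ⟨E, c, c', D'', hE⟩ := hfg
  obtain ⟨m₁, m₃, -, -, -, -, O⟩ := exists_octa (rfl : f ≫ g = f ≫ g) D D' D''
  exact ⟨B, b, b', D', hP.ext O.rot hE hA⟩

lemma comp_iso [IsTriangulated T] (hP : ExtClosed P) {X Y Z : T} {f : X ⟶ Y} (e : Y ≅ Z)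
    (hf : CofIn P f) : CofIn P (f ≫ e.hom) := hf.comp hP (of_isIso hP e.hom)

lemma iso_comp [IsTriangulated T] (hP : ExtClosed P) {X Y Z : T} (e : X ≅ Y) {f : Y ⟶ Z}
    (hf : CofIn P f) : CofIn P (e.hom ≫ f) := (of_isIso hP e.hom).comp hP hf

lemma neg [IsTriangulated T] (hP : ExtClosed P) {X Y : T} {f : X ⟶ Y} (hf : CofIn P f) :
    CofIn P (-f) := by
  have : IsIso (-𝟙 X) := ⟨-𝟙 X, by simp, by simp⟩
  have h := (of_isIso hP (-𝟙 X)).comp hP hf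
  rwa [Preadditive.neg_comp, Category.id_comp] at h

lemma shift_one [IsTriangulated T] {Q : T → Prop}
    (hPQ : ∀ X : T, P X → Q (X⟦(1 : ℤ)⟧)) (hQ : ExtClosed Q) {X Y : T} {f : X ⟶ Y}
    (hf : CofIn P f) : CofIn Q (f⟦(1 : ℤ)⟧') := by
  obtain ⟨Z, g, h, D, hZ⟩ := hf
  have h8 : CofIn Q (-(-f⟦(1 : ℤ)⟧')) := neg hQ ⟨_, _, _, D.rot.rot.rot, hPQ _ hZ⟩
  rwa [neg_neg] at h8

/-- tensoring on the left, with a class `Q` containing `W ⊗ P` -/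
lemma whiskerLeft [MonoidalCategory T] [SymmetricCategory T] [TensorTriangulated T]
    {Q : T → Prop} (W : T) (hQ : ∀ X, P X → Q (W ⊗ X)) {X Y : T} {f : X ⟶ Y}
    (hf : CofIn P f) : CofIn Q (W ◁ f) := by
  obtain ⟨A, a, a', D, hA⟩ := hf
  exact ⟨W ⊗ A, W ◁ a, _, TensorTriangulated.distinguished W _ D, hQ _ hA⟩

lemma whiskerRight [MonoidalCategory T] [SymmetricCategory T] [TensorTriangulated T]
    [IsTriangulated T] {Q : T → Prop} (hQ' : ExtClosed Q) (W : T) (hQ : ∀ X, P X → Q (W ⊗ X))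
    {X Y : T} {f : X ⟶ Y} (hf : CofIn P f) : CofIn Q (f ▷ W) := by
  have h1 : f ▷ W = (β_ X W).hom ≫ (W ◁ f) ≫ (β_ W Y).hom := by
    rw [← BraidedCategory.braiding_naturality_left_assoc]
    simp
  rw [h1]
  exact iso_comp hQ' _ (comp_iso hQ' _ (hf.whiskerLeft W hQ))

end CofIn

section Tel

variable [HasCoproducts.{0} T]

/-- Telescopes of objects of `BigCell m` are in `BigCell m`. -/
lemma BigCell.tel [MonoidalCategory T] {m : ℤ} {X : ℕ → T} {f : ∀ n, X n ⟶ X (n + 1)} {Z : T}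
    {ι : ∀ n, X n ⟶ Z} (h : IsTel f ι) (hX : ∀ n, BigCell T m (X n)) : BigCell T m Z := by
  obtain ⟨w, hw⟩ := h
  exact BigCell.cone _ hw (BigCell.coprod X hX) (BigCell.coprod X hX)

lemma telShift_projFin {Y : ℕ → T} (f : ∀ n, Y n ⟶ Y (n + 1)) (m : ℕ) :
    telShift f ≫ projFin Y (Finset.range (m + 1)) = projFin Y (Finset.range m) ≫ telShift f := by
  refine Sigma.hom_ext _ _ fun n => ?_
  simp only [telShift, Sigma.ι_desc_assoc, Category.assoc]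
  by_cases hn : n < m
  · rw [ι_projFin_of_mem Y _ (Finset.mem_range.mpr (by omega)), ← Category.assoc (Sigma.ι Y n),
      ι_projFin_of_mem Y _ (Finset.mem_range.mpr hn), Sigma.ι_desc]
  · rw [ι_projFin_of_notMem Y _ (by simpa using hn), ← Category.assoc (Sigma.ι Y n),
      ι_projFin_of_notMem Y _ (by simpa using hn), comp_zero, zero_comp]

/-- `1 - shift` is injective on maps out of compact objects. -/
lemma CompactObj.eq_zero_of_telShift {Z : T} (hZ : CompactObj Z) {Y : ℕ → T}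
    (f : ∀ n, Y n ⟶ Y (n + 1)) (g : Z ⟶ ∐ Y) (hg : g ≫ (𝟙 (∐ Y) - telShift f) = 0) : g = 0 := by
  have hg' : g ≫ telShift f = g := by
    rw [Preadditive.comp_sub, Category.comp_id, sub_eq_zero] at hg
    exact hg.symm
  obtain ⟨s, hs⟩ := hZ Y g
  obtain ⟨m, hm⟩ : ∃ m, s ⊆ Finset.range m := by
    refine ⟨s.sup id + 1, fun i hi => ?_⟩
    rw [Finset.mem_range]
    exact Nat.lt_succ_of_le (Finset.le_sup (f := id) hi)
  have h1 : g ≫ projFin Y (Finset.range m) = g := by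
    conv_lhs => rw [← hs, Category.assoc, projFin_comp Y s _ hm]
    exact hs
  have key : ∀ m : ℕ, g ≫ projFin Y (Finset.range m) = 0 := by
    intro m
    induction m with
    | zero =>
      have : projFin Y (Finset.range 0) = 0 := by
        refine Sigma.hom_ext _ _ fun n => ?_
        rw [ι_projFin_of_notMem Y _ (by simp), comp_zero]
      rw [this, comp_zero]
    | succ m ih =>
      conv_lhs => rw [← hg', Category.assoc, telShift_projFin, ← Category.assoc, ih, zero_comp]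
  rw [← h1, key m]

/-- The cofibre of a map of telescopes. -/
theorem CofIn.tel [IsTriangulated T] {P : T → Prop} (hP : ExtClosed P)
    (hcop : ∀ X : ℕ → T, (∀ n, P (X n)) → P (∐ X)) (hsh : ∀ X : T, P X → P (X⟦(1 : ℤ)⟧))
    {X Y : ℕ → T} {f : ∀ n, X n ⟶ X (n + 1)} {f' : ∀ n, Y n ⟶ Y (n + 1)} {A B : T}
    {ι : ∀ n, X n ⟶ A} {ι' : ∀ n, Y n ⟶ B} (hA : IsTel f ι) (hB : IsTel f' ι')
    (hX : ∀ n, CompactObj (X n))
    (g : ∀ n, X n ⟶ Y n) (comm : ∀ n, f n ≫ g (n + 1) = g n ≫ f' n) (φ : A ⟶ B)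
    (hφ : ∀ n, ι n ≫ φ = g n ≫ ι' n) (hg : ∀ n, CofIn P (g n)) : CofIn P φ := by
  obtain ⟨wA, DA'⟩ := hA
  obtain ⟨wB, DB'⟩ := hB
  have DA : Dist (𝟙 (∐ X) - telShift f) (Sigma.desc ι) wA := DA'
  have DB : Dist (𝟙 (∐ Y) - telShift f') (Sigma.desc ι') wB := DB'
  clear DA' DB'
  choose C c c' DC hC using hg
  have DC' := Dist.coprod DC
  have hC' : P (∐ C) := hcop C hC
  obtain ⟨J, j, j', DJ⟩ := exists_cone φ
  obtain ⟨D, v, w, DD⟩ := exists_cone (Limits.Sigma.map g ≫ Sigma.desc ι')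
  have hcomm : Sigma.desc ι ≫ φ = Limits.Sigma.map g ≫ Sigma.desc ι' := by
    refine Sigma.hom_ext _ _ fun n => ?_
    rw [Sigma.ι_desc_assoc, Sigma.ι_map_assoc, Sigma.ι_desc, hφ]
  obtain ⟨m₁, m₃, -, -, -, h2, O1⟩ :=
    exists_octa (rfl : Limits.Sigma.map g ≫ Sigma.desc ι' = _) DC' DB.rot DD
  obtain ⟨n₁, n₃, -, h3, -, -, O2⟩ := exists_octa hcomm DA.rot DJ DD
  have hs : (𝟙 (∐ X) - telShift f) ≫ Limits.Sigma.map g =
      Limits.Sigma.map g ≫ (𝟙 (∐ Y) - telShift f') := by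
    rw [Preadditive.sub_comp, Preadditive.comp_sub, Category.id_comp, Category.comp_id]
    congr 1
    refine Sigma.hom_ext _ _ fun n => ?_
    simp only [telShift, Sigma.ι_desc_assoc, Sigma.ι_map_assoc, Sigma.ι_desc, Category.assoc,
      Sigma.ι_map]
    rw [← Category.assoc, comm, Category.assoc]
  obtain ⟨K, hK⟩ : ∃ K : ∐ X ⟶ ∐ Y, K⟦(1 : ℤ)⟧' = n₁ ≫ m₃ :=
    (shiftFunctor T (1 : ℤ)).map_surjective (n₁ ≫ m₃)
  have hk : K = Limits.Sigma.map g := by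
    rw [← sub_eq_zero]
    have h1 : (K - Limits.Sigma.map g) ≫ (𝟙 (∐ Y) - telShift f') = 0 := by
      apply (shiftFunctor T (1 : ℤ)).map_injective
      rw [Functor.map_comp, Functor.map_sub, Preadditive.sub_comp, Functor.map_zero, sub_eq_zero,
        hK, ← Functor.map_comp, ← hs, Functor.map_comp]
      have h4 : m₃ ≫ (𝟙 (∐ Y) - telShift f')⟦(1 : ℤ)⟧' =
          -(w ≫ (Limits.Sigma.map g)⟦(1 : ℤ)⟧') := by
        rw [h2, Preadditive.comp_neg, neg_neg]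
      rw [Category.assoc, h4, Preadditive.comp_neg, ← Category.assoc, h3, Preadditive.neg_comp,
        neg_neg]
    refine Sigma.hom_ext _ _ fun n => ?_
    rw [comp_zero]
    exact CompactObj.eq_zero_of_telShift (hX n) f' _ (by rw [Category.assoc, h1, comp_zero])
  subst hk
  obtain ⟨E, e, e', DE⟩ := exists_cone (n₁ ≫ m₃)
  have hE : P E := by
    refine CofIn.of_dist hP DE ?_
    rw [← hK]
    exact CofIn.shift_one hsh hP ⟨_, _, _, DC', hC'⟩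
  obtain ⟨r₁, r₃, -, -, -, -, O3⟩ := exists_octa (rfl : n₁ ≫ m₃ = _) O2 O1.rot DE
  obtain ⟨_, _, O3'⟩ := Dist.invRot' O3
  refine ⟨J, j, j', DJ, ?_⟩
  refine hP.ext O3' ?_ hE
  exact hP.iso ((shiftShiftNeg (∐ C) (1 : ℤ)).symm) hC'

end Tel

end Vale.Agent.P251.M
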