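import Vale.Agent.P251.I.Spaces
import Vale.Agent.P251.G.RelCell
import Vale.Agent.P251.M.CofIn

/-!
# P251, part M (task M5): suspension spectra of spheres, connectivity of the unit

* `SpaceFunctor.sphIso` : `S (Sph n) ≅ 𝟙⟦n⟧`;
* `SpaceFunctor.map_eq_zero_of_homotopic`;
* `SpaceFunctor.conn_unit` : `π_k 𝟙 = 0` for `k < 0`.
-/

open CategoryTheory MonoidalCategory Limits Pretriangulated ZeroObject
open Vale.Agent.P251.T Vale.Agent.P251.S Vale.Agent.P251.H Vale.Agent.P251.G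
  Vale.Agent.P251.G.LC Vale.Agent.P251.I

universe v u

set_option linter.unusedSectionVars false
set_option linter.style.haveILetI false

namespace Vale.Agent.P251.M

variable {T : Type u} [Category.{v} T] [Preadditive T] [HasZeroObject T]
    [HasShift T ℤ] [∀ n : ℤ, (shiftFunctor T n).Additive] [Pretriangulated T]
    [MonoidalCategory T] [SymmetricCategory T] [TensorTriangulated T]

/-- tensoring with a sphere is faithful -/
lemma eq_zero_of_whiskerRight_shift {X Y : T} (g : X ⟶ Y) (n : ℤ)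
    (h : g ▷ ((𝟙_ T)⟦n⟧) = 0) : g = 0 := by
  have e : ((𝟙_ T)⟦n⟧) ⊗ ((𝟙_ T)⟦-n⟧) ≅ 𝟙_ T :=
    tensorUnitShiftIso ((𝟙_ T)⟦n⟧) (-n) ≪≫ (shiftShiftNeg (𝟙_ T) n)
  have h1 : g ▷ (((𝟙_ T)⟦n⟧) ⊗ ((𝟙_ T)⟦-n⟧)) = 0 := by
    rw [MonoidalCategory.whiskerRight_tensor, h, MonoidalPreadditive.zero_whiskerRight]
    simp
  have h2 : g ▷ (𝟙_ T) = 0 := by
    have := MonoidalCategory.whisker_exchange g e.hom
    rw [h1, zero_comp] at this
    rw [← cancel_epi (X ◁ e.hom), this, comp_zero]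
  have h3 := MonoidalCategory.rightUnitor_naturality g
  rw [h2, zero_comp] at h3
  rw [← cancel_epi (ρ_ X).hom, ← h3, comp_zero]

variable (F : SpaceFunctor T)

/-- `Sph 0` is the unit -/
def sphZeroIso : Sph 0 ≅ 𝟙_ LC :=
  ofHomeo (X := Sph 0) (Y := LC.of Unit)
    { toFun := fun _ => ()
      invFun := fun _ => default
      left_inv := fun _ => Subsingleton.elim _ _
      right_inv := fun _ => rfl
      continuous_toFun := continuous_const
      continuous_invFun := continuous_const }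

/-- `ℝ ≅ Sph 1` -/
def lineSph : Sph 1 ≅ RR :=
  ofHomeo (X := Sph 1) (Y := RR) (Homeomorph.funUnique (Fin 1) ℝ)

/-- isomorphisms in `FCat` from isomorphisms in `LC` -/
def fcIso {X Y : FCat} (e : X.obj ≅ Y.obj) : X ≅ Y := ObjectProperty.isoMk _ e

/-- the suspension spectrum of a tensor product -/
noncomputable def tensorIso (X Y : FCat) : F.S.obj X ⊗ F.S.obj Y ≅ F.S.obj (X ⊗ Y) :=
  Functor.Monoidal.μIso F.S X Y

/-- The suspension spectrum of `Sph n` is `𝟙⟦n⟧`. -/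
noncomputable def sphIso : ∀ n : ℕ, F.S.obj (SphF n) ≅ (𝟙_ T)⟦(n : ℤ)⟧
  | 0 => F.S.mapIso (fcIso (X := SphF 0) (Y := 𝟙_ FCat) sphZeroIso) ≪≫
      (Functor.Monoidal.εIso F.S).symm ≪≫ (shiftFunctorZero' T ((0 : ℕ) : ℤ) (by simp)).symm.app _
  | n + 1 => F.S.mapIso (fcIso (X := SphF (n + 1)) (Y := SphF n ⊗ RRF)
      ((sphTensor n 1).symm ≪≫ whiskerLeftIso (Sph n) lineSph)) ≪≫
      (Functor.Monoidal.μIso F.S (SphF n) RRF).symm ≪≫
      whiskerRightIso (sphIso n) (F.S.obj RRF) ≪≫ whiskerLeftIso _ F.line ≪≫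
      tensorUnitShiftIso ((𝟙_ T)⟦(n : ℤ)⟧) 1 ≪≫
      (shiftFunctorAdd' T (n : ℤ) 1 ((n + 1 : ℕ) : ℤ) (by push_cast; ring)).symm.app (𝟙_ T)

lemma S_map_zero (X Y : FCat) : F.S.map (FCat.hom (0 : X.obj ⟶ Y.obj) : X ⟶ Y) = 0 := by
  have hz : IsZero (F.S.obj (FCat.mk FC.empty)) :=
    F.isZero (X := FCat.mk FC.empty) (inferInstanceAs (IsEmpty Empty))
  have h1 : (FCat.hom (0 : X.obj ⟶ Y.obj) : X ⟶ Y) =
      (FCat.hom (0 : X.obj ⟶ (FCat.mk FC.empty).obj) : X ⟶ FCat.mk FC.empty) ≫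
        (FCat.hom (0 : (FCat.mk FC.empty).obj ⟶ Y.obj) : FCat.mk FC.empty ⟶ Y) := by
    apply ObjectProperty.hom_ext
    simp
  rw [h1, Functor.map_comp, hz.eq_of_tgt (F.S.map _) 0, zero_comp]

lemma map_eq_zero_of_homotopic {X Y : FCat} (f : X ⟶ Y) (h : Homotopic f.hom 0) :
    F.S.map f = 0 := by
  rw [F.map_eq f (FCat.hom 0) h, S_map_zero]

/-- Homotopy equivalences induce isomorphisms. -/
lemma isIso_of_isHEquiv {X Y : FCat} (f : X ⟶ Y) (h : IsHEquiv f.hom) : IsIso (F.S.map f) := by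
  obtain ⟨g, h1, h2⟩ := h
  refine ⟨F.S.map (FCat.hom g), ?_, ?_⟩
  · rw [← Functor.map_comp, ← F.S.map_id]
    exact F.map_eq _ _ h1
  · rw [← Functor.map_comp, ← F.S.map_id]
    exact F.map_eq _ _ h2

/-- Maps between suspension spectra are determined by stable homotopy classes: if all stable
maps `X ⊗ Sph n ⟶ Y ⊗ Sph n` are null-homotopic, then there is no nonzero map `S X ⟶ S Y`. -/
lemma eq_zero_of_homotopic {X Y : FCat}
    (h : ∀ (n : ℕ) (f : X.obj ⊗ Sph n ⟶ Y.obj ⊗ Sph n), Homotopic f 0)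
    (g : F.S.obj X ⟶ F.S.obj Y) : g = 0 := by
  obtain ⟨n, k, hk⟩ := F.full g
  rw [map_eq_zero_of_homotopic F k (h n k.hom)] at hk
  have h1 : g ▷ F.S.obj (SphF n) = 0 := by
    have h2 := congrArg (fun t => (Functor.Monoidal.μIso F.S X (SphF n)).hom ≫ t ≫
      (Functor.Monoidal.μIso F.S Y (SphF n)).inv) hk
    simpa using h2.symm
  refine eq_zero_of_whiskerRight_shift g (n : ℤ) ?_
  have h3 := MonoidalCategory.whisker_exchange g (sphIso F n).hom
  rw [h1, zero_comp] at h3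
  rw [← cancel_epi (F.S.obj X ◁ (sphIso F n).hom), h3, comp_zero]

/-- The statement (part G, general position) that pointed maps `Sʲ → Sⁿ`, `j < n`, are
null-homotopic. -/
def SphConn_statement : Prop :=
  ∀ (j n : ℕ), j < n → ∀ f : Sph j ⟶ Sph n, Homotopic f 0

include F in
/-- `π_k 𝟙 = 0` for `k < 0`. -/
theorem conn_unit (hG : SphConn_statement) : Conn (0 : ℤ) (𝟙_ T) := by
  intro k hk f
  obtain ⟨m, rfl⟩ : ∃ m : ℕ, k = -(m : ℤ) := ⟨k.natAbs, by omega⟩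
  have hm : 0 < m := by omega
  have key : ∀ g : F.S.obj (SphF 0) ⟶ F.S.obj (SphF m), g = 0 := by
    intro g
    refine eq_zero_of_homotopic F (fun n f => ?_) g
    have h1 := hG (0 + n) (m + n) (by omega)
      ((sphTensor 0 n).inv ≫ f ≫ (sphTensor m n).hom)
    have h2 := Homotopic.comp_left (sphTensor 0 n).hom (h1.comp_right (sphTensor m n).inv)
    simpa using h2
  have e1 : F.S.obj (SphF 0) ≅ 𝟙_ T := sphIso F 0 ≪≫ (shiftFunctorZero' T ((0 : ℕ) : ℤ)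
    (by simp)).app _
  have e2 : ((𝟙_ T)⟦-(m : ℤ)⟧)⟦(m : ℤ)⟧ ≅ 𝟙_ T := shiftNegShift (𝟙_ T) (m : ℤ)
  have h4 : f⟦(m : ℤ)⟧' = 0 := by
    have h5 := key (e1.hom ≫ e2.inv ≫ f⟦(m : ℤ)⟧' ≫ (sphIso F m).inv)
    rw [← cancel_epi e2.inv, ← cancel_epi e1.hom, ← cancel_mono (sphIso F m).inv]
    simpa using h5
  exact (shiftFunctor T (m : ℤ)).map_injective (by rw [h4, Functor.map_zero])

end Vale.Agent.P251.M
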