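import Vale.Agent.P251.M.KBasis

/-!
# P251, part M (M4): pushing forward bases, coproduct form

* `gbasisOfBind` : a graded basis over the first factor from an isomorphism of free modules;
* `isIso_desc_bind_push` : change of rings.
-/

open CategoryTheory MonoidalCategory MonObj Limits Pretriangulated

universe v u

namespace Vale.Agent.P251.M

open Vale.Agent.P251.S Vale.Agent.P251.T EvenSpheres

set_option linter.unusedSectionVars false

variable {T : Type u} [Category.{v} T] [Preadditive T] [HasZeroObject T]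
    [HasShift T ℤ] [∀ n : ℤ, (shiftFunctor T n).Additive] [Pretriangulated T] [IsTriangulated T]
    [MonoidalCategory T] [SymmetricCategory T] [TensorTriangulated T] [MonoidalClosed T]
    [HasCoproducts.{0} T] [HasProducts.{0} T] [StableCat T] {E : EvenSpheres T}

lemma isIso_desc_bind_push {R R' : T} [MonObj R] [MonObj R'] (φ : R ⟶ R') [IsMonHom φ]
    {Y : T} {J : Type} {F : J → T} (w : ∀ j, F j ⟶ R ⊗ Y)
    (h : IsIso (Sigma.desc fun j => FM.bind (w j))) :
    IsIso (Sigma.desc fun j => FM.bind (w j ≫ φ ▷ Y)) := by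
  rw [isIso_desc_bind_iff] at h ⊢
  have h1 : Sigma.desc (fun j => w j ≫ φ ▷ Y) = Sigma.desc w ≫ φ ▷ Y := by
    refine Sigma.hom_ext _ _ fun j => ?_
    simp
  rw [h1]
  exact FM.isIso_bind_push φ _

/-- A graded basis over the first factor, from an isomorphism of free modules. -/
noncomputable def gbasisOfBind {A R : T} [MonObj A] [MonObj R] {J : Type} (k : J → ℤ)
    (w : ∀ j, E.S (k j) ⟶ A ⊗ R) (h : IsIso (Sigma.desc fun j => FM.bind (w j))) :
    GBasis E (inlM A R) J where
  k := k
  w := w
  isIso := by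
    have h1 : (fun j => (inlM A R ⊗ₘ w j) ≫ μ[A ⊗ R]) = fun j => FM.bind (w j) :=
      funext fun j => inlM_tensor_mul (w j)
    rw [h1]
    exact h

lemma GBasis.isIso_bind {A R : T} [MonObj A] [MonObj R] {J : Type}
    (b : GBasis E (inlM A R) J) : IsIso (Sigma.desc fun j => FM.bind (b.w j)) := by
  have h1 : (fun j => (inlM A R ⊗ₘ b.w j) ≫ μ[A ⊗ R]) = fun j => FM.bind (b.w j) :=
    funext fun j => inlM_tensor_mul (b.w j)
  rw [← h1]
  exact b.isIso

end Vale.Agent.P251.M
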