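import Vale.Agent.P251.M.Even
import Vale.Agent.P251.T.Axioms

/-!
# P251, part M1: even spheres from the axioms of `T`, and shifts
-/

open CategoryTheory MonoidalCategory Limits Pretriangulated

set_option linter.unusedSectionVars false

universe v u

namespace Vale.Agent.P251.M

open Vale.Agent.P251.T

section Sign

variable {T : Type u} [Category.{v} T] [MonoidalCategory T] [SymmetricCategory T]
  [Preadditive T] [MonoidalPreadditive T]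

lemma neg_whiskerRight' {X Y : T} (f : X ⟶ Y) (Z : T) : (-f) ▷ Z = -(f ▷ Z) :=
  (tensorRight Z).map_neg (f := f)

lemma whiskerLeft_neg' {X Y : T} (Z : T) (f : X ⟶ Y) : Z ◁ (-f) = -(Z ◁ f) :=
  (tensorLeft Z).map_neg (f := f)

/-- if the swap of `A ⊗ A` is `-1`, then the swap of `(A ⊗ A) ⊗ (A ⊗ A)` is `1` -/
lemma swap_double {A : T} (h : (β_ A A).hom = -𝟙 (A ⊗ A)) :
    (β_ (A ⊗ A) (A ⊗ A)).hom = 𝟙 ((A ⊗ A) ⊗ (A ⊗ A)) := by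
  have e1 : (β_ A (A ⊗ A)).hom = (α_ A A A).inv := by
    rw [BraidedCategory.braiding_tensor_right_hom, h, neg_whiskerRight', whiskerLeft_neg']
    simp
  rw [BraidedCategory.braiding_tensor_left_hom, e1]
  monoidal

end Sign

variable {T : Type u} [Category.{v} T] [Preadditive T] [HasZeroObject T]
    [HasShift T ℤ] [∀ n : ℤ, (shiftFunctor T n).Additive] [Pretriangulated T]
    [MonoidalCategory T] [SymmetricCategory T] [TensorTriangulated T]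

/-- `S^{-1} ⊗ S^1 ≅ 𝟙` -/
noncomputable def negOne : (𝟙_ T)⟦(-1 : ℤ)⟧ ⊗ (𝟙_ T)⟦(1 : ℤ)⟧ ≅ 𝟙_ T :=
  TensorTriangulated.e _ ≪≫ (shiftNegShift (𝟙_ T) (1 : ℤ))

variable (T) in
/-- the even spheres of `T`, with `S² = S¹ ⊗ S¹` -/
noncomputable def stdEven : EvenSpheres T where
  L := (𝟙_ T)⟦(1 : ℤ)⟧ ⊗ (𝟙_ T)⟦(1 : ℤ)⟧
  L' := (𝟙_ T)⟦(-1 : ℤ)⟧ ⊗ (𝟙_ T)⟦(-1 : ℤ)⟧
  j := β_ _ _ ≪≫ α_ _ _ _ ≪≫ whiskerLeftIso _ ((α_ _ _ _).symm ≪≫ whiskerRightIso negOne _ ≪≫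
    λ_ _) ≪≫ negOne
  swap := swap_double TensorTriangulated.sign

/-- `- ⊗ S¹ ≅ -⟦1⟧` -/
noncomputable def tensorS1 : tensorRight ((𝟙_ T)⟦(1 : ℤ)⟧) ≅ shiftFunctor T (1 : ℤ) :=
  NatIso.ofComponents (fun Y => TensorTriangulated.e Y)
    (fun f => TensorTriangulated.e_naturality f)

/-- `- ⊗ (S¹ ⊗ S¹) ≅ -⟦2⟧` -/
noncomputable def tensorS2 :
    tensorRight ((𝟙_ T)⟦(1 : ℤ)⟧ ⊗ (𝟙_ T)⟦(1 : ℤ)⟧) ≅ shiftFunctor T (2 : ℤ) :=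
  (tensorRightTensor _ _) ≪≫ Functor.isoWhiskerRight tensorS1 _ ≪≫
    Functor.isoWhiskerLeft _ tensorS1 ≪≫ (shiftFunctorAdd' T (1 : ℤ) 1 2 (by norm_num)).symm

/-- `(- ⊗ L) ≅ -⟦2⟧` gives `(- ⊗ L') ≅ -⟦-2⟧` -/
noncomputable def tensorInvShift {L L' : T} (j : L' ⊗ L ≅ 𝟙_ T)
    (i : tensorRight L ≅ shiftFunctor T (2 : ℤ)) :
    tensorRight L' ≅ shiftFunctor T (-2 : ℤ) :=
  -- X ⊗ L' ≅ ((X ⊗ L')⟦2⟧)⟦-2⟧ ≅ ((X ⊗ L') ⊗ L)⟦-2⟧ ≅ X⟦-2⟧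
  (Functor.rightUnitor _).symm ≪≫
    Functor.isoWhiskerLeft (tensorRight L') (shiftFunctorCompIsoId T (2 : ℤ) (-2) (by norm_num)).symm
    ≪≫ (Functor.associator _ _ _).symm ≪≫
    Functor.isoWhiskerRight (Functor.isoWhiskerLeft (tensorRight L') i.symm ≪≫
      (tensorRightTensor L' L).symm ≪≫ (curriedTensor T).flip.mapIso j ≪≫
      rightUnitorNatIso T) (shiftFunctor T (-2 : ℤ)) ≪≫ Functor.leftUnitor _

/-- powers: if `- ⊗ L ≅ -⟦a⟧` then `- ⊗ L^k ≅ -⟦k a⟧` -/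
noncomputable def tensorPwShift {L : T} {a : ℤ} (i : tensorRight L ≅ shiftFunctor T a) :
    ∀ k : ℕ, tensorRight (Pw L k) ≅ shiftFunctor T (a * k)
  | 0 => rightUnitorNatIso T ≪≫ (shiftFunctorZero' T (a * (0 : ℕ)) (by simp)).symm
  | k + 1 => tensorRightTensor L (Pw L k) ≪≫ Functor.isoWhiskerRight i _ ≪≫
      Functor.isoWhiskerLeft _ (tensorPwShift i k) ≪≫
      (shiftFunctorAdd' T a (a * k) (a * (k + 1 : ℕ)) (by push_cast; ring)).symm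

namespace EvenSpheres

variable (E : EvenSpheres T)

/-- `X ⊗ S^{2n} ≅ X⟦2n⟧`, natural in `X` -/
noncomputable def shiftNat (i : E.L ≅ (𝟙_ T)⟦(1 : ℤ)⟧ ⊗ (𝟙_ T)⟦(1 : ℤ)⟧) :
    ∀ n : ℤ, tensorRight (E.S n) ≅ shiftFunctor T (2 * n)
  | Int.ofNat k => tensorPwShift (a := 2) ((curriedTensor T).flip.mapIso i ≪≫ tensorS2) k
  | Int.negSucc k => tensorPwShift (a := -2) (tensorInvShift (β_ _ _ ≪≫ E.j)
      ((curriedTensor T).flip.mapIso i ≪≫ tensorS2)) (k + 1) ≪≫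
      eqToIso (by rw [Int.negSucc_eq]; push_cast; congr 1)

/-- `S^{2n} ≅ 𝟙⟦2n⟧` -/
noncomputable def sphIso (i : E.L ≅ (𝟙_ T)⟦(1 : ℤ)⟧ ⊗ (𝟙_ T)⟦(1 : ℤ)⟧) (n : ℤ) :
    E.S n ≅ (𝟙_ T)⟦(2 * n : ℤ)⟧ :=
  (λ_ _).symm ≪≫ (E.shiftNat i n).app (𝟙_ T)

end EvenSpheres

end Vale.Agent.P251.M
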