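import Vale.Agent.P251.M.PSBasis
import Vale.Agent.P251.M.EvenShift
import Vale.Agent.P251.S.Coprod
import Vale.Agent.P251.S.Amitsur

/-!
# P251, part M: graded bases

`B` a commutative monoid, `φ : F ⟶ B`, `w j : S^{2 k_j} ⟶ B` such that
`∐ F ⊗ S^{2 k_j} ⟶ B` is an isomorphism. Then every `f : S^{2n} ⟶ B ⊗ Y` is a unique finite sum
of the products `w j · x j`, `x j : S^{2 (n - k_j)} ⟶ F ⊗ Y`.
-/

open CategoryTheory MonoidalCategory MonObj Limits Pretriangulated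

universe v u

namespace Vale.Agent.P251.M

open Vale.Agent.P251.S Vale.Agent.P251.T EvenSpheres

set_option linter.unusedSectionVars false

section Perm

variable {T : Type u} [Category.{v} T] [MonoidalCategory T] [SymmetricCategory T]

/-- exchange of the last two factors -/
def exch (A Y S : T) : (A ⊗ Y) ⊗ S ≅ (A ⊗ S) ⊗ Y :=
  α_ A Y S ≪≫ whiskerLeftIso A (β_ Y S) ≪≫ (α_ A S Y).symm

@[reassoc]
lemma exch_natural {A A' Y S S' : T} (f : A ⟶ A') (g : S ⟶ S') :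
    ((f ▷ Y) ⊗ₘ g) ≫ (exch A' Y S').hom = (exch A Y S).hom ≫ ((f ⊗ₘ g) ▷ Y) := by
  unfold exch
  simp only [Iso.trans_hom, whiskerLeftIso_hom, Iso.symm_hom, Category.assoc]
  rw [← tensorHom_id, associator_naturality_assoc, ← id_tensorHom,
    tensorHom_comp_tensorHom_assoc, BraidedCategory.braiding_naturality, Category.comp_id,
    ← tensorHom_id, ← associator_inv_naturality, ← id_tensorHom,
    tensorHom_comp_tensorHom_assoc, Category.id_comp]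

@[reassoc]
lemma braid_exch (B Y : T) :
    (β_ (B ⊗ Y) B).hom ≫ (α_ B B Y).inv = (exch B Y B).hom ≫ ((β_ B B).hom ▷ Y) := by
  unfold exch
  rw [BraidedCategory.braiding_tensor_left_hom]
  simp only [Iso.trans_hom, whiskerLeftIso_hom, Iso.symm_hom, Category.assoc, Iso.hom_inv_id,
    Category.comp_id]

end Perm

section Basis

variable {T : Type u} [Category.{v} T] [MonoidalCategory T] [SymmetricCategory T]
  {E : EvenSpheres T}

/-- The product of `w : S^{2k} ⟶ B` and `x : S^{2m} ⟶ B ⊗ Y`. -/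
noncomputable def gact {B : T} [MonObj B] (Y : T) {k m n : ℤ} (h : k + m = n) (w : E.S k ⟶ B)
    (x : E.S m ⟶ B ⊗ Y) : E.S n ⟶ B ⊗ Y :=
  gsmul ((ModStr.self B).tensorRight Y) h w x

/-- The map `S^{2n} ⟶ (F ⊗ S^{2k}) ⊗ Y` given by `x : S^{2m} ⟶ F ⊗ Y`, `k + m = n`. -/
noncomputable def gtw {F Y : T} {k m n : ℤ} (h : k + m = n) (x : E.S m ⟶ F ⊗ Y) :
    E.S n ⟶ (F ⊗ E.S k) ⊗ Y :=
  E.ext (show m + k = n by omega) x (𝟙 (E.S k)) ≫ (exch F Y (E.S k)).hom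

lemma gtw_comp {B F Y : T} [MonObj B] [IsCommMonObj B] {k m n : ℤ} (h : k + m = n)
    (φ : F ⟶ B) (w : E.S k ⟶ B) (x : E.S m ⟶ F ⊗ Y) :
    gtw h x ≫ (((φ ⊗ₘ w) ≫ μ[B]) ▷ Y) = gact Y h w (x ≫ φ ▷ Y) := by
  unfold gtw gact gsmul
  have h1 : m + k = n := by omega
  have e1 := ext_comm (E := E) h1 h (x ≫ φ ▷ Y) w
  have e2 := ext_comp (E := E) h1 x (𝟙 (E.S k)) (φ ▷ Y) w
  rw [Category.id_comp] at e2
  rw [← e1, e2, comp_whiskerRight, Category.assoc, Category.assoc, Category.assoc,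
    ← exch_natural_assoc]
  change _ = _ ≫ _ ≫ _ ≫ ((α_ B B Y).inv ≫ (μ[B] ▷ Y))
  rw [braid_exch_assoc, ← comp_whiskerRight, IsCommMonObj.mul_comm]

end Basis

section Stable

variable {T : Type u} [Category.{v} T] [Preadditive T] [HasZeroObject T]
    [HasShift T ℤ] [∀ n : ℤ, (shiftFunctor T n).Additive] [Pretriangulated T] [IsTriangulated T]
    [MonoidalCategory T] [SymmetricCategory T] [TensorTriangulated T] [MonoidalClosed T]
    [HasCoproducts.{0} T] [HasProducts.{0} T] [StableCat T] {E : EvenSpheres T}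

lemma gtw_bijective {F Y : T} {k m n : ℤ} (h : k + m = n) :
    Function.Bijective (gtw (E := E) (F := F) (Y := Y) h) := by
  have h1 : m + k = n := by omega
  have key : ∀ x : E.S m ⟶ F ⊗ Y, gtw h x = (E.mu m k n h1).inv ≫ (x ▷ E.S k) ≫
      (exch F Y (E.S k)).hom := by
    intro x
    unfold gtw EvenSpheres.ext
    rw [tensorHom_id, Category.assoc]
  constructor
  · intro x y hxy
    rw [key, key, cancel_epi, cancel_mono] at hxy
    exact whiskerRight_inj _ hxy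
  · intro g
    obtain ⟨x, hx⟩ := whiskerRight_surj (E.S k) ((E.mu m k n h1).hom ≫ g ≫
      (exch F Y (E.S k)).inv)
    refine ⟨x, ?_⟩
    rw [key, hx]
    simp

/-- The components of a map into a coproduct. -/
lemma sum_ι_eq_zero {I : Type} (X : I → T) {A : T} (t : Finset I) (g : ∀ i, A ⟶ X i)
    (h : ∑ i ∈ t, g i ≫ Sigma.ι X i = 0) : ∀ i ∈ t, g i = 0 := by
  classical
  intro i hi
  let p : (∐ X ⟶ X i) := Sigma.desc (fun j => if h : j = i then eqToHom (by rw [h]) else 0)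
  have hp : ∀ j ∈ t, (g j ≫ Sigma.ι X j) ≫ p = if h : j = i then g j ≫ eqToHom (by rw [h])
      else 0 := by
    intro j _
    rw [Category.assoc, Sigma.ι_desc]
    split_ifs <;> simp
  have h1 := congrArg (· ≫ p) h
  simp only [zero_comp, Preadditive.sum_comp] at h1
  rw [Finset.sum_congr rfl hp, Finset.sum_eq_single i] at h1
  · simpa using h1
  · intro j _ hj
    rw [dif_neg hj]
  · intro h2
    exact absurd hi h2

/-- A graded basis of `B` over `φ : F ⟶ B`. -/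
structure GBasis (E : EvenSpheres T) {F B : T} [MonObj B] (φ : F ⟶ B) (J : Type) where
  /-- the degrees -/
  k : J → ℤ
  /-- the elements -/
  w (j : J) : E.S (k j) ⟶ B
  isIso : IsIso (Sigma.desc fun j => (φ ⊗ₘ w j) ≫ μ[B])

namespace GBasis

variable {F B : T} [MonObj B] {φ : F ⟶ B} {J : Type} (b : GBasis E φ J)

lemma isIsoY (Y : T) : IsIso (Sigma.desc fun j => ((φ ⊗ₘ b.w j) ≫ μ[B]) ▷ Y) :=
  isIso_desc_whiskerRight _ b.isIso Y

/-- Maps from a sphere into `B ⊗ Y` are finite sums. -/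
lemma exists_sum_sphere (Y : T) {A : T} (hA : IsSphere A) (f : A ⟶ B ⊗ Y) :
    ∃ (t : Finset J) (g : ∀ j, A ⟶ (F ⊗ E.S (b.k j)) ⊗ Y),
      f = ∑ j ∈ t, g j ≫ ((φ ⊗ₘ b.w j) ≫ μ[B]) ▷ Y := by
  have := b.isIsoY Y
  obtain ⟨t, g, hg⟩ := compact_sum _ hA
    (f ≫ inv (Sigma.desc fun j => ((φ ⊗ₘ b.w j) ≫ μ[B]) ▷ Y))
  refine ⟨t, g, ?_⟩
  have h1 : f = (f ≫ inv (Sigma.desc fun j => ((φ ⊗ₘ b.w j) ≫ μ[B]) ▷ Y)) ≫
      (Sigma.desc fun j => ((φ ⊗ₘ b.w j) ≫ μ[B]) ▷ Y) := by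
    rw [Category.assoc, IsIso.inv_hom_id, Category.comp_id]
  rw [h1, hg, Preadditive.sum_comp]
  refine Finset.sum_congr rfl fun j _ => ?_
  rw [Category.assoc, Sigma.ι_desc]

lemma sum_eq_zero (Y : T) {A : T} (t : Finset J) (g : ∀ j, A ⟶ (F ⊗ E.S (b.k j)) ⊗ Y)
    (h : ∑ j ∈ t, g j ≫ ((φ ⊗ₘ b.w j) ≫ μ[B]) ▷ Y = 0) : ∀ j ∈ t, g j = 0 := by
  have := b.isIsoY Y
  apply sum_ι_eq_zero
  rw [← cancel_mono (Sigma.desc fun j => ((φ ⊗ₘ b.w j) ≫ μ[B]) ▷ Y), Preadditive.sum_comp,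
    zero_comp, ← h]
  refine Finset.sum_congr rfl fun j _ => ?_
  rw [Category.assoc, Sigma.ι_desc]

variable [IsCommMonObj B]

/-- Existence of the expansion. -/
theorem exists_expansion (Y : T) (n : ℤ) (hS : IsSphere (E.S n)) (f : E.S n ⟶ B ⊗ Y) :
    ∃ (t : Finset J) (x : ∀ j, E.S (n - b.k j) ⟶ F ⊗ Y),
      f = ∑ j ∈ t, gact Y (add_sub_cancel (b.k j) n) (b.w j) (x j ≫ φ ▷ Y) := by
  obtain ⟨t, g, rfl⟩ := b.exists_sum_sphere Y hS f
  choose x hx using fun j => (gtw_bijective (E := E) (F := F) (Y := Y)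
    (add_sub_cancel (b.k j) n)).2 (g j)
  refine ⟨t, x, Finset.sum_congr rfl fun j _ => ?_⟩
  rw [← gtw_comp, hx]

lemma gtw_zero {F Y : T} {k m n : ℤ} (h : k + m = n) :
    gtw (E := E) h (0 : E.S m ⟶ F ⊗ Y) = 0 := by
  unfold gtw
  rw [ext_zero_left, zero_comp]

/-- Uniqueness of the expansion. -/
theorem expansion_unique (Y : T) (n : ℤ) (t : Finset J) (x : ∀ j, E.S (n - b.k j) ⟶ F ⊗ Y)
    (h : ∑ j ∈ t, gact Y (add_sub_cancel (b.k j) n) (b.w j) (x j ≫ φ ▷ Y) = 0) :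
    ∀ j ∈ t, x j = 0 := by
  intro j hj
  have h1 := b.sum_eq_zero Y t (fun j => gtw (add_sub_cancel (b.k j) n) (x j)) (by
    rw [← h]
    exact Finset.sum_congr rfl fun j _ => gtw_comp _ _ _ _) j hj
  exact (gtw_bijective (E := E) (F := F) (Y := Y) (add_sub_cancel (b.k j) n)).1
    (h1.trans (gtw_zero _).symm)

omit [IsCommMonObj B] in
lemma odd_aux {X : T} (hodd : ∀ (l : ℤ) (f : (𝟙_ T)⟦2 * l + 1⟧ ⟶ X), f = 0) (k l : ℤ)
    (g : (𝟙_ T)⟦2 * l + 1⟧ ⟶ X⟦2 * k⟧) : g = 0 := by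
  apply (shiftFunctor T (-(2 * k))).map_injective
  rw [Functor.map_zero]
  let e1 : (𝟙_ T)⟦2 * (l - k) + 1⟧ ≅ ((𝟙_ T)⟦2 * l + 1⟧)⟦-(2 * k)⟧ :=
    (shiftFunctorAdd' T (2 * l + 1) (-(2 * k)) (2 * (l - k) + 1) (by ring)).app _
  let e2 : (X⟦2 * k⟧)⟦-(2 * k)⟧ ≅ X := (shiftShiftNeg X (2 * k))
  rw [← cancel_epi e1.hom, ← cancel_mono e2.hom, comp_zero, zero_comp]
  exact hodd _ _

omit [IsCommMonObj B] in
include b in
/-- Vanishing of the odd homotopy. -/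
theorem odd (i : E.L ≅ (𝟙_ T)⟦(1 : ℤ)⟧ ⊗ (𝟙_ T)⟦(1 : ℤ)⟧) (Y : T)
    (hodd : ∀ (l : ℤ) (f : (𝟙_ T)⟦2 * l + 1⟧ ⟶ F ⊗ Y), f = 0) (l : ℤ)
    (f : (𝟙_ T)⟦2 * l + 1⟧ ⟶ B ⊗ Y) : f = 0 := by
  obtain ⟨t, g, rfl⟩ := b.exists_sum_sphere Y ⟨_, ⟨Iso.refl _⟩⟩ f
  refine Finset.sum_eq_zero fun j _ => ?_
  have h1 : g j ≫ (exch F Y (E.S (b.k j))).inv ≫ ((E.shiftNat i (b.k j)).app (F ⊗ Y)).hom = 0 :=
    odd_aux hodd _ _ _
  have h2 : g j = 0 := by
    rw [← cancel_mono ((exch F Y (E.S (b.k j))).inv ≫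
      ((E.shiftNat i (b.k j)).app (F ⊗ Y)).hom), h1, zero_comp]
  rw [h2, zero_comp]

end GBasis

/-- Composition of decompositions. -/
theorem isIso_desc_trans' {J K : Type} {F : J → K → T} {G : J → T} {H : T}
    (f : ∀ j k, F j k ⟶ G j) (g : ∀ j, G j ⟶ H)
    (hf : ∀ j, IsIso (Sigma.desc (f j))) (hg : IsIso (Sigma.desc g)) :
    IsIso (Sigma.desc fun jk : J × K => f jk.1 jk.2 ≫ g jk.1) := by
  have hf' : ∀ j k, f j k ≫ inv (Sigma.desc (f j)) = Sigma.ι (F j) k := fun j k => by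
    rw [← cancel_mono (Sigma.desc (f j))]
    simp
  have hg' : ∀ j, g j ≫ inv (Sigma.desc g) = Sigma.ι G j := fun j => by
    rw [← cancel_mono (Sigma.desc g)]
    simp
  refine ⟨⟨inv (Sigma.desc g) ≫ Sigma.desc (fun j => inv (Sigma.desc (f j)) ≫
    Sigma.desc (fun k => Sigma.ι (fun jk : J × K => F jk.1 jk.2) (j, k))), ?_, ?_⟩⟩
  · refine Sigma.hom_ext _ _ fun jk => ?_
    obtain ⟨j, k⟩ := jk
    rw [Sigma.ι_desc_assoc, Category.assoc, reassoc_of% hg', Sigma.ι_desc, reassoc_of% hf',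
      Sigma.ι_desc, Category.comp_id]
  · rw [Category.assoc, ← cancel_epi (Sigma.desc g), IsIso.hom_inv_id_assoc, Category.comp_id]
    refine Sigma.hom_ext _ _ fun j => ?_
    rw [Sigma.ι_desc_assoc, Sigma.ι_desc, Category.assoc, ← cancel_epi (Sigma.desc (f j)),
      IsIso.hom_inv_id_assoc]
    refine Sigma.hom_ext _ _ fun k => ?_
    rw [Sigma.ι_desc_assoc, Sigma.ι_desc, Sigma.ι_desc_assoc]

theorem isIso_desc_reindex' {J K : Type} {F : K → T} {H : T} (σ : J ≃ K) (f : ∀ k, F k ⟶ H)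
    (hf : IsIso (Sigma.desc f)) : IsIso (Sigma.desc fun j => f (σ j)) := by
  have h1 : Sigma.desc (fun j => f (σ j)) =
      Sigma.desc (fun j => Sigma.ι F (σ j)) ≫ Sigma.desc f := by
    refine Sigma.hom_ext _ _ fun j => ?_
    simp
  have h2 : IsIso (Sigma.desc (fun j => Sigma.ι F (σ j))) := by
    have h3 : Sigma.desc (fun j => Sigma.ι F (σ j)) = (Limits.Sigma.whiskerEquiv
        (f := fun j => F (σ j)) (g := F) σ (fun j => Iso.refl (F (σ j)))).hom := by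
      refine Sigma.hom_ext _ _ fun j => ?_
      simp
    rw [h3]
    infer_instance
  rw [h1]
  infer_instance

namespace GBasis

variable {F G H : T} [MonObj G] [MonObj H] {φ : F ⟶ G} {ψ : G ⟶ H} [IsMonHom ψ] {J K : Type}

/-- Composition of graded bases. -/
noncomputable def trans (b : GBasis E φ J) (b' : GBasis E ψ K) : GBasis E (φ ≫ ψ) (K × J) where
  k uc := b.k uc.2 + b'.k uc.1
  w uc := gmul rfl (b.w uc.2 ≫ ψ) (b'.w uc.1)
  isIso := by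
    have h1 : ∀ u : K, IsIso (Sigma.desc fun c => ((φ ⊗ₘ b.w c) ≫ μ[G]) ▷ E.S (b'.k u)) :=
      fun u => isIso_desc_whiskerRight _ b.isIso _
    have h2 := isIso_desc_trans' (fun (u : K) (c : J) => ((φ ⊗ₘ b.w c) ≫ μ[G]) ▷ E.S (b'.k u))
      (fun u => (ψ ⊗ₘ b'.w u) ≫ μ[H]) h1 b'.isIso
    have h3 := isIso_desc_comp _ (fun uc : K × J => (F ◁ (E.mu (b.k uc.2) (b'.k uc.1) _ rfl).inv) ≫
      (α_ F (E.S (b.k uc.2)) (E.S (b'.k uc.1))).inv) h2
    have h4 : (fun uc : K × J => ((φ ≫ ψ) ⊗ₘ gmul rfl (b.w uc.2 ≫ ψ) (b'.w uc.1)) ≫ μ[H]) =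
        fun uc : K × J => ((F ◁ (E.mu (b.k uc.2) (b'.k uc.1) _ rfl).inv) ≫
          (α_ F (E.S (b.k uc.2)) (E.S (b'.k uc.1))).inv) ≫
            (((φ ⊗ₘ b.w uc.2) ≫ μ[G]) ▷ E.S (b'.k uc.1)) ≫ (ψ ⊗ₘ b'.w uc.1) ≫ μ[H] := by
      funext uc
      obtain ⟨u, c⟩ := uc
      dsimp only
      have e1 : (((φ ⊗ₘ b.w c) ≫ μ[G]) ▷ E.S (b'.k u)) ≫ (ψ ⊗ₘ b'.w u) =
          ((((φ ≫ ψ) ⊗ₘ (b.w c ≫ ψ)) ⊗ₘ b'.w u)) ≫ (μ[H] ▷ H) := by
        rw [← tensorHom_id, ← tensorHom_id, tensorHom_comp_tensorHom, tensorHom_comp_tensorHom,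
          Category.id_comp, Category.comp_id, Category.assoc, IsMonHom.mul_hom,
          tensorHom_comp_tensorHom_assoc]
      rw [Category.assoc, reassoc_of% e1, MonObj.mul_assoc, associator_naturality_assoc,
        Iso.inv_hom_id_assoc]
      unfold gmul EvenSpheres.ext
      rw [← id_tensorHom, ← id_tensorHom, tensorHom_comp_tensorHom_assoc,
        tensorHom_comp_tensorHom_assoc, Category.comp_id, Category.id_comp]
    rw [h4]
    exact h3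

/-- Reindexing of graded bases. -/
noncomputable def reindex (b : GBasis E φ J) (σ : K ≃ J) : GBasis E φ K where
  k j := b.k (σ j)
  w j := b.w (σ j)
  isIso := isIso_desc_reindex' σ (fun j => (φ ⊗ₘ b.w j) ≫ μ[G]) b.isIso

end GBasis

end Stable

end Vale.Agent.P251.M
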