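import Vale.Agent.P251.F.Grade

/-!
# P251, part M: monomials of the cobar rings

`Cob N s` is free over `N` on the monomials in the variables `(i, m)` (weight `m + 1`): weights of
the monomials, the variables of the last vertex, decomposition of homogeneous elements.
-/

open MvPolynomial

namespace Vale.Agent.P251.F

variable {B : Type*} [CommRing B]

namespace InvSeries

theorem c_mul_lin (f : InvSeries B) (u : Bˣ) (n : ℕ) :
    (f * lin u).c n = (u : B) ^ (n + 1) * f.c n := by
  change PowerSeries.coeff (n + 1) (f * lin u).val = _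
  rw [mul_val, lin_val]
  have h : (PowerSeries.C (u : B) * PowerSeries.X : PowerSeries B) = (u : B) • PowerSeries.X := by
    rw [PowerSeries.smul_eq_C_mul]
  rw [h, ← PowerSeries.rescale_eq_subst, PowerSeries.coeff_rescale]
  rfl

theorem c_lin_mul (f : InvSeries B) (u : Bˣ) (n : ℕ) :
    (lin u * f).c n = (u : B) * f.c n := by
  change PowerSeries.coeff (n + 1) (lin u * f).val = _
  rw [mul_val, lin_val, PowerSeries.subst_mul f.hs, PowerSeries.subst_X f.hs,
    PowerSeries.subst_C]
  exact PowerSeries.coeff_C_mul _ _ _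

end InvSeries

namespace Cob

variable {N : Type} [CommRing N] [LawRing N] {s n : ℕ}

/-- The variable `(i, m)` has weight `m + 1`. -/
theorem isWt_X (i : Fin n) (m : ℕ) :
    IsWt ((m + 1 : ℕ) : ℤ) (X (i, m) : Cob N n) := by
  intro B _ c u
  rw [ev_X, ev_X]
  change ((InvSeries.lin u)⁻¹ * c.g i.succ * InvSeries.lin u).c (m + 1) = _
  rw [InvSeries.c_mul_lin, ← map_inv, InvSeries.c_lin_mul, zpow_natCast, Units.val_pow_eq_pow_val,
    pow_succ]
  have h : (u : B) * ((u⁻¹ : Bˣ) : B) = 1 := Units.mul_inv u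
  calc (u : B) ^ (m + 1) * (u : B) * (((u⁻¹ : Bˣ) : B) * (c.g i.succ).c (m + 1)) =
      (u : B) ^ (m + 1) * (((u : B) * ((u⁻¹ : Bˣ) : B)) * (c.g i.succ).c (m + 1)) := by ring
    _ = _ := by rw [h, one_mul]

/-- The weight of a monomial. -/
noncomputable def degM (a : Fin s × ℕ →₀ ℕ) : ℤ :=
  a.sum fun im e => ((e : ℕ) : ℤ) * ((im.2 + 1 : ℕ) : ℤ)

/-- The weight of a monomial in the variables of one vertex. -/
noncomputable def degU (u : ℕ →₀ ℕ) : ℤ :=
  u.sum fun m e => ((e : ℕ) : ℤ) * ((m + 1 : ℕ) : ℤ)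

theorem isWt_prod' {ι : Type*} (s : Finset ι)
    (w : ι → ℤ) (x : ι → Cob N n) (h : ∀ i ∈ s, IsWt (w i) (x i)) :
    IsWt (∑ i ∈ s, w i) (∏ i ∈ s, x i) := by
  classical
  induction s using Finset.induction_on with
  | empty => simpa using isWt_one
  | insert a s ha ih =>
    rw [Finset.prod_insert ha, Finset.sum_insert ha]
    exact (h a (Finset.mem_insert_self a s)).mul (ih fun i hi => h i (Finset.mem_insert_of_mem hi))

theorem isWt_monomial (a : Fin s × ℕ →₀ ℕ) : IsWt (degM a) (monomial a 1 : Cob N s) := by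
  rw [monomial_eq, C_1, one_mul, Finsupp.prod, degM, Finsupp.sum]
  exact isWt_prod' _ _ _ fun im _ => (isWt_X im.1 im.2).pow _

theorem isWt_sum {ι : Type*} (t : Finset ι) {w : ℤ} (x : ι → Cob N n)
    (h : ∀ i ∈ t, IsWt w (x i)) : IsWt w (∑ i ∈ t, x i) := (wt N n w).sum_mem h

/-- The inclusion of the monomials in the variables of the first `s` vertices. -/
noncomputable def incl (c : Fin s × ℕ →₀ ℕ) : Fin (s + 1) × ℕ →₀ ℕ :=
  c.mapDomain fun im => (im.1.castSucc, im.2)

/-- The inclusion of the monomials in the variables of the last vertex. -/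
noncomputable def last (s : ℕ) (u : ℕ →₀ ℕ) : Fin (s + 1) × ℕ →₀ ℕ :=
  u.mapDomain fun m => (Fin.last s, m)

theorem incl_inj : Function.Injective fun im : Fin s × ℕ => (im.1.castSucc, im.2) := by
  rintro ⟨i, m⟩ ⟨j, l⟩ h
  simpa using h

theorem last_inj : Function.Injective fun m : ℕ => (Fin.last s, m) := by
  intro m l h
  simpa using h

theorem degM_incl (c : Fin s × ℕ →₀ ℕ) : degM (incl c) = degM c := by
  unfold degM incl
  rw [Finsupp.sum_mapDomain_index_inj incl_inj]

theorem degM_last (u : ℕ →₀ ℕ) : degM (last s u) = degU u := by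
  unfold degM last degU
  rw [Finsupp.sum_mapDomain_index_inj last_inj]

theorem degM_add (a b : Fin s × ℕ →₀ ℕ) : degM (a + b) = degM a + degM b := by
  unfold degM
  rw [Finsupp.sum_add_index']
  · intro im
    simp
  · intro im e e'
    push_cast
    ring

/-- Monomials at `s + 1` are pairs of a monomial in the last variables and a monomial at `s`. -/
theorem bijective_last_incl :
    Function.Bijective fun uc : (ℕ →₀ ℕ) × (Fin s × ℕ →₀ ℕ) => last s uc.1 + incl uc.2 := by
  classical
  have h1 : ∀ (u : ℕ →₀ ℕ) (c : Fin s × ℕ →₀ ℕ) (m : ℕ),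
      (last s u + incl c) (Fin.last s, m) = u m := by
    intro u c m
    rw [Finsupp.add_apply]
    have e1 : last s u (Fin.last s, m) = u m :=
      Finsupp.mapDomain_apply last_inj u m
    have e2 : incl c (Fin.last s, m) = 0 := by
      apply Finsupp.mapDomain_of_notMem_range
      rintro ⟨⟨i, l⟩, h⟩
      have := congrArg Prod.fst h
      exact (Fin.castSucc_lt_last i).ne this
    rw [e1, e2, add_zero]
  have h2 : ∀ (u : ℕ →₀ ℕ) (c : Fin s × ℕ →₀ ℕ) (i : Fin s) (m : ℕ),
      (last s u + incl c) (i.castSucc, m) = c (i, m) := by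
    intro u c i m
    rw [Finsupp.add_apply]
    have e1 : incl c (i.castSucc, m) = c (i, m) :=
      Finsupp.mapDomain_apply incl_inj c (i, m)
    have e2 : last s u (i.castSucc, m) = 0 := by
      apply Finsupp.mapDomain_of_notMem_range
      rintro ⟨l, h⟩
      have := congrArg Prod.fst h
      exact (Fin.castSucc_lt_last i).ne this.symm
    rw [e1, e2, zero_add]
  constructor
  · rintro ⟨u, c⟩ ⟨u', c'⟩ h
    dsimp only at h
    refine Prod.ext ?_ ?_
    · ext m
      rw [← h1 u c m, h, h1]
    · ext ⟨i, m⟩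
      rw [← h2 u c i m, h, h2]
  · intro a
    refine ⟨(a.comapDomain (fun m => (Fin.last s, m)) last_inj.injOn,
      a.comapDomain (fun im : Fin s × ℕ => (im.1.castSucc, im.2)) incl_inj.injOn), ?_⟩
    ext ⟨i, m⟩
    refine Fin.lastCases ?_ (fun i => ?_) i
    · exact h1 _ _ m
    · exact h2 _ _ i m

/-! ### the first vertices -/

theorem map_C_of_zero {m : ℕ} (α : Fin (m + 1) → Fin (n + 1)) (hα : α 0 = 0) (a : N) :
    map α (C a : Cob N m) = C a := by
  rw [map, ev_C, Chain.res_pt, hα, univ_g_zero, LawRing.act_one]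
  rfl

theorem map_castSucc_X (i : Fin s) (m : ℕ) :
    map (Fin.castSucc : Fin (s + 1) → Fin (s + 2)) (X (i, m) : Cob N s) = X (i.castSucc, m) := by
  rw [map, ev_X, Chain.res_g]
  have h1 : (Fin.castSucc (i.succ : Fin (s + 1)) : Fin (s + 2)) = (i.castSucc).succ :=
    (Fin.succ_castSucc i).symm
  rw [h1, univ_g_succ, Fin.castSucc_zero, univ_g_zero, inv_one, mul_one, c_succ_strictMk]

theorem map_castSucc_monomial (c : Fin s × ℕ →₀ ℕ) (a : N) :
    map (Fin.castSucc : Fin (s + 1) → Fin (s + 2)) (monomial c a : Cob N s) =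
      monomial (incl c) a := by
  rw [monomial_eq, _root_.map_mul, map_C_of_zero _ (Fin.castSucc_zero' ), monomial_eq]
  congr 1
  rw [Finsupp.prod, _root_.map_prod, incl, Finsupp.prod_mapDomain_index_inj incl_inj,
    Finsupp.prod]
  refine Finset.prod_congr rfl fun im _ => ?_
  rw [_root_.map_pow, map_castSucc_X]

theorem monomial_last_incl (u : ℕ →₀ ℕ) (c : Fin s × ℕ →₀ ℕ) :
    (monomial (last s u + incl c) 1 : Cob N (s + 1)) =
      monomial (last s u) 1 * map Fin.castSucc (monomial c 1 : Cob N s) := by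
  rw [map_castSucc_monomial, monomial_mul, one_mul]

omit [LawRing N] in
theorem exists_eq_C (x : Cob N 0) : ∃ a : N, x = C a := by
  exact ⟨coeff 0 x, eq_C_of_isEmpty x⟩

/-- Decomposition into monomials. -/
theorem sum_monomial (z : Cob N s) :
    z = ∑ c ∈ z.support, monomial c 1 *
      map (fun _ : Fin 1 => (0 : Fin (s + 1))) (C (coeff c z) : Cob N 0) := by
  conv_lhs => rw [z.as_sum]
  refine Finset.sum_congr rfl fun c _ => ?_
  rw [map_C_of_zero _ rfl, mul_comm, C_mul_monomial, mul_one]

theorem proj_mul' {v : ℤ} {a : Cob N n} (ha : IsWt v a) (w : ℤ) (x : Cob N n) :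
    proj (v + w) (a * x) = a * proj w x := by
  conv_lhs => rw [← sum_proj x, Finset.mul_sum]
  have h0 := _root_.map_sum (projHom N n (v + w)) (fun i => a * proj i x) (wts x)
  rw [projHom_apply] at h0
  rw [h0]
  have h1 : ∀ i ∈ wts x, projHom N n (v + w) (a * proj i x) =
      if w = i then a * proj w x else 0 := by
    intro i _
    rw [projHom_apply, proj_of_isWt (ha.mul (isWt_proj i x))]
    by_cases hi : w = i
    · subst hi; simp
    · rw [if_neg, if_neg hi]
      intro h; exact hi (by linarith)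
  rw [Finset.sum_congr rfl h1, Finset.sum_ite_eq (wts x) w fun _ => a * proj w x]
  split_ifs with h
  · rfl
  · rw [proj_eq_zero h, mul_zero]

/-- Decomposition of homogeneous elements into monomials. -/
theorem sum_monomial_of_isWt {w : ℤ} {z : Cob N s} (hz : IsWt w z) :
    z = ∑ c ∈ z.support, monomial c 1 *
      map (fun _ : Fin 1 => (0 : Fin (s + 1)))
        (proj (w - degM c) (C (coeff c z) : Cob N 0)) := by
  have h1 : projHom N s w z = z := by
    rw [projHom_apply, proj_of_isWt hz, if_pos rfl]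
  conv_lhs => rw [← h1, sum_monomial z, _root_.map_sum]
  refine Finset.sum_congr rfl fun c _ => ?_
  rw [projHom_apply, ← proj_map]
  conv_lhs => rw [show w = degM c + (w - degM c) by ring]
  rw [proj_mul' (isWt_monomial c)]

end Cob

end Vale.Agent.P251.F
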