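import Vale.Agent.P251.M.MTot
import Vale.Agent.P251.I.Spaces
import Vale.Agent.P251.Q.Defs

/-!
# P251, part M: the multiplicative theory on finite cell spaces defined by a multiplicative system

Input: a multiplicative system `M : MSys T`, a suspension spectrum functor `F : SpaceFunctor T`, a
suspension class `s : F.S (ℂ) ⟶ M.obj 0 1` and the distinguished triangles of cofibrations.
Output: `M.theory : MultTheory`, with `good = FC` and `U X = ⨁ k, M.H k (F.S X)`.
-/

open CategoryTheory MonoidalCategory Limits Pretriangulated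
open Vale.Agent.P251.G Vale.Agent.P251.G.LC Vale.Agent.P251.I Vale.Agent.P251.T
open Functor.OplaxMonoidal Functor.LaxMonoidal

universe v u

noncomputable section

namespace Vale.Agent.P251.M

variable {T : Type u} [Category.{v} T] [Preadditive T] [HasZeroObject T]
    [HasShift T ℤ] [∀ n : ℤ, (shiftFunctor T n).Additive] [Pretriangulated T]
    [MonoidalCategory T] [SymmetricCategory T] [TensorTriangulated T]

/-- Strict cofibres of cofibrations of finite cell spaces are finite cell spaces, and they go to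
distinguished triangles. -/
structure CofTriangles (F : SpaceFunctor T) : Prop where
  fc : ∀ {A B : LC} {i : A ⟶ B}, Cofib i → FC A → FC B → FC (cof i)
  tri : ∀ {A B : LC} (i : A ⟶ B) (hi : Cofib i) (hA : FC A) (hB : FC B),
    ∃ w : F.S.obj ⟨cof i, fc hi hA hB⟩ ⟶ (F.S.obj ⟨A, hA⟩)⟦(1 : ℤ)⟧,
      Triangle.mk (F.S.map (FCat.hom (X := ⟨A, hA⟩) (Y := ⟨B, hB⟩) i))
        (F.S.map (FCat.hom (X := ⟨B, hB⟩) (Y := ⟨cof i, fc hi hA hB⟩) (cofMap i))) w ∈ distTriang T

/-- The complex line is a finite cell space. -/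
theorem fcCC : FC (LC.of ℂ) := by
  refine (FC.sph 2).of_homeo (Y := LC.of ℂ) ?_
  exact (Homeomorph.piFinTwo (fun _ => ℝ)).trans
    (Complex.equivRealProdCLM.symm.toHomeomorph : (ℝ × ℝ) ≃ₜ ℂ)

/-- The complex line as an object of `FCat`. -/
abbrev CCF : FCat := ⟨LC.of ℂ, fcCC⟩

section

variable (M : MSys T) (F : SpaceFunctor T)

/-- The total group of a space. -/
def UU (X : LC) : Type v := (h : PLift (FC X)) → M.Tot (F.S.obj ⟨X, h.down⟩)

instance (X : LC) : AddCommGroup (UU M F X) := by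
  unfold UU; infer_instance

variable {M F}

/-- Evaluation at a proof that the space is a finite cell space. -/
def uev {X : LC} (h : FC X) : UU M F X →+ M.Tot (F.S.obj ⟨X, h⟩) where
  toFun u := u ⟨h⟩
  map_zero' := rfl
  map_add' _ _ := rfl

/-- Elements of `UU` from elements of the total group. -/
def umk {X : LC} (h : FC X) : M.Tot (F.S.obj ⟨X, h⟩) →+ UU M F X where
  toFun x := fun _ => x
  map_zero' := rfl
  map_add' _ _ := rfl

@[simp] theorem uev_umk {X : LC} (h : FC X) (x : M.Tot (F.S.obj ⟨X, h⟩)) : uev h (umk h x) = x := rfl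

@[simp] theorem umk_uev {X : LC} (h : FC X) (u : UU M F X) : umk h (uev h u) = u := rfl

theorem uev_inj {X : LC} (h : FC X) {u u' : UU M F X} (e : uev h u = uev h u') : u = u' := by
  rw [← umk_uev h u, ← umk_uev h u', e]

theorem uext {X : LC} {u u' : UU M F X} (e : ∀ h : FC X, uev h u = uev h u') : u = u' :=
  funext fun h => e h.down

variable (M F) in
/-- Pull back between finite cell spaces. -/
def umap₀ {X Y : LC} (hY : FC Y) (f : X ⟶ Y) : UU M F Y →+ UU M F X where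
  toFun u := fun h => M.tpull (F.S.map (FCat.hom (X := ⟨X, h.down⟩) (Y := ⟨Y, hY⟩) f)) (uev hY u)
  map_zero' := by
    funext h
    rw [map_zero, map_zero]; rfl
  map_add' u u' := by
    funext h
    rw [map_add, map_add]; rfl

variable (M F) in
open Classical in
/-- Pull back. -/
def umap {X Y : LC} (f : X ⟶ Y) : UU M F Y →+ UU M F X :=
  if hY : FC Y then umap₀ M F hY f else 0

theorem uev_umap {X Y : LC} (hX : FC X) (hY : FC Y) (f : X ⟶ Y) (u : UU M F Y) :
    uev hX (umap M F f u) =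
      M.tpull (F.S.map (FCat.hom (X := ⟨X, hX⟩) (Y := ⟨Y, hY⟩) f)) (uev hY u) := by
  rw [umap, dif_pos hY]; rfl

variable (M F) in
/-- Exterior product between finite cell spaces. -/
def ucross₀ {X Y : LC} (hX : FC X) (hY : FC Y) : UU M F X →+ UU M F Y →+ UU M F (X ⊗ Y) :=
  AddMonoidHom.mk' (fun u => AddMonoidHom.mk' (fun v => fun _ =>
      M.tpull (δ F.S ⟨X, hX⟩ ⟨Y, hY⟩) (M.tcross (uev hX u) (uev hY v)))
    (fun v v' => by
      funext h
      rw [map_add, map_add, map_add]; rfl))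
    (fun u u' => by
      ext v
      funext h
      change M.tpull _ (M.tcross (uev hX (u + u')) (uev hY v)) = M.tpull _ _ + M.tpull _ _
      rw [map_add, map_add, AddMonoidHom.add_apply, map_add])

variable (M F) in
open Classical in
/-- Exterior product. -/
def ucross {X Y : LC} : UU M F X →+ UU M F Y →+ UU M F (X ⊗ Y) :=
  if hX : FC X then (if hY : FC Y then ucross₀ M F hX hY else 0) else 0

theorem uev_ucross {X Y : LC} (hX : FC X) (hY : FC Y) (h : FC (X ⊗ Y)) (u : UU M F X)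
    (v : UU M F Y) :
    uev h (ucross M F u v) =
      M.tpull (δ F.S ⟨X, hX⟩ ⟨Y, hY⟩) (M.tcross (uev hX u) (uev hY v)) := by
  rw [ucross, dif_pos hX, dif_pos hY]; rfl

variable (M F) in
/-- Homogeneous elements. -/
def udeg (X : LC) (k : ℤ) : AddSubgroup (UU M F X) where
  carrier := {u | ∀ h : FC X, uev h u ∈ M.tdeg (F.S.obj ⟨X, h⟩) k}
  zero_mem' h := by rw [map_zero]; exact zero_mem _
  add_mem' hu hv h := by rw [map_add]; exact add_mem (hu h) (hv h)
  neg_mem' hu h := by rw [map_neg]; exact neg_mem (hu h)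

theorem mem_udeg {X : LC} (h : FC X) {k : ℤ} {u : UU M F X} :
    u ∈ udeg M F X k ↔ uev h u ∈ M.tdeg (F.S.obj ⟨X, h⟩) k := ⟨fun hu => hu h, fun hu _ => hu⟩

theorem fc_tensor {X Y : LC} (hX : FC X) (hY : FC Y) : FC (X ⊗ Y) :=
  (⟨X, hX⟩ ⊗ ⟨Y, hY⟩ : FCat).property

theorem fc_unit : FC (𝟙_ LC) := (𝟙_ FCat).property

variable (M F) in
/-- The equivalence with the total group. -/
def uequiv {X : LC} (h : FC X) : UU M F X ≃+ M.Tot (F.S.obj ⟨X, h⟩) where
  toFun := uev h
  invFun := umk h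
  left_inv _ := rfl
  right_inv _ := rfl
  map_add' := map_add _

theorem udeg_internal {X : LC} (h : FC X) : DirectSum.IsInternal (udeg M F X) := by
  refine isInternal_of_bijective (H := fun k => M.H k (F.S.obj ⟨X, h⟩)) _
    (uequiv M F h).symm.toAddMonoidHom (uequiv M F h).symm.bijective (fun k => ?_)
  ext u
  constructor
  · intro hu
    obtain ⟨a, ha⟩ := (mem_udeg h).mp hu
    exact ⟨a, uev_inj h ha⟩
  · rintro ⟨a, rfl⟩
    exact (mem_udeg h).mpr ⟨a, rfl⟩

variable (M F)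

/-- The multiplicative theory on finite cell spaces. -/
def theory (hF : CofTriangles F) (s : F.S.obj CCF ⟶ M.obj 0 1) (hs : M.IsSusp s) :
    Q.MultTheory.{v} where
  good := FC
  good_empty := FC.empty
  good_sph := FC.sph
  good_tensor' := fc_tensor
  good_hequiv h e := h.hequiv e
  good_ext hi hA hC := FC.ext hi hA hC
  good_cof hi hA hB := hF.fc hi hA hB
  U := UU M F
  deg := udeg M F
  internal' X h := udeg_internal h
  map f := umap M F f
  map_id' {X} hX x := by
    apply uev_inj hX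
    rw [uev_umap hX hX]
    have : FCat.hom (X := ⟨X, hX⟩) (Y := ⟨X, hX⟩) (𝟙 X) = 𝟙 _ := rfl
    rw [this, F.S.map_id, MSys.tpull_id]
  map_comp' {X Y Z} hX hY hZ f g z := by
    apply uev_inj hX
    rw [uev_umap hX hZ, uev_umap hX hY, uev_umap hY hZ, ← MSys.tpull_comp, ← F.S.map_comp]
    rfl
  map_homotopic' {X Y} hX hY f g h y := by
    apply uev_inj hX
    rw [uev_umap hX hY, uev_umap hX hY,
      F.map_eq (FCat.hom (X := ⟨X, hX⟩) (Y := ⟨Y, hY⟩) f) (FCat.hom (X := ⟨X, hX⟩) (Y := ⟨Y, hY⟩) g) h]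
  map_deg' {X Y} hX hY f k y hy := by
    rw [mem_udeg hX, uev_umap hX hY]
    exact MSys.tpull_mem_tdeg _ ((mem_udeg hY).mp hy)
  empty' x := by
    apply uev_inj FC.empty
    have h0 : 𝟙 (F.S.obj ⟨LC.of Empty, FC.empty⟩) = 0 :=
      (IsZero.iff_id_eq_zero _).mp (F.isZero (X := ⟨LC.of Empty, FC.empty⟩)
        (inferInstanceAs (IsEmpty Empty)))
    rw [map_zero, ← MSys.tpull_id (uev FC.empty x), h0]
    have : M.tpull (0 : F.S.obj ⟨LC.of Empty, FC.empty⟩ ⟶ F.S.obj ⟨LC.of Empty, FC.empty⟩) = 0 :=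
      MSys.tot_ext (fun k a => by rw [MSys.tpull_of, MSys.pull_zero, map_zero]; rfl)
    rw [this]; rfl
  cross := ucross M F
  cross_deg' {X Y} hX hY k l x y hx hy := by
    rw [mem_udeg (fc_tensor hX hY), uev_ucross hX hY]
    exact MSys.tpull_mem_tdeg _ (MSys.tcross_mem_tdeg ((mem_udeg hX).mp hx) ((mem_udeg hY).mp hy))
  cross_map' {X X' Y Y'} hX hX' hY hY' f g x y := by
    apply uev_inj (fc_tensor hX hY)
    rw [uev_ucross hX hY, uev_umap hX hX', uev_umap hY hY', uev_umap (fc_tensor hX hY)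
      (fc_tensor hX' hY'), uev_ucross hX' hY', MSys.tcross_tpull, ← MSys.tpull_comp,
      ← MSys.tpull_comp]
    congr 2
    exact δ_natural (F := F.S) (FCat.hom (X := ⟨X, hX⟩) (Y := ⟨X', hX'⟩) f)
      (FCat.hom (X := ⟨Y, hY⟩) (Y := ⟨Y', hY'⟩) g)
  cross_assoc' {X Y Z} hX hY hZ x y z := by
    apply uev_inj (fc_tensor (fc_tensor hX hY) hZ)
    rw [uev_umap (fc_tensor (fc_tensor hX hY) hZ) (fc_tensor hX (fc_tensor hY hZ)),
      uev_ucross hX (fc_tensor hY hZ), uev_ucross hY hZ, uev_ucross (fc_tensor hX hY) hZ,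
      uev_ucross hX hY, MSys.tcross_tpull_right, MSys.tcross_tpull_left, ← MSys.tpull_comp,
      ← MSys.tpull_comp, ← MSys.tpull_comp, ← MSys.tcross_assoc, ← MSys.tpull_comp]
    congr 2
    have h := Functor.OplaxMonoidal.associativity (F := F.S) (X := (⟨X, hX⟩ : FCat))
      (Y := ⟨Y, hY⟩) (Z := ⟨Z, hZ⟩)
    exact (Category.assoc _ _ _).trans (h.symm.trans (Category.assoc _ _ _).symm)
  cross_comm' {X Y} hX hY x y := by
    apply uev_inj (fc_tensor hX hY)
    rw [uev_umap (fc_tensor hX hY) (fc_tensor hY hX), uev_ucross hX hY, uev_ucross hY hX,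
      ← MSys.tcross_comm (uev hX x), ← MSys.tpull_comp, ← MSys.tpull_comp]
    congr 2
    have h := Functor.map_braiding F.S (⟨X, hX⟩ : FCat) ⟨Y, hY⟩
    have h2 : F.S.map (β_ (⟨X, hX⟩ : FCat) ⟨Y, hY⟩).hom ≫ δ F.S ⟨Y, hY⟩ ⟨X, hX⟩ =
        δ F.S ⟨X, hX⟩ ⟨Y, hY⟩ ≫ (β_ (F.S.obj ⟨X, hX⟩) (F.S.obj ⟨Y, hY⟩)).hom := by
      rw [h]; simp
    exact h2
  one := umk fc_unit (M.tpull (η F.S) M.tone)
  one_deg := (mem_udeg fc_unit).mpr (MSys.tpull_mem_tdeg _ (MSys.tof_mem_tdeg _))
  one_cross' {X} hX x := by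
    apply uev_inj (fc_tensor fc_unit hX)
    rw [uev_umap (fc_tensor fc_unit hX) hX, uev_ucross fc_unit hX, uev_umk]
    change M.tpull _ (M.tcross (M.tpull _ M.tone) _) = _
    rw [MSys.tcross_tpull_left, MSys.tone_cross, ← MSys.tpull_comp, ← MSys.tpull_comp]
    congr 2
    exact (Category.assoc _ _ _).trans (left_unitality_hom (F := F.S) (⟨X, hX⟩ : FCat))
  sg := umk fcCC (M.tof _ 1 (MSys.cls 0 s))
  sg_deg := (mem_udeg fcCC).mpr (MSys.tof_mem_tdeg _)
  sg_bijective' {X} hX := by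
    have h1 : Function.Bijective (fun x : UU M F X => M.tpull (δ F.S ⟨X, hX⟩ CCF)
        (M.tcross (uev hX x) (M.tof _ 1 (MSys.cls 0 s)))) :=
      (MSys.tpull_bijective _).comp ((MSys.tcross_susp_bijective hs).comp
        (uequiv M F hX).bijective)
    have h2 : (fun x : UU M F X => ucross M F x (umk fcCC (M.tof _ 1 (MSys.cls 0 s)))) =
        (uequiv M F (fc_tensor hX fcCC)).symm ∘ (fun x : UU M F X =>
          M.tpull (δ F.S ⟨X, hX⟩ CCF) (M.tcross (uev hX x) (M.tof _ 1 (MSys.cls 0 s)))) := by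
      funext x
      apply uev_inj (fc_tensor hX fcCC)
      rw [uev_ucross hX fcCC]
      rfl
    rw [h2]
    exact (uequiv M F (fc_tensor hX fcCC)).symm.bijective.comp h1
  exact' {A B} i hi hA hB y h := by
    obtain ⟨w, hw⟩ := hF.tri i hi hA hB
    have h' : M.tpull (F.S.map (FCat.hom (X := ⟨A, hA⟩) (Y := ⟨B, hB⟩) i)) (uev hB y) = 0 := by
      rw [← uev_umap hA hB, h, map_zero]
    obtain ⟨b, hb⟩ : ∃ b : M.Tot (F.S.obj ⟨cof i, hF.fc hi hA hB⟩), M.tpull (F.S.map
        (FCat.hom (X := ⟨B, hB⟩) (Y := ⟨cof i, hF.fc hi hA hB⟩) (cofMap i))) b = uev hB y :=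
      MSys.texact₂ _ hw (uev hB y) h'
    refine ⟨umk (hF.fc hi hA hB) b, ?_⟩
    apply uev_inj hB
    rw [uev_umap hB (hF.fc hi hA hB), uev_umk]
    exact hb

end

end Vale.Agent.P251.M
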