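import Vale.Agent.P251.M.ThomT
import Vale.Agent.P251.M.Theory
import Vale.Agent.P251.Q.Thom
import Vale.Agent.P251.G.ThJ

/-!
# P251, part M (ME): orientations from Thom classes in `T`

`ThomFam M F s` : a multiplicative family of Thom classes `w n N ∈ M.H n (F.S (Th n (Fin N)))`;
`ThomFam.orientation` : the orientation of the theory of `M` which it defines.
-/

open CategoryTheory MonoidalCategory Limits Pretriangulated Matrix OnePoint
open Vale.Agent.P251.G Vale.Agent.P251.G.LC Vale.Agent.P251.I Vale.Agent.P251.T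
open Functor.OplaxMonoidal Functor.LaxMonoidal

universe v u

noncomputable section

namespace Vale.Agent.P251.M

/-! ### Uniqueness of the geometric maps -/

section geom

variable {n m k : ℕ} {I J : Type} [Fintype I] [Fintype J]

theorem eq_map_of_isIsomMap [DecidableEq I] [DecidableEq J] (u : Matrix J I ℂ) (hu : uᴴ * u = 1)
    (f : LC.of (Th n I) ⟶ LC.of (Th n J)) (hf : Q.IsIsomMap u f) : f = Th.map u hu := by
  apply LC.hom_ext
  intro x
  obtain ⟨y, hy, h1, h2⟩ := hf x
  exact hy.trans ((congrArg _ (Th.ext h1 h2)).trans (Th.app_map_coe u hu x).symm)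

theorem eq_sum_of_isSumMap (h : n + m = k)
    (f : LC.of (Th n I) ⊗ LC.of (Th m J) ⟶ LC.of (Th k (I ⊕ J))) (hf : Q.IsSumMap f) :
    f = Th.sum h := by
  apply LC.hom_ext
  rintro ⟨x, y⟩
  obtain ⟨z, hz, h1, h2⟩ := hf x y
  refine hz.trans ((congrArg _ (Th.ext h1 h2)).trans (Th.app_sum_smash h x y).symm)

theorem eq_unit_of_isPairMap (f : 𝟙_ LC ⟶ LC.of (Th 0 I))
    (hf : Q.IsPairMap (X := LC.of Unit) (fun _ => 0) (fun _ => 0) f) : f = Th.unit I := by
  apply LC.hom_ext
  intro x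
  obtain ⟨z, hz, h1, h2⟩ := hf x
  refine hz.trans ((congrArg _ (Th.ext h1 h2)).trans (Th.app_unit I).symm)

/-- the map `ℂ ⟶ Th 1 Unit` -/
def lineTh : LC.of ℂ ⟶ LC.of (Th 1 Unit) :=
  Q.cpowUnit.inv ≫ Q.linMap Unit

theorem eq_lineTh_of_isPairMap (f : LC.of ℂ ⟶ LC.of (Th 1 Unit))
    (hf : Q.IsPairMap (fun _ => 1) (fun c _ => c) f) : f = lineTh := by
  apply LC.hom_ext
  intro x
  obtain ⟨z, hz, h1, h2⟩ := hf x
  have h3 : app lineTh (x : OnePoint ℂ) =
      ((Th.mk 1 (fun _ => x) IsProj.one (one_mulVec _) : Th 1 Unit) : OnePoint (Th 1 Unit)) := rfl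
  rw [hz, h3]
  congr 1
  exact Th.ext h1 h2

end geom

variable {T : Type u} [Category.{v} T] [Preadditive T] [HasZeroObject T]
    [HasShift T ℤ] [∀ n : ℤ, (shiftFunctor T n).Additive] [Pretriangulated T]
    [MonoidalCategory T] [SymmetricCategory T] [TensorTriangulated T]

instance (F : SpaceFunctor T) : HInv F.S := ⟨fun f g h => F.map_eq f g h⟩

/-- A multiplicative family of Thom classes. -/
structure ThomFam [ThFC] (M : MSys T) (F : SpaceFunctor T) (s : F.S.obj CCF ⟶ M.obj 0 1) where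
  /-- the Thom classes -/
  w (n N : ℕ) : M.H n (TO F.S n (Fin N))
  w_j (n : ℕ) {N N' : ℕ} (h : N ≤ N') :
    M.pull n (TO.j F.S n (by simpa using h)) (w n N') = w n N
  w_mul {n m k N N' K : ℕ} (h : n + m = k) (h' : N + N' ≤ K) (hk : (n : ℤ) + m = k) :
    M.pull k (TO.mul F.S h (by simpa using h')) (w k K) = M.xprod hk (w n N) (w m N')
  w_unit : M.pull 0 (TO.unit F.S (Fin 0)) (w 0 0) = M.unit
  w_one : M.pull 1 (F.S.map (FCat.hom (X := CCF) (Y := ThF 1 Unit) lineTh) ≫
    TO.j F.S (J := Fin 1) 1 (by simp)) (w 1 1) = MSys.cls 0 s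

namespace ThomFam

variable [ThFC] {M : MSys T} {F : SpaceFunctor T} {s : F.S.obj CCF ⟶ M.obj 0 1}
  (W : ThomFam M F s)

section wI

variable {n m k : ℕ} {I J K : Type} [Fintype I] [Fintype J] [Fintype K] [DecidableEq I]
  [DecidableEq J] [DecidableEq K]

/-- The Thom class of `Th n I`. -/
def wI (n : ℕ) (I : Type) [Fintype I] [DecidableEq I] : M.H n (TO F.S n I) :=
  M.pull n (TO.j F.S n (by simp)) (W.w n (Fintype.card I))

theorem wI_eq {N : ℕ} (h : Fintype.card I ≤ Fintype.card (Fin N)) :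
    M.pull n (TO.j F.S n h) (W.w n N) = W.wI n I := by
  rw [wI, ← W.w_j n (N := Fintype.card I) (N' := N) (by simpa using h), ← MSys.pull_comp, TO.j_j]

theorem pull_j_wI (h : Fintype.card I ≤ Fintype.card J) :
    M.pull n (TO.j F.S n h) (W.wI n J) = W.wI n I := by
  rw [wI, ← MSys.pull_comp, TO.j_j, W.wI_eq]

theorem pull_map_wI (u : Matrix J I ℂ) (hu : uᴴ * u = 1)
    (h : Fintype.card I ≤ Fintype.card J) :
    M.pull n (TO.map F.S n u hu) (W.wI n J) = W.wI n I := by
  rw [TO.map_eq_j F.S u hu h, W.pull_j_wI]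

theorem pull_mul_wI (h : n + m = k) (h' : Fintype.card I + Fintype.card J ≤ Fintype.card K)
    (hk : (n : ℤ) + m = k) :
    M.pull k (TO.mul F.S h h') (W.wI k K) = M.xprod hk (W.wI n I) (W.wI m J) := by
  rw [wI, ← MSys.pull_comp, TO.mul_j]
  have e : TO.mul F.S (K := Fin (Fintype.card K)) h (by simpa using h') =
      (TO.j F.S (J := Fin (Fintype.card I)) n (by simp) ⊗ₘ
        TO.j F.S (J := Fin (Fintype.card J)) m (by simp)) ≫
      TO.mul F.S (K := Fin (Fintype.card K)) h (by simpa using h') := by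
    rw [TO.j_mul]
  rw [e, MSys.pull_comp, W.w_mul h h' hk, ← MSys.xprod_pull]
  rfl

theorem pull_sum_wI (h : n + m = k) (hk : (n : ℤ) + m = k) :
    M.pull k (TO.sum F.S h) (W.wI k (I ⊕ J)) = M.xprod hk (W.wI n I) (W.wI m J) := by
  rw [← W.pull_mul_wI (K := I ⊕ J) h (by simp) hk, TO.mul, TO.j_refl, Category.comp_id]

theorem pull_unit_wI : M.pull 0 (TO.unit F.S I) (W.wI 0 I) = M.unit := by
  rw [wI, ← W.w_unit, ← W.w_j 0 (N := 0) (N' := Fintype.card I) (Nat.zero_le _)]
  have e1 := TO.unit_j F.S (I := Fin 0) (J := Fin (Fintype.card I)) (by simp)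
  have e2 := TO.unit_j F.S (I := I) (J := Fin (Fintype.card I)) (by simp)
  refine (MSys.pull_comp _ _ _).symm.trans ?_
  refine Eq.trans ?_ (MSys.pull_comp _ _ _)
  rw [e1, e2]

theorem pull_line_wI : M.pull 1 (F.S.map (FCat.hom (X := CCF) (Y := ThF 1 Unit) lineTh))
    (W.wI 1 Unit) = MSys.cls 0 s := by
  rw [← W.w_one]
  exact (MSys.pull_comp _ _ _).symm

end wI

open Classical in
/-- The Thom class of `Th n I`, for the classical decidable equality. -/
def wC (n : ℕ) (I : Type) [Fintype I] : M.H n (TO F.S n I) := W.wI n I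

theorem wC_eq (n : ℕ) (I : Type) [Fintype I] [d : DecidableEq I] : W.wC n I = W.wI n I := by
  obtain rfl : d = fun a b => Classical.propDecidable (a = b) := Subsingleton.elim _ _
  rfl

/-- The orientation defined by a multiplicative family of Thom classes. -/
def orientation (hF : CofTriangles F) (hs : M.IsSusp s) :
    Q.Orientation (theory M F hF s hs) where
  good_Th n I _ := ThFC.fc n I
  tau n I _ := umk (ThFC.fc n I) (M.tof _ n (W.wC n I))
  tau_deg n I _ := (mem_udeg (ThFC.fc n I)).mpr (MSys.tof_mem_tdeg _)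
  tau_isom {n I J _ _ hI} u hu f hf := by
    classical
    have h := eq_map_of_isIsomMap u hu f hf
    subst h
    have hc : Fintype.card I ≤ Fintype.card J := card_le_of_isom hu
    apply uev_inj (ThFC.fc n I)
    refine (uev_umap (ThFC.fc n I) (ThFC.fc n J) _ _).trans ?_
    rw [uev_umk, uev_umk, MSys.tpull_of, W.wC_eq, W.wC_eq]
    exact congrArg _ (W.pull_map_wI u hu hc)
  tau_sum {n m p} h {I J _ _} f hf := by
    classical
    have h1 := eq_sum_of_isSumMap h f hf
    subst h1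
    have hk : (n : ℤ) + m = p := by exact_mod_cast h
    apply uev_inj (fc_tensor (ThFC.fc n I) (ThFC.fc m J))
    refine (uev_umap (fc_tensor (ThFC.fc n I) (ThFC.fc m J)) (ThFC.fc p (I ⊕ J)) _ _).trans ?_
    refine Eq.trans ?_ (uev_ucross (ThFC.fc n I) (ThFC.fc m J)
      (fc_tensor (ThFC.fc n I) (ThFC.fc m J)) _ _).symm
    rw [uev_umk, uev_umk, uev_umk, MSys.tpull_of, MSys.tcross_eq hk, MSys.tpull_of, W.wC_eq,
      W.wC_eq, W.wC_eq]
    refine congrArg _ ?_
    rw [← W.pull_sum_wI h hk, ← MSys.pull_comp]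
    congr 2
    unfold TO.sum
    exact (Functor.Monoidal.δ_μ_assoc F.S (ThF n I) (ThF m J)
      (F.S.map (FCat.hom (X := ThF n I ⊗ ThF m J) (Y := ThF p (I ⊕ J)) (Th.sum h)))).symm
  tau_zero {I _} f hf := by
    classical
    have h := eq_unit_of_isPairMap f hf
    subst h
    apply uev_inj fc_unit
    refine (uev_umap fc_unit (ThFC.fc 0 I) _ _).trans ?_
    have e1 : uev fc_unit (theory M F hF s hs).one = M.tpull (η F.S) M.tone := rfl
    rw [uev_umk, e1, MSys.tpull_of, MSys.tone, MSys.tpull_of, W.wC_eq]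
    refine congrArg _ ?_
    rw [← W.pull_unit_wI (I := I)]
    refine Eq.trans ?_ (MSys.pull_comp _ _ _)
    congr 2
    unfold TO.unit
    exact (Functor.Monoidal.η_ε_assoc F.S _).symm
  tau_one f hf := by
    classical
    have h := eq_lineTh_of_isPairMap f hf
    subst h
    apply uev_inj fcCC
    refine (uev_umap fcCC (ThFC.fc 1 Unit) _ _).trans ?_
    have e1 : uev fcCC (theory M F hF s hs).sg = M.tof _ 1 (MSys.cls 0 s) := rfl
    rw [uev_umk, e1, MSys.tpull_of, W.wC_eq]
    refine congrArg _ ?_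
    exact W.pull_line_wI

theorem uev_tau (hF : CofTriangles F) (hs : M.IsSusp s) (n : ℕ) (I : Type) [Fintype I]
    [DecidableEq I] : uev (ThFC.fc n I) ((W.orientation hF hs).tau n I) =
      M.tof _ n (W.wI n I) := by
  rw [← W.wC_eq]
  rfl

end ThomFam

end Vale.Agent.P251.M
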