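import Mathlib.CategoryTheory.Monoidal.Braided.Basic
import Mathlib.CategoryTheory.Monoidal.CoherenceLemmas
import Mathlib.Tactic.CategoryTheory.Monoidal.Basic
import Mathlib.Algebra.Group.Hom.Defs
import Mathlib.Algebra.Group.Prod
import Mathlib.Tactic

/-!
# P251, part M: commutative graded systems

`CommSys C J` : a family of objects `X j` (`j : J`, an additive commutative monoid) of a symmetric
monoidal category `C` with products `X i ⊗ X j ⟶ X k` for every `h : i + j = k` (no casts), unital,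
associative and commutative; i.e. a lax symmetric monoidal functor from the discrete category `J`.
Elements `𝟙_ C ⟶ X j` act by multiplication.
-/

open CategoryTheory MonoidalCategory

universe v u

namespace Vale.Agent.P251.M

/-- A commutative graded system in a symmetric monoidal category. -/
structure CommSys (C : Type u) [Category.{v} C] [MonoidalCategory C] [SymmetricCategory C]
    (J : Type) [AddCommMonoid J] where
  /-- the objects -/
  X : J → C
  /-- the unit -/
  one : 𝟙_ C ⟶ X 0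
  /-- the product -/
  mul {i j k : J} (h : i + j = k) : X i ⊗ X j ⟶ X k
  one_mul (j : J) : (one ▷ X j) ≫ mul (zero_add j) = (λ_ (X j)).hom
  mul_assoc {i j k a b c : J} (h₁ : i + j = a) (h₂ : a + k = b) (h₃ : j + k = c)
    (h₄ : i + c = b) :
    (mul h₁ ▷ X k) ≫ mul h₂ = (α_ (X i) (X j) (X k)).hom ≫ (X i ◁ mul h₃) ≫ mul h₄
  mul_comm {i j k : J} (h : i + j = k) (h' : j + i = k) :
    (β_ (X i) (X j)).hom ≫ mul h' = mul h

namespace CommSys

variable {C : Type u} [Category.{v} C] [MonoidalCategory C] [SymmetricCategory C]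
variable {J K L : Type} [AddCommMonoid J] [AddCommMonoid K] [AddCommMonoid L]

attribute [reassoc (attr := simp)] one_mul
attribute [reassoc] mul_assoc mul_comm

section basic

variable (S : CommSys C J)

@[reassoc (attr := simp)]
theorem mul_one (j : J) : (S.X j ◁ S.one) ≫ S.mul (add_zero j) = (ρ_ (S.X j)).hom := by
  rw [← S.mul_comm (add_zero j) (zero_add j), ← Category.assoc,
    BraidedCategory.braiding_naturality_right, Category.assoc, S.one_mul, braiding_leftUnitor]

/-- the unit, at an index equal to zero -/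
def one' {z : J} (h : 0 = z) : 𝟙_ C ⟶ S.X z := h ▸ S.one

@[simp] theorem one'_rfl : S.one' rfl = S.one := rfl

@[reassoc]
theorem one'_mul {z j : J} (h : 0 = z) (h' : z + j = j) :
    (S.one' h ▷ S.X j) ≫ S.mul h' = (λ_ (S.X j)).hom := by
  subst h; exact S.one_mul j

@[reassoc]
theorem mul_one' {z j : J} (h : 0 = z) (h' : j + z = j) :
    (S.X j ◁ S.one' h) ≫ S.mul h' = (ρ_ (S.X j)).hom := by
  subst h; exact S.mul_one j

/-- product of two elements -/
def em {i j k : J} (x : 𝟙_ C ⟶ S.X i) (y : 𝟙_ C ⟶ S.X j) (h : i + j = k) : 𝟙_ C ⟶ S.X k :=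
  (λ_ (𝟙_ C)).inv ≫ (x ⊗ₘ y) ≫ S.mul h

/-- multiplication by an element (on the left) -/
def act {i m n : J} (x : 𝟙_ C ⟶ S.X i) (h : i + m = n) : S.X m ⟶ S.X n :=
  (λ_ (S.X m)).inv ≫ (x ▷ S.X m) ≫ S.mul h

theorem em_comm {i j k : J} (x : 𝟙_ C ⟶ S.X i) (y : 𝟙_ C ⟶ S.X j) (h : i + j = k)
    (h' : j + i = k) : S.em x y h = S.em y x h' := by
  unfold em
  rw [← S.mul_comm h h', ← Category.assoc (x ⊗ₘ y), BraidedCategory.braiding_naturality,
    Category.assoc, braiding_tensorUnit_left]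
  simp [unitors_equal]

theorem comp_act {i m n : J} (x : 𝟙_ C ⟶ S.X i) (y : 𝟙_ C ⟶ S.X m) (h : i + m = n) :
    y ≫ S.act x h = S.em x y h := by
  unfold act em
  rw [← Category.assoc, leftUnitor_inv_naturality, Category.assoc, ← Category.assoc _ _ (S.mul h)]
  congr 1
  rw [← tensorHom_def']

@[simp]
theorem act_one (m : J) : S.act S.one (zero_add m) = 𝟙 (S.X m) := by
  unfold act
  rw [S.one_mul, Iso.inv_hom_id]

theorem act_one' {z m : J} (h : 0 = z) (h' : z + m = m) : S.act (S.one' h) h' = 𝟙 (S.X m) := by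
  subst h; exact S.act_one m

/-- multiplication by an element commutes with products (left factor) -/
@[reassoc]
theorem act_whiskerRight_mul {i m n k p q : J} (x : 𝟙_ C ⟶ S.X i) (h : i + m = n)
    (h₂ : n + k = p) (h₃ : m + k = q) (h₄ : i + q = p) :
    (S.act x h ▷ S.X k) ≫ S.mul h₂ = S.mul h₃ ≫ S.act x h₄ := by
  unfold act
  rw [comp_whiskerRight, comp_whiskerRight, Category.assoc, Category.assoc,
    S.mul_assoc h h₂ h₃ h₄, associator_naturality_left_assoc, ← Category.assoc (S.mul h₃),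
    leftUnitor_inv_naturality, Category.assoc, leftUnitor_tensor_inv, whisker_exchange_assoc]
  simp

/-- multiplication by an element commutes with products (right factor) -/
@[reassoc]
theorem whiskerLeft_act_mul {i m n k p q : J} (x : 𝟙_ C ⟶ S.X i) (h : i + m = n)
    (h₂ : k + n = p) (h₃ : k + m = q) (h₄ : i + q = p) :
    (S.X k ◁ S.act x h) ≫ S.mul h₂ = S.mul h₃ ≫ S.act x h₄ := by
  rw [← S.mul_comm h₂ ((add_comm n k).trans h₂), ← S.mul_comm h₃ ((add_comm m k).trans h₃),
    BraidedCategory.braiding_naturality_right_assoc,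
    S.act_whiskerRight_mul x h _ ((add_comm m k).trans h₃) h₄, Category.assoc]

/-- composition of two multiplications -/
@[reassoc]
theorem act_act {i j k m n p : J} (x : 𝟙_ C ⟶ S.X i) (y : 𝟙_ C ⟶ S.X j) (h : i + m = n)
    (h' : j + n = p) (h₂ : j + i = k) (h₃ : k + m = p) :
    S.act x h ≫ S.act y h' = S.act (S.em y x h₂) h₃ := by
  have e1 : S.act x h ≫ S.act y h' = (λ_ (S.X m)).inv ≫ (λ_ (𝟙_ C ⊗ S.X m)).inv ≫
      (𝟙_ C ◁ (x ▷ S.X m)) ≫ (𝟙_ C ◁ S.mul h) ≫ (y ▷ S.X n) ≫ S.mul h' := by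
    unfold act
    rw [Category.assoc, Category.assoc, leftUnitor_inv_naturality_assoc,
      leftUnitor_inv_naturality_assoc]
  have e2 : S.act (S.em y x h₂) h₃ = (λ_ (S.X m)).inv ≫ ((λ_ (𝟙_ C)).inv ▷ S.X m) ≫
      ((y ▷ 𝟙_ C) ▷ S.X m) ≫ ((S.X j ◁ x) ▷ S.X m) ≫ (α_ _ _ _).hom ≫ (S.X j ◁ S.mul h) ≫
        S.mul h' := by
    unfold act em
    rw [comp_whiskerRight, comp_whiskerRight, Category.assoc, Category.assoc,
      S.mul_assoc h₂ h₃ h h', tensorHom_def, comp_whiskerRight, Category.assoc]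
  rw [e1, e2, whisker_exchange_assoc, whisker_exchange_assoc]
  simp only [associator_naturality_middle_assoc, associator_naturality_left_assoc]
  simp

theorem em_assoc {i j k a b c : J} (x : 𝟙_ C ⟶ S.X i) (y : 𝟙_ C ⟶ S.X j) (z : 𝟙_ C ⟶ S.X k)
    (h₁ : i + j = a) (h₂ : a + k = b) (h₃ : j + k = c) (h₄ : i + c = b) :
    S.em (S.em x y h₁) z h₂ = S.em x (S.em y z h₃) h₄ := by
  rw [← S.comp_act x _ h₄, ← S.comp_act (S.em x y h₁) z h₂, ← S.comp_act y z h₃, Category.assoc,
    S.act_act y x h₃ h₄ h₁ h₂]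

theorem one_em {i : J} (x : 𝟙_ C ⟶ S.X i) : S.em S.one x (zero_add i) = x := by
  rw [← S.comp_act, S.act_one, Category.comp_id]

theorem em_one {i : J} (x : 𝟙_ C ⟶ S.X i) : S.em x S.one (add_zero i) = x := by
  rw [S.em_comm _ _ _ (zero_add i), S.one_em]

theorem one'_em_one' {a b c : J} (ha : 0 = a) (hb : 0 = b) (hc : 0 = c) (h : a + b = c) :
    S.em (S.one' ha) (S.one' hb) h = S.one' hc := by
  subst ha hb hc; exact S.one_em _

theorem one'_em {z i : J} (hz : 0 = z) (x : 𝟙_ C ⟶ S.X i) (h : z + i = i) :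
    S.em (S.one' hz) x h = x := by
  subst hz; exact S.one_em x

end basic

/-! ### Morphisms, pull back, tensor product -/

/-- Morphisms of commutative graded systems. -/
structure Hom (S S' : CommSys C J) where
  /-- the components -/
  app (j : J) : S.X j ⟶ S'.X j
  app_one : S.one ≫ app 0 = S'.one
  app_mul {i j k : J} (h : i + j = k) : S.mul h ≫ app k = (app i ⊗ₘ app j) ≫ S'.mul h

attribute [reassoc] Hom.app_one Hom.app_mul

namespace Hom

variable {S S' S'' : CommSys C J}

/-- the identity -/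
def id (S : CommSys C J) : Hom S S where
  app j := 𝟙 _
  app_one := by simp
  app_mul := by simp

/-- composition -/
def comp (f : Hom S S') (g : Hom S' S'') : Hom S S'' where
  app j := f.app j ≫ g.app j
  app_one := by rw [f.app_one_assoc, g.app_one]
  app_mul h := by rw [f.app_mul_assoc, g.app_mul, ← tensorHom_comp_tensorHom, Category.assoc]

theorem app_one' (f : Hom S S') {z : J} (h : 0 = z) : S.one' h ≫ f.app z = S'.one' h := by
  subst h; exact f.app_one

theorem em_app (f : Hom S S') {i j k : J} (x : 𝟙_ C ⟶ S.X i) (y : 𝟙_ C ⟶ S.X j)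
    (h : i + j = k) : S.em x y h ≫ f.app k = S'.em (x ≫ f.app i) (y ≫ f.app j) h := by
  unfold em
  rw [Category.assoc, Category.assoc, f.app_mul, ← tensorHom_comp_tensorHom, Category.assoc]

@[reassoc]
theorem act_app (f : Hom S S') {i m n : J} (x : 𝟙_ C ⟶ S.X i) (h : i + m = n) :
    S.act x h ≫ f.app n = f.app m ≫ S'.act (x ≫ f.app i) h := by
  unfold act
  rw [Category.assoc, Category.assoc, f.app_mul, leftUnitor_inv_naturality_assoc,
    comp_whiskerRight, Category.assoc, tensorHom_def, Category.assoc, whisker_exchange_assoc,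
    whisker_exchange_assoc]

end Hom

/-- Pull back along a homomorphism of the index monoids. -/
abbrev comap (S : CommSys C K) (f : J →+ K) : CommSys C J where
  X j := S.X (f j)
  one := S.one' (map_zero f).symm
  mul h := S.mul (by rw [← map_add, h])
  one_mul j := S.one'_mul _ _
  mul_assoc h₁ h₂ h₃ h₄ := S.mul_assoc _ _ _ _
  mul_comm h h' := S.mul_comm _ _

@[simp] theorem comap_X (S : CommSys C K) (f : J →+ K) (j : J) : (S.comap f).X j = S.X (f j) := rfl

theorem comap_one' (S : CommSys C K) (f : J →+ K) {z : J} (h : 0 = z) :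
    (S.comap f).one' h = S.one' ((map_zero f).symm.trans (congrArg f h)) := by
  subst h; rfl

theorem comap_mul (S : CommSys C K) (f : J →+ K) {i j k : J} (h : i + j = k) :
    (S.comap f).mul h = S.mul (i := f i) (j := f j) (k := f k) (by rw [← map_add, h]) := rfl

theorem comap_em (S : CommSys C K) (f : J →+ K) {i j k : J} (x : 𝟙_ C ⟶ S.X (f i))
    (y : 𝟙_ C ⟶ S.X (f j)) (h : i + j = k) :
    (S.comap f).em (i := i) (j := j) x y h = S.em x y (by rw [← map_add, h]) := rfl

theorem comap_act (S : CommSys C K) (f : J →+ K) {i m n : J} (x : 𝟙_ C ⟶ S.X (f i))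
    (h : i + m = n) :
    (S.comap f).act (i := i) (m := m) x h = S.act x (by rw [← map_add, h]) := rfl

section tensor

@[reassoc]
theorem braiding_tensorμ (X₁ X₂ Y₁ Y₂ : C) :
    (β_ (X₁ ⊗ X₂) (Y₁ ⊗ Y₂)).hom ≫ tensorμ Y₁ Y₂ X₁ X₂ =
      tensorμ X₁ X₂ Y₁ Y₂ ≫ ((β_ X₁ Y₁).hom ⊗ₘ (β_ X₂ Y₂).hom) := by
  simp [tensorμ, SymmetricCategory.braiding_swap_eq_inv_braiding X₁ Y₂, tensorHom_def]

/-- The tensor product of two systems. -/
abbrev tensor (S S' : CommSys C J) : CommSys C J where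
  X j := S.X j ⊗ S'.X j
  one := (λ_ (𝟙_ C)).inv ≫ (S.one ⊗ₘ S'.one)
  mul h := tensorμ _ _ _ _ ≫ (S.mul h ⊗ₘ S'.mul h)
  one_mul j := by
    rw [comp_whiskerRight, Category.assoc, ← Category.assoc (_ ▷ _) (tensorμ _ _ _ _),
      tensorμ_natural_left, Category.assoc, tensorHom_comp_tensorHom, S.one_mul, S'.one_mul,
      ← tensor_left_unitality]
  mul_assoc {i j k a b c} h₁ h₂ h₃ h₄ := by
    rw [comp_whiskerRight, Category.assoc, ← Category.assoc (_ ▷ _) (tensorμ _ _ _ _),
      tensorμ_natural_left, Category.assoc, tensorHom_comp_tensorHom, S.mul_assoc h₁ h₂ h₃ h₄,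
      S'.mul_assoc h₁ h₂ h₃ h₄, ← tensorHom_comp_tensorHom, ← tensorHom_comp_tensorHom,
      tensor_associativity_assoc, whiskerLeft_comp, Category.assoc,
      ← Category.assoc (_ ◁ _) (tensorμ _ _ _ _) (S.mul h₄ ⊗ₘ S'.mul h₄), tensorμ_natural_right,
      Category.assoc]
  mul_comm h h' := by
    rw [braiding_tensorμ_assoc, tensorHom_comp_tensorHom, S.mul_comm h h', S'.mul_comm h h']

variable (S S' : CommSys C J)

@[simp] theorem tensor_X (j : J) : (S.tensor S').X j = S.X j ⊗ S'.X j := rfl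

theorem tensor_one : (S.tensor S').one = (λ_ (𝟙_ C)).inv ≫ (S.one ⊗ₘ S'.one) := rfl

theorem tensor_mul {i j k : J} (h : i + j = k) :
    (S.tensor S').mul h = tensorμ _ _ _ _ ≫ (S.mul h ⊗ₘ S'.mul h) := rfl

theorem tensor_one' {z : J} (h : 0 = z) :
    (S.tensor S').one' h = (λ_ (𝟙_ C)).inv ≫ (S.one' h ⊗ₘ S'.one' h) := by
  subst h; rfl

/-- exterior product of elements -/
def ext {j : J} (x : 𝟙_ C ⟶ S.X j) (y : 𝟙_ C ⟶ S'.X j) : 𝟙_ C ⟶ (S.tensor S').X j :=
  (λ_ (𝟙_ C)).inv ≫ (x ⊗ₘ y)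

theorem ext_em {i j k : J} (x : 𝟙_ C ⟶ S.X i) (y : 𝟙_ C ⟶ S'.X i) (x' : 𝟙_ C ⟶ S.X j)
    (y' : 𝟙_ C ⟶ S'.X j) (h : i + j = k) :
    (S.tensor S').em (ext S S' x y) (ext S S' x' y') h =
      ext S S' (S.em x x' h) (S'.em y y' h) := by
  change (λ_ (𝟙_ C)).inv ≫ (((λ_ (𝟙_ C)).inv ≫ (x ⊗ₘ y)) ⊗ₘ ((λ_ (𝟙_ C)).inv ≫ (x' ⊗ₘ y'))) ≫
    tensorμ _ _ _ _ ≫ (S.mul h ⊗ₘ S'.mul h) =
    (λ_ (𝟙_ C)).inv ≫ (((λ_ (𝟙_ C)).inv ≫ (x ⊗ₘ x') ≫ S.mul h) ⊗ₘ
      ((λ_ (𝟙_ C)).inv ≫ (y ⊗ₘ y') ≫ S'.mul h))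
  rw [← tensorHom_comp_tensorHom, Category.assoc,
    ← Category.assoc (_ ⊗ₘ _) (tensorμ _ _ _ _), tensorμ_natural]
  have h1 : tensorμ (𝟙_ C) (𝟙_ C) (𝟙_ C) (𝟙_ C) = 𝟙 _ := by
    have : (β_ (𝟙_ C) (𝟙_ C)).hom = 𝟙 _ := by
      rw [braiding_tensorUnit_left, unitors_equal, Iso.hom_inv_id]
    simp [tensorμ, this]
  simp only [h1, Category.id_comp, ← tensorHom_comp_tensorHom]

end tensor

/-! ### The trivial system and structural morphisms -/

/-- the constant system `𝟙_ C` -/
abbrev triv (C : Type u) [Category.{v} C] [MonoidalCategory C] [SymmetricCategory C] (J : Type)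
    [AddCommMonoid J] : CommSys C J where
  X _ := 𝟙_ C
  one := 𝟙 _
  mul _ := (λ_ (𝟙_ C)).hom
  one_mul _ := by simp
  mul_assoc _ _ _ _ := by simp [unitors_equal]
  mul_comm _ _ := by rw [braiding_leftUnitor, unitors_equal]

@[simp] theorem triv_X (j : J) : (triv C J).X j = 𝟙_ C := rfl

namespace Hom

/-- pull back of a morphism of systems -/
def comap {S S' : CommSys C K} (f : Hom S S') (g : J →+ K) : Hom (S.comap g) (S'.comap g) where
  app j := f.app (g j)
  app_one := f.app_one' _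
  app_mul _ := f.app_mul _

/-- tensor product of morphisms of systems -/
def tensor {S S' R R' : CommSys C J} (f : Hom S S') (g : Hom R R') :
    Hom (S.tensor R) (S'.tensor R') where
  app j := f.app j ⊗ₘ g.app j
  app_one := by
    dsimp only
    rw [Category.assoc, tensorHom_comp_tensorHom, f.app_one, g.app_one]
  app_mul h := by
    dsimp only
    rw [Category.assoc, tensorHom_comp_tensorHom, f.app_mul, g.app_mul,
      ← tensorHom_comp_tensorHom, ← Category.assoc (_ ⊗ₘ _) (tensorμ _ _ _ _), tensorμ_natural,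
      Category.assoc]

@[reassoc]
theorem tensorμ_braiding (X₁ X₂ Y₁ Y₂ : C) :
    tensorμ X₁ X₂ Y₁ Y₂ ≫ (β_ (X₁ ⊗ Y₁) (X₂ ⊗ Y₂)).hom =
      ((β_ X₁ X₂).hom ⊗ₘ (β_ Y₁ Y₂).hom) ≫ tensorμ X₂ X₁ Y₂ Y₁ := by
  simp [tensorμ, SymmetricCategory.braiding_swap_eq_inv_braiding Y₁ X₂, tensorHom_def]

/-- the braiding of two systems -/
def braid (S S' : CommSys C J) : Hom (S.tensor S') (S'.tensor S) where
  app j := (β_ (S.X j) (S'.X j)).hom
  app_one := by
    dsimp only
    rw [Category.assoc, BraidedCategory.braiding_naturality, braiding_tensorUnit_left,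
      Category.assoc, Iso.inv_hom_id_assoc, ← unitors_inv_equal]
  app_mul h := by
    dsimp only
    rw [Category.assoc, BraidedCategory.braiding_naturality, tensorμ_braiding_assoc]

/-- the associator of three systems -/
def assoc (S S' S'' : CommSys C J) :
    Hom ((S.tensor S').tensor S'') (S.tensor (S'.tensor S'')) where
  app j := (α_ (S.X j) (S'.X j) (S''.X j)).hom
  app_one := by
    dsimp only
    have e1 : ((λ_ (𝟙_ C)).inv ≫ (S.one ⊗ₘ S'.one)) ⊗ₘ S''.one =
        ((λ_ (𝟙_ C)).inv ▷ 𝟙_ C) ≫ ((S.one ⊗ₘ S'.one) ⊗ₘ S''.one) := by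
      rw [← tensorHom_id, tensorHom_comp_tensorHom, Category.id_comp]
    have e2 : S.one ⊗ₘ ((λ_ (𝟙_ C)).inv ≫ (S'.one ⊗ₘ S''.one)) =
        (𝟙_ C ◁ (λ_ (𝟙_ C)).inv) ≫ (S.one ⊗ₘ (S'.one ⊗ₘ S''.one)) := by
      rw [← id_tensorHom, tensorHom_comp_tensorHom, Category.id_comp]
    have e3 : (λ_ (𝟙_ C)).inv ≫ ((λ_ (𝟙_ C)).inv ▷ 𝟙_ C) ≫ (α_ (𝟙_ C) (𝟙_ C) (𝟙_ C)).hom =
        (λ_ (𝟙_ C)).inv ≫ (𝟙_ C ◁ (λ_ (𝟙_ C)).inv) := by
      monoidal
    rw [e1, e2, Category.assoc, Category.assoc, associator_naturality, reassoc_of% e3]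
  app_mul h := by
    dsimp only
    have e1 : (tensorμ _ _ _ _ ≫ (S.mul h ⊗ₘ S'.mul h)) ⊗ₘ S''.mul h =
        (tensorμ _ _ _ _ ▷ _) ≫ ((S.mul h ⊗ₘ S'.mul h) ⊗ₘ S''.mul h) := by
      rw [← tensorHom_id, tensorHom_comp_tensorHom, Category.id_comp]
    have e2 : S.mul h ⊗ₘ (tensorμ _ _ _ _ ≫ (S'.mul h ⊗ₘ S''.mul h)) =
        (_ ◁ tensorμ _ _ _ _) ≫ (S.mul h ⊗ₘ (S'.mul h ⊗ₘ S''.mul h)) := by
      rw [← id_tensorHom, tensorHom_comp_tensorHom, Category.id_comp]
    rw [e1, e2, Category.assoc, Category.assoc, associator_naturality,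
      associator_monoidal_assoc]

/-- inverse of a morphism of systems whose components are invertible -/
def inv {S S' : CommSys C J} (f : Hom S S') (g : ∀ j, S'.X j ⟶ S.X j)
    (h₁ : ∀ j, f.app j ≫ g j = 𝟙 _) (h₂ : ∀ j, g j ≫ f.app j = 𝟙 _) : Hom S' S where
  app := g
  app_one := by rw [← f.app_one, Category.assoc, h₁, Category.comp_id]
  app_mul {i j k} h := by
    have e : (g i ⊗ₘ g j) ≫ (f.app i ⊗ₘ f.app j) = 𝟙 _ := by
      rw [tensorHom_comp_tensorHom, h₂, h₂, id_tensorHom_id]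
    rw [← Category.id_comp (S'.mul h ≫ g k), ← e, Category.assoc,
      ← Category.assoc (f.app i ⊗ₘ f.app j), ← f.app_mul, Category.assoc, h₁, Category.comp_id]

/-- the left unitor -/
def leftUnitor (S : CommSys C J) : Hom ((triv C J).tensor S) S where
  app j := (λ_ (S.X j)).hom
  app_one := by
    dsimp only
    rw [tensorHom_def', Category.assoc, Category.assoc, id_whiskerRight, Category.id_comp,
      leftUnitor_naturality, Iso.inv_hom_id_assoc]
  app_mul h := by
    dsimp only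
    rw [leftUnitor_monoidal, Category.assoc, Category.assoc, tensorHom_def, Category.assoc,
      leftUnitor_naturality, Category.assoc]

/-- the inverse of the left unitor -/
def leftUnitorInv (S : CommSys C J) : Hom S ((triv C J).tensor S) :=
  (leftUnitor S).inv (fun j => (λ_ (S.X j)).inv) (fun _ => Iso.hom_inv_id _)
    (fun _ => Iso.inv_hom_id _)

/-- the inverse of the associator -/
def assocInv (S S' S'' : CommSys C J) :
    Hom (S.tensor (S'.tensor S'')) ((S.tensor S').tensor S'') :=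
  (assoc S S' S'').inv (fun j => (α_ (S.X j) (S'.X j) (S''.X j)).inv)
    (fun _ => Iso.hom_inv_id _) (fun _ => Iso.inv_hom_id _)

end Hom

/-! ### Multiplicative families of elements -/

section fam

variable {S : CommSys C J} {deg : K →+ J}

/-- A multiplicative family of elements `e k : 𝟙_ C ⟶ X (deg k)`: a morphism from the trivial
system. -/
abbrev Fam (S : CommSys C J) (deg : K →+ J) := Hom (triv C K) (S.comap deg)

/-- the elements of a family -/
def Fam.e (x : Fam S deg) (k : K) : 𝟙_ C ⟶ S.X (deg k) := x.app k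

theorem Fam.e_zero (x : Fam S deg) : x.e 0 = S.one' (map_zero deg).symm := by
  have := x.app_one
  dsimp only at this
  rw [Category.id_comp] at this
  exact this

theorem Fam.e_add (x : Fam S deg) {k l m : K} (h : k + l = m) :
    S.em (x.e k) (x.e l) ((map_add deg k l).symm.trans (congrArg deg h)) = x.e m := by
  have := x.app_mul h
  dsimp only at this
  unfold em
  rw [Iso.inv_comp_eq]
  exact this.symm

/-- Multiplication by a multiplicative family, as a morphism of systems. -/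
def Fam.actHom (x : Fam S deg) (f g : K →+ J) (hg : ∀ k, deg k + f k = g k) :
    Hom (S.comap f) (S.comap g) where
  app k := S.act (x.e k) (hg k)
  app_one := by
    dsimp only
    rw [x.e_zero, S.comp_act]
    exact S.one'_em_one' _ _ _ _
  app_mul {i j k} h := by
    dsimp only
    have hf : f i + f j = f k := (map_add f i j).symm.trans (congrArg f h)
    have hgk : g i + g j = g k := (map_add g i j).symm.trans (congrArg g h)
    have hd : deg i + deg j = deg k := (map_add deg i j).symm.trans (congrArg deg h)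
    have h1 : deg j + (g i + f j) = g k := by
      rw [← hgk, ← hg j]; abel
    have h2 : deg i + f k = g i + f j := by
      rw [← hf, ← hg i]; abel
    rw [tensorHom_def, Category.assoc, S.whiskerLeft_act_mul (x.e j) (hg j) hgk rfl h1,
      S.act_whiskerRight_mul_assoc (x.e i) (hg i) rfl hf h2,
      S.act_act (x.e i) (x.e j) h2 h1 ((add_comm _ _).trans hd) (hg k),
      ← x.e_add ((add_comm j i).trans h)]

end fam

end CommSys

end Vale.Agent.P251.M
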