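import Vale.Agent.P251.G.Isom
import Vale.Agent.P251.I.Spaces
import Vale.Agent.P251.M.CommSys

/-!
# P251, part M: Thom objects in `T`

Let `F : FCat ⥤ T` be a homotopy invariant lax braided functor (e.g. a suspension spectrum functor),
and assume that the spaces `Th n I` are finite cell spaces (`ThFC`).  Then

* `TO F n I = F (Th n I)`, `TO.map` for isometries, all equal (`TO.j`);
* `TO.sum : TO n I ⊗ TO m J ⟶ TO (n+m) (I ⊕ J)`, `TO.mul : TO n I ⊗ TO m J ⟶ TO k K` for
  `n + m = k`, `|I| + |J| ≤ |K|`;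
* `TO.sys : CommSys T (ℕ × ℕ)` with objects `TO n (Fin N)`.
-/

open CategoryTheory MonoidalCategory Functor.LaxMonoidal

universe v u

set_option linter.unusedSectionVars false

namespace Vale.Agent.P251.M

open G G.LC I

/-- The Thom spaces `Th n I` are finite cell spaces. -/
class ThFC : Prop where
  fc (n : ℕ) (I : Type) [Fintype I] : LC.FC (LC.of (Th n I))

/-- the Thom space as a finite cell space -/
abbrev ThF [ThFC] (n : ℕ) (I : Type) [Fintype I] : FCat := ⟨LC.of (Th n I), ThFC.fc n I⟩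

/-- Homotopy invariance of a functor on finite cell spaces. -/
class HInv {T : Type u} [Category.{v} T] (F : FCat ⥤ T) : Prop where
  map_eq {X Y : FCat} (f g : X ⟶ Y) : Homotopic f.hom g.hom → F.map f = F.map g

section

variable {T : Type u} [Category.{v} T] [MonoidalCategory T] [SymmetricCategory T]
variable [ThFC] (F : FCat ⥤ T) [HInv F] [F.LaxBraided]
variable {n m k : ℕ} {I J K L : Type} [Fintype I] [Fintype J] [Fintype K] [Fintype L]
  [DecidableEq I] [DecidableEq J] [DecidableEq K] [DecidableEq L]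

/-- the Thom object -/
abbrev TO (n : ℕ) (I : Type) [Fintype I] : T := F.obj (ThF n I)

namespace TO

/-- the map induced by an isometry -/
def map (n : ℕ) (u : Matrix J I ℂ) (hu : u.conjTranspose * u = 1) : TO F n I ⟶ TO F n J :=
  F.map (FCat.hom (Th.map u hu))

theorem map_eq_map (u u' : Matrix J I ℂ) (hu : u.conjTranspose * u = 1)
    (hu' : u'.conjTranspose * u' = 1) : map F n u hu = map F n u' hu' :=
  HInv.map_eq _ _ (Th.map_homotopic_map u u' hu hu')

@[reassoc]
theorem map_comp (u : Matrix J I ℂ) (hu : u.conjTranspose * u = 1) (w : Matrix K J ℂ)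
    (hw : w.conjTranspose * w = 1) :
    map F n u hu ≫ map F n w hw = map F n (w * u) (isom_mul hw hu) := by
  unfold map
  rw [← F.map_comp]
  congr 1
  ext1
  exact Th.map_comp u hu w hw

theorem map_one : map F n (1 : Matrix I I ℂ) isom_one = 𝟙 _ := by
  unfold map
  rw [← F.map_id]
  congr 1
  ext1
  exact Th.map_one

theorem exists_isom (h : Fintype.card I ≤ Fintype.card J) :
    ∃ u : Matrix J I ℂ, u.conjTranspose * u = 1 := by
  obtain ⟨f⟩ := Function.Embedding.nonempty_of_card_le h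
  exact ⟨injMat f, injMat_isom f.injective⟩

/-- the map `TO n I ⟶ TO n J` for `|I| ≤ |J|` -/
noncomputable def j (n : ℕ) (h : Fintype.card I ≤ Fintype.card J) : TO F n I ⟶ TO F n J :=
  map F n (exists_isom h).choose (exists_isom h).choose_spec

theorem map_eq_j (u : Matrix J I ℂ) (hu : u.conjTranspose * u = 1)
    (h : Fintype.card I ≤ Fintype.card J) : map F n u hu = j F n h :=
  map_eq_map F _ _ _ _

@[simp] theorem j_refl (h : Fintype.card I ≤ Fintype.card I) : j F n h = 𝟙 (TO F n I) := by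
  rw [← map_one, ← map_eq_j F 1 isom_one]

@[reassoc (attr := simp)]
theorem j_j (h : Fintype.card I ≤ Fintype.card J) (h' : Fintype.card J ≤ Fintype.card K) :
    j F n h ≫ j F n h' = j F n (h.trans h') := by
  unfold j
  rw [map_comp]
  exact map_eq_map F _ _ _ _

/-- the unit -/
def unit (I : Type) [Fintype I] : 𝟙_ T ⟶ TO F 0 I :=
  ε F ≫ F.map (FCat.hom (X := 𝟙_ FCat) (Y := ThF 0 I) (Th.unit I))

@[reassoc (attr := simp)]
theorem unit_j (h : Fintype.card I ≤ Fintype.card J) : unit F I ≫ j F 0 h = unit F J := by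
  unfold unit j map
  rw [Category.assoc, ← F.map_comp]
  congr 2
  ext1
  exact Th.unit_map _ _

/-- the direct sum -/
def sum (h : n + m = k) : TO F n I ⊗ TO F m J ⟶ TO F k (I ⊕ J) :=
  μ F (ThF n I) (ThF m J) ≫ F.map (FCat.hom (X := ThF n I ⊗ ThF m J) (Th.sum h))

theorem map_sum (h : n + m = k) (u : Matrix K I ℂ) (hu : u.conjTranspose * u = 1)
    (w : Matrix L J ℂ) (hw : w.conjTranspose * w = 1) :
    (map F n u hu ⊗ₘ map F m w hw) ≫ sum F h =
      sum F h ≫ map F k (Matrix.fromBlocks u 0 0 w) (isom_fromBlocks hu hw) := by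
  unfold sum map
  rw [μ_natural_assoc, Category.assoc, ← F.map_comp, ← F.map_comp]
  congr 2
  ext1
  exact Th.sum_naturality h u hu w hw

@[reassoc]
theorem j_sum (h : n + m = k) (h₁ : Fintype.card I ≤ Fintype.card K)
    (h₂ : Fintype.card J ≤ Fintype.card L)
    (h₃ : Fintype.card (I ⊕ J) ≤ Fintype.card (K ⊕ L)) :
    (j F n h₁ ⊗ₘ j F m h₂) ≫ sum F h = sum F h ≫ j F k h₃ := by
  unfold j
  rw [map_sum]
  congr 1
  exact map_eq_map F _ _ _ _

@[reassoc]
theorem sum_assoc {a b c ab bc abc : ℕ} (h1 : a + b = ab) (h2 : ab + c = abc) (h3 : b + c = bc)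
    (h4 : a + bc = abc) :
    (sum F h1 ▷ TO F c K) ≫ sum F h2 ≫ j F abc (by simp [add_assoc]) =
      (α_ (TO F a I) (TO F b J) (TO F c K)).hom ≫ (TO F a I ◁ sum F h3) ≫ sum F h4 := by
  rw [← map_eq_j F (injMat (Equiv.sumAssoc I J K)) (injMat_isom (Equiv.injective _))]
  unfold sum map
  rw [comp_whiskerRight, whiskerLeft_comp]
  simp only [Category.assoc]
  rw [μ_natural_left_assoc, μ_natural_right_assoc, ← associativity_assoc, ← F.map_comp,
    ← F.map_comp, ← F.map_comp, ← F.map_comp]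
  congr 3
  ext1
  exact Th.sum_assoc h1 h2 h3 h4

@[reassoc]
theorem sum_comm (h : n + m = k) (h' : m + n = k) :
    sum F h ≫ j F k (by simp [add_comm]) =
      (β_ (TO F n I) (TO F m J)).hom ≫ sum F h' := by
  rw [← map_eq_j F (injMat (Equiv.sumComm I J)) (injMat_isom (Equiv.injective _))]
  unfold sum map
  rw [← Category.assoc (β_ _ _).hom, ← Functor.LaxBraided.braided, Category.assoc, Category.assoc,
    ← F.map_comp, ← F.map_comp]
  congr 2
  ext1
  exact Th.sum_comm h h'

@[reassoc]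
theorem unit_sum (h : 0 + n = n) :
    (unit F I ▷ TO F n J) ≫ sum F h = (λ_ (TO F n J)).hom ≫ j F n (by simp) := by
  rw [← map_eq_j F (injMat (Sum.inr : J → I ⊕ J)) (injMat_isom Sum.inr_injective)]
  unfold sum map unit
  rw [comp_whiskerRight]
  simp only [Category.assoc]
  rw [μ_natural_left_assoc, left_unitality, Category.assoc, Category.assoc, ← F.map_comp,
    ← F.map_comp]
  congr 3
  ext1
  exact Th.unit_sum h

/-- the product -/
noncomputable def mul (h : n + m = k) (h' : Fintype.card I + Fintype.card J ≤ Fintype.card K) :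
    TO F n I ⊗ TO F m J ⟶ TO F k K :=
  sum F h ≫ j F k (by rw [Fintype.card_sum]; exact h')

@[reassoc (attr := simp)]
theorem mul_j (h : n + m = k) (h₁ : Fintype.card I + Fintype.card J ≤ Fintype.card K)
    (h₂ : Fintype.card K ≤ Fintype.card L) :
    mul F h h₁ ≫ j F k h₂ = mul F h (h₁.trans h₂) := by
  unfold mul
  rw [Category.assoc, j_j]

variable {M : Type} [Fintype M] [DecidableEq M]

@[reassoc (attr := simp)]
theorem j_mul (h : n + m = k) (h₁ : Fintype.card I ≤ Fintype.card K)
    (h₂ : Fintype.card J ≤ Fintype.card L)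
    (h₃ : Fintype.card K + Fintype.card L ≤ Fintype.card M) :
    (j F n h₁ ⊗ₘ j F m h₂) ≫ mul F h h₃ = mul F h ((add_le_add h₁ h₂).trans h₃) := by
  unfold mul
  rw [j_sum_assoc F h h₁ h₂ (by simpa using add_le_add h₁ h₂), j_j]

@[reassoc (attr := simp)]
theorem j_whiskerRight_mul (h : n + m = k) (h₁ : Fintype.card I ≤ Fintype.card K)
    (h₃ : Fintype.card K + Fintype.card L ≤ Fintype.card M) :
    (j F n h₁ ▷ TO F m L) ≫ mul F h h₃ = mul F h ((Nat.add_le_add_right h₁ _).trans h₃) := by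
  have := j_mul F (J := L) (L := L) h h₁ le_rfl h₃
  rwa [j_refl, tensorHom_id] at this

@[reassoc (attr := simp)]
theorem whiskerLeft_j_mul (h : n + m = k) (h₂ : Fintype.card J ≤ Fintype.card L)
    (h₃ : Fintype.card K + Fintype.card L ≤ Fintype.card M) :
    (TO F n K ◁ j F m h₂) ≫ mul F h h₃ = mul F h ((Nat.add_le_add_left h₂ _).trans h₃) := by
  have := j_mul F (I := K) (K := K) h le_rfl h₂ h₃
  rwa [j_refl, id_tensorHom] at this

variable {N P Q : Type} [Fintype N] [Fintype P] [Fintype Q] [DecidableEq N] [DecidableEq P]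
  [DecidableEq Q]

theorem mul_assoc {a b c ab bc abc : ℕ} (h1 : a + b = ab) (h2 : ab + c = abc) (h3 : b + c = bc)
    (h4 : a + bc = abc) (k1 : Fintype.card I + Fintype.card J ≤ Fintype.card L)
    (k2 : Fintype.card L + Fintype.card K ≤ Fintype.card N)
    (k3 : Fintype.card J + Fintype.card K ≤ Fintype.card M)
    (k4 : Fintype.card I + Fintype.card M ≤ Fintype.card N) :
    (mul F h1 k1 ▷ TO F c K) ≫ mul F h2 k2 =
      (α_ (TO F a I) (TO F b J) (TO F c K)).hom ≫ (TO F a I ◁ mul F h3 k3) ≫ mul F h4 k4 := by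
  have e1 : (mul F h1 k1 ▷ TO F c K) ≫ mul F h2 k2 = (sum F h1 ▷ TO F c K) ≫ sum F h2 ≫
      j F abc (by simp; omega) := by
    conv_lhs => rw [mul, comp_whiskerRight, Category.assoc, j_whiskerRight_mul]
    rfl
  have e2 : (TO F a I ◁ mul F h3 k3) ≫ mul F h4 k4 = (TO F a I ◁ sum F h3) ≫ sum F h4 ≫
      j F abc (by simp; omega) := by
    conv_lhs => rw [mul, whiskerLeft_comp, Category.assoc, whiskerLeft_j_mul]
    rfl
  rw [e1, e2, ← sum_assoc_assoc F h1 h2 h3 h4, j_j]

theorem mul_comm (h : n + m = k) (h' : m + n = k)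
    (h₁ : Fintype.card I + Fintype.card J ≤ Fintype.card K)
    (h₂ : Fintype.card J + Fintype.card I ≤ Fintype.card K) :
    (β_ (TO F n I) (TO F m J)).hom ≫ mul F h' h₂ = mul F h h₁ := by
  unfold mul
  rw [← sum_comm_assoc F h h', j_j]

theorem unit_mul (h : 0 + n = n) (h' : Fintype.card I + Fintype.card J ≤ Fintype.card K) :
    (unit F I ▷ TO F n J) ≫ mul F h h' = (λ_ (TO F n J)).hom ≫ j F n (by omega) := by
  unfold mul
  rw [unit_sum_assoc, j_j]

end TO

/-- The commutative graded system of Thom objects. -/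
noncomputable def TO.sys : CommSys T (ℕ × ℕ) where
  X p := TO F p.1 (Fin p.2)
  one := TO.unit F (Fin 0)
  mul {p q r} h := TO.mul F (congrArg Prod.fst h) (by
    simpa using (congrArg Prod.snd h).le)
  one_mul p := by
    rw [TO.unit_mul, TO.j_refl, Category.comp_id]
  mul_assoc h₁ h₂ h₃ h₄ := TO.mul_assoc F _ _ _ _ _ _ _ _
  mul_comm h h' := TO.mul_comm F _ _ _ _

end

end Vale.Agent.P251.M
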