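import Vale.Agent.P251.G.CellTh
import Vale.Agent.P251.M.ThomT

/-!
# P251, part M: the Thom spaces are finite cell spaces (instance of `ThFC`)
-/

namespace Vale.Agent.P251.M

open G G.LC

instance thFC : ThFC := ⟨fun n I _ => (Cell.cells_th n I).fc⟩

end Vale.Agent.P251.M
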