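import Vale.Agent.P251.M.Even
import Vale.Agent.P251.S.Act
import Mathlib.CategoryTheory.Monoidal.Mon
import Mathlib.CategoryTheory.Monoidal.Preadditive
import Mathlib.Algebra.DirectSum.Ring
import Mathlib.Algebra.Module.GradedModule

/-!
# P251, part M1: graded homotopy rings and modules

For a monoid `R` the groups `S^{2n} ⟶ R` form a graded ring; for an `R`-module `N` the groups
`S^{2n} ⟶ N` form a graded module over it.
-/

open CategoryTheory MonoidalCategory MonObj

universe v u

namespace Vale.Agent.P251.M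

open Vale.Agent.P251.S (ModStr)

variable {T : Type u} [Category.{v} T] [MonoidalCategory T] [SymmetricCategory T]
  (E : EvenSpheres T)

namespace EvenSpheres

/-- external product -/
noncomputable def ext {X Y : T} {m n p : ℤ} (h : m + n = p) (a : E.S m ⟶ X) (b : E.S n ⟶ Y) :
    E.S p ⟶ X ⊗ Y :=
  (E.mu m n p h).inv ≫ (a ⊗ₘ b)

variable {E}

lemma ext_comp {X Y X' Y' : T} {m n p : ℤ} (h : m + n = p) (a : E.S m ⟶ X) (b : E.S n ⟶ Y)
    (f : X ⟶ X') (g : Y ⟶ Y') : E.ext h (a ≫ f) (b ≫ g) = E.ext h a b ≫ (f ⊗ₘ g) := by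
  unfold ext
  rw [← tensorHom_comp_tensorHom, Category.assoc]

lemma ext_comp_left {X Y X' : T} {m n p : ℤ} (h : m + n = p) (a : E.S m ⟶ X) (b : E.S n ⟶ Y)
    (f : X ⟶ X') : E.ext h (a ≫ f) b = E.ext h a b ≫ (f ▷ Y) := by
  have := ext_comp h a b f (𝟙 Y)
  rwa [Category.comp_id, tensorHom_id] at this

lemma ext_comp_right {X Y Y' : T} {m n p : ℤ} (h : m + n = p) (a : E.S m ⟶ X) (b : E.S n ⟶ Y)
    (g : Y ⟶ Y') : E.ext h a (b ≫ g) = E.ext h a b ≫ (X ◁ g) := by
  have := ext_comp h a b (𝟙 X) g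
  rwa [Category.comp_id, id_tensorHom] at this

lemma ext_assoc {X Y Z : T} {m n p mn np q : ℤ} (h1 : m + n = mn) (h2 : mn + p = q)
    (h3 : n + p = np) (h4 : m + np = q) (a : E.S m ⟶ X) (b : E.S n ⟶ Y) (c : E.S p ⟶ Z) :
    E.ext h2 (E.ext h1 a b) c ≫ (α_ X Y Z).hom = E.ext h4 a (E.ext h3 b c) := by
  unfold ext
  rw [← cancel_epi ((E.mu mn p q h2).hom), ← cancel_epi ((E.mu m n mn h1).hom ▷ E.S p)]
  have e := E.mu_assoc m n p mn np q h1 h2 h3 h4
  have e' : (E.mu m n mn h1).hom ▷ E.S p ≫ (E.mu mn p q h2).hom ≫ (E.mu m np q h4).inv =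
      (α_ (E.S m) (E.S n) (E.S p)).hom ≫ E.S m ◁ (E.mu n p np h3).hom := by
    rw [← Category.assoc, e]
    simp
  simp only [Iso.hom_inv_id_assoc, Category.assoc]
  rw [reassoc_of% e']
  simp only [tensorHom_def, comp_whiskerRight, whiskerLeft_comp, Category.assoc,
    hom_inv_whiskerRight_assoc]
  rw [associator_naturality_right, associator_naturality_middle_assoc,
    associator_naturality_left_assoc, whisker_exchange_assoc, whiskerLeft_hom_inv_assoc]

lemma ext_comm {X Y : T} {m n p : ℤ} (h : m + n = p) (h' : n + m = p) (a : E.S m ⟶ X)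
    (b : E.S n ⟶ Y) : E.ext h a b ≫ (β_ X Y).hom = E.ext h' b a := by
  unfold ext
  have e := E.mu_comm m n p h h'
  have e' : (E.mu m n p h).inv ≫ (β_ (E.S m) (E.S n)).hom = (E.mu n m p h').inv := by
    rw [← cancel_epi (E.mu m n p h).hom, ← cancel_mono (E.mu n m p h').hom]
    simp [e]
  rw [Category.assoc, BraidedCategory.braiding_naturality, reassoc_of% e']

lemma mu_inv_zero (n : ℤ) (h : 0 + n = n) :
    (E.mu 0 n n h).inv ≫ E.zero.inv ▷ E.S n = (λ_ (E.S n)).inv := by
  rw [← cancel_mono (E.zero.hom ▷ E.S n), Category.assoc, inv_hom_whiskerRight,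
    Category.comp_id, ← cancel_mono (E.mu 0 n n h).hom, Category.assoc, E.zero_mu',
    Iso.inv_hom_id, Iso.inv_hom_id]

lemma mu_inv_zero' (n : ℤ) (h : n + 0 = n) :
    (E.mu n 0 n h).inv ≫ E.S n ◁ E.zero.inv = (ρ_ (E.S n)).inv := by
  rw [← cancel_mono (E.S n ◁ E.zero.hom), Category.assoc, whiskerLeft_inv_hom,
    Category.comp_id, ← cancel_mono (E.mu n 0 n h).hom, Category.assoc, E.mu_zero',
    Iso.inv_hom_id, Iso.inv_hom_id]

lemma one_ext {X Y : T} {n : ℤ} (h : 0 + n = n) (f : 𝟙_ T ⟶ X) (b : E.S n ⟶ Y) :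
    E.ext h (E.zero.inv ≫ f) b = b ≫ (λ_ Y).inv ≫ f ▷ Y := by
  unfold ext
  rw [tensorHom_def, comp_whiskerRight, Category.assoc, ← Category.assoc (E.mu 0 n n h).inv,
    mu_inv_zero]
  rw [← whisker_exchange, leftUnitor_inv_naturality_assoc]

lemma ext_one {X Y : T} {n : ℤ} (h : n + 0 = n) (a : E.S n ⟶ X) (f : 𝟙_ T ⟶ Y) :
    E.ext h a (E.zero.inv ≫ f) = a ≫ (ρ_ X).inv ≫ X ◁ f := by
  unfold ext
  rw [tensorHom_def', whiskerLeft_comp, Category.assoc, ← Category.assoc (E.mu n 0 n h).inv,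
    mu_inv_zero']
  rw [whisker_exchange, rightUnitor_inv_naturality_assoc]

lemma ext_cast {X Y : T} {m n p p' : ℤ} (h : m + n = p) (h' : m + n = p') (hp : p' = p)
    (a : E.S m ⟶ X) (b : E.S n ⟶ Y) :
    (E.castIso p' p hp).hom ≫ E.ext h a b = E.ext h' a b := by
  subst hp
  simp

/-- internal product -/
noncomputable def gmul {R : T} [MonObj R] {m n p : ℤ} (h : m + n = p) (a : E.S m ⟶ R)
    (b : E.S n ⟶ R) : E.S p ⟶ R := E.ext h a b ≫ μ[R]

lemma gmul_assoc {R : T} [MonObj R] {m n p mn np q : ℤ} (h1 : m + n = mn) (h2 : mn + p = q)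
    (h3 : n + p = np) (h4 : m + np = q) (a : E.S m ⟶ R) (b : E.S n ⟶ R) (c : E.S p ⟶ R) :
    gmul h2 (gmul h1 a b) c = gmul h4 a (gmul h3 b c) := by
  unfold gmul
  rw [ext_comp_left, ext_comp_right, Category.assoc, Category.assoc, MonObj.mul_assoc,
    ← ext_assoc h1 h2 h3 h4, Category.assoc]

lemma gmul_comm {R : T} [MonObj R] [IsCommMonObj R] {m n p : ℤ} (h : m + n = p) (h' : n + m = p)
    (a : E.S m ⟶ R) (b : E.S n ⟶ R) : gmul h a b = gmul h' b a := by
  unfold gmul
  rw [← ext_comm h h', Category.assoc, IsCommMonObj.mul_comm]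

lemma one_gmul {R : T} [MonObj R] {n : ℤ} (h : 0 + n = n) (b : E.S n ⟶ R) :
    gmul h (E.zero.inv ≫ η[R]) b = b := by
  unfold gmul
  rw [one_ext, Category.assoc, Category.assoc, MonObj.one_mul]
  simp

lemma gmul_one {R : T} [MonObj R] {n : ℤ} (h : n + 0 = n) (b : E.S n ⟶ R) :
    gmul h b (E.zero.inv ≫ η[R]) = b := by
  unfold gmul
  rw [ext_one, Category.assoc, Category.assoc, MonObj.mul_one]
  simp

lemma gmul_comp {R R' : T} [MonObj R] [MonObj R'] (f : R ⟶ R') [IsMonHom f] {m n p : ℤ}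
    (h : m + n = p) (a : E.S m ⟶ R) (b : E.S n ⟶ R) :
    gmul h (a ≫ f) (b ≫ f) = gmul h a b ≫ f := by
  unfold gmul
  rw [ext_comp, Category.assoc, Category.assoc, ← IsMonHom.mul_hom]

/-- the action on homotopy groups of modules -/
noncomputable def gsmul {R N : T} [MonObj R] (M : ModStr R N) {m n p : ℤ} (h : m + n = p)
    (a : E.S m ⟶ R) (x : E.S n ⟶ N) : E.S p ⟶ N := E.ext h a x ≫ M.act

lemma gsmul_assoc {R N : T} [MonObj R] (M : ModStr R N) {m n p mn np q : ℤ} (h1 : m + n = mn)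
    (h2 : mn + p = q)
    (h3 : n + p = np) (h4 : m + np = q) (a : E.S m ⟶ R) (b : E.S n ⟶ R) (c : E.S p ⟶ N) :
    gsmul M h2 (gmul h1 a b) c = gsmul M h4 a (gsmul M h3 b c) := by
  unfold gsmul gmul
  rw [ext_comp_left, ext_comp_right, Category.assoc, Category.assoc, M.mul_act,
    ← ext_assoc h1 h2 h3 h4, Category.assoc]

lemma one_gsmul {R N : T} [MonObj R] (M : ModStr R N) {n : ℤ} (h : 0 + n = n) (b : E.S n ⟶ N) :
    gsmul M h (E.zero.inv ≫ η[R]) b = b := by
  unfold gsmul
  rw [one_ext, Category.assoc, Category.assoc, M.one_act]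
  simp

lemma gsmul_comp {R N N' : T} [MonObj R] (M : ModStr R N) (M' : ModStr R N') {f : N ⟶ N'}
    (hf : M.IsLinear M' f) {m n p : ℤ} (h : m + n = p)
    (a : E.S m ⟶ R) (x : E.S n ⟶ N) : gsmul M' h a (x ≫ f) = gsmul M h a x ≫ f := by
  unfold gsmul
  rw [ext_comp_right, Category.assoc, Category.assoc, hf]

section Additive

variable [Preadditive T] [MonoidalPreadditive T]

lemma ext_add_left {X Y : T} {m n p : ℤ} (h : m + n = p) (a a' : E.S m ⟶ X) (b : E.S n ⟶ Y) :
    E.ext h (a + a') b = E.ext h a b + E.ext h a' b := by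
  unfold ext
  rw [MonoidalPreadditive.add_tensor, Preadditive.comp_add]

lemma ext_add_right {X Y : T} {m n p : ℤ} (h : m + n = p) (a : E.S m ⟶ X) (b b' : E.S n ⟶ Y) :
    E.ext h a (b + b') = E.ext h a b + E.ext h a b' := by
  unfold ext
  rw [MonoidalPreadditive.tensor_add, Preadditive.comp_add]

lemma ext_zero_left {X Y : T} {m n p : ℤ} (h : m + n = p) (b : E.S n ⟶ Y) :
    E.ext h (0 : E.S m ⟶ X) b = 0 := by
  unfold ext
  rw [MonoidalPreadditive.zero_tensor, Limits.comp_zero]

lemma ext_zero_right {X Y : T} {m n p : ℤ} (h : m + n = p) (a : E.S m ⟶ X) :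
    E.ext h a (0 : E.S n ⟶ Y) = 0 := by
  unfold ext
  rw [MonoidalPreadditive.tensor_zero, Limits.comp_zero]

end Additive

/-- homotopy in degree `2n` -/
abbrev Gr (E : EvenSpheres T) (X : T) (n : ℤ) : Type v := E.S n ⟶ X

lemma gradedMk_eq {X : T} {m n : ℤ} (h : m = n) (a : E.S m ⟶ X) (b : E.S n ⟶ X)
    (hab : a = (E.castIso m n h).hom ≫ b) :
    (GradedMonoid.mk m a : GradedMonoid (E.Gr X)) = GradedMonoid.mk n b := by
  subst h
  rw [castIso_refl, Iso.refl_hom, Category.id_comp] at hab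
  rw [hab]

end EvenSpheres

open EvenSpheres

section Add

variable {E}

section

variable (R : T) [MonObj R]

noncomputable instance instGOne : GradedMonoid.GOne (E.Gr R) where
  one := E.zero.inv ≫ η[R]

noncomputable instance instGMul : GradedMonoid.GMul (E.Gr R) where
  mul {m n} a b := gmul (p := m + n) rfl a b

lemma gone_def : (GradedMonoid.GOne.one : E.Gr R 0) = E.zero.inv ≫ η[R] := rfl

lemma gmul_def {m n : ℤ} (a : E.Gr R m) (b : E.Gr R n) :
    GradedMonoid.GMul.mul a b = gmul (p := m + n) rfl a b := rfl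

lemma gmul_cast {m n p p' : ℤ} (h : m + n = p) (h' : m + n = p') (hp : p' = p)
    (a : E.S m ⟶ R) (b : E.S n ⟶ R) :
    (E.castIso p' p hp).hom ≫ gmul h a b = gmul h' a b := by
  unfold gmul
  rw [← Category.assoc, ext_cast]

lemma gradedMk_mul {m n p : ℤ} (h : m + n = p) (a : E.S m ⟶ R) (b : E.S n ⟶ R) :
    (GradedMonoid.mk m a : GradedMonoid (E.Gr R)) * (GradedMonoid.mk n b : GradedMonoid (E.Gr R)) =
      (GradedMonoid.mk p (gmul h a b) : GradedMonoid (E.Gr R)) := by
  subst h
  rfl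

noncomputable instance instGMonoid : GradedMonoid.GMonoid (E.Gr R) where
  one_mul a := by
    obtain ⟨n, a⟩ := a
    refine (gradedMk_mul R (p := n) (zero_add n) (E.zero.inv ≫ η[R]) a).trans ?_
    rw [one_gmul]
    rfl
  mul_one a := by
    obtain ⟨n, a⟩ := a
    refine (gradedMk_mul R (p := n) (add_zero n) a (E.zero.inv ≫ η[R])).trans ?_
    rw [gmul_one]
    rfl
  mul_assoc a b c := by
    obtain ⟨m, a⟩ := a
    obtain ⟨n, b⟩ := b
    obtain ⟨p, c⟩ := c
    have e1 := gradedMk_mul R (p := m + n) rfl a b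
    have e2 := gradedMk_mul R (p := n + p) rfl b c
    have e3 := gradedMk_mul R (p := m + n + p) rfl (gmul (p := m + n) rfl a b) c
    have e4 := gradedMk_mul R (p := m + n + p) (by ring) a (gmul (p := n + p) rfl b c)
    refine ((congrArg (· * GradedMonoid.mk p c) e1).trans e3).trans ?_
    refine Eq.trans ?_ ((congrArg (GradedMonoid.mk m a * ·) e2).trans e4).symm
    rw [gmul_assoc rfl rfl rfl (by ring)]

end

variable [Preadditive T] [MonoidalPreadditive T]

lemma gmul_add_left {R : T} [MonObj R] {m n p : ℤ} (h : m + n = p) (a a' : E.S m ⟶ R)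
    (b : E.S n ⟶ R) : gmul h (a + a') b = gmul h a b + gmul h a' b := by
  unfold gmul
  rw [ext_add_left, Preadditive.add_comp]

lemma gmul_add_right {R : T} [MonObj R] {m n p : ℤ} (h : m + n = p) (a : E.S m ⟶ R)
    (b b' : E.S n ⟶ R) : gmul h a (b + b') = gmul h a b + gmul h a b' := by
  unfold gmul
  rw [ext_add_right, Preadditive.add_comp]

lemma gmul_zero_left {R : T} [MonObj R] {m n p : ℤ} (h : m + n = p)
    (b : E.S n ⟶ R) : gmul h (0 : E.S m ⟶ R) b = 0 := by
  unfold gmul
  rw [ext_zero_left, Limits.zero_comp]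

lemma gmul_zero_right {R : T} [MonObj R] {m n p : ℤ} (h : m + n = p) (a : E.S m ⟶ R) :
    gmul h a (0 : E.S n ⟶ R) = 0 := by
  unfold gmul
  rw [ext_zero_right, Limits.zero_comp]

noncomputable instance instGRing (R : T) [MonObj R] : DirectSum.GRing (E.Gr R) where
  mul_zero a := gmul_zero_right rfl a
  zero_mul b := gmul_zero_left rfl b
  mul_add a b c := gmul_add_right rfl a b c
  add_mul a b c := gmul_add_left rfl a b c
  natCast n := n • (E.zero.inv ≫ η[R])
  natCast_zero := zero_smul _ _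
  natCast_succ n := by
    rw [add_smul, one_smul]
    rfl
  intCast n := n • (E.zero.inv ≫ η[R])
  intCast_ofNat n := natCast_zsmul _ _
  intCast_negSucc_ofNat n := by
    rw [Int.negSucc_eq, neg_smul]
    norm_cast

noncomputable instance instGCommRing (R : T) [MonObj R] [IsCommMonObj R] :
    DirectSum.GCommRing (E.Gr R) where
  mul_comm a b := by
    obtain ⟨m, a⟩ := a
    obtain ⟨n, b⟩ := b
    refine (gradedMk_mul R (p := m + n) rfl a b).trans ?_
    refine Eq.trans ?_ (gradedMk_mul R (p := m + n) (add_comm n m) b a).symm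
    rw [gmul_comm rfl (add_comm n m)]

/-- the homotopy ring `⨁ π_{2n} R` -/
abbrev HRing (E : EvenSpheres T) (R : T) : Type v := DirectSum ℤ (E.Gr R)

noncomputable instance (R : T) [MonObj R] : Ring (HRing E R) :=
  inferInstanceAs (Ring (DirectSum ℤ (E.Gr R)))

noncomputable instance (R : T) [MonObj R] [IsCommMonObj R] : CommRing (HRing E R) :=
  inferInstanceAs (CommRing (DirectSum ℤ (E.Gr R)))

/-- the element of the homotopy ring given by a homogeneous element -/
noncomputable abbrev HRing.of (E : EvenSpheres T) (R : T) (n : ℤ) (a : E.S n ⟶ R) : HRing E R :=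
  DirectSum.of (E.Gr R) n a

lemma of_mul_of {R : T} [MonObj R] {m n p : ℤ} (h : m + n = p) (a : E.S m ⟶ R)
    (b : E.S n ⟶ R) : HRing.of E R m a * HRing.of E R n b = HRing.of E R p (gmul h a b) := by
  subst h
  exact DirectSum.of_mul_of (A := E.Gr R) a b

omit [MonoidalPreadditive T] in
lemma of_one {R : T} [MonObj R] : HRing.of E R 0 (E.zero.inv ≫ η[R]) = 1 := rfl

omit [MonoidalPreadditive T] in
lemma of_cast {R : T} {m n : ℤ} (h : m = n) (a : E.S n ⟶ R) :
    HRing.of E R m ((E.castIso m n h).hom ≫ a) = HRing.of E R n a := by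
  subst h
  simp

/-- the ring map induced by a map of monoids -/
noncomputable def HRing.map {R R' : T} [MonObj R] [MonObj R'] (f : R ⟶ R') [IsMonHom f] :
    HRing E R →+* HRing E R' :=
  DirectSum.toSemiring (fun n =>
    { toFun := fun a : E.Gr R n => HRing.of E R' n (a ≫ f)
      map_zero' := by
        rw [Limits.zero_comp]
        exact (DirectSum.of (E.Gr R') n).map_zero
      map_add' := fun a b => by
        rw [Preadditive.add_comp]
        exact (DirectSum.of (E.Gr R') n).map_add _ _ })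
    (by
      change HRing.of E R' 0 ((E.zero.inv ≫ η[R]) ≫ f) = 1
      rw [Category.assoc, IsMonHom.one_hom]
      rfl)
    (by
      intro m n a b
      change HRing.of E R' (m + n) (gmul rfl a b ≫ f) = HRing.of E R' m (a ≫ f) *
        HRing.of E R' n (b ≫ f)
      rw [of_mul_of (p := m + n) rfl, gmul_comp])

@[simp] lemma HRing.map_of {R R' : T} [MonObj R] [MonObj R'] (f : R ⟶ R') [IsMonHom f] (n : ℤ)
    (a : E.S n ⟶ R) : HRing.map (E := E) f (HRing.of E R n a) = HRing.of E R' n (a ≫ f) :=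
  DirectSum.toSemiring_of _ _ _ _ _

lemma HRing.ringHom_ext {R : T} [MonObj R] {B : Type*} [Semiring B] {f g : HRing E R →+* B}
    (h : ∀ (n : ℤ) (a : E.S n ⟶ R), f (HRing.of E R n a) = g (HRing.of E R n a)) : f = g :=
  DirectSum.ringHom_ext' (fun n => AddMonoidHom.ext (h n))

lemma HRing.map_id (R : T) [MonObj R] : HRing.map (E := E) (𝟙 R) = RingHom.id _ :=
  HRing.ringHom_ext (fun n a => by simp)

lemma HRing.map_comp {R R' R'' : T} [MonObj R] [MonObj R'] [MonObj R''] (f : R ⟶ R')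
    [IsMonHom f] (g : R' ⟶ R'') [IsMonHom g] :
    HRing.map (E := E) (f ≫ g) = (HRing.map g).comp (HRing.map f) :=
  HRing.ringHom_ext (fun n a => by simp)

/-- the homotopy module `⨁ π_{2n} N` -/
abbrev HMod (E : EvenSpheres T) (N : T) : Type v := DirectSum ℤ (E.Gr N)

section Module

variable {R N : T} [MonObj R] (M : ModStr R N)

omit [Preadditive T] [MonoidalPreadditive T] in
lemma gsmul_cast {m n p p' : ℤ} (h : m + n = p) (h' : m + n = p') (hp : p' = p)
    (a : E.S m ⟶ R) (x : E.S n ⟶ N) :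
    (E.castIso p' p hp).hom ≫ gsmul M h a x = gsmul M h' a x := by
  unfold gsmul
  rw [← Category.assoc, ext_cast]

/-- the graded action -/
@[reducible] noncomputable def gmoduleStr : DirectSum.Gmodule (E.Gr R) (E.Gr N) where
  smul {m n} a x := gsmul M (p := m + n) rfl a x
  one_smul x := by
    obtain ⟨n, x⟩ := x
    refine gradedMk_eq (zero_add n) _ _ ?_
    have := one_gsmul (E := E) M (zero_add n) x
    have e := gsmul_cast (E := E) M (m := 0) (n := n) (p := n) (zero_add n) rfl (zero_add n)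
      (E.zero.inv ≫ η[R]) x
    rw [this] at e
    exact e.symm
  mul_smul a b x := by
    obtain ⟨m, a⟩ := a
    obtain ⟨n, b⟩ := b
    obtain ⟨p, x⟩ := x
    refine gradedMk_eq (add_assoc m n p) _ _ ?_
    have e1 := gsmul_assoc (E := E) M (m := m) (n := n) (p := p) (mn := m + n) (np := n + p)
      (q := m + n + p) rfl rfl rfl (add_assoc m n p).symm a b x
    have e2 := gsmul_cast (E := E) M (m := m) (n := n + p) (p := m + (n + p)) (p' := m + n + p)
      rfl (add_assoc m n p).symm (add_assoc m n p) a (gsmul M rfl b x)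
    exact e1.trans e2.symm
  smul_add a x y := by
    change gsmul M rfl a (x + y) = gsmul M rfl a x + gsmul M rfl a y
    unfold gsmul
    rw [ext_add_right, Preadditive.add_comp]
  smul_zero a := by
    change gsmul M rfl a 0 = 0
    unfold gsmul
    rw [ext_zero_right, Limits.zero_comp]
  add_smul a b x := by
    change gsmul M rfl (a + b) x = gsmul M rfl a x + gsmul M rfl b x
    unfold gsmul
    rw [ext_add_left, Preadditive.add_comp]
  zero_smul x := by
    change gsmul M rfl 0 x = 0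
    unfold gsmul
    rw [ext_zero_left, Limits.zero_comp]

/-- the action of the homotopy ring on the homotopy module -/
@[reducible] noncomputable def hModule : Module (HRing E R) (HMod E N) :=
  letI := gmoduleStr (E := E) M
  DirectSum.Gmodule.module (E.Gr R) (E.Gr N)

lemma of_smul_of {m n p : ℤ} (h : m + n = p) (a : E.S m ⟶ R) (x : E.S n ⟶ N) :
    letI := hModule (E := E) M
    (HRing.of E R m a) • (DirectSum.of (E.Gr N) n x : HMod E N) =
      DirectSum.of (E.Gr N) p (gsmul M h a x) := by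
  let := gmoduleStr (E := E) M
  subst h
  exact DirectSum.Gmodule.of_smul_of (E.Gr R) (E.Gr N) a x

end Module

end Add

end Vale.Agent.P251.M
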