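import Vale.Agent.P251.M.TheoryHom
import Vale.Agent.P251.M.EvenRing

/-!
# P251, part M4b: the coefficient ring of the theory of a commutative monoid

For a commutative monoid `R` of `T` the coefficient ring of the multiplicative theory
`U^k(X) = Hom(S X, R ⊗ S^{2k})` is the homotopy ring `HRing S R = ⨁ Hom(S^{2n}, R)`; the
homogeneous part of degree `k` corresponds to `n = -k`. Everything is natural in `R`.
-/

open CategoryTheory MonoidalCategory Limits Pretriangulated MonObj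
open Vale.Agent.P251.G Vale.Agent.P251.G.LC Vale.Agent.P251.I Vale.Agent.P251.T

set_option linter.unusedSectionVars false

universe v u

noncomputable section

namespace Vale.Agent.P251.M

section hq

variable {T : Type u} [Category.{v} T] [Preadditive T] [MonoidalCategory T] [SymmetricCategory T]
  (R : T) [MonObj R] [IsCommMonObj R] (S : EvenSpheres T)

/-- The multiplicative system of a commutative monoid. -/
abbrev RSys : MSys T := MSys.ofSeq (SeqMonoid.const R) S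

/-- `H^k(X) ⟶ Hom(X, R ⊗ S^{2k})` for the theory of a commutative monoid. -/
def hq (k : ℤ) (X : T) : (RSys R S).H k X →+ (X ⟶ R ⊗ S.S k) :=
  (RSys R S).lift (fun _ => (AddMonoidHom.id (X ⟶ R ⊗ S.S k) : (X ⟶ R ⊗ S.S k) →+ _))
    (fun m n h x => by
      have e : (RSys R S).map k h = 𝟙 (R ⊗ S.S k) := id_whiskerRight _ _
      change x ≫ (RSys R S).map k h = x
      rw [e]
      exact Category.comp_id x)

variable {R S}

@[simp] theorem hq_cls {k : ℤ} {X : T} (n : ℕ) (x : X ⟶ R ⊗ S.S k) :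
    hq R S k X (MSys.cls (M := RSys R S) n x) = x := rfl

theorem hq_bijective (k : ℤ) (X : T) : Function.Bijective (hq R S k X) := by
  constructor
  · intro a b h
    obtain ⟨n, x, y, rfl, rfl⟩ := MSys.exists_cls₂ a b
    change x = y at h
    rw [h]
  · intro x
    exact ⟨MSys.cls (M := RSys R S) 0 x, rfl⟩

theorem hq_pull {k : ℤ} {X Y : T} (f : X ⟶ Y) (a : (RSys R S).H k Y) :
    hq R S k X ((RSys R S).pull k f a) = f ≫ hq R S k Y a := by
  obtain ⟨n, x, rfl⟩ := MSys.exists_cls a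
  rfl

theorem hq_xprod [MonoidalPreadditive T] {k l q : ℤ} (hk : k + l = q) {X Y : T}
    (a : (RSys R S).H k X) (b : (RSys R S).H l Y) :
    hq R S q (X ⊗ Y) ((RSys R S).xprod hk a b) =
      (hq R S k X a ⊗ₘ hq R S l Y b) ≫ tensorμ _ _ _ _ ≫ (μ[R] ⊗ₘ (S.mu k l q hk).hom) := by
  obtain ⟨m, x, rfl⟩ := MSys.exists_cls a
  obtain ⟨n, y, rfl⟩ := MSys.exists_cls b
  rw [MSys.xprod_cls hk rfl]
  rfl

theorem hq_unit : hq R S 0 (𝟙_ T) (RSys R S).unit = (λ_ (𝟙_ T)).inv ≫ (η[R] ⊗ₘ S.z) := rfl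

variable {R' : T} [MonObj R'] [IsCommMonObj R']

theorem hq_hmap (f : R ⟶ R') [IsMonHom f] {k : ℤ} {X : T} (a : (RSys R S).H k X) :
    hq R' S k X (((SeqMonoid.Hom.const f).msys S).hmap k X a) = hq R S k X a ≫ (f ▷ S.S k) := by
  obtain ⟨n, x, rfl⟩ := MSys.exists_cls a
  rfl

end hq

/-! ### `Hom(S^{-2k}, X) = Hom(𝟙, X ⊗ S^{2k})` -/

section adj

variable {T : Type u} [Category.{v} T] [MonoidalCategory T] [SymmetricCategory T]

theorem isFr_midswap {L : T} [IsInv L] {m n p q : ℤ} {X Y Z W : T} {F : Fr L m X} {G : Fr L n Y}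
    {H : Fr L p Z} {K : Fr L q W} (h : SymFr G H) :
    IsFr ((F.tensor G).tensor (H.tensor K)) ((F.tensor H).tensor (G.tensor K))
      (tensorμ X Y Z W) := by
  unfold tensorμ
  have e1 := isFr_associator F G (H.tensor K)
  have e2 : IsFr (F.tensor (G.tensor (H.tensor K))) (F.tensor ((G.tensor H).tensor K))
      (X ◁ (α_ Y Z W).inv) :=
    IsFr.whiskerLeft (by omega) (IsFr.inv' (by omega) (isFr_associator G H K))
  have e3 : IsFr (F.tensor ((G.tensor H).tensor K)) (F.tensor ((H.tensor G).tensor K))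
      (X ◁ (β_ Y Z).hom ▷ W) :=
    IsFr.whiskerLeft (by omega) (IsFr.whiskerRight (by omega) h)
  have e4 : IsFr (F.tensor ((H.tensor G).tensor K)) (F.tensor (H.tensor (G.tensor K)))
      (X ◁ (α_ Z Y W).hom) :=
    IsFr.whiskerLeft (by omega) (isFr_associator H G K)
  have e5 := IsFr.inv' (by omega) (isFr_associator F H (G.tensor K))
  exact IsFr.comp (by omega) (by omega) e1 (IsFr.comp (by omega) (by omega) e2
    (IsFr.comp (by omega) (by omega) e3 (IsFr.comp (by omega) (by omega) e4 e5)))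

variable (S : EvenSpheres T)

/-- `𝟙 ≅ S^{-2k} ⊗ S^{2k}` -/
def coev (k : ℤ) : 𝟙_ T ≅ S.S (-k) ⊗ S.S k :=
  S.zero ≪≫ (S.mu (-k) k 0 (neg_add_cancel k)).symm

theorem isFr_coev (k : ℤ) :
    IsFr (Fr.unit S.L) ((S.fr (-k)).tensor (S.fr k)) (coev S k).hom :=
  IsFr.comp (by omega) (by omega) S.isFr_zeroIso
    (IsFr.inv' (by omega) (S.isFr_mu (-k) k 0 (neg_add_cancel k)))

theorem coev_mul {k l q : ℤ} (h : k + l = q) (h' : -k + -l = -q) :
    (λ_ (𝟙_ T)).inv ≫ ((coev S k).hom ⊗ₘ (coev S l).hom) ≫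
      tensorμ (S.S (-k)) (S.S k) (S.S (-l)) (S.S l) ≫
      ((S.mu (-k) (-l) (-q) h').hom ⊗ₘ (S.mu k l q h).hom) = (coev S q).hom := by
  refine IsFr.unique (F := Fr.unit S.L) (G := (S.fr (-q)).tensor (S.fr q)) (by omega) ?_
    (isFr_coev S q)
  have e1 : IsFr (Fr.unit S.L) ((Fr.unit S.L).tensor (Fr.unit S.L)) (λ_ (𝟙_ T)).inv :=
    IsFr.inv' (by omega) (isFr_leftUnitor _)
  have e2 : IsFr ((Fr.unit S.L).tensor (Fr.unit S.L))
      (((S.fr (-k)).tensor (S.fr k)).tensor ((S.fr (-l)).tensor (S.fr l)))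
      ((coev S k).hom ⊗ₘ (coev S l).hom) :=
    IsFr.tensor (by omega) (by omega) (isFr_coev S k) (isFr_coev S l)
  have e3 := isFr_midswap (F := S.fr (-k)) (G := S.fr k) (H := S.fr (-l)) (K := S.fr l)
    (S.symFr k (-l))
  have e4 : IsFr (((S.fr (-k)).tensor (S.fr (-l))).tensor ((S.fr k).tensor (S.fr l)))
      ((S.fr (-q)).tensor (S.fr q))
      ((S.mu (-k) (-l) (-q) h').hom ⊗ₘ (S.mu k l q h).hom) :=
    IsFr.tensor h' h (S.isFr_mu _ _ _ h') (S.isFr_mu _ _ _ h)
  exact IsFr.comp (by omega) (by omega) e1 (IsFr.comp (by omega) (by omega) e2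
    (IsFr.comp (by omega) (by omega) e3 e4))

/-- The map `Hom(S^{-2k}, X) ⟶ Hom(𝟙, X ⊗ S^{2k})`. -/
def tr (k : ℤ) {X : T} (a : S.S (-k) ⟶ X) : 𝟙_ T ⟶ X ⊗ S.S k := (coev S k).hom ≫ (a ▷ S.S k)

theorem tr_bijective (k : ℤ) (X : T) : Function.Bijective (tr S k (X := X)) := by
  have h := whiskerRight_bijective (S.S k) (S.S (-k)) X
  constructor
  · intro a b hab
    apply h.1
    exact (cancel_epi (coev S k).hom).mp hab
  · intro x
    obtain ⟨a, ha⟩ := h.2 ((coev S k).inv ≫ x)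
    refine ⟨a, ?_⟩
    change (coev S k).hom ≫ (a ▷ S.S k) = x
    have ha' : a ▷ S.S k = (coev S k).inv ≫ x := ha
    rw [ha', Iso.hom_inv_id_assoc]

theorem tr_comp (k : ℤ) {X Y : T} (a : S.S (-k) ⟶ X) (f : X ⟶ Y) :
    tr S k (a ≫ f) = tr S k a ≫ (f ▷ S.S k) := by
  rw [tr, tr, comp_whiskerRight, Category.assoc]

theorem tr_gmul {R : T} [MonObj R] {k l q : ℤ} (h : k + l = q) (h' : -k + -l = -q)
    (a : S.S (-k) ⟶ R) (b : S.S (-l) ⟶ R) :
    tr S q (EvenSpheres.gmul h' a b) = (λ_ (𝟙_ T)).inv ≫ (tr S k a ⊗ₘ tr S l b) ≫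
      tensorμ _ _ _ _ ≫ (μ[R] ⊗ₘ (S.mu k l q h).hom) := by
  have e1 : (a ⊗ₘ b) ≫ μ[R] = (S.mu (-k) (-l) (-q) h').hom ≫ EvenSpheres.gmul h' a b := by
    unfold EvenSpheres.gmul EvenSpheres.ext
    simp
  unfold tr
  rw [← coev_mul S h h', ← tensorHom_comp_tensorHom]
  simp only [Category.assoc]
  rw [← tensorHom_id, ← tensorHom_id, ← tensorHom_id, tensorμ_natural_assoc,
    tensorHom_comp_tensorHom, tensorHom_comp_tensorHom, e1, id_tensorHom_id,
    Category.id_comp, Category.comp_id]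

theorem tr_one {R : T} [MonObj R] : tr S 0 ((S.castIso (-0) 0 neg_zero).hom ≫
    S.zero.inv ≫ η[R]) = (λ_ (𝟙_ T)).inv ≫ (η[R] ⊗ₘ S.z) := by
  have e : (coev S 0).hom ≫ (((S.castIso (-0) 0 neg_zero).hom ≫ S.zero.inv) ▷ S.S 0) =
      (λ_ (𝟙_ T)).inv ≫ ((𝟙_ T) ◁ S.zero.hom) := by
    refine IsFr.unique (F := Fr.unit S.L) (G := (Fr.unit S.L).tensor (S.fr 0)) (by omega) ?_ ?_
    · exact IsFr.comp (by omega) (by omega) (isFr_coev S 0)
        (IsFr.whiskerRight (by omega) (IsFr.comp (by omega) (by omega)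
          (S.isFr_castIso _ _ neg_zero) S.isFr_zeroIso'))
    · exact IsFr.comp (by omega) (by omega) (IsFr.inv' (by omega) (isFr_leftUnitor _))
        (IsFr.whiskerLeft rfl S.isFr_zeroIso)
  rw [tr, ← Category.assoc (S.castIso _ _ _).hom, comp_whiskerRight, reassoc_of% e,
    tensorHom_def']
  rfl

variable [Preadditive T] [MonoidalPreadditive T]

/-- The inverse of `tr`. -/
def itr (k : ℤ) (X : T) : (𝟙_ T ⟶ X ⊗ S.S k) →+ (S.S (-k) ⟶ X) :=
  (AddEquiv.ofBijective (AddMonoidHom.mk' (tr S k (X := X)) (fun a b => by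
    rw [tr, tr, tr, MonoidalPreadditive.add_whiskerRight, Preadditive.comp_add]))
    (tr_bijective S k X)).symm.toAddMonoidHom

theorem tr_itr (k : ℤ) {X : T} (x : 𝟙_ T ⟶ X ⊗ S.S k) : tr S k (itr S k X x) = x :=
  (AddEquiv.ofBijective (AddMonoidHom.mk' (tr S k (X := X)) (fun a b => by
    rw [tr, tr, tr, MonoidalPreadditive.add_whiskerRight, Preadditive.comp_add]))
    (tr_bijective S k X)).apply_symm_apply x

theorem itr_tr (k : ℤ) {X : T} (a : S.S (-k) ⟶ X) : itr S k X (tr S k a) = a :=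
  (tr_bijective S k X).1 (tr_itr S k _)

theorem itr_bijective (k : ℤ) (X : T) : Function.Bijective (itr S k X) :=
  ⟨fun a b h => by rw [← tr_itr S k a, ← tr_itr S k b, h], fun a => ⟨tr S k a, itr_tr S k a⟩⟩

theorem itr_comp (k : ℤ) {X Y : T} (x : 𝟙_ T ⟶ X ⊗ S.S k) (f : X ⟶ Y) :
    itr S k Y (x ≫ (f ▷ S.S k)) = itr S k X x ≫ f := by
  apply (tr_bijective S k Y).1
  rw [tr_itr, tr_comp, tr_itr]

theorem itr_mul {R : T} [MonObj R] {k l q : ℤ} (h : k + l = q) (h' : -k + -l = -q)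
    (x : 𝟙_ T ⟶ R ⊗ S.S k) (y : 𝟙_ T ⟶ R ⊗ S.S l) :
    itr S q R ((λ_ (𝟙_ T)).inv ≫ (x ⊗ₘ y) ≫ tensorμ _ _ _ _ ≫ (μ[R] ⊗ₘ (S.mu k l q h).hom)) =
      EvenSpheres.gmul h' (itr S k R x) (itr S l R y) := by
  apply (tr_bijective S q R).1
  rw [tr_itr, tr_gmul S h h', tr_itr, tr_itr]

theorem itr_one {R : T} [MonObj R] : itr S 0 R ((λ_ (𝟙_ T)).inv ≫ (η[R] ⊗ₘ S.z)) =
    (S.castIso (-0) 0 neg_zero).hom ≫ S.zero.inv ≫ η[R] := by
  apply (tr_bijective S 0 R).1
  rw [tr_itr, tr_one]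

end adj

/-! ### The total group of the unit -/

section tot

variable {T : Type u} [Category.{v} T] [Preadditive T] [MonoidalCategory T] [SymmetricCategory T]
  [MonoidalPreadditive T] (R : T) [MonObj R] [IsCommMonObj R] (S : EvenSpheres T)

/-- `Tot(𝟙) ⟶ HRing S R` -/
def totH : (RSys R S).Tot (𝟙_ T) →+ HRing S R :=
  DirectSum.toAddMonoid (fun k =>
    (DirectSum.of (S.Gr R) (-k)).comp ((itr S k R).comp (hq R S k (𝟙_ T))))

variable {R S}

theorem totH_of (k : ℤ) (a : (RSys R S).H k (𝟙_ T)) :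
    totH R S ((RSys R S).tof (𝟙_ T) k a) =
      HRing.of S R (-k) (itr S k R (hq R S k (𝟙_ T) a)) :=
  DirectSum.toAddMonoid_of _ _ _

theorem totH_tone : totH R S (RSys R S).tone = 1 := by
  rw [MSys.tone, totH_of, hq_unit, itr_one, of_cast, of_one]

theorem totH_mul (a b : (RSys R S).Tot (𝟙_ T)) :
    totH R S ((RSys R S).tpull (λ_ (𝟙_ T)).inv ((RSys R S).tcross a b)) =
      totH R S a * totH R S b := by
  induction a using DirectSum.induction_on with
  | zero => simp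
  | add a a' h h' => simp only [map_add, AddMonoidHom.add_apply, h, h', add_mul]
  | of k a =>
    induction b using DirectSum.induction_on with
    | zero => simp
    | add b b' h h' => simp only [map_add, h, h', mul_add]
    | of l b =>
      change totH R S ((RSys R S).tpull (λ_ (𝟙_ T)).inv ((RSys R S).tcross
        ((RSys R S).tof _ k a) ((RSys R S).tof _ l b))) =
        totH R S ((RSys R S).tof _ k a) * totH R S ((RSys R S).tof _ l b)
      rw [MSys.tcross_of_of, MSys.tpull_of, totH_of, totH_of, totH_of, hq_pull,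
        hq_xprod, itr_mul S rfl (by ring), of_mul_of]

theorem totH_apply (x : (RSys R S).Tot (𝟙_ T)) (k : ℤ) :
    totH R S x (-k) = itr S k R (hq R S k (𝟙_ T) (x k)) := by
  induction x using DirectSum.induction_on with
  | zero => simp
  | add x x' h h' => simp only [map_add, DirectSum.add_apply, h, h']
  | of l a =>
    have e := totH_of (R := R) (S := S) l a
    rw [e]
    by_cases hl : l = k
    · subst hl
      rw [DirectSum.of_eq_same, DirectSum.of_eq_same]
    · rw [DirectSum.of_eq_of_ne _ _ _ (fun h => hl (by omega)),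
        DirectSum.of_eq_of_ne _ _ _ (fun h => hl h.symm), map_zero, map_zero]

theorem totH_bijective : Function.Bijective (totH R S) := by
  constructor
  · intro x y h
    apply DFinsupp.ext
    intro k
    apply (hq_bijective (R := R) (S := S) k (𝟙_ T)).1
    apply (itr_bijective S k R).1
    change itr S k R (hq R S k (𝟙_ T) (x k)) = itr S k R (hq R S k (𝟙_ T) (y k))
    rw [← totH_apply, ← totH_apply, h]
  · intro y
    induction y using DirectSum.induction_on with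
    | zero => exact ⟨0, map_zero _⟩
    | add y y' h h' =>
      obtain ⟨x, rfl⟩ := h
      obtain ⟨x', rfl⟩ := h'
      exact ⟨x + x', map_add _ _ _⟩
    | of n a =>
      obtain ⟨x, hx⟩ := (itr_bijective S (-n) R).2 ((S.castIso (-(-n)) n (neg_neg n)).hom ≫ a)
      obtain ⟨z, hz⟩ := (hq_bijective (R := R) (S := S) (-n) (𝟙_ T)).2 x
      refine ⟨(RSys R S).tof _ (-n) z, ?_⟩
      rw [totH_of, hz, hx, of_cast]

variable {R' : T} [MonObj R'] [IsCommMonObj R']

theorem totH_tmap (f : R ⟶ R') [IsMonHom f] (a : (RSys R S).Tot (𝟙_ T)) :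
    totH R' S (((SeqMonoid.Hom.const f).msys S).tmap (𝟙_ T) a) =
      HRing.map (E := S) f (totH R S a) := by
  have : (totH R' S).comp (((SeqMonoid.Hom.const f).msys S).tmap (𝟙_ T)) =
      (HRing.map (E := S) f).toAddMonoidHom.comp (totH R S) := by
    refine MSys.tot_ext (fun k a => ?_)
    change totH R' S (((SeqMonoid.Hom.const f).msys S).tmap (𝟙_ T) ((RSys R S).tof _ k a)) =
      HRing.map (E := S) f (totH R S ((RSys R S).tof _ k a))
    rw [MSys.Hom.tmap_of, totH_of, totH_of, hq_hmap, itr_comp, HRing.map_of]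
  exact DFunLike.congr_fun this a

end tot

/-! ### The coefficient ring -/

section coeff

variable {T : Type u} [Category.{v} T] [Preadditive T] [HasZeroObject T]
    [HasShift T ℤ] [∀ n : ℤ, (shiftFunctor T n).Additive] [Pretriangulated T]
    [MonoidalCategory T] [SymmetricCategory T] [TensorTriangulated T]

/-- the unit map of the suspension spectrum functor -/
def eps (F : SpaceFunctor T) : 𝟙_ T ⟶ F.S.obj ⟨𝟙_ LC, fc_unit⟩ := Functor.LaxMonoidal.ε F.S

/-- the inverse of the unit map -/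
def eps' (F : SpaceFunctor T) : F.S.obj ⟨𝟙_ LC, fc_unit⟩ ⟶ 𝟙_ T := Functor.OplaxMonoidal.η F.S

@[reassoc (attr := simp)] theorem eps_eps' (F : SpaceFunctor T) : eps F ≫ eps' F = 𝟙 _ :=
  Functor.Monoidal.ε_η F.S

@[reassoc (attr := simp)] theorem eps'_eps (F : SpaceFunctor T) : eps' F ≫ eps F = 𝟙 _ :=
  Functor.Monoidal.η_ε F.S

instance (F : SpaceFunctor T) : IsIso (eps F) := ⟨eps' F, eps_eps' F, eps'_eps F⟩

theorem ε_map_δ_aux (F : SpaceFunctor T) :
    Functor.LaxMonoidal.ε F.S ≫ F.S.map (λ_ (𝟙_ FCat)).inv ≫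
      Functor.OplaxMonoidal.δ F.S (𝟙_ FCat) (𝟙_ FCat) =
      (λ_ (𝟙_ T)).inv ≫ (Functor.LaxMonoidal.ε F.S ⊗ₘ Functor.LaxMonoidal.ε F.S) := by
  have h : F.S.map (λ_ (𝟙_ FCat)).inv ≫ Functor.OplaxMonoidal.δ F.S (𝟙_ FCat) (𝟙_ FCat) =
      (λ_ (F.S.obj (𝟙_ FCat))).inv ≫ (Functor.LaxMonoidal.ε F.S ▷ F.S.obj (𝟙_ FCat)) := by
    rw [Functor.OplaxMonoidal.left_unitality, Category.assoc, Category.assoc,
      ← comp_whiskerRight, Functor.Monoidal.η_ε, id_whiskerRight, Category.comp_id]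
  rw [h, leftUnitor_inv_naturality_assoc, tensorHom_def']

theorem eps_map_δ (F : SpaceFunctor T) :
    eps F ≫ (F.S.map (FCat.hom (X := ⟨𝟙_ LC, fc_unit⟩)
      (Y := ⟨𝟙_ LC ⊗ 𝟙_ LC, fc_tensor fc_unit fc_unit⟩) (λ_ (𝟙_ LC)).inv) ≫
      Functor.OplaxMonoidal.δ F.S ⟨𝟙_ LC, fc_unit⟩ ⟨𝟙_ LC, fc_unit⟩) =
      (λ_ (𝟙_ T)).inv ≫ (eps F ⊗ₘ eps F) :=
  ε_map_δ_aux F

variable {R : T} [MonObj R] [IsCommMonObj R] {S : EvenSpheres T} {F : SpaceFunctor T}

/-- The value of a coefficient, as an additive map. -/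
def uH (R : T) [MonObj R] [IsCommMonObj R] (S : EvenSpheres T) (F : SpaceFunctor T) :
    UU (RSys R S) F (𝟙_ LC) →+ HRing S R :=
  (totH R S).comp (((RSys R S).tpull (eps F)).comp (uev fc_unit))

theorem uH_apply (u : UU (RSys R S) F (𝟙_ LC)) :
    uH R S F u = totH R S ((RSys R S).tpull (eps F) (uev fc_unit u)) := rfl

theorem uH_bijective : Function.Bijective (uH R S F) :=
  totH_bijective.comp ((MSys.tpull_bijective (eps F)).comp (uequiv (RSys R S) F fc_unit).bijective)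

theorem uH_one : uH R S F (umk fc_unit ((RSys R S).tpull (eps' F)
    (RSys R S).tone)) = 1 := by
  rw [uH_apply, uev_umk, ← MSys.tpull_comp, eps_eps', MSys.tpull_id, totH_tone]

theorem uH_mul (a b : UU (RSys R S) F (𝟙_ LC)) :
    uH R S F (umap (RSys R S) F (λ_ (𝟙_ LC)).inv (ucross (RSys R S) F a b)) =
      uH R S F a * uH R S F b := by
  rw [uH_apply, uev_umap fc_unit (fc_tensor fc_unit fc_unit), uev_ucross fc_unit fc_unit,
    ← MSys.tpull_comp, ← MSys.tpull_comp, uH_apply, uH_apply, ← totH_mul,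
    MSys.tcross_tpull, ← MSys.tpull_comp, Category.assoc, eps_map_δ]

/-- The isomorphism from the coefficient ring of the theory of `R` to the homotopy ring. -/
def coeffHom (hF : CofTriangles F) {s : F.S.obj CCF ⟶ (RSys R S).obj 0 1}
    (hs : (RSys R S).IsSusp s) : (theory (RSys R S) F hF s hs).A →+* HRing S R where
  toFun := uH R S F
  map_zero' := map_zero _
  map_add' := map_add _
  map_one' := uH_one
  map_mul' := uH_mul

theorem coeffHom_apply (hF : CofTriangles F) {s : F.S.obj CCF ⟶ (RSys R S).obj 0 1}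
    (hs : (RSys R S).IsSusp s) (a : UU (RSys R S) F (𝟙_ LC)) :
    coeffHom hF hs a = uH R S F a := rfl

theorem coeffHom_bijective (hF : CofTriangles F) {s : F.S.obj CCF ⟶ (RSys R S).obj 0 1}
    (hs : (RSys R S).IsSusp s) : Function.Bijective (coeffHom hF hs) := uH_bijective

/-- the values of homogeneous coefficients -/
theorem uH_deg {k : ℤ} {a : UU (RSys R S) F (𝟙_ LC)} (ha : a ∈ udeg (RSys R S) F (𝟙_ LC) k) :
    ∃ x : S.S (-k) ⟶ R, uH R S F a = HRing.of S R (-k) x := by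
  obtain ⟨b, hb⟩ := (mem_udeg fc_unit).mp ha
  refine ⟨itr S k R (hq R S k _ ((RSys R S).pull k (eps F) b)), ?_⟩
  rw [uH_apply, ← hb]
  have e : (RSys R S).tpull (eps F) ((RSys R S).tof _ k b) =
      (RSys R S).tof _ k ((RSys R S).pull k (eps F) b) := MSys.tpull_of _ _ _
  exact (congrArg (totH R S) e).trans (totH_of _ _)

theorem coeffHom_deg (hF : CofTriangles F) {s : F.S.obj CCF ⟶ (RSys R S).obj 0 1}
    (hs : (RSys R S).IsSusp s) {k : ℤ} {a : (theory (RSys R S) F hF s hs).A}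
    (ha : a ∈ (theory (RSys R S) F hF s hs).degA k) :
    ∃ x : S.S (-k) ⟶ R, coeffHom hF hs a = HRing.of S R (-k) x := uH_deg ha

variable {R' : T} [MonObj R'] [IsCommMonObj R']

theorem uH_uhom (f : R ⟶ R') [IsMonHom f] (a : UU (RSys R S) F (𝟙_ LC)) :
    uH R' S F (uhom F ((SeqMonoid.Hom.const f).msys S) (𝟙_ LC) a) =
      HRing.map (E := S) f (uH R S F a) := by
  have h : (RSys R' S).tpull (eps F) (((SeqMonoid.Hom.const f).msys S).tmap _ (uev fc_unit a)) =
      ((SeqMonoid.Hom.const f).msys S).tmap _ ((RSys R S).tpull (eps F) (uev fc_unit a)) :=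
    (MSys.Hom.tmap_tpull _ _ _).symm
  rw [uH_apply, uev_uhom]
  exact (congrArg (totH R' S) h).trans (totH_tmap f _)

/-- The morphism of theories given by a monoid map. -/
def theoryConst (f : R ⟶ R') [IsMonHom f] (hF : CofTriangles F) (c : F.S.obj CCF ⟶ S.S 1)
    (hs : (RSys R S).IsSusp (c ≫ MSys.sig (SeqMonoid.const R) S))
    (hs' : (RSys R' S).IsSusp (c ≫ MSys.sig (SeqMonoid.const R') S)) :
    Q.MultTheory.Hom (theory (RSys R S) F hF _ hs) (theory (RSys R' S) F hF _ hs') :=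
  theoryHom ((SeqMonoid.Hom.const f).msys S) hF hs hs' (by
    rw [Category.assoc, SeqMonoid.sig_msys_app])

theorem coeffHom_mapA (f : R ⟶ R') [IsMonHom f] (hF : CofTriangles F)
    (c : F.S.obj CCF ⟶ S.S 1)
    (hs : (RSys R S).IsSusp (c ≫ MSys.sig (SeqMonoid.const R) S))
    (hs' : (RSys R' S).IsSusp (c ≫ MSys.sig (SeqMonoid.const R') S))
    (a : (theory (RSys R S) F hF _ hs).A) :
    coeffHom hF hs' ((theoryConst f hF c hs hs').mapA a) =
      HRing.map (E := S) f (coeffHom hF hs a) :=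
  uH_uhom f a

end coeff

end Vale.Agent.P251.M
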