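import Mathlib.CategoryTheory.Monoidal.Braided.Basic
import Mathlib.CategoryTheory.Monoidal.Category
import Mathlib.Tactic.CategoryTheory.Monoidal.Basic
import Mathlib.Tactic.Ring
import Mathlib.Tactic.NormNum

/-!
# P251, part M1: coherent even spheres

In a symmetric monoidal category `T`, let `L` be an object such that `L ⊗ -` is an equivalence.
A *framing* of degree `n : ℤ` of an object `X` is a family of isomorphisms
`L^c ⊗ X ≅ L^(c+n)` (`c` large), compatible with tensoring with `L` on the left.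
Between framed objects of the same degree there is exactly one framed morphism, and it is an
isomorphism; associators, unitors and (if the swap of `L ⊗ L` is the identity) braidings are framed.
-/

open CategoryTheory MonoidalCategory

universe v u

namespace Vale.Agent.P251.M

section Basic

variable {T : Type u} [Category.{v} T] [MonoidalCategory T]

/-- powers of an object: `Pw L (n+1) = L ⊗ Pw L n` -/
def Pw (L : T) : ℕ → T
  | 0 => 𝟙_ T
  | n + 1 => L ⊗ Pw L n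

@[simp] lemma Pw_zero (L : T) : Pw L 0 = 𝟙_ T := rfl
@[simp] lemma Pw_succ (L : T) (n : ℕ) : Pw L (n + 1) = L ⊗ Pw L n := rfl

/-- `L ⊗ -` is an equivalence -/
class IsInv (L : T) : Prop where
  equiv : (tensorLeft L).IsEquivalence

attribute [instance] IsInv.equiv

instance IsInv.unit : IsInv (𝟙_ T) where
  equiv := Functor.isEquivalence_of_iso (leftUnitorNatIso T).symm

instance IsInv.tensor (L M : T) [IsInv L] [IsInv M] : IsInv (L ⊗ M) where
  equiv := Functor.isEquivalence_of_iso (tensorLeftTensor L M).symm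

lemma IsInv.of_iso {L M : T} (e : L ≅ M) [IsInv L] : IsInv M where
  equiv := Functor.isEquivalence_of_iso ((curriedTensor T).mapIso e)

instance IsInv.Pw (L : T) [IsInv L] : ∀ n : ℕ, IsInv (Pw L n)
  | 0 => IsInv.unit
  | n + 1 => by
    have := IsInv.Pw L n
    exact IsInv.tensor L (Vale.Agent.P251.M.Pw L n)

lemma whiskerLeft_inj (L : T) [IsInv L] {X Y : T} {f g : X ⟶ Y} (h : L ◁ f = L ◁ g) : f = g :=
  (tensorLeft L).map_injective h

lemma whiskerLeft_surj (L : T) [IsInv L] {X Y : T} (h : L ⊗ X ⟶ L ⊗ Y) :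
    ∃ f : X ⟶ Y, L ◁ f = h :=
  ⟨(tensorLeft L).preimage h, (tensorLeft L).map_preimage h⟩

/-- framings of degree `n` of `X` -/
structure Fr (L : T) (n : ℤ) (X : T) where
  N : ℕ
  φ (c d : ℕ) (hc : N ≤ c) (h : (c : ℤ) + n = d) : Pw L c ⊗ X ≅ Pw L d
  st (c d : ℕ) (hc : N ≤ c) (h : (c : ℤ) + n = d) (hc' : N ≤ c + 1)
    (h' : ((c + 1 : ℕ) : ℤ) + n = (d + 1 : ℕ)) :
    (φ (c + 1) (d + 1) hc' h').hom = (α_ L (Pw L c) X).hom ≫ L ◁ (φ c d hc h).hom

variable {L : T}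

/-- framed morphisms -/
def IsFr {n n' : ℤ} {X Y : T} (F : Fr L n X) (G : Fr L n' Y) (f : X ⟶ Y) : Prop :=
  ∀ (c d : ℕ) (hc : F.N ≤ c) (h : (c : ℤ) + n = d) (hc' : G.N ≤ c) (h' : (c : ℤ) + n' = d),
    Pw L c ◁ f ≫ (G.φ c d hc' h').hom = (F.φ c d hc h).hom

lemma exists_level (n : ℤ) (N : ℕ) : ∃ c d : ℕ, N ≤ c ∧ (c : ℤ) + n = d := by
  refine ⟨N + n.natAbs, ((N + n.natAbs : ℕ) + n).toNat, by omega, ?_⟩
  rw [Int.toNat_of_nonneg]
  omega

section

variable [IsInv L]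

lemma level_succ {n n' : ℤ} {X Y : T} {F : Fr L n X} {G : Fr L n' Y} {f : X ⟶ Y}
    (c d : ℕ) (hc : F.N ≤ c) (h : (c : ℤ) + n = d) (hc' : G.N ≤ c) (h' : (c : ℤ) + n' = d)
    (ac : F.N ≤ c + 1) (a : ((c + 1 : ℕ) : ℤ) + n = (d + 1 : ℕ)) (ac' : G.N ≤ c + 1)
    (a' : ((c + 1 : ℕ) : ℤ) + n' = (d + 1 : ℕ)) :
    (Pw L (c + 1) ◁ f ≫ (G.φ (c + 1) (d + 1) ac' a').hom = (F.φ (c + 1) (d + 1) ac a).hom) ↔
    (Pw L c ◁ f ≫ (G.φ c d hc' h').hom = (F.φ c d hc h).hom) := by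
  rw [F.st c d hc h, G.st c d hc' h']
  simp only [Pw_succ, tensor_whiskerLeft, Category.assoc, Iso.inv_hom_id_assoc,
    Iso.cancel_iso_hom_left]
  rw [← whiskerLeft_comp]
  constructor
  · intro e
    exact whiskerLeft_inj L e
  · intro e
    rw [e]

lemma level_add {n n' : ℤ} {X Y : T} {F : Fr L n X} {G : Fr L n' Y} {f : X ⟶ Y}
    (c d : ℕ) (hc : F.N ≤ c) (h : (c : ℤ) + n = d) (hc' : G.N ≤ c) (h' : (c : ℤ) + n' = d) :
    ∀ (j : ℕ)
    (ac : F.N ≤ c + j) (a : ((c + j : ℕ) : ℤ) + n = (d + j : ℕ)) (ac' : G.N ≤ c + j)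
    (a' : ((c + j : ℕ) : ℤ) + n' = (d + j : ℕ)),
    (Pw L (c + j) ◁ f ≫ (G.φ (c + j) (d + j) ac' a').hom = (F.φ (c + j) (d + j) ac a).hom) ↔
    (Pw L c ◁ f ≫ (G.φ c d hc' h').hom = (F.φ c d hc h).hom)
  | 0, _, _, _, _ => Iff.rfl
  | j + 1, ac, a, ac', a' => by
    have b : ((c + j : ℕ) : ℤ) + n = (d + j : ℕ) := by push_cast at a ⊢; omega
    have b' : ((c + j : ℕ) : ℤ) + n' = (d + j : ℕ) := by push_cast at a' ⊢; omega
    exact (level_succ (c + j) (d + j) (by omega) b (by omega) b' ac a ac' a').trans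
      (level_add c d hc h hc' h' j (by omega) b (by omega) b')

/-- one level suffices -/
lemma IsFr.of_level {n n' : ℤ} {X Y : T} {F : Fr L n X} {G : Fr L n' Y} {f : X ⟶ Y}
    (c d : ℕ) (hc : F.N ≤ c) (h : (c : ℤ) + n = d) (hc' : G.N ≤ c) (h' : (c : ℤ) + n' = d)
    (e : Pw L c ◁ f ≫ (G.φ c d hc' h').hom = (F.φ c d hc h).hom) : IsFr F G f := by
  intro c2 d2 hc2 h2 hc2' h2'
  rcases le_total c c2 with hle | hle
  · obtain ⟨j, rfl⟩ := Nat.exists_eq_add_of_le hle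
    obtain rfl : d2 = d + j := by push_cast at h2; omega
    exact (level_add c d hc h hc' h' j hc2 h2 hc2' h2').2 e
  · obtain ⟨j, rfl⟩ := Nat.exists_eq_add_of_le hle
    obtain rfl : d = d2 + j := by push_cast at h; omega
    exact (level_add c2 d2 hc2 h2 hc2' h2' j hc h hc' h').1 e

/-- framed morphisms are unique -/
lemma IsFr.unique {n n' : ℤ} {X Y : T} {F : Fr L n X} {G : Fr L n' Y} (hn : n = n')
    {f g : X ⟶ Y} (hf : IsFr F G f) (hg : IsFr F G g) : f = g := by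
  subst hn
  obtain ⟨c, d, hc, h⟩ := exists_level n (F.N + G.N)
  have e1 := hf c d (by omega) h (by omega) h
  have e2 := hg c d (by omega) h (by omega) h
  rw [← e2] at e1
  exact whiskerLeft_inj (Pw L c) ((cancel_mono _).1 e1)

lemma exists_framed {n n' : ℤ} {X Y : T} (F : Fr L n X) (G : Fr L n' Y) (hn : n = n') :
    ∃ f : X ⟶ Y, IsFr F G f := by
  subst hn
  obtain ⟨c, d, hc, h⟩ := exists_level n (F.N + G.N)
  obtain ⟨f, hf⟩ := whiskerLeft_surj (Pw L c)
    ((F.φ c d (by omega) h).hom ≫ (G.φ c d (by omega) h).inv)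
  refine ⟨f, IsFr.of_level c d (by omega) h (by omega) h ?_⟩
  rw [hf]
  simp

omit [IsInv L] in
lemma IsFr.id {n : ℤ} {X : T} (F : Fr L n X) : IsFr F F (𝟙 X) := by
  intro c d hc h hc' h'
  simp

lemma IsFr.comp {n n' n'' : ℤ} {X Y Z : T} {F : Fr L n X} {G : Fr L n' Y} {H : Fr L n'' Z}
    (hn : n = n') (hn' : n' = n'') {f : X ⟶ Y} {g : Y ⟶ Z} (hf : IsFr F G f) (hg : IsFr G H g) :
    IsFr F H (f ≫ g) := by
  subst hn
  subst hn'
  obtain ⟨c, d, hc, h⟩ := exists_level n (F.N + G.N + H.N)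
  refine IsFr.of_level c d (by omega) h (by omega) h ?_
  rw [whiskerLeft_comp, Category.assoc, hg c d (by omega) h (by omega) h,
    hf c d (by omega) h (by omega) h]

/-- the framed isomorphism -/
noncomputable def frIso {n n' : ℤ} {X Y : T} (F : Fr L n X) (G : Fr L n' Y) (hn : n = n') :
    X ≅ Y where
  hom := (exists_framed F G hn).choose
  inv := (exists_framed G F hn.symm).choose
  hom_inv_id := IsFr.unique (F := F) (G := F) rfl
    (IsFr.comp hn hn.symm (exists_framed F G hn).choose_spec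
      (exists_framed G F hn.symm).choose_spec) (IsFr.id F)
  inv_hom_id := IsFr.unique (F := G) (G := G) rfl
    (IsFr.comp hn.symm hn (exists_framed G F hn.symm).choose_spec
      (exists_framed F G hn).choose_spec) (IsFr.id G)

lemma isFr_frIso_hom {n n' : ℤ} {X Y : T} (F : Fr L n X) (G : Fr L n' Y) (hn : n = n') :
    IsFr F G (frIso F G hn).hom := (exists_framed F G hn).choose_spec

lemma isFr_frIso_inv {n n' : ℤ} {X Y : T} (F : Fr L n X) (G : Fr L n' Y) (hn : n = n') :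
    IsFr G F (frIso F G hn).inv := (exists_framed G F hn.symm).choose_spec

lemma IsFr.eq_frIso {n n' : ℤ} {X Y : T} {F : Fr L n X} {G : Fr L n' Y} (hn : n = n')
    {f : X ⟶ Y} (hf : IsFr F G f) : f = (frIso F G hn).hom :=
  hf.unique hn (isFr_frIso_hom F G hn)

lemma IsFr.inv {n n' : ℤ} {X Y : T} {F : Fr L n X} {G : Fr L n' Y} (hn : n = n')
    {f : X ⟶ Y} [IsIso f] (hf : IsFr F G f) : IsFr G F (CategoryTheory.inv f) := by
  have e := hf.eq_frIso hn
  subst e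
  rw [IsIso.Iso.inv_hom]
  exact isFr_frIso_inv F G hn

lemma IsFr.inv' {n n' : ℤ} {X Y : T} {F : Fr L n X} {G : Fr L n' Y} (hn : n = n')
    {f : X ≅ Y} (hf : IsFr F G f.hom) : IsFr G F f.inv := by
  have e := hf.inv hn
  rwa [IsIso.Iso.inv_hom] at e

end

/-- tensor product of framings -/
def Fr.tensor {m n : ℤ} {X Y : T} (F : Fr L m X) (G : Fr L n Y) : Fr L (m + n) (X ⊗ Y) where
  N := max F.N ((G.N : ℤ) - m).toNat
  φ c d hc h := (α_ (Pw L c) X Y).symm ≪≫
    whiskerRightIso (F.φ c ((c : ℤ) + m).toNat (by omega)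
      (by rw [Int.toNat_of_nonneg]; omega)) Y ≪≫
    G.φ ((c : ℤ) + m).toNat d (by omega) (by rw [Int.toNat_of_nonneg] <;> omega)
  st c d hc h hc' h' := by
    have key : ∀ (i i' : ℕ) (hi : (c : ℤ) + m = i) (hi' : ((c + 1 : ℕ) : ℤ) + m = i')
      (a1 : F.N ≤ c) (a2 : F.N ≤ c + 1) (a3 : G.N ≤ i) (a4 : G.N ≤ i') (a5 : (i : ℤ) + n = d)
      (a6 : (i' : ℤ) + n = (d + 1 : ℕ)),
      ((α_ (Pw L (c + 1)) X Y).symm ≪≫
      whiskerRightIso (F.φ (c + 1) i' a2 hi') Y ≪≫ G.φ i' (d + 1) a4 a6).hom =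
      (α_ L (Pw L c) (X ⊗ Y)).hom ≫ L ◁ ((α_ (Pw L c) X Y).symm ≪≫
      whiskerRightIso (F.φ c i a1 hi) Y ≪≫ G.φ i d a3 a5).hom := by
      intro i i' hi hi' a1 a2 a3 a4 a5 a6
      obtain rfl : i' = i + 1 := by push_cast at hi'; omega
      simp only [Iso.trans_hom, Iso.symm_hom, whiskerRightIso_hom]
      rw [F.st c i a1 hi, G.st i d a3 a5]
      simp only [Pw_succ, comp_whiskerRight, whisker_assoc, whiskerLeft_comp, Category.assoc,
        Iso.inv_hom_id_assoc]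
      monoidal
    exact key _ _ (by rw [Int.toNat_of_nonneg]; omega) (by rw [Int.toNat_of_nonneg]; omega)
      _ _ _ _ _ _

lemma Fr.tensor_φ {m n : ℤ} {X Y : T} (F : Fr L m X) (G : Fr L n Y) (c i d : ℕ)
    (hc : (F.tensor G).N ≤ c) (h : (c : ℤ) + (m + n) = d) (a1 : F.N ≤ c)
    (a2 : (c : ℤ) + m = i) (a3 : G.N ≤ i) (a4 : (i : ℤ) + n = d) :
    ((F.tensor G).φ c d hc h).hom = (α_ (Pw L c) X Y).inv ≫ (F.φ c i a1 a2).hom ▷ Y ≫
      (G.φ i d a3 a4).hom := by
  obtain rfl : i = ((c : ℤ) + m).toNat := by omega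
  rfl

lemma toNat_spec {a : ℤ} (h : 0 ≤ a) : a = (a.toNat : ℕ) := by omega

section

variable [IsInv L]

lemma IsFr.tensor {m m' n n' : ℤ} {X X' Y Y' : T} {F : Fr L m X} {F' : Fr L m' X'}
    {G : Fr L n Y} {G' : Fr L n' Y'} (hm : m = m') (hn : n = n') {f : X ⟶ X'} {g : Y ⟶ Y'}
    (hf : IsFr F F' f) (hg : IsFr G G' g) : IsFr (F.tensor G) (F'.tensor G') (f ⊗ₘ g) := by
  subst hm
  subst hn
  obtain ⟨c, d, hc, h⟩ := exists_level (m + n) ((F.tensor G).N + (F'.tensor G').N)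
  have hN : max F.N ((G.N : ℤ) - m).toNat ≤ c := le_trans (Nat.le_add_right _ _) hc
  have hN' : max F'.N ((G'.N : ℤ) - m).toNat ≤ c := le_trans (Nat.le_add_left _ _) hc
  have hi : (c : ℤ) + m = (((c : ℤ) + m).toNat : ℕ) := toNat_spec (by omega)
  generalize ((c : ℤ) + m).toNat = i at hi
  refine IsFr.of_level c d (by omega) h (by omega) h ?_
  rw [Fr.tensor_φ F G c i d (by omega) h (by omega) hi (by omega) (by omega),
    Fr.tensor_φ F' G' c i d (by omega) h (by omega) hi (by omega) (by omega)]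
  rw [← hf c i (by omega) hi (by omega) hi,
    ← hg i d (by omega) (by omega) (by omega) (by omega)]
  simp only [comp_whiskerRight, whisker_assoc, Category.assoc, tensorHom_def, whiskerLeft_comp]
  simp only [Iso.inv_hom_id_assoc]
  rw [← whisker_exchange_assoc]
  simp only [tensor_whiskerLeft, Category.assoc, Iso.inv_hom_id_assoc]

lemma IsFr.whiskerRight {m m' n : ℤ} {X X' Y : T} {F : Fr L m X} {F' : Fr L m' X'}
    {G : Fr L n Y} (hm : m = m') {f : X ⟶ X'} (hf : IsFr F F' f) :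
    IsFr (F.tensor G) (F'.tensor G) (f ▷ Y) := by
  have := IsFr.tensor (G := G) (G' := G) hm rfl hf (IsFr.id G)
  rwa [tensorHom_id] at this

lemma IsFr.whiskerLeft {m n n' : ℤ} {X Y Y' : T} {F : Fr L m X}
    {G : Fr L n Y} {G' : Fr L n' Y'} (hn : n = n') {g : Y ⟶ Y'} (hg : IsFr G G' g) :
    IsFr (F.tensor G) (F.tensor G') (X ◁ g) := by
  have := IsFr.tensor (F := F) (F' := F) rfl hn (IsFr.id F) hg
  rwa [id_tensorHom] at this

omit [IsInv L] in
lemma Fr.tensor_N_le {m n : ℤ} {X Y : T} {F : Fr L m X} {G : Fr L n Y} {c i : ℕ}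
    (h1 : F.N ≤ c) (h2 : (c : ℤ) + m = i) (h3 : G.N ≤ i) : (F.tensor G).N ≤ c := by
  have e : (F.tensor G).N = max F.N ((G.N : ℤ) - m).toNat := rfl
  omega

lemma isFr_associator {m n p : ℤ} {X Y Z : T} (F : Fr L m X) (G : Fr L n Y) (H : Fr L p Z) :
    IsFr ((F.tensor G).tensor H) (F.tensor (G.tensor H)) (α_ X Y Z).hom := by
  obtain ⟨c, i, j, d, h1, h2, h3, hi, hj, hd⟩ : ∃ c i j d : ℕ, F.N ≤ c ∧ G.N ≤ i ∧ H.N ≤ j ∧
      (c : ℤ) + m = i ∧ (i : ℤ) + n = j ∧ (j : ℤ) + p = d := by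
    refine ⟨F.N + G.N + H.N + m.natAbs + n.natAbs + p.natAbs,
      ((F.N + G.N + H.N + m.natAbs + n.natAbs + p.natAbs : ℕ) + m).toNat,
      ((F.N + G.N + H.N + m.natAbs + n.natAbs + p.natAbs : ℕ) + m + n).toNat,
      ((F.N + G.N + H.N + m.natAbs + n.natAbs + p.natAbs : ℕ) + m + n + p).toNat, ?_⟩
    omega
  have hmn : (c : ℤ) + (m + n) = j := by omega
  have hnp : (i : ℤ) + (n + p) = d := by omega
  have g1 : (F.tensor G).N ≤ c := Fr.tensor_N_le h1 hi h2
  have g2 : (G.tensor H).N ≤ i := Fr.tensor_N_le h2 hj h3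
  have g3 : ((F.tensor G).tensor H).N ≤ c := Fr.tensor_N_le g1 hmn h3
  have g4 : (F.tensor (G.tensor H)).N ≤ c := Fr.tensor_N_le h1 hi g2
  refine IsFr.of_level c d g3 (by omega) g4 (by omega) ?_
  rw [Fr.tensor_φ (F.tensor G) H c j d g3 (by omega) g1 hmn h3 hd,
    Fr.tensor_φ F G c i j g1 hmn h1 hi h2 hj,
    Fr.tensor_φ F (G.tensor H) c i d g4 (by omega) h1 hi g2 hnp,
    Fr.tensor_φ G H i j d g2 hnp h2 hj h3 hd]
  simp only [comp_whiskerRight, Category.assoc]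
  monoidal

end

/-- the unit is framed -/
def Fr.unit (L : T) : Fr L 0 (𝟙_ T) where
  N := 0
  φ c d _ h := ρ_ (Pw L c) ≪≫ eqToIso (by rw [show c = d by omega])
  st c d hc h hc' h' := by
    obtain rfl : c = d := by omega
    simp only [eqToIso_refl, Iso.trans_hom, Iso.refl_hom, Category.comp_id]
    exact (rightUnitor_tensor_hom L (Pw L c)).trans rfl

lemma Fr.unit_φ (c : ℕ) (hc : (Fr.unit L).N ≤ c) (h : (c : ℤ) + 0 = c) :
    ((Fr.unit L).φ c c hc h).hom = (ρ_ (Pw L c)).hom := by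
  simp [Fr.unit]

/-- stabilisation of an isomorphism `L^a ⊗ X ≅ L^b` -/
def stab {X : T} {a b : ℕ} (φ : Pw L a ⊗ X ≅ Pw L b) : ∀ j : ℕ, Pw L (a + j) ⊗ X ≅ Pw L (b + j)
  | 0 => φ
  | j + 1 => α_ L (Pw L (a + j)) X ≪≫ whiskerLeftIso L (stab φ j)

/-- the framing with given base isomorphism -/
def Fr.ofBase {X : T} {a b : ℕ} (φ : Pw L a ⊗ X ≅ Pw L b) (n : ℤ) (hn : (a : ℤ) + n = b) :
    Fr L n X where
  N := a
  φ c d hc h := eqToIso (by rw [show a + (c - a) = c by omega]) ≪≫ stab φ (c - a) ≪≫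
    eqToIso (by rw [show b + (c - a) = d by omega])
  st c d hc h hc' h' := by
    have key : ∀ (j j' : ℕ) (hj : a + j = c) (hj' : a + j' = c + 1) (hd : b + j = d)
      (hd' : b + j' = d + 1),
      (eqToIso (by rw [hj'] : Pw L (c + 1) ⊗ X = Pw L (a + j') ⊗ X) ≪≫ stab φ j' ≪≫
        eqToIso (by rw [hd'] : Pw L (b + j') = Pw L (d + 1))).hom =
      (α_ L (Pw L c) X).hom ≫ L ◁ (eqToIso (by rw [hj] : Pw L c ⊗ X = Pw L (a + j) ⊗ X) ≪≫
        stab φ j ≪≫ eqToIso (by rw [hd] : Pw L (b + j) = Pw L d)).hom := by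
      intro j j' hj hj' hd hd'
      obtain rfl : j' = j + 1 := by omega
      subst hj
      subst hd
      simp only [eqToIso_refl, Iso.trans_hom, Iso.refl_hom, Category.comp_id, Category.id_comp,
        stab]
      rfl
    exact key (c - a) (c + 1 - a) (by omega) (by omega) (by omega) (by omega)

lemma Fr.ofBase_φ {X : T} {a b : ℕ} (φ : Pw L a ⊗ X ≅ Pw L b) (n : ℤ) (hn : (a : ℤ) + n = b)
    (hc : (Fr.ofBase φ n hn).N ≤ a) : ((Fr.ofBase φ n hn).φ a b hc hn).hom = φ.hom := by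
  have key : ∀ (j : ℕ) (hj : j = 0),
      (eqToIso (by rw [hj]; rfl : Pw L a ⊗ X = Pw L (a + j) ⊗ X) ≪≫
        stab φ j ≪≫ eqToIso (by rw [hj]; rfl : Pw L (b + j) = Pw L b)).hom = φ.hom := by
    intro j hj
    subst hj
    simp [stab]
  exact key (a - a) (Nat.sub_self a)

section

variable [IsInv L]

lemma isFr_leftUnitor {n : ℤ} {X : T} (F : Fr L n X) :
    IsFr ((Fr.unit L).tensor F) F (λ_ X).hom := by
  obtain ⟨c, d, hc, h⟩ := exists_level n F.N
  have e1 : ((Fr.unit L).tensor F).N = max 0 ((F.N : ℤ) - 0).toNat := rfl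
  refine IsFr.of_level c d (by omega) (by omega) (by omega) (by omega) ?_
  have e2 : (Fr.unit L).N = 0 := rfl
  rw [Fr.tensor_φ (Fr.unit L) F c c d (by omega) (by omega) (by omega) (by omega) (by omega)
    (by omega), Fr.unit_φ]
  simp

lemma isFr_rightUnitor {n : ℤ} {X : T} (F : Fr L n X) :
    IsFr (F.tensor (Fr.unit L)) F (ρ_ X).hom := by
  obtain ⟨c, d, hc, h⟩ := exists_level n (F.N + n.natAbs)
  have e1 : (F.tensor (Fr.unit L)).N = max F.N (((0 : ℕ) : ℤ) - n).toNat := rfl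
  refine IsFr.of_level c d (by omega) (by omega) (by omega) (by omega) ?_
  have e2 : (Fr.unit L).N = 0 := rfl
  rw [Fr.tensor_φ F (Fr.unit L) c d d (by omega) (by omega) (by omega) (by omega) (by omega)
    (by omega), Fr.unit_φ]
  simp

end

/-- transport of a framing along an isomorphism -/
def Fr.ofIso {n : ℤ} {X Y : T} (F : Fr L n X) (e : Y ≅ X) : Fr L n Y where
  N := F.N
  φ c d hc h := whiskerLeftIso (Pw L c) e ≪≫ F.φ c d hc h
  st c d hc h hc' h' := by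
    simp only [Iso.trans_hom, F.st c d hc h]
    simp

lemma isFr_ofIso {n : ℤ} {X Y : T} (F : Fr L n X) (e : Y ≅ X) : IsFr (F.ofIso e) F e.hom := by
  intro c d hc h hc' h'
  rfl

/-- change of the degree along an equality -/
def Fr.cast {n n' : ℤ} {X : T} (F : Fr L n X) (h : n = n') : Fr L n' X where
  N := F.N
  φ c d hc h' := F.φ c d hc (by rw [h]; exact h')
  st c d hc h hc' h' := F.st c d hc _ hc' _

lemma isFr_cast {n n' : ℤ} {X : T} (F : Fr L n X) (h : n = n') : IsFr F (F.cast h) (𝟙 X) := by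
  intro c d hc h hc' h'
  simp [Fr.cast]

lemma isFr_cast' {n n' : ℤ} {X : T} (F : Fr L n X) (h : n = n') : IsFr (F.cast h) F (𝟙 X) := by
  intro c d hc h hc' h'
  simp [Fr.cast]

/-- `L` has degree `1` -/
def Fr.self (L : T) : Fr L 1 L :=
  Fr.ofBase (a := 0) (b := 1) (λ_ L ≪≫ (ρ_ L).symm) 1 (by norm_num)

/-- an inverse of `L` has degree `-1` -/
def Fr.invr {L' : T} (j : L ⊗ L' ≅ 𝟙_ T) : Fr L (-1) L' :=
  Fr.ofBase (a := 1) (b := 0) (whiskerRightIso (ρ_ L) L' ≪≫ j) (-1) (by norm_num)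

/-- powers of framed objects -/
def Fr.pow {m : ℤ} {X : T} (F : Fr L m X) : ∀ k : ℕ, Fr L (m * k) (Pw X k)
  | 0 => (Fr.unit L).cast (by simp)
  | k + 1 => (F.tensor (F.pow k)).cast (by push_cast; ring)

end Basic

section Sym

variable {T : Type u} [Category.{v} T] [MonoidalCategory T] [SymmetricCategory T]

/-- in a symmetric monoidal category, an object with an inverse is invertible -/
lemma IsInv.of_inverse {L L' : T} (j : L ⊗ L' ≅ 𝟙_ T) : IsInv L where
  equiv := by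
    let e : T ≌ T := CategoryTheory.Equivalence.mk (tensorLeft L) (tensorLeft L')
      ((leftUnitorNatIso T).symm ≪≫ ((curriedTensor T).mapIso (β_ L' L ≪≫ j)).symm ≪≫
        tensorLeftTensor L' L)
      ((tensorLeftTensor L L').symm ≪≫ (curriedTensor T).mapIso j ≪≫ leftUnitorNatIso T)
    exact e.isEquivalence_functor

lemma IsInv.of_inverse' {L L' : T} (j : L ⊗ L' ≅ 𝟙_ T) : IsInv L' :=
  IsInv.of_inverse (L := L') (L' := L) (β_ L' L ≪≫ j)

variable {L : T} [IsInv L]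

/-- the braiding of two framed objects is framed -/
def SymFr {m n : ℤ} {X Y : T} (F : Fr L m X) (G : Fr L n Y) : Prop :=
  IsFr (F.tensor G) (G.tensor F) (β_ X Y).hom

lemma SymFr.symm {m n : ℤ} {X Y : T} {F : Fr L m X} {G : Fr L n Y} (h : SymFr F G) :
    SymFr G F := by
  unfold SymFr at *
  have h2 := IsFr.inv' (add_comm m n) h
  have : (β_ X Y).inv = (β_ Y X).hom := by
    rw [← SymmetricCategory.braiding_swap_eq_inv_braiding]
  rwa [this] at h2

lemma SymFr.of_isFr {m m' n : ℤ} {X X' Y : T} {F : Fr L m X} {F' : Fr L m' X'} {G : Fr L n Y}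
    (hm : m = m') {f : X ≅ X'} (hf : IsFr F F' f.hom) (h : SymFr F G) : SymFr F' G := by
  unfold SymFr at *
  have e : (β_ X' Y).hom = (f.inv ▷ Y) ≫ (β_ X Y).hom ≫ (Y ◁ f.hom) := by
    simp
  rw [e]
  have h1 : IsFr (F'.tensor G) (F.tensor G) (f.inv ▷ Y) :=
    IsFr.whiskerRight hm.symm (IsFr.inv' hm hf)
  have h2 : IsFr (G.tensor F) (G.tensor F') (Y ◁ f.hom) := IsFr.whiskerLeft hm hf
  exact IsFr.comp (by omega) (by omega) h1 (IsFr.comp (by omega) (by omega) h h2)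

lemma SymFr.of_isFr_right {m n n' : ℤ} {X Y Y' : T} {F : Fr L m X} {G : Fr L n Y}
    {G' : Fr L n' Y'}
    (hn : n = n') {f : Y ≅ Y'} (hf : IsFr G G' f.hom) (h : SymFr F G) : SymFr F G' :=
  (SymFr.of_isFr hn hf h.symm).symm

lemma SymFr.unit {n : ℤ} {Y : T} (G : Fr L n Y) : SymFr (Fr.unit L) G := by
  unfold SymFr
  have e : (β_ (𝟙_ T) Y).hom = (λ_ Y).hom ≫ (ρ_ Y).inv := by
    rw [braiding_tensorUnit_left]
  rw [e]
  exact IsFr.comp (by omega) (by omega) (isFr_leftUnitor G)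
    (IsFr.inv' (by omega) (isFr_rightUnitor G))

lemma SymFr.tensor {m m' n : ℤ} {X X' Y : T} {F : Fr L m X} {F' : Fr L m' X'} {G : Fr L n Y}
    (h : SymFr F G) (h' : SymFr F' G) : SymFr (F.tensor F') G := by
  unfold SymFr at *
  have e : (β_ (X ⊗ X') Y).hom = (α_ X X' Y).hom ≫ X ◁ (β_ X' Y).hom ≫ (α_ X Y X').inv ≫
      (β_ X Y).hom ▷ X' ≫ (α_ Y X X').hom := by
    simp
  rw [e]
  have e1 := isFr_associator F F' G
  have e2 : IsFr (F.tensor (F'.tensor G)) (F.tensor (G.tensor F')) (X ◁ (β_ X' Y).hom) :=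
    IsFr.whiskerLeft (by omega) h'
  have e3 := IsFr.inv' (by omega) (isFr_associator F G F')
  have e4 : IsFr ((F.tensor G).tensor F') ((G.tensor F).tensor F') ((β_ X Y).hom ▷ X') :=
    IsFr.whiskerRight (by omega) h
  have e5 := isFr_associator G F F'
  exact IsFr.comp (by omega) (by omega) e1 (IsFr.comp (by omega) (by omega) e2
    (IsFr.comp (by omega) (by omega) e3 (IsFr.comp (by omega) (by omega) e4 e5)))

lemma SymFr.tensor_right {m n n' : ℤ} {X Y Y' : T} {F : Fr L m X} {G : Fr L n Y}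
    {G' : Fr L n' Y'} (h : SymFr F G) (h' : SymFr F G') : SymFr F (G.tensor G') :=
  (SymFr.tensor h.symm h'.symm).symm

omit [SymmetricCategory T] in
lemma isInv_of_framed {n : ℤ} {X : T} (F : Fr L n X) : IsInv X := by
  obtain ⟨c, d, hc, h⟩ := exists_level n F.N
  have e := F.φ c d hc h
  have h1 : (tensorLeft (Pw L c ⊗ X)).IsEquivalence :=
    Functor.isEquivalence_of_iso ((curriedTensor T).mapIso e.symm)
  have h2 : (tensorLeft X ⋙ tensorLeft (Pw L c)).IsEquivalence :=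
    Functor.isEquivalence_of_iso (tensorLeftTensor (Pw L c) X)
  exact ⟨Functor.isEquivalence_of_comp_right (tensorLeft X) (tensorLeft (Pw L c))⟩

/-- cancellation -/
lemma SymFr.cancel {m m' n : ℤ} {X X' Y : T} {F : Fr L m X} {F' : Fr L m' X'} {G : Fr L n Y}
    (h : SymFr F G) (h' : SymFr (F.tensor F') G) : SymFr F' G := by
  have := isInv_of_framed F
  unfold SymFr at *
  -- compare the braiding with the framed isomorphism
  let s := frIso (F'.tensor G) (G.tensor F') (add_comm m' n)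
  have hs : IsFr (F'.tensor G) (G.tensor F') s.hom := isFr_frIso_hom _ _ _
  have e : (α_ X X' Y).hom ≫ X ◁ (β_ X' Y).hom ≫ (α_ X Y X').inv ≫
      (β_ X Y).hom ▷ X' ≫ (α_ Y X X').hom = (α_ X X' Y).hom ≫ X ◁ s.hom ≫ (α_ X Y X').inv ≫
      (β_ X Y).hom ▷ X' ≫ (α_ Y X X').hom := by
    have e' : (β_ (X ⊗ X') Y).hom = (α_ X X' Y).hom ≫ X ◁ (β_ X' Y).hom ≫ (α_ X Y X').inv ≫
      (β_ X Y).hom ▷ X' ≫ (α_ Y X X').hom := by
      simp
    rw [← e']
    refine IsFr.unique (F := (F.tensor F').tensor G) (G := G.tensor (F.tensor F')) (by omega) h' ?_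
    have e1 := isFr_associator F F' G
    have e2 : IsFr (F.tensor (F'.tensor G)) (F.tensor (G.tensor F')) (X ◁ s.hom) :=
      IsFr.whiskerLeft (by omega) hs
    have e3 := IsFr.inv' (by omega) (isFr_associator F G F')
    have e4 : IsFr ((F.tensor G).tensor F') ((G.tensor F).tensor F') ((β_ X Y).hom ▷ X') :=
      IsFr.whiskerRight (by omega) h
    have e5 := isFr_associator G F F'
    exact IsFr.comp (by omega) (by omega) e1 (IsFr.comp (by omega) (by omega) e2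
      (IsFr.comp (by omega) (by omega) e3 (IsFr.comp (by omega) (by omega) e4 e5)))
  have e2 := (cancel_epi _).1 e
  have e3 : X ◁ (β_ X' Y).hom = X ◁ s.hom := (cancel_mono ((α_ X Y X').inv ≫
      (β_ X Y).hom ▷ X' ≫ (α_ Y X X').hom)).1 e2
  rw [whiskerLeft_inj X e3]
  exact hs

lemma SymFr.cast {m m' n : ℤ} {X Y : T} {F : Fr L m X} {G : Fr L n Y} (hm : m = m')
    (h : SymFr F G) : SymFr (F.cast hm) G :=
  SymFr.of_isFr hm (f := Iso.refl X) (isFr_cast F hm) h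

lemma SymFr.pow {m n : ℤ} {X Y : T} {F : Fr L m X} {G : Fr L n Y} (h : SymFr F G) :
    ∀ k : ℕ, SymFr (F.pow k) G
  | 0 => SymFr.cast _ (SymFr.unit G)
  | k + 1 => SymFr.cast _ (SymFr.tensor h (SymFr.pow h k))

omit [IsInv L] in
/-- if the swap of `L ⊗ L` is the identity, then the braiding is framed for `L`, `L` -/
lemma SymFr.self (hL : (β_ L L).hom = 𝟙 _) : SymFr (Fr.self L) (Fr.self L) := by
  unfold SymFr
  rw [hL]
  exact IsFr.id _

omit [SymmetricCategory T] in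
/-- the isomorphism `L ⊗ L' ≅ 𝟙` is framed -/
lemma isFr_invr {L' : T} (j : L ⊗ L' ≅ 𝟙_ T) :
    IsFr ((Fr.self L).tensor (Fr.invr j)) (Fr.unit L) j.hom := by
  have e1 : ((Fr.self L).tensor (Fr.invr j)).N = max (Fr.self L).N
    (((Fr.invr j).N : ℤ) - 1).toNat := rfl
  have e2 : (Fr.self L).N = 0 := rfl
  have e3 : (Fr.invr j).N = 1 := rfl
  have e4 : (Fr.unit L).N = 0 := rfl
  refine IsFr.of_level 0 0 (by omega) (by omega) (by omega) (by omega) ?_
  rw [Fr.tensor_φ (Fr.self L) (Fr.invr j) 0 1 0 (by omega) (by omega) (by omega) (by omega)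
    (by omega) (by omega), Fr.unit_φ]
  have a1 := Fr.ofBase_φ (L := L) (a := 0) (b := 1) (λ_ L ≪≫ (ρ_ L).symm) 1 (by norm_num)
    le_rfl
  have a2 := Fr.ofBase_φ (L := L) (a := 1) (b := 0) (whiskerRightIso (ρ_ L) L' ≪≫ j) (-1)
    (by norm_num) le_rfl
  unfold Fr.self Fr.invr
  rw [a1, a2]
  simp only [Pw_zero, Pw_succ, Iso.trans_hom, Iso.symm_hom, whiskerRightIso_hom,
    comp_whiskerRight, Category.assoc, inv_hom_whiskerRight_assoc]
  monoidal

end Sym

/-- Input for even spheres: an object `L` with an inverse, such that the swap of `L ⊗ L` is the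
identity (e.g. `L = Σ^∞ ℂ` or `L = S¹ ⊗ S¹`). -/
structure EvenSpheres (T : Type u) [Category.{v} T] [MonoidalCategory T] [SymmetricCategory T] where
  /-- the even sphere `S²` -/
  L : T
  /-- its inverse -/
  L' : T
  j : L ⊗ L' ≅ 𝟙_ T
  swap : (β_ L L).hom = 𝟙 (L ⊗ L)

namespace EvenSpheres

variable {T : Type u} [Category.{v} T] [MonoidalCategory T] [SymmetricCategory T]
  (E : EvenSpheres T)

instance : IsInv E.L := IsInv.of_inverse E.j
instance : IsInv E.L' := IsInv.of_inverse' E.j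

/-- the sphere `S^{2n}` -/
def S : ℤ → T
  | Int.ofNat k => Pw E.L k
  | Int.negSucc k => Pw E.L' (k + 1)

@[simp] lemma S_zero : E.S 0 = 𝟙_ T := rfl
lemma S_ofNat (k : ℕ) : E.S k = Pw E.L k := rfl
lemma S_one : E.S 1 = E.L ⊗ 𝟙_ T := rfl
lemma S_negSucc (k : ℕ) : E.S (Int.negSucc k) = Pw E.L' (k + 1) := rfl

/-- the framing of `S^{2n}` -/
def fr : ∀ n : ℤ, Fr E.L n (E.S n)
  | Int.ofNat k => ((Fr.self E.L).pow k).cast (by simp)
  | Int.negSucc k => ((Fr.invr E.j).pow (k + 1)).cast (by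
      rw [Int.negSucc_eq]; push_cast; ring)

/-- the framing of `𝟙 = S^0` is the standard one -/
lemma isFr_zero : IsFr (Fr.unit E.L) (E.fr 0) (𝟙 (𝟙_ T)) := by
  intro c d hc h hc' h'
  simp [fr, Fr.pow, Fr.cast]

lemma isFr_zero' : IsFr (E.fr 0) (Fr.unit E.L) (𝟙 (𝟙_ T)) := by
  intro c d hc h hc' h'
  simp [fr, Fr.pow, Fr.cast]

/-- the identity `𝟙 ≅ S^0`, as an isomorphism -/
def zero : 𝟙_ T ≅ E.S 0 := Iso.refl _

lemma isFr_zeroIso : IsFr (Fr.unit E.L) (E.fr 0) E.zero.hom := E.isFr_zero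

lemma isFr_zeroIso' : IsFr (E.fr 0) (Fr.unit E.L) E.zero.inv := E.isFr_zero'

lemma symFr (m n : ℤ) : SymFr (E.fr m) (E.fr n) := by
  have h1 : SymFr (Fr.self E.L) (Fr.self E.L) := SymFr.self E.swap
  have h2 : ∀ {n : ℤ} {Y : T} (G : Fr E.L n Y), SymFr (Fr.self E.L) G →
      SymFr (Fr.invr E.j) G := by
    intro n Y G h
    refine SymFr.cancel h ?_
    exact SymFr.of_isFr (by norm_num) (f := E.j.symm) (IsFr.inv' (by norm_num) (isFr_invr E.j))
      (SymFr.unit G)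
  have h3 : SymFr (Fr.invr E.j) (Fr.self E.L) := h2 _ h1
  have h4 : SymFr (Fr.invr E.j) (Fr.invr E.j) := h2 _ h3.symm
  have key : ∀ (m : ℤ) {n : ℤ} {Y : T} (G : Fr E.L n Y), SymFr (Fr.self E.L) G →
      SymFr (Fr.invr E.j) G → SymFr (E.fr m) G := by
    intro m n Y G a b
    cases m with
    | ofNat k => exact SymFr.cast (by simp) (SymFr.pow a k)
    | negSucc k => exact SymFr.cast (by rw [Int.negSucc_eq]; push_cast; ring) (SymFr.pow b (k + 1))
  refine key m _ ?_ ?_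
  · exact (key n _ h1 h3).symm
  · exact (key n _ h3.symm h4).symm

/-- the coherent isomorphism `S^{2m} ⊗ S^{2n} ≅ S^{2p}`, `m + n = p` -/
noncomputable def mu (m n p : ℤ) (h : m + n = p) : E.S m ⊗ E.S n ≅ E.S p :=
  frIso ((E.fr m).tensor (E.fr n)) (E.fr p) h

lemma isFr_mu (m n p : ℤ) (h : m + n = p) :
    IsFr ((E.fr m).tensor (E.fr n)) (E.fr p) (E.mu m n p h).hom := isFr_frIso_hom _ _ _

/-- the coherent isomorphism `S^{2m} ≅ S^{2n}`, `m = n` -/
noncomputable def castIso (m n : ℤ) (h : m = n) : E.S m ≅ E.S n := frIso (E.fr m) (E.fr n) h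

lemma isFr_castIso (m n : ℤ) (h : m = n) : IsFr (E.fr m) (E.fr n) (E.castIso m n h).hom :=
  isFr_frIso_hom _ _ _

@[simp] lemma castIso_refl (m : ℤ) : E.castIso m m rfl = Iso.refl _ := by
  ext
  exact IsFr.unique rfl (E.isFr_castIso m m rfl) (IsFr.id _)

lemma castIso_hom_eq (m n : ℤ) (h : m = n) : (E.castIso m n h).hom = eqToHom (by rw [h]) := by
  subst h
  simp

/-- the coherent isomorphism `S² ≅ L` -/
noncomputable def oneIso : E.S 1 ≅ E.L := frIso (E.fr 1) (Fr.self E.L) rfl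

lemma isFr_oneIso : IsFr (E.fr 1) (Fr.self E.L) E.oneIso.hom := isFr_frIso_hom _ _ _

lemma mu_assoc (m n p mn np q : ℤ) (h1 : m + n = mn) (h2 : mn + p = q) (h3 : n + p = np)
    (h4 : m + np = q) :
    (E.mu m n mn h1).hom ▷ E.S p ≫ (E.mu mn p q h2).hom =
      (α_ (E.S m) (E.S n) (E.S p)).hom ≫ E.S m ◁ (E.mu n p np h3).hom ≫
        (E.mu m np q h4).hom := by
  refine IsFr.unique (F := ((E.fr m).tensor (E.fr n)).tensor (E.fr p)) (G := E.fr q) (by omega)
    ?_ ?_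
  · exact IsFr.comp (by omega) (by omega) (IsFr.whiskerRight h1 (E.isFr_mu m n mn h1))
      (E.isFr_mu mn p q h2)
  · exact IsFr.comp (by omega) (by omega) (isFr_associator _ _ _)
      (IsFr.comp (by omega) (by omega) (IsFr.whiskerLeft h3 (E.isFr_mu n p np h3))
      (E.isFr_mu m np q h4))

lemma mu_comm (m n p : ℤ) (h : m + n = p) (h' : n + m = p) :
    (β_ (E.S m) (E.S n)).hom ≫ (E.mu n m p h').hom = (E.mu m n p h).hom :=
  IsFr.unique (F := (E.fr m).tensor (E.fr n)) (G := E.fr p) h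
    (IsFr.comp (by omega) (by omega) (E.symFr m n) (E.isFr_mu n m p h')) (E.isFr_mu m n p h)

lemma zero_mu (n : ℤ) (h : 0 + n = n) : (E.mu 0 n n h).hom = (λ_ (E.S n)).hom := by
  refine IsFr.unique (F := (E.fr 0).tensor (E.fr n)) (G := E.fr n) (by omega)
    (E.isFr_mu 0 n n h) ?_
  have e1 : IsFr ((E.fr 0).tensor (E.fr n)) ((Fr.unit E.L).tensor (E.fr n))
      ((𝟙 (𝟙_ T)) ▷ E.S n) := IsFr.whiskerRight rfl (E.isFr_zero')
  have e2 := IsFr.comp (by omega) (by omega) e1 (isFr_leftUnitor (E.fr n))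
  simpa using e2

lemma mu_zero (n : ℤ) (h : n + 0 = n) : (E.mu n 0 n h).hom = (ρ_ (E.S n)).hom := by
  refine IsFr.unique (F := (E.fr n).tensor (E.fr 0)) (G := E.fr n) (by omega)
    (E.isFr_mu n 0 n h) ?_
  have e1 : IsFr ((E.fr n).tensor (E.fr 0)) ((E.fr n).tensor (Fr.unit E.L))
      (E.S n ◁ (𝟙 (𝟙_ T))) := IsFr.whiskerLeft rfl (E.isFr_zero')
  have e2 := IsFr.comp (by omega) (by omega) e1 (isFr_rightUnitor (E.fr n))
  simpa using e2

lemma zero_mu' (n : ℤ) (h : 0 + n = n) :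
    E.zero.hom ▷ E.S n ≫ (E.mu 0 n n h).hom = (λ_ (E.S n)).hom :=
  IsFr.unique (F := (Fr.unit E.L).tensor (E.fr n)) (G := E.fr n) (by omega)
    (IsFr.comp (by omega) (by omega) (IsFr.whiskerRight rfl E.isFr_zeroIso)
      (E.isFr_mu 0 n n h)) (isFr_leftUnitor (E.fr n))

lemma mu_zero' (n : ℤ) (h : n + 0 = n) :
    E.S n ◁ E.zero.hom ≫ (E.mu n 0 n h).hom = (ρ_ (E.S n)).hom :=
  IsFr.unique (F := (E.fr n).tensor (Fr.unit E.L)) (G := E.fr n) (by omega)
    (IsFr.comp (by omega) (by omega) (IsFr.whiskerLeft rfl E.isFr_zeroIso)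
      (E.isFr_mu n 0 n h)) (isFr_rightUnitor (E.fr n))

lemma castIso_trans (m n p : ℤ) (h : m = n) (h' : n = p) :
    (E.castIso m n h).hom ≫ (E.castIso n p h').hom = (E.castIso m p (h.trans h')).hom := by
  subst h
  subst h'
  simp

lemma mu_cast (m n p p' : ℤ) (h : m + n = p) (h' : p = p') :
    (E.mu m n p h).hom ≫ (E.castIso p p' h').hom = (E.mu m n p' (h.trans h')).hom := by
  subst h'
  simp

lemma cast_mu (m m' n n' p : ℤ) (h : m' + n' = p) (h' : m = m') (h'' : n = n') :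
    ((E.castIso m m' h').hom ⊗ₘ (E.castIso n n' h'').hom) ≫ (E.mu m' n' p h).hom =
      (E.mu m n p (by rw [h', h'', h])).hom := by
  subst h'
  subst h''
  simp

instance (n : ℤ) : IsInv (E.S n) := isInv_of_framed (E.fr n)

end EvenSpheres

end Vale.Agent.P251.M
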