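import Vale.Agent.P251.T.Axioms
import Mathlib.Algebra.Colimit.DirectLimit
import Mathlib.Algebra.DirectSum.Basic
import Mathlib.CategoryTheory.Monoidal.Braided.Basic
import Mathlib.CategoryTheory.Monoidal.Preadditive

/-!
# P251, part M: multiplicative systems and the cohomology theory they define

A multiplicative system `M : MSys T` is a family of objects `M.obj n k` (`n : ℕ` is the stage,
`k : ℤ` is the (complex) degree) with transition maps `m ≤ n → (M.obj m k ⟶ M.obj n k)` and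
products `M.obj m k ⊗ M.obj n l ⟶ M.obj (m+n) (k+l)`, which are natural, unital, associative and
commutative. It defines groups `M.H k X = colim_n Hom(X, M.obj n k)` with exterior products.
-/

open CategoryTheory MonoidalCategory Limits Pretriangulated

universe v u

noncomputable section

namespace Vale.Agent.P251.M

/-- Direct limits of abelian groups over `ℕ`: the lift as an additive homomorphism. -/
def dlLift {G : ℕ → Type*} [∀ i, AddCommGroup (G i)] (f : ∀ i j, i ≤ j → G i →+ G j)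
    [DirectedSystem G (f · · ·)] {A : Type*} [AddCommGroup A] (g : ∀ i, G i →+ A)
    (hg : ∀ i j h x, g i x = g j (f i j h x)) : DirectLimit G f →+ A where
  toFun := DirectLimit.lift f (fun i x => g i x) hg
  map_zero' := by
    rw [DirectLimit.zero_def 0, DirectLimit.lift_def]
    exact map_zero _
  map_add' := by
    refine DirectLimit.induction₂ _ ?_
    intro i x y
    rw [DirectLimit.add_def, DirectLimit.lift_def, DirectLimit.lift_def, DirectLimit.lift_def]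
    exact map_add _ _ _

/-- A multiplicative system in a symmetric monoidal category. -/
structure MSys (T : Type u) [Category.{v} T] [MonoidalCategory T] [SymmetricCategory T] where
  /-- the objects: stage `n`, degree `k` -/
  obj : ℕ → ℤ → T
  /-- the transition maps -/
  map {m n : ℕ} (k : ℤ) (h : m ≤ n) : obj m k ⟶ obj n k
  map_refl (n : ℕ) (k : ℤ) : map k (le_refl n) = 𝟙 _
  map_trans {m n p : ℕ} (k : ℤ) (h : m ≤ n) (h' : n ≤ p) :
    map k h ≫ map k h' = map k (h.trans h')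
  /-- the unit -/
  one : 𝟙_ T ⟶ obj 0 0
  /-- the products -/
  mul {m n p : ℕ} {k l q : ℤ} (hn : m + n = p) (hk : k + l = q) : obj m k ⊗ obj n l ⟶ obj p q
  mul_map {m n p m' n' p' : ℕ} {k l q : ℤ} (hn : m + n = p) (hn' : m' + n' = p') (hk : k + l = q)
    (hm : m ≤ m') (hn'' : n ≤ n') (hp : p ≤ p') :
    (map k hm ⊗ₘ map l hn'') ≫ mul hn' hk = mul hn hk ≫ map q hp
  one_mul {n : ℕ} {k : ℤ} :
    (one ▷ obj n k) ≫ mul (Nat.zero_add n) (zero_add k) = (λ_ (obj n k)).hom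
  mul_assoc {m n p a b c : ℕ} {k l q r s t : ℤ} (h₁ : m + n = a) (h₂ : a + p = c) (h₃ : n + p = b)
    (h₄ : m + b = c) (k₁ : k + l = r) (k₂ : r + q = t) (k₃ : l + q = s) (k₄ : k + s = t) :
    (mul h₁ k₁ ▷ obj p q) ≫ mul h₂ k₂ =
      (α_ (obj m k) (obj n l) (obj p q)).hom ≫ (obj m k ◁ mul h₃ k₃) ≫ mul h₄ k₄
  mul_comm {m n p : ℕ} {k l q : ℤ} (hn : m + n = p) (hk : k + l = q) (hn' : n + m = p)
    (hk' : l + k = q) : (β_ (obj m k) (obj n l)).hom ≫ mul hn' hk' = mul hn hk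

namespace MSys

variable {T : Type u} [Category.{v} T] [Preadditive T] [MonoidalCategory T] [SymmetricCategory T]
  (M : MSys T)

/-- The transition maps of the direct system `n ↦ Hom(X, M.obj n k)`. -/
def trans (k : ℤ) (X : T) (i j : ℕ) (h : i ≤ j) : (X ⟶ M.obj i k) →+ (X ⟶ M.obj j k) :=
  Preadditive.rightComp X (M.map k h)

@[simp] theorem trans_apply (k : ℤ) (X : T) (i j : ℕ) (h : i ≤ j) (x : X ⟶ M.obj i k) :
    M.trans k X i j h x = x ≫ M.map k h := rfl

instance (k : ℤ) (X : T) : DirectedSystem (fun n => (X ⟶ M.obj n k)) (M.trans k X · · ·) where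
  map_self i x := by simp [map_refl]
  map_map h h' x := by simp [map_trans]

/-- The cohomology group `H^k(X) = colim_n Hom(X, M.obj n k)`. -/
def H (k : ℤ) (X : T) : Type v := DirectLimit (fun n => (X ⟶ M.obj n k)) (M.trans k X)

instance (k : ℤ) (X : T) : AddCommGroup (M.H k X) :=
  (inferInstance : AddCommGroup (DirectLimit (fun n => (X ⟶ M.obj n k)) (M.trans k X)))

variable {M}

/-- The class of a map into the `n`-th stage. -/
def cls {k : ℤ} {X : T} (n : ℕ) : (X ⟶ M.obj n k) →+ M.H k X where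
  toFun x := (⟦⟨n, x⟩⟧ : DirectLimit (fun n => (X ⟶ M.obj n k)) (M.trans k X))
  map_zero' := (DirectLimit.zero_def n).symm
  map_add' x y := (DirectLimit.add_def (f := M.trans k X) n x y).symm

theorem cls_map {k : ℤ} {X : T} {m n : ℕ} (h : m ≤ n) (x : X ⟶ M.obj m k) :
    cls n (x ≫ M.map k h) = (cls m x : M.H k X) :=
  DirectLimit.mk_apply (F := fun n => (X ⟶ M.obj n k)) (f := M.trans k X) m n x h

theorem exists_cls {k : ℤ} {X : T} (a : M.H k X) : ∃ (n : ℕ) (x : X ⟶ M.obj n k), a = cls n x :=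
  DirectLimit.exists_eq_mk (M.trans k X) a

theorem exists_cls₂ {k l : ℤ} {X Y : T} (a : M.H k X) (b : M.H l Y) :
    ∃ (n : ℕ) (x : X ⟶ M.obj n k) (y : Y ⟶ M.obj n l), a = cls n x ∧ b = cls n y := by
  obtain ⟨m, x, rfl⟩ := exists_cls a
  obtain ⟨n, y, rfl⟩ := exists_cls b
  exact ⟨max m n, x ≫ M.map k (le_max_left m n), y ≫ M.map l (le_max_right m n),
    (cls_map _ _).symm, (cls_map _ _).symm⟩

theorem cls_eq_iff {k : ℤ} {X : T} {m n : ℕ} (x : X ⟶ M.obj m k) (y : X ⟶ M.obj n k) :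
    (cls m x : M.H k X) = cls n y ↔ ∃ (p : ℕ) (h : m ≤ p) (h' : n ≤ p),
      x ≫ M.map k h = y ≫ M.map k h' :=
  Quotient.eq (r := DirectLimit.setoid (M.trans k X))

theorem cls_eq_zero_iff {k : ℤ} {X : T} {m : ℕ} (x : X ⟶ M.obj m k) :
    (cls m x : M.H k X) = 0 ↔ ∃ (p : ℕ) (h : m ≤ p), x ≫ M.map k h = 0 := by
  rw [← map_zero (cls (M := M) (k := k) (X := X) m), cls_eq_iff]
  constructor
  · rintro ⟨p, h, h', e⟩
    exact ⟨p, h, by rw [e, zero_comp]⟩
  · rintro ⟨p, h, e⟩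
    exact ⟨p, h, h, by rw [e, zero_comp]⟩

variable (M) in
/-- Lifting a compatible family. -/
def lift {k : ℤ} {X : T} {A : Type*} [AddCommGroup A] (g : ∀ n, (X ⟶ M.obj n k) →+ A)
    (hg : ∀ (m n : ℕ) (h : m ≤ n) (x : X ⟶ M.obj m k), g n (x ≫ M.map k h) = g m x) :
    M.H k X →+ A :=
  dlLift (M.trans k X) g (fun i j h x => (hg i j h x).symm)

@[simp] theorem lift_cls {k : ℤ} {X : T} {A : Type*} [AddCommGroup A]
    (g : ∀ n, (X ⟶ M.obj n k) →+ A)
    (hg : ∀ (m n : ℕ) (h : m ≤ n) (x : X ⟶ M.obj m k), g n (x ≫ M.map k h) = g m x)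
    (n : ℕ) (x : X ⟶ M.obj n k) : M.lift g hg (cls n x) = g n x := rfl

variable (M) in
/-- The pull back. -/
def pull {X Y : T} (k : ℤ) (f : X ⟶ Y) : M.H k Y →+ M.H k X :=
  M.lift (fun n => (cls n).comp (Preadditive.leftComp _ f)) (fun m n h x => by
    change cls n (f ≫ x ≫ M.map k h) = cls m (f ≫ x)
    rw [← Category.assoc, cls_map])

@[simp] theorem pull_cls {X Y : T} {k : ℤ} (f : X ⟶ Y) (n : ℕ) (x : Y ⟶ M.obj n k) :
    M.pull k f (cls n x) = cls n (f ≫ x) := rfl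

theorem pull_id {X : T} {k : ℤ} (a : M.H k X) : M.pull k (𝟙 X) a = a := by
  obtain ⟨n, x, rfl⟩ := exists_cls a
  rw [pull_cls, Category.id_comp]

theorem pull_comp {X Y Z : T} {k : ℤ} (f : X ⟶ Y) (g : Y ⟶ Z) (a : M.H k Z) :
    M.pull k (f ≫ g) a = M.pull k f (M.pull k g a) := by
  obtain ⟨n, x, rfl⟩ := exists_cls a
  rw [pull_cls, pull_cls, pull_cls, Category.assoc]

theorem pull_add {X Y : T} {k : ℤ} (f g : X ⟶ Y) (a : M.H k Y) :
    M.pull k (f + g) a = M.pull k f a + M.pull k g a := by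
  obtain ⟨n, x, rfl⟩ := exists_cls a
  rw [pull_cls, pull_cls, pull_cls, Preadditive.add_comp, map_add]

theorem pull_zero {X Y : T} {k : ℤ} (a : M.H k Y) : M.pull k (0 : X ⟶ Y) a = 0 := by
  obtain ⟨n, x, rfl⟩ := exists_cls a
  rw [pull_cls, zero_comp, map_zero]

/-- The pull back along an isomorphism is bijective. -/
theorem pull_bijective {X Y : T} {k : ℤ} (f : X ⟶ Y) [IsIso f] :
    Function.Bijective (M.pull k f) := by
  constructor
  · intro a b h
    have := congrArg (M.pull k (inv f)) h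
    rwa [← pull_comp, ← pull_comp, IsIso.inv_hom_id, pull_id, pull_id] at this
  · intro a
    exact ⟨M.pull k (inv f) a, by rw [← pull_comp, IsIso.hom_inv_id, pull_id]⟩

section ext

variable [MonoidalPreadditive T]

variable (M) in
/-- The exterior product at finite stages, second variable. -/
def xaux {X Y : T} {k l q : ℤ} (hk : k + l = q) (m : ℕ) (x : X ⟶ M.obj m k) :
    M.H l Y →+ M.H q (X ⊗ Y) :=
  M.lift (fun n => AddMonoidHom.mk' (fun y => cls (m + n) ((x ⊗ₘ y) ≫ M.mul rfl hk))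
    (fun y y' => by rw [MonoidalPreadditive.tensor_add, Preadditive.add_comp, map_add]))
    (fun n n' h y => by
      simp only [AddMonoidHom.mk'_apply]
      have e : (x ⊗ₘ (y ≫ M.map l h)) ≫ M.mul (rfl : m + n' = m + n') hk =
          ((x ⊗ₘ y) ≫ M.mul (rfl : m + n = m + n) hk) ≫ M.map q (Nat.add_le_add_left h m) := by
        rw [Category.assoc, ← M.mul_map rfl rfl hk le_rfl h (Nat.add_le_add_left h m), M.map_refl,
          ← Category.assoc, tensorHom_comp_tensorHom, Category.comp_id]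
      rw [e, cls_map])

@[simp] theorem xaux_cls {X Y : T} {k l q : ℤ} (hk : k + l = q) (m : ℕ) (x : X ⟶ M.obj m k)
    (n : ℕ) (y : Y ⟶ M.obj n l) :
    M.xaux hk m x (cls n y) = cls (m + n) ((x ⊗ₘ y) ≫ M.mul rfl hk) := rfl

variable (M) in
/-- The exterior product. -/
def xprod {X Y : T} {k l q : ℤ} (hk : k + l = q) : M.H k X →+ M.H l Y →+ M.H q (X ⊗ Y) :=
  M.lift (fun m => AddMonoidHom.mk' (fun x => M.xaux hk m x)
    (fun x x' => by
      ext b
      obtain ⟨n, y, rfl⟩ := exists_cls b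
      rw [AddMonoidHom.add_apply, xaux_cls, xaux_cls, xaux_cls, MonoidalPreadditive.add_tensor,
        Preadditive.add_comp, map_add]))
    (fun m m' h x => by
      ext b
      obtain ⟨n, y, rfl⟩ := exists_cls b
      simp only [AddMonoidHom.mk'_apply, xaux_cls]
      have e : ((x ≫ M.map k h) ⊗ₘ y) ≫ M.mul (rfl : m' + n = m' + n) hk =
          ((x ⊗ₘ y) ≫ M.mul (rfl : m + n = m + n) hk) ≫ M.map q (Nat.add_le_add_right h n) := by
        rw [Category.assoc, ← M.mul_map rfl rfl hk h le_rfl (Nat.add_le_add_right h n), M.map_refl,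
          ← Category.assoc, tensorHom_comp_tensorHom, Category.comp_id]
      rw [e, cls_map])

theorem xprod_cls {X Y : T} {k l q : ℤ} (hk : k + l = q) {m n p : ℕ} (hn : m + n = p)
    (x : X ⟶ M.obj m k) (y : Y ⟶ M.obj n l) :
    M.xprod hk (cls m x) (cls n y) = cls p ((x ⊗ₘ y) ≫ M.mul hn hk) := by
  subst hn; rfl

theorem xprod_pull {X Y X' Y' : T} {k l q : ℤ} (hk : k + l = q) (f : X ⟶ X') (g : Y ⟶ Y')
    (a : M.H k X') (b : M.H l Y') :
    M.xprod hk (M.pull k f a) (M.pull l g b) = M.pull q (f ⊗ₘ g) (M.xprod hk a b) := by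
  obtain ⟨m, x, rfl⟩ := exists_cls a
  obtain ⟨n, y, rfl⟩ := exists_cls b
  rw [pull_cls, pull_cls, xprod_cls hk rfl, xprod_cls hk rfl, pull_cls, ← tensorHom_comp_tensorHom,
    Category.assoc]

theorem xprod_comm {X Y : T} {k l q : ℤ} (hk : k + l = q) (hk' : l + k = q)
    (a : M.H k X) (b : M.H l Y) :
    M.pull q (β_ X Y).hom (M.xprod hk' b a) = M.xprod hk a b := by
  obtain ⟨m, x, rfl⟩ := exists_cls a
  obtain ⟨n, y, rfl⟩ := exists_cls b
  rw [xprod_cls hk' (Nat.add_comm n m), xprod_cls hk rfl, pull_cls, ← Category.assoc,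
    ← BraidedCategory.braiding_naturality, Category.assoc, M.mul_comm rfl hk]

theorem xprod_assoc {X Y Z : T} {k l q r s t : ℤ} (k₁ : k + l = r) (k₂ : r + q = t)
    (k₃ : l + q = s) (k₄ : k + s = t) (a : M.H k X) (b : M.H l Y) (c : M.H q Z) :
    M.pull t (α_ X Y Z).hom (M.xprod k₄ a (M.xprod k₃ b c)) = M.xprod k₂ (M.xprod k₁ a b) c := by
  obtain ⟨m, x, rfl⟩ := exists_cls a
  obtain ⟨n, y, rfl⟩ := exists_cls b
  obtain ⟨p, z, rfl⟩ := exists_cls c
  rw [xprod_cls k₃ rfl, xprod_cls k₄ (Nat.add_assoc m n p).symm, xprod_cls k₁ rfl, xprod_cls k₂ rfl, pull_cls]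
  congr 1
  have e1 : (x ⊗ₘ ((y ⊗ₘ z) ≫ M.mul (rfl : n + p = n + p) k₃)) =
      (x ⊗ₘ (y ⊗ₘ z)) ≫ (M.obj m k ◁ M.mul (rfl : n + p = n + p) k₃) := by
    rw [← id_tensorHom, tensorHom_comp_tensorHom, Category.comp_id]
  have e2 : (((x ⊗ₘ y) ≫ M.mul (rfl : m + n = m + n) k₁) ⊗ₘ z) =
      ((x ⊗ₘ y) ⊗ₘ z) ≫ (M.mul (rfl : m + n = m + n) k₁ ▷ M.obj p q) := by
    rw [← tensorHom_id, tensorHom_comp_tensorHom, Category.comp_id]
  rw [e1, e2, Category.assoc, Category.assoc,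
    M.mul_assoc rfl rfl rfl (Nat.add_assoc m n p).symm k₁ k₂ k₃ k₄,
    ← associator_naturality_assoc]

variable (M) in
/-- The unit class. -/
def unit : M.H 0 (𝟙_ T) := cls 0 M.one

theorem unit_xprod {X : T} {k : ℤ} (a : M.H k X) :
    M.xprod (zero_add k) M.unit a = M.pull k (λ_ X).hom a := by
  obtain ⟨n, x, rfl⟩ := exists_cls a
  rw [unit, xprod_cls (zero_add k) (Nat.zero_add n), pull_cls]
  congr 1
  rw [← leftUnitor_naturality, ← M.one_mul, ← Category.assoc, tensorHom_def']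

end ext

section susp

variable [MonoidalPreadditive T]

variable (M) in
/-- A suspension class: a map `s : L ⟶ M.obj 0 1` such that multiplication by `s` is bijective at
each stage. -/
structure IsSusp {L : T} (s : L ⟶ M.obj 0 1) : Prop where
  bij : ∀ (X : T) (n : ℕ) (k q : ℤ) (hk : k + 1 = q),
    Function.Bijective (fun x : X ⟶ M.obj n k =>
      ((x ⊗ₘ s) ≫ M.mul (Nat.add_zero n) hk : X ⊗ L ⟶ M.obj n q))

theorem IsSusp.bijective {L : T} {s : L ⟶ M.obj 0 1} (hs : M.IsSusp s) {X : T} {k q : ℤ}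
    (hk : k + 1 = q) :
    Function.Bijective (fun a : M.H k X => M.xprod hk a (cls 0 s)) := by
  constructor
  · intro a b h
    obtain ⟨n, x, y, rfl, rfl⟩ := exists_cls₂ a b
    simp only [xprod_cls hk (Nat.add_zero n)] at h
    obtain ⟨p, h1, h2, e⟩ := (cls_eq_iff _ _).mp h
    have key : ∀ z : X ⟶ M.obj n k, ((z ⊗ₘ s) ≫ M.mul (Nat.add_zero n) hk) ≫ M.map q h1 =
        ((z ≫ M.map k h1) ⊗ₘ s) ≫ M.mul (Nat.add_zero p) hk := by
      intro z
      rw [Category.assoc, ← M.mul_map (Nat.add_zero n) (Nat.add_zero p) hk h1 le_rfl h1, M.map_refl,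
        ← Category.assoc, tensorHom_comp_tensorHom, Category.comp_id]
    rw [key, key] at e
    rw [← cls_map h1 x, (hs.bij X p k q hk).1 e, cls_map h1 y]
  · intro b
    obtain ⟨n, y, rfl⟩ := exists_cls b
    obtain ⟨x, hx⟩ := (hs.bij X n k q hk).2 y
    refine ⟨cls n x, ?_⟩
    simp only [xprod_cls hk (Nat.add_zero n)]
    exact congrArg _ hx

end susp

section triangle

variable [HasZeroObject T] [HasShift T ℤ] [∀ n : ℤ, (shiftFunctor T n).Additive]
  [Pretriangulated T]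

theorem exact₂ (Δ : Triangle T) (hΔ : Δ ∈ distTriang T) {k : ℤ} (a : M.H k Δ.obj₂)
    (h : M.pull k Δ.mor₁ a = 0) : ∃ b : M.H k Δ.obj₃, M.pull k Δ.mor₂ b = a := by
  obtain ⟨n, x, rfl⟩ := exists_cls a
  rw [pull_cls, cls_eq_zero_iff] at h
  obtain ⟨p, hp, e⟩ := h
  rw [Category.assoc] at e
  obtain ⟨z, hz⟩ := Triangle.yoneda_exact₂ Δ hΔ _ e
  refine ⟨cls p z, ?_⟩
  rw [pull_cls, ← hz, cls_map]

theorem exact₁ (Δ : Triangle T) (hΔ : Δ ∈ distTriang T) {k : ℤ} (a : M.H k (Δ.obj₁⟦(1 : ℤ)⟧))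
    (h : M.pull k Δ.mor₃ a = 0) : ∃ b : M.H k (Δ.obj₂⟦(1 : ℤ)⟧),
      M.pull k (Δ.mor₁⟦(1 : ℤ)⟧') b = a := by
  have h3 := rot_of_distTriang _ (rot_of_distTriang _ hΔ)
  obtain ⟨b, hb⟩ : ∃ b : M.H k (Δ.obj₂⟦(1 : ℤ)⟧), M.pull k (-(Δ.mor₁⟦(1 : ℤ)⟧')) b = a :=
    exact₂ _ h3 a h
  refine ⟨-b, ?_⟩
  rw [← hb, map_neg]
  obtain ⟨n, x, rfl⟩ := exists_cls b
  rw [pull_cls, pull_cls, Preadditive.neg_comp, map_neg]

theorem exact₃ (Δ : Triangle T) (hΔ : Δ ∈ distTriang T) {k : ℤ} (a : M.H k Δ.obj₃)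
    (h : M.pull k Δ.mor₂ a = 0) : ∃ b : M.H k (Δ.obj₁⟦(1 : ℤ)⟧), M.pull k Δ.mor₃ b = a :=
  exact₂ _ (rot_of_distTriang _ hΔ) a h

end triangle

end MSys

end Vale.Agent.P251.M
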