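import Vale.Agent.P251.M.SeqDefs
import Vale.Agent.P251.M.MSys
import Vale.Agent.P251.M.Even

/-!
# P251, part M: the multiplicative system of a multiplicative sequence and even spheres

`MSys.ofSeq E S` has objects `E n ⊗ S^{2k}`.
-/

open CategoryTheory MonoidalCategory

universe v u

noncomputable section

namespace Vale.Agent.P251.M

variable {T : Type u} [Category.{v} T] [MonoidalCategory T] [SymmetricCategory T]

/-- The middle four interchange is compatible with the braidings. -/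
@[reassoc]
theorem tensorμ_braiding (A B C D : T) :
    (β_ (A ⊗ B) (C ⊗ D)).hom ≫ tensorμ C D A B =
      tensorμ A B C D ≫ ((β_ A C).hom ⊗ₘ (β_ B D).hom) := by
  simp [tensorμ, SymmetricCategory.braiding_swap_eq_inv_braiding D A, tensorHom_def]

/-- Interchange with the unit. -/
theorem tensorμ_unit (A B C : T) :
    ((A ⊗ B) ◁ (λ_ C).inv) ≫ tensorμ A B (𝟙_ T) C ≫ ((ρ_ A).hom ▷ (B ⊗ C)) =
      (α_ A B C).hom := by
  simp only [tensorμ, braiding_tensorUnit_right]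
  monoidal

theorem SeqMonoid.mu_one (E : SeqMonoid T) (n : ℕ) :
    (E.E.obj n ◁ E.one) ≫ E.mu (Nat.add_zero n) = (ρ_ (E.E.obj n)).hom := by
  rw [← E.mu_comm (Nat.add_zero n) (Nat.zero_add n), BraidedCategory.braiding_naturality_right_assoc,
    E.one_mu, braiding_leftUnitor]

theorem whiskerRight_bijective (L : T) [IsInv L] (X Y : T) :
    Function.Bijective (fun f : X ⟶ Y => f ▷ L) := by
  have key : ∀ f : X ⟶ Y, f ▷ L = (β_ X L).hom ≫ (L ◁ f) ≫ (β_ Y L).inv := by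
    intro f
    rw [← BraidedCategory.braiding_naturality_left_assoc, Iso.hom_inv_id, Category.comp_id]
  constructor
  · intro f g h
    simp only [key] at h
    rw [cancel_epi, cancel_mono] at h
    exact whiskerLeft_inj L h
  · intro g
    obtain ⟨f, hf⟩ := whiskerLeft_surj L ((β_ X L).inv ≫ g ≫ (β_ Y L).hom)
    refine ⟨f, ?_⟩
    simp only [key]
    rw [hf]
    simp

theorem mul_sig_aux {A A₀ B C D X : T} (o : 𝟙_ T ⟶ A₀) (m : A ⊗ A₀ ⟶ A)
    (hm : (A ◁ o) ≫ m = (ρ_ A).hom) (nu : B ⊗ C ⟶ D) (x : X ⟶ A ⊗ B) :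
    (x ⊗ₘ ((λ_ C).inv ≫ (o ▷ C))) ≫ tensorμ A B A₀ C ≫ (m ⊗ₘ nu) =
      (x ▷ C) ≫ (α_ A B C).hom ≫ (A ◁ nu) := by
  have h1 := tensorμ_natural_right A B o (𝟙 C)
  rw [tensorHom_id, whiskerLeft_id] at h1
  rw [tensorHom_def, Category.assoc, whiskerLeft_comp, Category.assoc, reassoc_of% h1,
    tensorHom_comp_tensorHom, hm, Category.id_comp, ← tensorμ_unit]
  simp only [Category.assoc, tensorHom_def]

/-- The identification `𝟙 = S^0`. -/
def EvenSpheres.z (S : EvenSpheres T) : 𝟙_ T ⟶ S.S 0 := 𝟙 (𝟙_ T)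

instance (S : EvenSpheres T) : IsIso S.z := inferInstanceAs (IsIso (𝟙 (𝟙_ T)))

@[reassoc]
theorem EvenSpheres.z_mu (S : EvenSpheres T) (n : ℤ) (h : 0 + n = n) :
    (S.z ▷ S.S n) ≫ (S.mu 0 n n h).hom = (λ_ (S.S n)).hom := by
  have h1 : (S.z ▷ S.S n) = 𝟙 (𝟙_ T ⊗ S.S n) := id_whiskerRight _ _
  have h2 := S.zero_mu n h
  rw [h1]
  exact (Category.id_comp _).trans h2

@[reassoc]
theorem EvenSpheres.mu_z (S : EvenSpheres T) (n : ℤ) (h : n + 0 = n) :
    (S.S n ◁ S.z) ≫ (S.mu n 0 n h).hom = (ρ_ (S.S n)).hom := by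
  have h1 : (S.S n ◁ S.z) = 𝟙 (S.S n ⊗ 𝟙_ T) := whiskerLeft_id _ _
  have h2 := S.mu_zero n h
  rw [h1]
  exact (Category.id_comp _).trans h2

namespace MSys

variable (E : SeqMonoid T) (S : EvenSpheres T)

/-- The multiplicative system `E n ⊗ S^{2k}`. -/
def ofSeq : MSys T where
  obj n k := E.E.obj n ⊗ S.S k
  map k h := E.E.map (homOfLE h) ▷ S.S k
  map_refl n k := by
    have : homOfLE (le_refl n) = 𝟙 n := rfl
    rw [this, E.E.map_id, id_whiskerRight]
  map_trans k h h' := by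
    rw [← comp_whiskerRight, ← E.E.map_comp]; rfl
  one := (λ_ (𝟙_ T)).inv ≫ (E.one ⊗ₘ S.z)
  mul hn hk := tensorμ _ _ _ _ ≫ (E.mu hn ⊗ₘ (S.mu _ _ _ hk).hom)
  mul_map {m n p m' n' p' k l q} hn hn' hk hm hn'' hp := by
    rw [← tensorHom_id, ← tensorHom_id, tensorμ_natural_assoc, tensorHom_comp_tensorHom,
      E.mu_map hn hn' hm hn'' hp, id_tensorHom_id, Category.id_comp, Category.assoc,
      ← tensorHom_id, tensorHom_comp_tensorHom, Category.comp_id]
  one_mul {n k} := by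
    rw [tensor_left_unitality, comp_whiskerRight, Category.assoc, tensorμ_natural_left_assoc,
      tensorHom_comp_tensorHom, E.one_mu, S.z_mu]
  mul_assoc {m n p a b c k l q r s t} h₁ h₂ h₃ h₄ k₁ k₂ k₃ k₄ := by
    rw [comp_whiskerRight, Category.assoc, tensorμ_natural_left_assoc, tensorHom_comp_tensorHom,
      whiskerLeft_comp, Category.assoc, tensorμ_natural_right_assoc, tensorHom_comp_tensorHom,
      ← reassoc_of% (tensor_associativity (E.E.obj m) (S.S k) (E.E.obj n) (S.S l) (E.E.obj p)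
        (S.S q)), tensorHom_comp_tensorHom, E.mu_assoc h₁ h₂ h₃ h₄,
      S.mu_assoc k l q r s t k₁ k₂ k₃ k₄]
  mul_comm {m n p k l q} hn hk hn' hk' := by
    rw [tensorμ_braiding_assoc, tensorHom_comp_tensorHom, E.mu_comm hn hn', S.mu_comm k l q hk hk']

/-- The suspension class at stage `0`. -/
def sig : S.S 1 ⟶ (ofSeq E S).obj 0 1 := (λ_ (S.S 1)).inv ≫ (E.one ▷ S.S 1)

theorem mul_sig {X : T} {n : ℕ} {k q : ℤ} (hk : k + 1 = q) (x : X ⟶ (ofSeq E S).obj n k) :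
    (x ⊗ₘ sig E S) ≫ (ofSeq E S).mul (Nat.add_zero n) hk =
      (x ▷ S.S 1) ≫ (α_ (E.E.obj n) (S.S k) (S.S 1)).hom ≫
        (E.E.obj n ◁ (S.mu k 1 q hk).hom) :=
  mul_sig_aux E.one (E.mu (Nat.add_zero n)) (E.mu_one n) (S.mu k 1 q hk).hom x

theorem isSusp_sig : (ofSeq E S).IsSusp (sig E S) where
  bij X n k q hk := by
    have e : (fun x : X ⟶ (ofSeq E S).obj n k =>
        ((x ⊗ₘ sig E S) ≫ (ofSeq E S).mul (Nat.add_zero n) hk : X ⊗ S.S 1 ⟶ _)) =
        (fun y => y ≫ ((α_ (E.E.obj n) (S.S k) (S.S 1)).hom ≫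
          (E.E.obj n ◁ (S.mu k 1 q hk).hom))) ∘ (fun x => x ▷ S.S 1) := by
      funext x
      exact mul_sig E S hk x
    rw [e]
    let i : (E.E.obj n ⊗ S.S k) ⊗ S.S 1 ≅ (ofSeq E S).obj n q :=
      α_ (E.E.obj n) (S.S k) (S.S 1) ≪≫ whiskerLeftIso (E.E.obj n) (S.mu k 1 q hk)
    refine Function.Bijective.comp ⟨?_, ?_⟩ (whiskerRight_bijective (S.S 1) _ _)
    · intro a b h
      exact (cancel_mono i.hom).mp h
    · intro b
      exact ⟨b ≫ i.inv, (Category.assoc _ _ _).trans ((congrArg _ i.inv_hom_id).trans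
        (Category.comp_id _))⟩

end MSys

end Vale.Agent.P251.M
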