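import Vale.Agent.P251.M.CofTri
import Vale.Agent.P251.M.CoeffRing
import Vale.Agent.P251.M.SeqSys

/-!
# P251, part M: the theories defined by sequences and by commutative monoids

For even spheres `S` and an isomorphism `e : Σ ℂ ≅ S.L`:

* `lineCls e A` : the suspension class of `MSys.ofSeq A S`;
* `thSeq e A : MultTheory` : the theory of the multiplicative sequence `A`;
* `thK e K : MultTheory` : the theory `U^k(X) = Hom(Σ X, K ⊗ S^{2k})` of a commutative monoid `K`.
-/

open CategoryTheory MonoidalCategory Limits Pretriangulated MonObj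
open Vale.Agent.P251.G Vale.Agent.P251.G.LC Vale.Agent.P251.I Vale.Agent.P251.T

universe v u

set_option linter.unusedSectionVars false

noncomputable section

namespace Vale.Agent.P251.M

variable {T : Type u} [Category.{v} T] [Preadditive T] [HasZeroObject T]
    [HasShift T ℤ] [∀ n : ℤ, (shiftFunctor T n).Additive] [Pretriangulated T]
    [MonoidalCategory T] [SymmetricCategory T] [TensorTriangulated T]

theorem MSys.IsSusp.comp_isIso {M : MSys T} {L L' : T} {s : L ⟶ M.obj 0 1} (hs : M.IsSusp s)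
    (i : L' ⟶ L) [IsIso i] : M.IsSusp (i ≫ s) where
  bij X n k q hk := by
    have h1 : (fun x : X ⟶ M.obj n k =>
        ((x ⊗ₘ (i ≫ s)) ≫ M.mul (Nat.add_zero n) hk : X ⊗ L' ⟶ M.obj n q)) =
        (fun y : X ⊗ L ⟶ M.obj n q => (X ◁ i) ≫ y) ∘ (fun x : X ⟶ M.obj n k =>
          ((x ⊗ₘ s) ≫ M.mul (Nat.add_zero n) hk : X ⊗ L ⟶ M.obj n q)) := by
      funext x
      change (x ⊗ₘ (i ≫ s)) ≫ _ = (X ◁ i) ≫ (x ⊗ₘ s) ≫ _
      rw [← id_tensorHom, tensorHom_comp_tensorHom_assoc, Category.id_comp]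
    rw [h1]
    refine Function.Bijective.comp ?_ (hs.bij X n k q hk)
    exact ⟨fun a b h => (cancel_epi (X ◁ i)).mp h, fun b => ⟨inv (X ◁ i) ≫ b, by simp⟩⟩

variable {S : EvenSpheres T} {F : SpaceFunctor T} (e : F.S.obj CCF ≅ S.L)

/-- The suspension class `Σ ℂ ≅ S^2 ⟶ E 0 ⊗ S^2`. -/
def lineCls (A : SeqMonoid T) : F.S.obj CCF ⟶ (MSys.ofSeq A S).obj 0 1 :=
  (e.hom ≫ S.oneIso.inv) ≫ MSys.sig A S

theorem isSusp_lineCls (A : SeqMonoid T) : (MSys.ofSeq A S).IsSusp (lineCls e A) :=
  (MSys.isSusp_sig A S).comp_isIso (e.hom ≫ S.oneIso.inv)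

/-- The theory of a multiplicative sequence. -/
abbrev thSeq (A : SeqMonoid T) : Q.MultTheory :=
  theory (MSys.ofSeq A S) F (cofTriangles F) (lineCls e A) (isSusp_lineCls e A)

/-- The theory of a commutative monoid. -/
abbrev thK (K : T) [MonObj K] [IsCommMonObj K] : Q.MultTheory := thSeq e (SeqMonoid.const K)

/-- The coefficient ring of the theory of a commutative monoid. -/
def coefK (K : T) [MonObj K] [IsCommMonObj K] : (thK e K).A →+* HRing S K :=
  coeffHom (cofTriangles F) (isSusp_lineCls e (SeqMonoid.const K))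

theorem coefK_bijective (K : T) [MonObj K] [IsCommMonObj K] :
    Function.Bijective (coefK e K) := coeffHom_bijective _ _

end Vale.Agent.P251.M
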