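import Vale.Agent.P251.T.Axioms
import Vale.Agent.P251.S.Defs
import Mathlib.CategoryTheory.Limits.Preserves.Shapes.Products
import Mathlib.CategoryTheory.Functor.OfSequence
import Mathlib.CategoryTheory.Adjunction.Limits
import Mathlib.Tactic

/-!
# P251, part M: telescopes of sequences `ℕ ⥤ T`

`IsTel F L ι` : the cocone `ι` exhibits `L` as a telescope (homotopy colimit) of `F`.
-/

open CategoryTheory MonoidalCategory Limits Pretriangulated

universe v u

set_option linter.unusedSectionVars false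

namespace Vale.Agent.P251.M

open Vale.Agent.P251.T

section Dist

variable {T : Type u} [Category.{v} T] [Preadditive T] [HasZeroObject T]
    [HasShift T ℤ] [∀ n : ℤ, (shiftFunctor T n).Additive] [Pretriangulated T]
    {X Y Z W : T} {f : X ⟶ Y} {g : Y ⟶ Z} {h : Z ⟶ X⟦(1 : ℤ)⟧}

lemma dist_zero₁₂ (H : Triangle.mk f g h ∈ distTriang T) : f ≫ g = 0 :=
  comp_distTriang_mor_zero₁₂ _ H

lemma dist_zero₂₃ (H : Triangle.mk f g h ∈ distTriang T) : g ≫ h = 0 :=
  comp_distTriang_mor_zero₂₃ _ H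

lemma dist_zero₃₁ (H : Triangle.mk f g h ∈ distTriang T) : h ≫ f⟦(1 : ℤ)⟧' = 0 :=
  comp_distTriang_mor_zero₃₁ _ H

lemma dist_yo₂ (H : Triangle.mk f g h ∈ distTriang T) (y : Y ⟶ W) (hy : f ≫ y = 0) :
    ∃ z : Z ⟶ W, y = g ≫ z :=
  Triangle.yoneda_exact₂ _ H y hy

lemma dist_yo₃ (H : Triangle.mk f g h ∈ distTriang T) (y : Z ⟶ W) (hy : g ≫ y = 0) :
    ∃ z : X⟦(1 : ℤ)⟧ ⟶ W, y = h ≫ z :=
  Triangle.yoneda_exact₃ _ H y hy

lemma dist_co₂ (H : Triangle.mk f g h ∈ distTriang T) (w : W ⟶ Y) (hw : w ≫ g = 0) :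
    ∃ z : W ⟶ X, w = z ≫ f :=
  Triangle.coyoneda_exact₂ _ H w hw

lemma dist_co₃ (H : Triangle.mk f g h ∈ distTriang T) (w : W ⟶ Z) (hw : w ≫ h = 0) :
    ∃ z : W ⟶ Y, w = z ≫ g :=
  Triangle.coyoneda_exact₃ _ H w hw

lemma dist_co₁ (H : Triangle.mk f g h ∈ distTriang T) (w : W ⟶ X⟦(1 : ℤ)⟧)
    (hw : w ≫ f⟦(1 : ℤ)⟧' = 0) :
    ∃ z : W ⟶ Z, w = z ≫ h :=
  Triangle.coyoneda_exact₁ _ H w hw

end Dist

section Pre

variable {T : Type u} [Category.{v} T] [Preadditive T] [HasZeroObject T]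
    [HasShift T ℤ] [∀ n : ℤ, (shiftFunctor T n).Additive] [Pretriangulated T]
    [HasCoproducts.{0} T]

/-- the map `1 - shift` on the coproduct of the terms of a sequence -/
noncomputable def telMap (F : ℕ ⥤ T) : ∐ F.obj ⟶ ∐ F.obj :=
  Sigma.desc (fun n => Sigma.ι F.obj n -
    F.map (homOfLE (Nat.le_succ n)) ≫ Sigma.ι F.obj (n + 1))

@[reassoc]
lemma ι_telMap (F : ℕ ⥤ T) (n : ℕ) :
    Sigma.ι F.obj n ≫ telMap F = Sigma.ι F.obj n -
      F.map (homOfLE (Nat.le_succ n)) ≫ Sigma.ι F.obj (n + 1) := by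
  simp [telMap]

/-- `(L, ι)` is a telescope of the sequence `F` -/
structure IsTel (F : ℕ ⥤ T) (L : T) (ι : ∀ n, F.obj n ⟶ L) : Prop where
  exists_triangle : ∃ δ : L ⟶ (∐ F.obj)⟦(1 : ℤ)⟧,
    Triangle.mk (telMap F) (Sigma.desc ι) δ ∈ distTriang T

lemma exists_isTel (F : ℕ ⥤ T) : ∃ (L : T) (ι : ∀ n, F.obj n ⟶ L), IsTel F L ι := by
  obtain ⟨L, g, δ, h⟩ := distinguished_cocone_triangle (telMap F)
  refine ⟨L, fun n => Sigma.ι F.obj n ≫ g, ⟨δ, ?_⟩⟩
  have : Sigma.desc (fun n => Sigma.ι F.obj n ≫ g) = g := by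
    apply Sigma.hom_ext
    intro n
    simp
  rw [this]
  exact h

namespace IsTel

variable {F : ℕ ⥤ T} {L : T} {ι : ∀ n, F.obj n ⟶ L}

lemma comp_succ (h : IsTel F L ι) (n : ℕ) :
    F.map (homOfLE (Nat.le_succ n)) ≫ ι (n + 1) = ι n := by
  obtain ⟨δ, hδ⟩ := h.exists_triangle
  have h0 := dist_zero₁₂ hδ
  have h1 := congrArg (fun z => Sigma.ι F.obj n ≫ z) h0
  simp only [ι_telMap_assoc, Preadditive.sub_comp, Category.assoc, Sigma.ι_desc,
    comp_zero] at h1
  rw [sub_eq_zero] at h1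
  exact h1.symm

@[reassoc]
lemma comp (h : IsTel F L ι) {m n : ℕ} (hmn : m ≤ n) :
    F.map (homOfLE hmn) ≫ ι n = ι m := by
  induction n, hmn using Nat.le_induction with
  | base =>
    have : homOfLE (le_refl m) = 𝟙 m := rfl
    rw [this]; simp
  | succ n hmn ih =>
    have : homOfLE (Nat.le_succ_of_le hmn) = homOfLE hmn ≫ homOfLE (Nat.le_succ n) := rfl
    rw [this, F.map_comp, Category.assoc, h.comp_succ, ih]

/-- a compatible family of maps extends to the telescope -/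
lemma exists_lift (h : IsTel F L ι) {Y : T} (y : ∀ n, F.obj n ⟶ Y)
    (hy : ∀ n, F.map (homOfLE (Nat.le_succ n)) ≫ y (n + 1) = y n) :
    ∃ g : L ⟶ Y, ∀ n, ι n ≫ g = y n := by
  obtain ⟨δ, hδ⟩ := h.exists_triangle
  obtain ⟨g, hg⟩ := dist_yo₂ hδ (Sigma.desc y) (by
    apply Sigma.hom_ext
    intro n
    simp only [ι_telMap_assoc, Preadditive.sub_comp, Category.assoc, Sigma.ι_desc,
      comp_zero, hy n, sub_self])
  refine ⟨g, fun n => ?_⟩
  have h1 := congrArg (fun z => Sigma.ι F.obj n ≫ z) hg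
  simp only [Sigma.ι_desc, Sigma.ι_desc_assoc] at h1
  exact h1.symm

/-- Mittag-Leffler type uniqueness (`lim¹ = 0`): if all maps `(F n)⟦1⟧ ⟶ Y` extend to
`(F (n+1))⟦1⟧`, then maps `L ⟶ Y` are determined by their restrictions. -/
lemma hom_ext_of_surj (h : IsTel F L ι) {Y : T}
    (hs : ∀ (n : ℕ) (g : (F.obj n)⟦(1 : ℤ)⟧ ⟶ Y), ∃ g' : (F.obj (n + 1))⟦(1 : ℤ)⟧ ⟶ Y,
      (F.map (homOfLE (Nat.le_succ n)))⟦(1 : ℤ)⟧' ≫ g' = g)
    (a b : L ⟶ Y) (hab : ∀ n, ι n ≫ a = ι n ≫ b) : a = b := by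
  obtain ⟨δ, hδ⟩ := h.exists_triangle
  -- the shifted coproduct
  let hc := isColimitOfHasCoproductOfPreservesColimit (shiftFunctor T (1 : ℤ)) F.obj
  obtain ⟨z, hz⟩ := dist_yo₃ hδ (a - b) (by
    apply Sigma.hom_ext
    intro n
    simp [hab n])
  -- choose the components of a map `(∐ F)⟦1⟧ ⟶ Y`
  let zc : ∀ n, (F.obj n)⟦(1 : ℤ)⟧ ⟶ Y := fun n => (Sigma.ι F.obj n)⟦(1 : ℤ)⟧' ≫ z
  choose ext hext using hs
  let k : ∀ n, (F.obj n)⟦(1 : ℤ)⟧ ⟶ Y := fun n =>
    Nat.rec (0 : (F.obj 0)⟦(1 : ℤ)⟧ ⟶ Y) (fun n kn => ext n (kn - zc n)) n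
  have hk : ∀ n, (F.map (homOfLE (Nat.le_succ n)))⟦(1 : ℤ)⟧' ≫ k (n + 1) = k n - zc n :=
    fun n => hext n _
  obtain ⟨w, hw⟩ : ∃ w : (∐ F.obj)⟦(1 : ℤ)⟧ ⟶ Y,
      ∀ n, (Sigma.ι F.obj n)⟦(1 : ℤ)⟧' ≫ w = k n :=
    ⟨Cofan.IsColimit.desc hc k, fun n => Cofan.IsColimit.fac hc k n⟩
  have hzw : z = (telMap F)⟦(1 : ℤ)⟧' ≫ w := by
    apply Cofan.IsColimit.hom_ext hc
    intro n
    change (Sigma.ι F.obj n)⟦(1 : ℤ)⟧' ≫ z = (Sigma.ι F.obj n)⟦(1 : ℤ)⟧' ≫ _
    rw [← Category.assoc, ← Functor.map_comp, ι_telMap, Functor.map_sub,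
      Preadditive.sub_comp, hw, Functor.map_comp, Category.assoc, hw, hk]
    simp [zc]
  rw [← sub_eq_zero, hz, hzw, ← Category.assoc, dist_zero₃₁ hδ, zero_comp]

end IsTel

/-! ### compact objects -/

/-- `W` is compact: every map to a coproduct factors through a finite subcoproduct -/
def IsCpt (W : T) : Prop :=
  ∀ ⦃I : Type⦄ (X : I → T) (f : W ⟶ ∐ X), ∃ (s : Finset I) (g : W ⟶ ∐ (fun i : s => X i)),
    g ≫ Sigma.desc (fun i : s => Sigma.ι X i) = f

lemma IsCpt.of_iso {W W' : T} (hW : IsCpt W) (e : W ≅ W') : IsCpt W' := by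
  intro I X f
  obtain ⟨s, g, hg⟩ := hW X (e.hom ≫ f)
  exact ⟨s, e.inv ≫ g, by rw [Category.assoc, hg, Iso.inv_hom_id_assoc]⟩

open Classical in
/-- the projections of a coproduct in a preadditive category -/
noncomputable def proj {I : Type} (X : I → T) (i : I) : ∐ X ⟶ X i :=
  Sigma.desc (fun j => if h : j = i then eqToHom (by rw [h]) else 0)

@[reassoc (attr := simp)]
lemma ι_proj_self {I : Type} (X : I → T) (i : I) : Sigma.ι X i ≫ proj X i = 𝟙 _ := by
  simp [proj]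

@[reassoc]
lemma ι_proj_of_ne {I : Type} (X : I → T) {i j : I} (h : j ≠ i) :
    Sigma.ι X j ≫ proj X i = 0 := by
  simp [proj, h]

open Classical in
lemma IsCpt.eq_sum {W : T} (hW : IsCpt W) {I : Type} (X : I → T) (f : W ⟶ ∐ X) :
    ∃ s : Finset I, f = ∑ i ∈ s, (f ≫ proj X i) ≫ Sigma.ι X i := by
  obtain ⟨s, g, rfl⟩ := hW X f
  refine ⟨s, ?_⟩
  have hD : Sigma.desc (fun i : s => Sigma.ι X i) =
      ∑ i ∈ s, (Sigma.desc (fun i : s => Sigma.ι X i) ≫ proj X i) ≫ Sigma.ι X i := by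
    apply Sigma.hom_ext
    rintro ⟨j, hj⟩
    rw [Preadditive.comp_sum]
    rw [Finset.sum_eq_single j]
    · simp
    · intro i _ hij
      simp [ι_proj_of_ne_assoc X (Ne.symm hij)]
    · intro h
      exact absurd hj h
  conv_lhs => rw [hD]
  rw [Preadditive.comp_sum]
  simp only [Category.assoc]

lemma IsCpt.exists_bound {W : T} (hW : IsCpt W) (X : ℕ → T) (f : W ⟶ ∐ X) :
    ∃ N : ℕ, ∀ n, N ≤ n → f ≫ proj X n = 0 := by
  classical
  obtain ⟨s, hs⟩ := hW.eq_sum X f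
  obtain ⟨N, hN⟩ := s.exists_nat_subset_range
  refine ⟨N, fun n hn => ?_⟩
  rw [hs, Preadditive.sum_comp]
  apply Finset.sum_eq_zero
  intro i hi
  have : i ≠ n := by
    have := Finset.mem_range.1 (hN hi)
    omega
  rw [Category.assoc, ι_proj_of_ne X this, comp_zero]

lemma IsCpt.ext {W : T} (hW : IsCpt W) {I : Type} (X : I → T) (f g : W ⟶ ∐ X)
    (h : ∀ i, f ≫ proj X i = g ≫ proj X i) : f = g := by
  classical
  rw [← sub_eq_zero]
  obtain ⟨s, hs⟩ := hW.eq_sum X (f - g)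
  rw [hs]
  apply Finset.sum_eq_zero
  intro i _
  rw [Preadditive.sub_comp, h i, sub_self, zero_comp]

@[reassoc]
lemma telMap_proj_zero (F : ℕ ⥤ T) : telMap F ≫ proj F.obj 0 = proj F.obj 0 := by
  apply Sigma.hom_ext
  intro n
  rw [ι_telMap_assoc, Preadditive.sub_comp, Category.assoc,
    ι_proj_of_ne F.obj (Nat.succ_ne_zero n), comp_zero, sub_zero]

@[reassoc]
lemma telMap_proj_succ (F : ℕ ⥤ T) (n : ℕ) : telMap F ≫ proj F.obj (n + 1) =
    proj F.obj (n + 1) - proj F.obj n ≫ F.map (homOfLE (Nat.le_succ n)) := by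
  apply Sigma.hom_ext
  intro m
  rw [ι_telMap_assoc, Preadditive.sub_comp, Category.assoc, Preadditive.comp_sub]
  congr 1
  by_cases h : m = n
  · subst h
    rw [ι_proj_self, ι_proj_self_assoc, Category.comp_id]
  · rw [ι_proj_of_ne_assoc F.obj h, ι_proj_of_ne F.obj (fun h' => h (Nat.succ_injective h')),
      comp_zero, zero_comp]

lemma eq_zero_of_comp_telMap {W : T} (hW : IsCpt W) (F : ℕ ⥤ T) (v : W ⟶ ∐ F.obj)
    (hv : v ≫ telMap F = 0) : v = 0 := by
  apply hW.ext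
  intro n
  rw [zero_comp]
  induction n with
  | zero =>
    have := congrArg (fun z => z ≫ proj F.obj 0) hv
    simpa only [Category.assoc, telMap_proj_zero, zero_comp] using this
  | succ n ih =>
    have := congrArg (fun z => z ≫ proj F.obj (n + 1)) hv
    simp only [Category.assoc, telMap_proj_succ, zero_comp, Preadditive.comp_sub] at this
    rw [← Category.assoc, ih, zero_comp, sub_zero] at this
    exact this

namespace IsTel

variable {F : ℕ ⥤ T} {L : T} {ι : ∀ n, F.obj n ⟶ L}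

/-- a map from a compact object to some `F n` which dies in the telescope dies in the sequence -/
lemma exists_comp_eq_zero (h : IsTel F L ι) {W : T} (hW : IsCpt W) {n : ℕ} (w : W ⟶ F.obj n)
    (hw : w ≫ ι n = 0) : ∃ (m : ℕ) (hm : n ≤ m), w ≫ F.map (homOfLE hm) = 0 := by
  obtain ⟨δ, hδ⟩ := h.exists_triangle
  obtain ⟨z, hz⟩ := dist_co₂ hδ (w ≫ Sigma.ι F.obj n) (by simpa using hw)
  have h0 : ∀ j, j < n → z ≫ proj F.obj j = 0 := by
    intro j
    induction j with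
    | zero =>
      intro hj
      have := congrArg (fun y => y ≫ proj F.obj 0) hz
      simp only [Category.assoc, telMap_proj_zero] at this
      rw [← this, ι_proj_of_ne F.obj (by omega), comp_zero]
    | succ j ih =>
      intro hj
      have := congrArg (fun y => y ≫ proj F.obj (j + 1)) hz
      simp only [Category.assoc, telMap_proj_succ, Preadditive.comp_sub] at this
      rw [ι_proj_of_ne F.obj (by omega : n ≠ j + 1), comp_zero] at this
      rw [← Category.assoc, ih (by omega), zero_comp, sub_zero] at this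
      exact this.symm
  have h1 : z ≫ proj F.obj n = w := by
    cases n with
    | zero =>
      have := congrArg (fun y => y ≫ proj F.obj 0) hz
      simp only [Category.assoc, telMap_proj_zero, ι_proj_self, Category.comp_id] at this
      exact this.symm
    | succ j =>
      have := congrArg (fun y => y ≫ proj F.obj (j + 1)) hz
      simp only [Category.assoc, telMap_proj_succ, Preadditive.comp_sub, ι_proj_self,
        Category.comp_id] at this
      rw [← Category.assoc, h0 j (by omega), zero_comp, sub_zero] at this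
      exact this.symm
  have h2 : ∀ (m : ℕ) (hm : n ≤ m), z ≫ proj F.obj m = w ≫ F.map (homOfLE hm) := by
    intro m hm
    induction m, hm using Nat.le_induction with
    | base =>
      have : homOfLE (le_refl n) = 𝟙 n := rfl
      rw [h1, this]; simp
    | succ m hm ih =>
      have h3 : homOfLE (Nat.le_succ_of_le hm) = homOfLE hm ≫ homOfLE (Nat.le_succ m) := rfl
      have := congrArg (fun y => y ≫ proj F.obj (m + 1)) hz
      simp only [Category.assoc, telMap_proj_succ, Preadditive.comp_sub] at this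
      rw [ι_proj_of_ne F.obj (by omega : n ≠ m + 1), comp_zero] at this
      rw [h3, F.map_comp, ← Category.assoc w, ← ih, Category.assoc]
      exact (sub_eq_zero.1 this.symm)
  obtain ⟨N, hN⟩ := hW.exists_bound F.obj z
  refine ⟨max n N, le_max_left _ _, ?_⟩
  rw [← h2 _ (le_max_left _ _)]
  exact hN _ (le_max_right _ _)

/-- a map from a compact object to the telescope factors through a stage -/
lemma exists_factor (h : IsTel F L ι) {W : T} (hW : IsCpt W) (hW' : IsCpt (W⟦(1 : ℤ)⟧))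
    (w : W⟦(1 : ℤ)⟧ ⟶ L) : ∃ (n : ℕ) (w' : W⟦(1 : ℤ)⟧ ⟶ F.obj n), w' ≫ ι n = w := by
  obtain ⟨δ, hδ⟩ := h.exists_triangle
  obtain ⟨v, hv⟩ := (shiftFunctor T (1 : ℤ)).map_surjective (w ≫ δ)
  have hv0 : v = 0 := by
    apply eq_zero_of_comp_telMap hW F
    apply (shiftFunctor T (1 : ℤ)).map_injective
    rw [Functor.map_comp, hv, Category.assoc, dist_zero₃₁ hδ, comp_zero, Functor.map_zero]
  rw [hv0, Functor.map_zero] at hv
  obtain ⟨z, hz⟩ := dist_co₃ hδ w hv.symm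
  classical
  obtain ⟨s, hs⟩ := hW'.eq_sum F.obj z
  obtain ⟨N, hN⟩ := s.exists_nat_subset_range
  have hle : ∀ i ∈ s, i ≤ N := fun i hi => (Finset.mem_range.1 (hN hi)).le
  refine ⟨N, ∑ i ∈ s.attach, (z ≫ proj F.obj i) ≫ F.map (homOfLE (hle i.1 i.2)), ?_⟩
  have hz' : z ≫ Sigma.desc ι = ∑ i ∈ s, (z ≫ proj F.obj i) ≫ ι i := by
    conv_lhs => rw [hs]
    rw [Preadditive.sum_comp]
    apply Finset.sum_congr rfl
    intro i _
    rw [Category.assoc, Sigma.ι_desc]
  rw [hz, hz', Preadditive.sum_comp, ← Finset.sum_attach s]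
  apply Finset.sum_congr rfl
  rintro ⟨i, hi⟩ _
  rw [Category.assoc, h.comp]

end IsTel

/-! ### comparison with `S.IsTel` -/

lemma telMap_eq (F : ℕ ⥤ T) : telMap F =
    𝟙 (∐ F.obj) - S.telShift (fun n => F.map (homOfLE (Nat.le_succ n))) := by
  apply Sigma.hom_ext
  intro n
  rw [ι_telMap, Preadditive.comp_sub, S.telShift, Sigma.ι_desc, Category.comp_id]

lemma isTel_iff (F : ℕ ⥤ T) (L : T) (ι : ∀ n, F.obj n ⟶ L) :
    IsTel F L ι ↔ S.IsTel (fun n => F.map (homOfLE (Nat.le_succ n))) ι := by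
  unfold S.IsTel
  rw [← telMap_eq]
  exact ⟨fun h => h.exists_triangle, fun h => ⟨h⟩⟩

lemma isTel_ofSequence_iff {X : ℕ → T} (f : ∀ n, X n ⟶ X (n + 1)) (L : T) (ι : ∀ n, X n ⟶ L) :
    IsTel (Functor.ofSequence f) L ι ↔ S.IsTel f ι := by
  refine (isTel_iff (Functor.ofSequence f) L ι).trans ?_
  have h : (fun n => (Functor.ofSequence f).map (homOfLE (Nat.le_succ n))) = f := by
    funext n
    exact Functor.ofSequence_map_homOfLE_succ f n
  exact Iff.of_eq (congrArg (fun g => S.IsTel (X := X) g ι) h)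

end Pre

end Vale.Agent.P251.M
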