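import Vale.Agent.P251.M.PS
import Vale.Agent.P251.S.Coprod

/-!
# P251, part M1: `Hom(𝟙, R ⊗ PS) = ⨁ π_{2n} R`
-/

open CategoryTheory MonoidalCategory MonObj Limits

set_option linter.unusedSectionVars false

universe v u

namespace Vale.Agent.P251.M

open Vale.Agent.P251.S (ModStr Sc scMul)

section

variable {T : Type u} [Category.{v} T] [MonoidalCategory T] [SymmetricCategory T]
  (E : EvenSpheres T)

namespace EvenSpheres

/-- `𝟙 ≅ S^{2n} ⊗ S^{-2n}` -/
noncomputable def unitIso (n : ℤ) : 𝟙_ T ≅ E.S n ⊗ E.S (-n) :=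
  E.zero ≪≫ (E.mu n (-n) 0 (add_neg_cancel n)).symm

lemma isFr_unitIso (n : ℤ) :
    IsFr (Fr.unit E.L) ((E.fr n).tensor (E.fr (-n))) (E.unitIso n).hom :=
  IsFr.comp (by omega) (by omega) E.isFr_zeroIso
    (IsFr.inv' (by omega) (E.isFr_mu n (-n) 0 (add_neg_cancel n)))

end EvenSpheres

lemma whiskerRight_inj (X : T) [IsInv X] {Y Z : T} {f g : Y ⟶ Z} (h : f ▷ X = g ▷ X) :
    f = g := by
  refine whiskerLeft_inj X ?_
  have e : ∀ (f : Y ⟶ Z), X ◁ f = (β_ X Y).hom ≫ f ▷ X ≫ (β_ X Z).inv := by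
    intro f
    rw [← BraidedCategory.braiding_naturality_right_assoc]
    simp
  rw [e f, e g, h]

lemma whiskerRight_surj (X : T) [IsInv X] {Y Z : T} (h : Y ⊗ X ⟶ Z ⊗ X) :
    ∃ f : Y ⟶ Z, f ▷ X = h := by
  obtain ⟨f, hf⟩ := whiskerLeft_surj X ((β_ X Y).hom ≫ h ≫ (β_ X Z).inv)
  refine ⟨f, ?_⟩
  have e : f ▷ X = (β_ X Y).inv ≫ X ◁ f ≫ (β_ X Z).hom := by
    rw [BraidedCategory.braiding_naturality_right]
    simp
  rw [e, hf]
  simp

/-- every map `𝟙 ⟶ X ⊗ S^{-2n}` comes from a unique element of `π_{2n} X` -/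
lemma exists_per_part {X : T} (n : ℤ) (f : 𝟙_ T ⟶ X ⊗ E.S (-n)) :
    ∃ a : E.S n ⟶ X, (E.unitIso n).hom ≫ a ▷ E.S (-n) = f := by
  obtain ⟨a, ha⟩ := whiskerRight_surj (E.S (-n)) ((E.unitIso n).inv ≫ f)
  exact ⟨a, by rw [ha, Iso.hom_inv_id_assoc]⟩

end

variable {T : Type u} [Category.{v} T] [MonoidalCategory T] [SymmetricCategory T]
  [MonoidalClosed T] [HasCoproducts.{0} T] {E : EvenSpheres T}

lemma sharp_eq_unitIso {X : T} (n : ℤ) (a : E.S n ⟶ X) :
    sharp a = (E.unitIso n).hom ≫ (a ⊗ₘ E.inPS (-n)) := by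
  unfold sharp EvenSpheres.ext EvenSpheres.unitIso
  rw [Iso.trans_hom, Iso.symm_hom, Category.assoc]

namespace EvenSpheres

variable [Preadditive T]

/-- the projections of `PS` -/
noncomputable def pr (E : EvenSpheres T) (n : ℤ) : E.PS ⟶ E.S n :=
  Sigma.desc (fun m : ℤ => if h : m = n then (E.castIso m n h).hom else 0)

lemma inPS_pr (m n : ℤ) (h : m = n) : E.inPS m ≫ E.pr n = (E.castIso m n h).hom := by
  exact (Sigma.ι_desc _ m).trans (dif_pos h)

lemma inPS_pr_ne (m n : ℤ) (h : m ≠ n) : E.inPS m ≫ E.pr n = 0 := by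
  exact (Sigma.ι_desc _ m).trans (dif_neg h)

variable [MonoidalPreadditive T]

lemma sharp_pr {X : T} (n : ℤ) (a : E.S n ⟶ X) :
    sharp a ≫ X ◁ E.pr (-n) = (E.unitIso n).hom ≫ a ▷ E.S (-n) := by
  rw [sharp_eq_unitIso, Category.assoc, ← id_tensorHom, tensorHom_comp_tensorHom,
    inPS_pr _ _ rfl]
  simp

lemma sharp_pr_ne {X : T} (n m : ℤ) (h : -n ≠ m) (a : E.S n ⟶ X) :
    sharp a ≫ X ◁ E.pr m = 0 := by
  rw [sharp_eq_unitIso, Category.assoc, ← id_tensorHom, tensorHom_comp_tensorHom,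
    inPS_pr_ne _ _ h]
  simp

/-- `sharp` as an additive map -/
noncomputable def sharpAdd (E : EvenSpheres T) (X : T) (n : ℤ) :
    E.Gr X n →+ (𝟙_ T ⟶ X ⊗ E.PS) where
  toFun a := sharp a
  map_zero' := sharp_zero
  map_add' := sharp_add

/-- the sum of all `sharp`s -/
noncomputable def sharpTot (E : EvenSpheres T) (X : T) : HMod E X →+ (𝟙_ T ⟶ X ⊗ E.PS) :=
  DirectSum.toAddMonoid (sharpAdd E X)

@[simp] lemma sharpTot_of {X : T} (n : ℤ) (a : E.S n ⟶ X) :
    sharpTot E X (DirectSum.of (E.Gr X) n a) = sharp a :=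
  DirectSum.toAddMonoid_of _ _ _

lemma sharpTot_pr {X : T} (x : HMod E X) (n : ℤ) :
    sharpTot E X x ≫ X ◁ E.pr (-n) = (E.unitIso n).hom ≫ (x n : E.S n ⟶ X) ▷ E.S (-n) := by
  induction x using DirectSum.induction_on with
  | zero =>
    rw [map_zero, zero_comp]
    change _ = (E.unitIso n).hom ≫ (0 : E.S n ⟶ X) ▷ E.S (-n)
    rw [MonoidalPreadditive.zero_whiskerRight, comp_zero]
  | of m a =>
    rw [sharpTot_of]
    by_cases h : m = n
    · subst h
      rw [sharp_pr, DirectSum.of_eq_same]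
    · rw [sharp_pr_ne m (-n) (by omega), DirectSum.of_eq_of_ne _ _ _ (Ne.symm h)]
      change _ = (E.unitIso n).hom ≫ (0 : E.S n ⟶ X) ▷ E.S (-n)
      rw [MonoidalPreadditive.zero_whiskerRight, comp_zero]
  | add x y hx hy =>
    rw [map_add, Preadditive.add_comp, hx, hy]
    change _ = (E.unitIso n).hom ≫ (x n + y n : E.S n ⟶ X) ▷ E.S (-n)
    rw [MonoidalPreadditive.add_whiskerRight, Preadditive.comp_add]

lemma sharpTot_injective (X : T) : Function.Injective (sharpTot E X) := by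
  rw [injective_iff_map_eq_zero]
  intro x hx
  refine DFinsupp.ext (fun n => ?_)
  have h := sharpTot_pr x n
  rw [hx, zero_comp] at h
  have h2 : (x n : E.S n ⟶ X) ▷ E.S (-n) = (0 : E.S n ⟶ X) ▷ E.S (-n) := by
    rw [MonoidalPreadditive.zero_whiskerRight, ← cancel_epi (E.unitIso n).hom, ← h, comp_zero]
  exact whiskerRight_inj _ h2

lemma sharpHom_eq_sharpTot {R : T} [MonObj R] [IsCommMonObj R] (x : HRing E R) :
    (sharpHom R x : Sc (R ⊗ E.PS)) = sharpTot E R x := rfl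

/-- naturality of `sharpHom` -/
lemma sharpHom_map {R R' : T} [MonObj R] [IsCommMonObj R] [MonObj R'] [IsCommMonObj R']
    (f : R ⟶ R') [IsMonHom f] (x : HRing E R) :
    Sc.map (f ▷ E.PS) (sharpHom R x) = sharpHom R' (HRing.map f x) := by
  have : ((Sc.map (f ▷ E.PS)).comp (sharpHom R)) = (sharpHom (E := E) R').comp (HRing.map f) :=
    HRing.ringHom_ext (fun n a => by
      rw [RingHom.comp_apply, RingHom.comp_apply, HRing.map_of, sharpHom_of, sharpHom_of]
      exact (sharp_comp a f).symm)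
  exact DFunLike.congr_fun this x

end EvenSpheres

end Vale.Agent.P251.M

namespace Vale.Agent.P251.M.EvenSpheres

open Vale.Agent.P251.T
open Vale.Agent.P251.S (ModStr Sc scMul)
open Pretriangulated

variable {T : Type u} [Category.{v} T] [Preadditive T] [HasZeroObject T]
    [HasShift T ℤ] [∀ n : ℤ, (shiftFunctor T n).Additive] [Pretriangulated T] [IsTriangulated T]
    [MonoidalCategory T] [SymmetricCategory T] [TensorTriangulated T] [MonoidalClosed T]
    [HasCoproducts.{0} T] [HasProducts.{0} T] [StableCat T] {E : EvenSpheres T}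

lemma sharpTot_surjective (X : T) : Function.Surjective (sharpTot E X) := by
  intro f
  have hS : Vale.Agent.P251.S.IsSphere (𝟙_ T) := ⟨0, ⟨((shiftFunctorZero T ℤ).app _).symm⟩⟩
  obtain ⟨s, g, hg⟩ := Vale.Agent.P251.S.compact_sumL X (fun n : ℤ => E.S n) hS f
  have key : ∀ n : ℤ, ∃ x : HMod E X, sharpTot E X x = g n ≫ X ◁ E.inPS n := by
    intro n
    have hn : -(-n) = n := neg_neg n
    obtain ⟨a, ha⟩ := exists_per_part E (-n) (g n ≫ X ◁ (E.castIso _ _ hn).inv)
    refine ⟨DirectSum.of (E.Gr X) (-n) a, ?_⟩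
    rw [sharpTot_of, sharp_eq_unitIso, tensorHom_def, ← Category.assoc, ha, Category.assoc,
      ← whiskerLeft_comp]
    congr 2
    rw [Iso.inv_comp_eq, E.castIso_inPS]
  choose x hx using key
  refine ⟨∑ n ∈ s, x n, ?_⟩
  rw [map_sum, hg]
  exact Finset.sum_congr rfl (fun n _ => hx n)

lemma sharpTot_bijective (X : T) : Function.Bijective (sharpTot E X) :=
  ⟨sharpTot_injective X, sharpTot_surjective X⟩

/-- **The homotopy ring as the ring of scalars of `R ⊗ PS`.** -/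
noncomputable def sharpEquiv (E : EvenSpheres T) (R : T) [MonObj R] [IsCommMonObj R] :
    HRing E R ≃+* Sc (R ⊗ E.PS) :=
  RingEquiv.ofBijective (sharpHom R) (sharpTot_bijective R)

end Vale.Agent.P251.M.EvenSpheres
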