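import Vale.Agent.P251.M.TelMon
import Vale.Agent.P251.M.SeqSys

/-!
# P251, part M: the commutative monoid of a multiplicative sequence (`SeqMonoid`)

* `MulSeq.ofSeqMonoid`: a strict multiplicative sequence is a weak one.
* `MSys.toTel`: for compact `X`, `H^k(X) = colim Hom(X, E n ⊗ S k)` is `Hom(X, R ⊗ S k)`.
* `LimOne` from surjectivity of restriction maps in the cohomology theory.
-/

open CategoryTheory MonoidalCategory Limits Pretriangulated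

universe v u

set_option linter.unusedSectionVars false

noncomputable section

namespace Vale.Agent.P251.M

open Vale.Agent.P251.T

variable {T : Type u} [Category.{v} T] [Preadditive T] [HasZeroObject T]
    [HasShift T ℤ] [∀ n : ℤ, (shiftFunctor T n).Additive] [Pretriangulated T] [IsTriangulated T]
    [MonoidalCategory T] [SymmetricCategory T] [TensorTriangulated T] [MonoidalClosed T]
    [HasCoproducts.{0} T] [HasProducts.{0} T] [StableCat T]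

section ofSeq

variable (A : SeqMonoid T) {R : T} {ι : ∀ n, A.E.obj n ⟶ R} (tel : IsTel A.E R ι)

lemma SeqMonoid.mu_ι (ι : ∀ n, A.E.obj n ⟶ R) {m n p : ℕ} (h : m + n = p) :
    A.mu h ≫ ι p = A.mu rfl ≫ ι (m + n) := by
  subst h; rfl

include tel in
lemma SeqMonoid.mu_map_ι {m n p m' n' p' : ℕ} (h : m + n = p) (h' : m' + n' = p') (hm : m ≤ m')
    (hn : n ≤ n') : (A.E.map (homOfLE hm) ⊗ₘ A.E.map (homOfLE hn)) ≫ A.mu h' ≫ ι p' =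
      A.mu h ≫ ι p := by
  have hp : p ≤ p' := by omega
  rw [← Category.assoc, A.mu_map h h' hm hn hp, Category.assoc, tel.comp]

/-- A strict multiplicative sequence is a weak one. -/
def MulSeq.ofSeqMonoid : MulSeq A.E R where
  ι := ι
  tel := tel
  unit := A.one
  mul m n := A.mu rfl
  mul_succ_left m n := by
    have h := A.mu_map_ι tel (rfl : m + n = m + n) (rfl : m + 1 + n = m + 1 + n)
      (Nat.le_succ m) (le_refl n)
    have h' : A.E.map (homOfLE (le_refl n)) = 𝟙 _ := A.E.map_id n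
    rw [h', tensorHom_id] at h
    exact h
  mul_comm m n := by
    rw [← A.mu_ι ι (Nat.add_comm n m), ← Category.assoc, A.mu_comm rfl (Nat.add_comm n m)]
  one_mul n := by
    rw [← A.mu_ι ι (Nat.zero_add n), ← Category.assoc, A.one_mu]
  mul_assoc l m n := by
    rw [← A.mu_ι ι (Nat.add_assoc l m n).symm, ← Category.assoc,
      A.mu_assoc rfl rfl rfl (Nat.add_assoc l m n).symm]
    simp only [Category.assoc]

lemma MulSeq.ofSeqMonoid_mul {m : R ⊗ R ⟶ R}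
    (hm : ∀ i j, (ι i ⊗ₘ ι j) ≫ m = A.mu rfl ≫ ι (i + j)) {i j p : ℕ} (h : i + j = p) :
    (ι i ⊗ₘ ι j) ≫ m = A.mu h ≫ ι p := by
  rw [A.mu_ι, hm]

end ofSeq

section toTel

variable {A : SeqMonoid T} {S : EvenSpheres T} {R : T} {ι : ∀ n, A.E.obj n ⟶ R}
  (tel : IsTel A.E R ι)

/-- The comparison map `H^k(X) ⟶ Hom(X, R ⊗ S^{2k})`. -/
def toTel (k : ℤ) (X : T) : (MSys.ofSeq A S).H k X →+ (X ⟶ R ⊗ S.S k) :=
  (MSys.ofSeq A S).lift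
    (fun n => (Preadditive.rightComp X (ι n ▷ S.S k) : (X ⟶ A.E.obj n ⊗ S.S k) →+ _))
    (fun m n h x => by
      have key : ∀ x : X ⟶ A.E.obj m ⊗ S.S k,
          (x ≫ (A.E.map (homOfLE h) ▷ S.S k)) ≫ (ι n ▷ S.S k) = x ≫ (ι m ▷ S.S k) := by
        intro x
        rw [Category.assoc, ← comp_whiskerRight, tel.comp]
      exact key x)

@[simp] lemma toTel_cls {k : ℤ} {X : T} (n : ℕ) (x : X ⟶ A.E.obj n ⊗ S.S k) :
    toTel (S := S) tel k X (MSys.cls n x) = x ≫ (ι n ▷ S.S k) := rfl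

/-- The comparison map is bijective for compact `X`. -/
theorem toTel_bijective {k : ℤ} {X : T} (hX : IsCpt X) :
    Function.Bijective (toTel (S := S) tel k X) := by
  constructor
  · rw [injective_iff_map_eq_zero]
    intro a ha
    obtain ⟨n, x, rfl⟩ := MSys.exists_cls a
    rw [MSys.cls_eq_zero_iff]
    exact tel.whiskerRight_eq_zero (S.S k) hX x ha
  · intro y
    obtain ⟨n, x, hx⟩ := tel.whiskerRight_factor (S.S k) hX y
    exact ⟨MSys.cls n x, hx⟩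

lemma toTel_pull {k : ℤ} {X Y : T} (f : X ⟶ Y) (a : (MSys.ofSeq A S).H k Y) :
    toTel tel k X (MSys.pull _ k f a) = f ≫ toTel tel k Y a := by
  obtain ⟨n, x, rfl⟩ := MSys.exists_cls a
  rw [MSys.pull_cls]
  exact Category.assoc f x (ι n ▷ S.S k)

omit [Preadditive T] [HasZeroObject T]
    [HasShift T ℤ] [∀ n : ℤ, (shiftFunctor T n).Additive] [Pretriangulated T] [IsTriangulated T]
    [TensorTriangulated T] [MonoidalClosed T]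
    [HasCoproducts.{0} T] [HasProducts.{0} T] [StableCat T] in
lemma toTel_xprod_aux {E₁ E₂ E₃ S₁ S₂ S₃ R X Y : T} (ι₁ : E₁ ⟶ R) (ι₂ : E₂ ⟶ R) (ι₃ : E₃ ⟶ R)
    (m : R ⊗ R ⟶ R) (mu : E₁ ⊗ E₂ ⟶ E₃) (nu : S₁ ⊗ S₂ ⟶ S₃) (hm : (ι₁ ⊗ₘ ι₂) ≫ m = mu ≫ ι₃)
    (x : X ⟶ E₁ ⊗ S₁) (y : Y ⟶ E₂ ⊗ S₂) :
    ((x ⊗ₘ y) ≫ tensorμ _ _ _ _ ≫ (mu ⊗ₘ nu)) ≫ (ι₃ ▷ S₃) =
      ((x ≫ (ι₁ ▷ S₁)) ⊗ₘ (y ≫ (ι₂ ▷ S₂))) ≫ tensorμ _ _ _ _ ≫ (m ⊗ₘ nu) := by
  rw [← tensorHom_comp_tensorHom, Category.assoc, Category.assoc, Category.assoc,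
    ← tensorHom_id ι₃, tensorHom_comp_tensorHom, Category.comp_id, ← hm,
    ← tensorHom_id ι₁, ← tensorHom_id ι₂, tensorμ_natural_assoc,
    tensorHom_comp_tensorHom, id_tensorHom_id, Category.id_comp]

/-- The comparison map is multiplicative. -/
lemma toTel_xprod {m : R ⊗ R ⟶ R} (hm : ∀ i j, (ι i ⊗ₘ ι j) ≫ m = A.mu rfl ≫ ι (i + j))
    {k l q : ℤ} (hk : k + l = q) {X Y : T} (a : (MSys.ofSeq A S).H k X)
    (b : (MSys.ofSeq A S).H l Y) :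
    toTel tel q (X ⊗ Y) (MSys.xprod _ hk a b) =
      (toTel tel k X a ⊗ₘ toTel tel l Y b) ≫ tensorμ _ _ _ _ ≫ (m ⊗ₘ (S.mu k l q hk).hom) := by
  obtain ⟨i, x, rfl⟩ := MSys.exists_cls a
  obtain ⟨j, y, rfl⟩ := MSys.exists_cls b
  rw [MSys.xprod_cls hk rfl]
  exact toTel_xprod_aux (ι i) (ι j) (ι (i + j)) m (A.mu rfl) (S.mu k l q hk).hom (hm i j) x y

end toTel

/-! ### surjectivity of restriction maps -/

section Surj

/-- restriction along `w` is onto for `Hom(-⟦1⟧, R ⊗ S^{2k})`, all `k` -/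
def OddSurj (S : EvenSpheres T) (R : T) {W W' : T} (w : W ⟶ W') : Prop :=
  ∀ (k : ℤ) (g : W⟦(1 : ℤ)⟧ ⟶ R ⊗ S.S k), ∃ g' : W'⟦(1 : ℤ)⟧ ⟶ R ⊗ S.S k, w⟦(1 : ℤ)⟧' ≫ g' = g

variable {S : EvenSpheres T} {R : T}

lemma OddSurj.of_arrow {W W' V V' : T} {w : W ⟶ W'} {v : V ⟶ V'} (hv : OddSurj S R v)
    (a : W ≅ V) (b : W' ≅ V') (h : w ≫ b.hom = a.hom ≫ v) : OddSurj S R w := by
  intro k g
  obtain ⟨g', hg'⟩ := hv k (a.inv⟦(1 : ℤ)⟧' ≫ g)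
  refine ⟨b.hom⟦(1 : ℤ)⟧' ≫ g', ?_⟩
  rw [← Category.assoc, ← Functor.map_comp, h, Functor.map_comp, Category.assoc, hg',
    ← Category.assoc, ← Functor.map_comp, Iso.hom_inv_id, CategoryTheory.Functor.map_id,
    Category.id_comp]

lemma OddSurj.id (W : T) : OddSurj S R (𝟙 W) := by
  intro k g
  exact ⟨g, by rw [CategoryTheory.Functor.map_id, Category.id_comp]⟩

lemma OddSurj.comp {W W' W'' : T} {w : W ⟶ W'} {w' : W' ⟶ W''} (h : OddSurj S R w)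
    (h' : OddSurj S R w') : OddSurj S R (w ≫ w') := by
  intro k g
  obtain ⟨g', rfl⟩ := h k g
  obtain ⟨g'', rfl⟩ := h' k g'
  exact ⟨g'', by rw [Functor.map_comp, Category.assoc]⟩

/-- `(Z ⊗ W)⟦1⟧ ≅ Z ⊗ W⟦1⟧` -/
def tensShift (Z W : T) : (Z ⊗ W)⟦(1 : ℤ)⟧ ≅ Z ⊗ W⟦(1 : ℤ)⟧ :=
  (TensorTriangulated.e (Z ⊗ W)).symm ≪≫ α_ Z W ((𝟙_ T)⟦(1 : ℤ)⟧) ≪≫
    whiskerLeftIso Z (TensorTriangulated.e W)

@[reassoc]
lemma tensShift_natural (Z : T) {W W' : T} (w : W ⟶ W') :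
    (Z ◁ w)⟦(1 : ℤ)⟧' ≫ (tensShift Z W').hom = (tensShift Z W).hom ≫ (Z ◁ w⟦(1 : ℤ)⟧') := by
  have h1 := TensorTriangulated.e_naturality (Z ◁ w)
  have h2 : (Z ◁ w)⟦(1 : ℤ)⟧' ≫ (TensorTriangulated.e (Z ⊗ W')).inv =
      (TensorTriangulated.e (Z ⊗ W)).inv ≫ ((Z ◁ w) ▷ ((𝟙_ T)⟦(1 : ℤ)⟧)) := by
    rw [Iso.comp_inv_eq, Category.assoc, h1, Iso.inv_hom_id_assoc]
  simp only [tensShift, Iso.trans_hom, Iso.symm_hom, whiskerLeftIso_hom, Category.assoc]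
  rw [← Category.assoc, h2, Category.assoc, ← MonoidalCategory.whiskerLeft_comp,
    ← TensorTriangulated.e_naturality, MonoidalCategory.whiskerLeft_comp,
    ← associator_naturality_middle_assoc]

/-- tensoring with an even sphere -/
lemma OddSurj.sphere {W W' : T} {w : W ⟶ W'} (hw : OddSurj S R w) (m : ℤ) :
    OddSurj S R (S.S m ◁ w) := by
  intro k g
  -- `R ⊗ S k ≅ S m ⊗ (R ⊗ S (k - m))`
  let c : S.S m ⊗ (R ⊗ S.S (k - m)) ≅ R ⊗ S.S k :=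
    (α_ _ _ _).symm ≪≫ whiskerRightIso (β_ (S.S m) R) _ ≪≫ α_ _ _ _ ≪≫
      whiskerLeftIso R (S.mu m (k - m) k (by omega))
  obtain ⟨g₂, hg₂⟩ := whiskerLeft_surj (S.S m) ((tensShift (S.S m) W).inv ≫ g ≫ c.inv)
  obtain ⟨g₂', hg₂'⟩ := hw (k - m) g₂
  refine ⟨(tensShift (S.S m) W').hom ≫ (S.S m ◁ g₂') ≫ c.hom, ?_⟩
  rw [tensShift_natural_assoc, ← MonoidalCategory.whiskerLeft_comp_assoc, hg₂', hg₂]
  simp

variable (S) in
/-- `w` is isomorphic, as an arrow, to `S m ⊗ f` -/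
def IsSus {W W' X X' : T} (w : W ⟶ W') (f : X ⟶ X') : Prop :=
  ∃ (m : ℤ) (a : W ≅ S.S m ⊗ X) (b : W' ≅ S.S m ⊗ X'), w ≫ b.hom = a.hom ≫ (S.S m ◁ f)

lemma IsSus.oddSurj {W W' X X' : T} {w : W ⟶ W'} {f : X ⟶ X'} (h : IsSus S w f)
    (hf : OddSurj S R f) : OddSurj S R w := by
  obtain ⟨m, a, b, hab⟩ := h
  exact (hf.sphere m).of_arrow a b hab

lemma IsSus.tensor {W W' X X' V V' Y Y' : T} {w : W ⟶ W'} {f : X ⟶ X'} {v : V ⟶ V'}
    {g : Y ⟶ Y'} (h : IsSus S w f) (h' : IsSus S v g) : IsSus S (w ⊗ₘ v) (f ⊗ₘ g) := by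
  obtain ⟨m, a, b, hab⟩ := h
  obtain ⟨n, a', b', hab'⟩ := h'
  let t (X Y : T) : (S.S m ⊗ X) ⊗ (S.S n ⊗ Y) ≅ (S.S m ⊗ S.S n) ⊗ (X ⊗ Y) :=
    ⟨tensorμ (S.S m) X (S.S n) Y, tensorδ (S.S m) X (S.S n) Y, tensorμ_tensorδ _ _ _ _,
      tensorδ_tensorμ _ _ _ _⟩
  refine ⟨m + n, (a ⊗ᵢ a') ≪≫ t X Y ≪≫ whiskerRightIso (S.mu m n _ rfl) _,
    (b ⊗ᵢ b') ≪≫ t X' Y' ≪≫ whiskerRightIso (S.mu m n _ rfl) _, ?_⟩
  have h1 := tensorμ_natural (𝟙 (S.S m)) f (𝟙 (S.S n)) g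
  rw [id_tensorHom_id, id_tensorHom, id_tensorHom, id_tensorHom] at h1
  simp only [Iso.trans_hom, whiskerRightIso_hom, t, Category.assoc]
  change (w ⊗ₘ v) ≫ (b.hom ⊗ₘ b'.hom) ≫ _ = (a.hom ⊗ₘ a'.hom) ≫ _
  rw [tensorHom_comp_tensorHom_assoc, hab, hab', ← tensorHom_comp_tensorHom_assoc,
    reassoc_of% h1, whisker_exchange]

/-- The `lim¹`-hypothesis from surjectivity -/
theorem limOne_of_oddSurj {E : ℕ ⥤ T} {X X' : ℕ → T} (f : ∀ n, X n ⟶ X' n)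
    (hf : ∀ n, IsSus S (E.map (homOfLE (Nat.le_succ n))) (f n))
    (h₁ : ∀ n, OddSurj S R (f n)) (h₂ : ∀ n, OddSurj S R (f n ⊗ₘ f n))
    (h₃ : ∀ n, OddSurj S R ((f n ⊗ₘ f n) ⊗ₘ f n)) : MulSeq.LimOne E R := by
  have key : ∀ {W W' : T} (w : W ⟶ W'), OddSurj S R w → ∀ g : W⟦(1 : ℤ)⟧ ⟶ R,
      ∃ g' : W'⟦(1 : ℤ)⟧ ⟶ R, w⟦(1 : ℤ)⟧' ≫ g' = g := by
    intro W W' w hw g
    let c : R ⊗ S.S 0 ≅ R := whiskerLeftIso R S.zero.symm ≪≫ ρ_ R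
    obtain ⟨g', hg'⟩ := hw 0 (g ≫ c.inv)
    exact ⟨g' ≫ c.hom, by rw [reassoc_of% hg', Iso.inv_hom_id, Category.comp_id]⟩
  exact ⟨fun n => key _ ((hf n).oddSurj (h₁ n)),
    fun n => key _ (((hf n).tensor (hf n)).oddSurj (h₂ n)),
    fun n => key _ ((((hf n).tensor (hf n)).tensor (hf n)).oddSurj (h₃ n))⟩

end Surj

section H

variable {A : SeqMonoid T} {S : EvenSpheres T} {R : T} {ι : ∀ n, A.E.obj n ⟶ R}
  (tel : IsTel A.E R ι)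

include tel

/-- `OddSurj` in terms of the cohomology theory of the multiplicative sequence -/
lemma oddSurj_of_pull {W W' : T} (hW : IsCpt W) (w : W ⟶ W')
    (h : ∀ k, Function.Surjective ((MSys.ofSeq A S).pull k (w⟦(1 : ℤ)⟧'))) : OddSurj S R w := by
  intro k g
  obtain ⟨a, ha⟩ := (toTel_bijective (S := S) tel (k := k) (IsCpt.shift hW 1)).2 g
  obtain ⟨b, rfl⟩ := h k a
  exact ⟨toTel tel k _ b, by rw [← toTel_pull, ha]⟩

/-- `OddSurj` in terms of the cohomology theory, with `- ⊗ V`, `V ≅ 𝟙⟦1⟧`, as suspension -/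
lemma oddSurj_of_pull' {W W' V : T} (hW : IsCpt W) (w : W ⟶ W')
    (v : V ≅ (𝟙_ T)⟦(1 : ℤ)⟧)
    (h : ∀ k, Function.Surjective ((MSys.ofSeq A S).pull k (w ▷ V))) : OddSurj S R w := by
  let c (X : T) : X ⊗ V ≅ X⟦(1 : ℤ)⟧ := whiskerLeftIso X v ≪≫ TensorTriangulated.e X
  have hc : ∀ {X Y : T} (f : X ⟶ Y), (f ▷ V) ≫ (c Y).hom = (c X).hom ≫ f⟦(1 : ℤ)⟧' := by
    intro X Y f
    simp only [c, Iso.trans_hom, whiskerLeftIso_hom, Category.assoc]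
    rw [← whisker_exchange_assoc, TensorTriangulated.e_naturality]
  refine oddSurj_of_pull tel hW w (fun k a => ?_)
  obtain ⟨b, hb⟩ := h k (MSys.pull _ k (c W).hom a)
  refine ⟨MSys.pull _ k (c W').inv b, ?_⟩
  have h2 : w⟦(1 : ℤ)⟧' ≫ (c W').inv = (c W).inv ≫ (w ▷ V) := by
    rw [Iso.comp_inv_eq, Category.assoc, hc, Iso.inv_hom_id_assoc]
  rw [← MSys.pull_comp, h2, MSys.pull_comp, hb, ← MSys.pull_comp, Iso.inv_hom_id, MSys.pull_id]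

/-- **The commutative monoid of a multiplicative sequence.** -/
theorem exists_commMon (h : MulSeq.LimOne A.E R) :
    ∃ (_ : MonObj R) (_ : IsCommMonObj R), MonObj.one = A.one ≫ ι 0 ∧
      ∀ {i j p : ℕ} (h : i + j = p), (ι i ⊗ₘ ι j) ≫ MonObj.mul = A.mu h ≫ ι p := by
  let M := MulSeq.ofSeqMonoid A tel
  exact ⟨M.monObj h, M.isCommMonObj h, rfl,
    fun {i j p} h => MulSeq.ofSeqMonoid_mul A (ι := ι) (fun i j => M.ι_muHom i j) h⟩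

end H

end Vale.Agent.P251.M
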