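import Vale.Agent.P251.M.Theory
import Vale.Agent.P251.Q.Ring
import Vale.Agent.P251.M.MonSeq
import Vale.Agent.P251.M.EvenPer
import Mathlib.CategoryTheory.Adjunction.Limits
import Mathlib.CategoryTheory.Limits.Preserves.Shapes.Products

/-!
# P251, part M: the theory of a multiplicative sequence and the homotopy of its telescope

* `tt` : the total comparison `⨁ H^k(X) ⟶ Hom(X, R ⊗ PS)`, natural and multiplicative;
* `coefSc` : `(theory …).A ≃+* Sc (R ⊗ PS)`;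
* `coefRing` : `(theory …).A ≃+* HRing S R`, reversing the degrees.
-/

open CategoryTheory MonoidalCategory Limits Pretriangulated MonObj

universe v u

set_option linter.unusedSectionVars false

noncomputable section

namespace Vale.Agent.P251.M

open Vale.Agent.P251.T Vale.Agent.P251.G Vale.Agent.P251.G.LC Vale.Agent.P251.I
open Vale.Agent.P251.S (Sc scMul)
open EvenSpheres
open Functor.OplaxMonoidal Functor.LaxMonoidal

variable {T : Type u} [Category.{v} T] [Preadditive T] [HasZeroObject T]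
    [HasShift T ℤ] [∀ n : ℤ, (shiftFunctor T n).Additive] [Pretriangulated T] [IsTriangulated T]
    [MonoidalCategory T] [SymmetricCategory T] [TensorTriangulated T] [MonoidalClosed T]
    [HasCoproducts.{0} T] [HasProducts.{0} T] [StableCat T]

section tt

variable {A : SeqMonoid T} {S : EvenSpheres T} {R : T} {ι : ∀ n, A.E.obj n ⟶ R}
  (tel : IsTel A.E R ι)

/-- The total comparison map `⨁ H^k(X) ⟶ Hom(X, R ⊗ PS)`. -/
def tt (X : T) : (MSys.ofSeq A S).Tot X →+ (X ⟶ R ⊗ S.PS) :=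
  DirectSum.toAddMonoid
    (fun k => ((Preadditive.rightComp X (R ◁ S.inPS k)).comp (toTel tel k X)))

lemma tt_tof {X : T} (k : ℤ) (a : (MSys.ofSeq A S).H k X) :
    tt tel X ((MSys.ofSeq A S).tof X k a) = toTel tel k X a ≫ R ◁ S.inPS k :=
  DirectSum.toAddMonoid_of _ _ _

lemma tt_tpull {X Y : T} (f : X ⟶ Y) (y : (MSys.ofSeq A S).Tot Y) :
    tt tel X (MSys.tpull _ f y) = f ≫ tt tel Y y := by
  have : (tt (S := S) tel X).comp (MSys.tpull _ f) =
      (Preadditive.leftComp (R ⊗ S.PS) f).comp (tt tel Y) := by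
    refine MSys.tot_ext (fun k a => ?_)
    rw [AddMonoidHom.comp_apply, AddMonoidHom.comp_apply, MSys.tpull_of, tt_tof, tt_tof,
      toTel_pull]
    exact Category.assoc _ _ _
  exact DFunLike.congr_fun this y

lemma tt_pr {X : T} (x : (MSys.ofSeq A S).Tot X) (k : ℤ) :
    tt tel X x ≫ R ◁ S.pr k = toTel tel k X (x k) := by
  induction x using DirectSum.induction_on with
  | zero =>
    rw [map_zero, zero_comp]
    exact (map_zero (toTel (S := S) tel k X)).symm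
  | of m a =>
    have h1 : tt tel X (DirectSum.of (fun k => (MSys.ofSeq A S).H k X) m a) =
      toTel tel m X a ≫ R ◁ S.inPS m := tt_tof tel m a
    rw [h1, Category.assoc, ← whiskerLeft_comp]
    by_cases h : m = k
    · subst h
      rw [inPS_pr _ _ rfl, castIso_refl, Iso.refl_hom, whiskerLeft_id, Category.comp_id,
        DirectSum.of_eq_same]
    · rw [inPS_pr_ne _ _ h, DirectSum.of_eq_of_ne _ _ _ (Ne.symm h),
        MonoidalPreadditive.whiskerLeft_zero, comp_zero, map_zero]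
  | add x y hx hy =>
    rw [map_add, Preadditive.add_comp, hx, hy, ← map_add]
    rfl

lemma tt_injective {X : T} (hX : IsCpt X) : Function.Injective (tt (S := S) tel X) := by
  rw [injective_iff_map_eq_zero]
  intro x hx
  refine DFinsupp.ext (fun k => ?_)
  have h := tt_pr tel x k
  rw [hx, zero_comp] at h
  exact (toTel_bijective tel hX).1 (h.symm.trans (map_zero _).symm)

/-- a map from a compact object to `Q ⊗ ∐ X` is a finite sum -/
lemma cpt_sumL (Q : T) {I : Type} (X : I → T) {W : T} (hW : IsCpt W) (f : W ⟶ Q ⊗ ∐ X) :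
    ∃ (s : Finset I) (g : ∀ i, W ⟶ Q ⊗ X i), f = ∑ i ∈ s, g i ≫ Q ◁ Sigma.ι X i := by
  have : (tensorLeft Q).IsLeftAdjoint := ⟨_, ⟨ihom.adjunction Q⟩⟩
  obtain ⟨s, hg⟩ := hW.eq_sum (fun i => Q ⊗ X i) (f ≫ inv (sigmaComparison (tensorLeft Q) X))
  refine ⟨s, fun i => (f ≫ inv (sigmaComparison (tensorLeft Q) X)) ≫ proj (fun i => Q ⊗ X i) i, ?_⟩
  rw [IsIso.comp_inv_eq] at hg
  refine hg.trans ?_
  rw [Preadditive.sum_comp]
  refine Finset.sum_congr rfl (fun i _ => ?_)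
  rw [Category.assoc]
  congr 1
  exact ι_comp_sigmaComparison (tensorLeft Q) X i

/-- surjectivity for compact objects -/
lemma tt_surjective {X : T} (hX : IsCpt X) : Function.Surjective (tt (S := S) tel X) := by
  intro f
  obtain ⟨s, g, hg⟩ := cpt_sumL R (fun k : ℤ => S.S k) hX f
  have key : ∀ k : ℤ, ∃ a : (MSys.ofSeq A S).H k X, toTel tel k X a = g k :=
    fun k => (toTel_bijective tel hX).2 _
  choose a ha using key
  refine ⟨∑ k ∈ s, (MSys.ofSeq A S).tof X k (a k), ?_⟩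
  rw [map_sum, hg]
  refine Finset.sum_congr rfl (fun k _ => ?_)
  rw [tt_tof, ha]
  rfl

lemma tt_tcross [MonObj R] (hm : ∀ i j, (ι i ⊗ₘ ι j) ≫ μ[R] = A.mu rfl ≫ ι (i + j)) {X Y : T}
    (x : (MSys.ofSeq A S).Tot X) (y : (MSys.ofSeq A S).Tot Y) :
    tt tel (X ⊗ Y) ((MSys.ofSeq A S).tcross x y) = (tt tel X x ⊗ₘ tt tel Y y) ≫ μ[R ⊗ S.PS] := by
  have key : ∀ (x : (MSys.ofSeq A S).Tot X) (y : (MSys.ofSeq A S).Tot Y),
      ((AddMonoidHom.compHom (tt (S := S) tel (X ⊗ Y))).comp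
      ((MSys.ofSeq A S).tcross (X := X) (Y := Y))) x y =
      (AddMonoidHom.mk' (fun x : (MSys.ofSeq A S).Tot X =>
        AddMonoidHom.mk' (fun y : (MSys.ofSeq A S).Tot Y =>
          (tt tel X x ⊗ₘ tt tel Y y) ≫ μ[R ⊗ S.PS]) (fun y y' => by
            rw [map_add, MonoidalPreadditive.tensor_add, Preadditive.add_comp])) (fun x x' => by
            refine AddMonoidHom.ext (fun y => ?_)
            change (tt tel X (x + x') ⊗ₘ tt tel Y y) ≫ μ[R ⊗ S.PS] =
              (tt tel X x ⊗ₘ tt tel Y y) ≫ μ[R ⊗ S.PS] +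
                (tt tel X x' ⊗ₘ tt tel Y y) ≫ μ[R ⊗ S.PS]
            rw [map_add, MonoidalPreadditive.add_tensor, Preadditive.add_comp])) x y := by
    refine MSys.tcross_induction (fun k a l b => ?_)
    change tt tel (X ⊗ Y) ((MSys.ofSeq A S).tcross ((MSys.ofSeq A S).tof X k a)
      ((MSys.ofSeq A S).tof Y l b)) = (tt tel X ((MSys.ofSeq A S).tof X k a) ⊗ₘ
        tt tel Y ((MSys.ofSeq A S).tof Y l b)) ≫ μ[R ⊗ S.PS]
    rw [MSys.tcross_of_of, tt_tof, tt_tof, tt_tof, toTel_xprod tel hm, tensorObj.mul_def,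
      ← tensorHom_comp_tensorHom, Category.assoc, Category.assoc, Category.assoc]
    rw [← id_tensorHom, ← id_tensorHom, ← id_tensorHom, tensorμ_natural_assoc,
      tensorHom_comp_tensorHom, tensorHom_comp_tensorHom, in_mul S k l (k + l) rfl,
      id_tensorHom_id, Category.comp_id, Category.id_comp]
  exact key x y

lemma tt_tone [MonObj R] (h1 : A.one ≫ ι 0 = η[R]) :
    tt tel (𝟙_ T) ((MSys.ofSeq A S).tone) = η[R ⊗ S.PS] := by
  change tt tel (𝟙_ T) ((MSys.ofSeq A S).tof (𝟙_ T) 0 (MSys.ofSeq A S).unit) = _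
  rw [tt_tof, tensorObj.one_def, ← h1, PS_one]
  change (((λ_ (𝟙_ T)).inv ≫ (A.one ⊗ₘ S.z)) ≫ (ι 0 ▷ S.S 0)) ≫ R ◁ S.inPS 0 = _
  rw [Category.assoc, Category.assoc, ← tensorHom_id, ← id_tensorHom,
    tensorHom_comp_tensorHom, tensorHom_comp_tensorHom, Category.id_comp, Category.comp_id]
  rfl

/-! ### The coefficient ring -/

section coef

variable (F : SpaceFunctor T)

/-- the unit object is compact -/
lemma isCpt_unitF : IsCpt (F.S.obj ⟨𝟙_ LC, fc_unit⟩) :=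
  IsCpt.of_iso isCpt_unit (Functor.Monoidal.εIso F.S)

variable [MonObj R] [IsCommMonObj R]

/-- the structure needed for the comparison of coefficient rings -/
structure TelMon (tel : IsTel A.E R ι) : Prop where
  one : A.one ≫ ι 0 = η[R]
  mul : ∀ i j, (ι i ⊗ₘ ι j) ≫ μ[R] = A.mu rfl ≫ ι (i + j)

/-- The coefficients of the theory as scalars of `R ⊗ PS` (additive version). -/
def cf : UU (MSys.ofSeq A S) F (𝟙_ LC) →+ (𝟙_ T ⟶ R ⊗ S.PS) :=
  (Preadditive.leftComp (R ⊗ S.PS) (ε F.S)).comp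
    ((tt (S := S) tel (F.S.obj ⟨𝟙_ LC, fc_unit⟩)).comp (uev fc_unit))

lemma cf_apply (a : UU (MSys.ofSeq A S) F (𝟙_ LC)) :
    cf tel F a = ε F.S ≫ tt tel (F.S.obj ⟨𝟙_ LC, fc_unit⟩) (uev fc_unit a) := rfl

lemma cf_bijective : Function.Bijective (cf (S := S) tel F) := by
  have h1 : Function.Bijective (fun x : F.S.obj ⟨𝟙_ LC, fc_unit⟩ ⟶ R ⊗ S.PS => ε F.S ≫ x) :=
    ⟨fun x y h => (cancel_epi (ε F.S)).mp h, fun y => ⟨inv (ε F.S) ≫ y, by simp⟩⟩
  have h2 : Function.Bijective (tt (S := S) tel (F.S.obj ⟨𝟙_ LC, fc_unit⟩)) :=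
    ⟨tt_injective tel (isCpt_unitF F), tt_surjective tel (isCpt_unitF F)⟩
  exact h1.comp (h2.comp (uequiv (MSys.ofSeq A S) F fc_unit).bijective)

lemma cf_one (h : TelMon tel) :
    cf (S := S) tel F (umk fc_unit (MSys.tpull _ (Functor.OplaxMonoidal.η F.S)
      (MSys.ofSeq A S).tone)) =
      η[R ⊗ S.PS] := by
  rw [cf_apply, uev_umk]
  refine (congrArg (fun x => ε F.S ≫ x) (tt_tpull tel _ _)).trans ?_
  rw [tt_tone tel h.one]
  simp

lemma cf_mul (h : TelMon tel) (a b : UU (MSys.ofSeq A S) F (𝟙_ LC)) :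
    cf (S := S) tel F (umap _ F (λ_ (𝟙_ LC)).inv (ucross _ F a b)) =
      scMul (cf tel F a) (cf tel F b) := by
  rw [cf_apply, uev_umap fc_unit (fc_tensor fc_unit fc_unit), uev_ucross fc_unit fc_unit,
    tt_tpull, tt_tpull, tt_tcross tel h.mul, cf_apply, cf_apply]
  unfold scMul
  rw [← tensorHom_comp_tensorHom, Category.assoc]
  have h1 : F.S.map (FCat.hom (X := ⟨𝟙_ LC, fc_unit⟩)
      (Y := ⟨𝟙_ LC ⊗ 𝟙_ LC, fc_tensor fc_unit fc_unit⟩) (λ_ (𝟙_ LC)).inv) ≫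
        δ F.S ⟨𝟙_ LC, fc_unit⟩ ⟨𝟙_ LC, fc_unit⟩ =
      (λ_ (F.S.obj ⟨𝟙_ LC, fc_unit⟩)).inv ≫ ε F.S ▷ F.S.obj ⟨𝟙_ LC, fc_unit⟩ := by
    have h2 := Functor.OplaxMonoidal.left_unitality (F := F.S) (⟨𝟙_ LC, fc_unit⟩ : FCat)
    rw [h2, Category.assoc, Category.assoc, ← comp_whiskerRight]
    simp
    rfl
  have h3 : ε F.S ≫ (λ_ (F.S.obj ⟨𝟙_ LC, fc_unit⟩)).inv ≫ ε F.S ▷ F.S.obj ⟨𝟙_ LC, fc_unit⟩ =
      (λ_ (𝟙_ T)).inv ≫ (ε F.S ⊗ₘ ε F.S) := by
    rw [tensorHom_def']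
    exact (leftUnitor_inv_naturality_assoc (ε F.S) _)
  have h4 := congrArg (fun x => ε F.S ≫ x) h1
  have h5 := h4.trans h3
  have h6 : ∀ {Z : T} (z : F.S.obj ⟨𝟙_ LC, fc_unit⟩ ⊗ F.S.obj ⟨𝟙_ LC, fc_unit⟩ ⟶ Z),
      ε F.S ≫ F.S.map (FCat.hom (X := ⟨𝟙_ LC, fc_unit⟩)
        (Y := ⟨𝟙_ LC ⊗ 𝟙_ LC, fc_tensor fc_unit fc_unit⟩) (λ_ (𝟙_ LC)).inv) ≫
          δ F.S ⟨𝟙_ LC, fc_unit⟩ ⟨𝟙_ LC, fc_unit⟩ ≫ z =
        (λ_ (𝟙_ T)).inv ≫ (ε F.S ⊗ₘ ε F.S) ≫ z := by
    intro Z z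
    have := congrArg (fun x => x ≫ z) h5
    simpa only [Category.assoc] using this
  exact h6 _

variable (S) in
/-- The coefficients of the theory as scalars of `R ⊗ PS`. -/
def coefSc (h : TelMon tel) (hF : CofTriangles F) (s : F.S.obj CCF ⟶ (MSys.ofSeq A S).obj 0 1)
    (hs : (MSys.ofSeq A S).IsSusp s) :
    (theory (MSys.ofSeq A S) F hF s hs).A ≃+* Sc (R ⊗ S.PS) :=
  RingEquiv.ofBijective
    ({ toFun := fun a => cf tel F a
       map_zero' := map_zero (cf (S := S) tel F)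
       map_add' := map_add (cf (S := S) tel F)
       map_one' := cf_one tel F h
       map_mul' := cf_mul tel F h } :
      (theory (MSys.ofSeq A S) F hF s hs).A →+* Sc (R ⊗ S.PS)) (cf_bijective tel F)

/-- **The coefficient ring of the theory is the homotopy ring of the telescope.** -/
def coefRing (h : TelMon tel) (hF : CofTriangles F) (s : F.S.obj CCF ⟶ (MSys.ofSeq A S).obj 0 1)
    (hs : (MSys.ofSeq A S).IsSusp s) :
    (theory (MSys.ofSeq A S) F hF s hs).A ≃+* HRing S R :=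
  (coefSc S tel F h hF s hs).trans (sharpEquiv S R).symm

variable {F}

lemma coefSc_apply (h : TelMon tel) (hF : CofTriangles F)
    (s : F.S.obj CCF ⟶ (MSys.ofSeq A S).obj 0 1) (hs : (MSys.ofSeq A S).IsSusp s)
    (a : (theory (MSys.ofSeq A S) F hF s hs).A) : coefSc S tel F h hF s hs a = cf tel F a := rfl

lemma coefRing_eq_iff (h : TelMon tel) (hF : CofTriangles F)
    (s : F.S.obj CCF ⟶ (MSys.ofSeq A S).obj 0 1) (hs : (MSys.ofSeq A S).IsSusp s)
    (a : (theory (MSys.ofSeq A S) F hF s hs).A) (y : HRing S R) :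
    coefRing tel F h hF s hs a = y ↔ cf tel F a = sharpTot S R y := by
  unfold coefRing
  rw [RingEquiv.trans_apply, RingEquiv.symm_apply_eq]
  rfl

lemma exists_sharp_eq_cf {w : ℤ} {a : UU (MSys.ofSeq A S) F (𝟙_ LC)}
    (ha : a ∈ udeg (MSys.ofSeq A S) F (𝟙_ LC) (-w)) :
    ∃ g : S.S w ⟶ R, cf tel F a = sharp g := by
  obtain ⟨b, hb⟩ := (mem_udeg fc_unit).mp ha
  obtain ⟨g, hg⟩ := exists_per_part (E := S) w (ε F.S ≫ toTel tel (-w) _ b)
  refine ⟨g, ?_⟩
  rw [sharp_eq_unitIso, tensorHom_def, ← Category.assoc, hg, cf_apply, Category.assoc, ← hb,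
    tt_tof]
  rfl

lemma exists_cf_eq_sharp {w : ℤ} (g : S.S w ⟶ R) :
    ∃ a ∈ udeg (MSys.ofSeq A S) F (𝟙_ LC) (-w), cf tel F a = sharp g := by
  obtain ⟨b, hb⟩ := (toTel_bijective (S := S) tel (k := -w) (isCpt_unitF F)).2
    (inv (ε F.S) ≫ (S.unitIso w).hom ≫ g ▷ S.S (-w))
  refine ⟨umk fc_unit ((MSys.ofSeq A S).tof _ (-w) b), (mem_udeg fc_unit).mpr ⟨b, rfl⟩, ?_⟩
  rw [sharp_eq_unitIso, tensorHom_def, cf_apply, uev_umk, tt_tof, hb]
  simp

/-- homogeneous coefficients of degree `-w` are homotopy classes of degree `2w` -/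
theorem coefRing_of_mem (h : TelMon tel) (hF : CofTriangles F)
    (s : F.S.obj CCF ⟶ (MSys.ofSeq A S).obj 0 1) (hs : (MSys.ofSeq A S).IsSusp s) {k w : ℤ}
    (hw : k + w = 0) {a : (theory (MSys.ofSeq A S) F hF s hs).A}
    (ha : a ∈ (theory (MSys.ofSeq A S) F hF s hs).degA k) :
    ∃ g : S.S w ⟶ R, coefRing tel F h hF s hs a = HRing.of S R w g := by
  obtain rfl : k = -w := by omega
  obtain ⟨g, hg⟩ := exists_sharp_eq_cf (S := S) tel (F := F) (w := w) ha
  exact ⟨g, (coefRing_eq_iff tel h hF s hs _ _).mpr (hg.trans (sharpTot_of w g).symm)⟩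

/-- homotopy classes of degree `2w` are homogeneous coefficients of degree `-w` -/
theorem exists_coefRing_eq (h : TelMon tel) (hF : CofTriangles F)
    (s : F.S.obj CCF ⟶ (MSys.ofSeq A S).obj 0 1) (hs : (MSys.ofSeq A S).IsSusp s) {k w : ℤ}
    (hw : k + w = 0) (g : S.S w ⟶ R) :
    ∃ a ∈ (theory (MSys.ofSeq A S) F hF s hs).degA k,
      coefRing tel F h hF s hs a = HRing.of S R w g := by
  obtain rfl : k = -w := by omega
  obtain ⟨a, ha, hg⟩ := exists_cf_eq_sharp (S := S) tel (F := F) g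
  exact ⟨a, ha, (coefRing_eq_iff tel h hF s hs _ _).mpr (hg.trans (sharpTot_of w g).symm)⟩

end coef

end tt

end Vale.Agent.P251.M
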