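import Vale.Agent.P251.M.MUCells
import Vale.Agent.P251.M.ThHomot
import Vale.Agent.P251.I.M

/-!
# P251, part M: assembly of the output `MUData` of parts M and Q

* `MUEv R` : the ring homomorphisms `Cob Laz s → ⨁_w Hom(S^{2w}, R^{⊗ (s+1)})`;
* `MUModP V` : the statement modulo odd primes;
* `muData_of` : `MUData T` from a multiplicative sequence `A` with telescope `R`.
-/

open CategoryTheory MonoidalCategory Limits Pretriangulated
open Vale.Agent.P251.T Vale.Agent.P251.S Vale.Agent.P251.I Vale.Agent.P251.F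

universe v u

set_option linter.unusedSectionVars false

noncomputable section

namespace Vale.Agent.P251.M

variable {T : Type u} [Category.{v} T] [Preadditive T] [HasZeroObject T]
    [HasShift T ℤ] [∀ n : ℤ, (shiftFunctor T n).Additive] [Pretriangulated T] [IsTriangulated T]
    [MonoidalCategory T] [SymmetricCategory T] [TensorTriangulated T] [MonoidalClosed T]
    [HasCoproducts.{0} T] [HasProducts.{0} T] [StableCat T]

/-- The characteristic homomorphisms. -/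
structure MUEv (R : T) [MonObj R] [IsCommMonObj R] where
  /-- the homomorphisms -/
  ev (s : ℕ) : Cob Laz s →+* HRing (stdEven T) (Am R (s + 1))
  ev_wt (s : ℕ) (w : ℤ) (z : Cob Laz s) (hz : Cob.IsWt w z) :
    ∃ a : (stdEven T).S w ⟶ Am R (s + 1), ev s z = HRing.of (stdEven T) (Am R (s + 1)) w a
  ev_map (m n : ℕ) (α : Fin (m + 1) → Fin (n + 1)) (z : Cob Laz m) :
    HRing.map (E := stdEven T) (Am.map R α) (ev m z) = ev n (Cob.map α z)

/-- The fields `odd`, `surj`, `ker` of `MUData`, for a fixed `s`. -/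
structure MUModP {R : T} [MonObj R] [IsCommMonObj R] (V : MUEv R) (s : ℕ) : Prop where
  odd (p : ℕ) [Fact p.Prime] (hp : p ≠ 2) (C : T) (i : 𝟙_ T ⟶ C) (δ : C ⟶ (𝟙_ T)⟦(1 : ℤ)⟧)
    (hC : Triangle.mk ((p : ℤ) • 𝟙 (𝟙_ T)) i δ ∈ distTriang T) (k : ℤ)
    (f : (𝟙_ T)⟦2 * k + 1⟧ ⟶ Am R (s + 1) ⊗ C) : f = 0
  surj (p : ℕ) [Fact p.Prime] (hp : p ≠ 2) (C : T) (i : 𝟙_ T ⟶ C) (δ : C ⟶ (𝟙_ T)⟦(1 : ℤ)⟧)
    (hC : Triangle.mk ((p : ℤ) • 𝟙 (𝟙_ T)) i δ ∈ distTriang T) (w : ℤ)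
    (f : (stdEven T).S w ⟶ Am R (s + 1) ⊗ C) :
    ∃ (z : Cob Laz s) (a : (stdEven T).S w ⟶ Am R (s + 1)), Cob.IsWt w z ∧
      V.ev s z = HRing.of (stdEven T) (Am R (s + 1)) w a ∧
      f = a ≫ (ρ_ (Am R (s + 1))).inv ≫ (Am R (s + 1) ◁ i)
  ker (p : ℕ) [Fact p.Prime] (hp : p ≠ 2) (C : T) (i : 𝟙_ T ⟶ C) (δ : C ⟶ (𝟙_ T)⟦(1 : ℤ)⟧)
    (hC : Triangle.mk ((p : ℤ) • 𝟙 (𝟙_ T)) i δ ∈ distTriang T) (w : ℤ) (z : Cob Laz s)
    (hz : Cob.IsWt w z) (a : (stdEven T).S w ⟶ Am R (s + 1))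
    (ha : V.ev s z = HRing.of (stdEven T) (Am R (s + 1)) w a)
    (h : a ≫ (ρ_ (Am R (s + 1))).inv ≫ (Am R (s + 1) ◁ i) = 0) :
    ∃ y : Cob Laz s, Cob.IsWt w y ∧ z = (p : ℤ) • y

/-- `MUData` from a multiplicative sequence `A` with telescope `R`. -/
theorem muData_of (F : SpaceFunctor T) (A : SeqMonoid T) {R : T} {ι : ∀ n, A.E.obj n ⟶ R}
    (tel : IsTel A.E R ι) [MonObj R] [IsCommMonObj R] (hone : A.one ≫ ι 0 = MonObj.one)
    (hcof : ∀ n, CofIn (EvenCell T 1) (A.u n)) (V : MUEv R) (hV : ∀ s, MUModP V s) :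
    Nonempty (MUData T) := by
  have hE : ∀ n, EvenCell T 0 (A.E.obj n) := by
    intro n
    obtain ⟨Z, v, w, D, hZ⟩ := hcof n
    exact EvenCell.ext _ D EvenCell.unit (hZ.mono (by norm_num))
  exact ⟨{
    R := R
    ev := V.ev
    ev_wt := V.ev_wt
    ev_map := V.ev_map
    odd := fun p _ hp s => (hV s).odd p hp
    surj := fun p _ hp s => (hV s).surj p hp
    ker := fun p _ hp s => (hV s).ker p hp
    cells := am_cells tel hE
    conn := fun J ρ δ hJ => bigCell_of_unit A tel hcof _ hone.symm J ρ δ hJ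
    conn_unit := unit_conn F }⟩

end Vale.Agent.P251.M
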