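import Vale.Agent.P251.M.CobIso
import Vale.Agent.P251.I.M

/-!
# P251, part M (M4c): assembly of `MUData`

`MUData` from the characteristic homomorphisms with the basis theorem (`CobEv`), the homotopy of
`R ⊗ S/p` (case `s = 0`), the cells and the connectivity.
-/

open CategoryTheory MonoidalCategory MonObj Limits Pretriangulated

universe v u

namespace Vale.Agent.P251.M

open Vale.Agent.P251.S Vale.Agent.P251.T Vale.Agent.P251.F Vale.Agent.P251.I EvenSpheres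

variable {T : Type u} [Category.{v} T] [Preadditive T] [HasZeroObject T]
    [HasShift T ℤ] [∀ n : ℤ, (shiftFunctor T n).Additive] [Pretriangulated T] [IsTriangulated T]
    [MonoidalCategory T] [SymmetricCategory T] [TensorTriangulated T] [MonoidalClosed T]
    [HasCoproducts.{0} T] [HasProducts.{0} T] [StableCat T]

/-- `MUData` from `CobEv`. -/
noncomputable def CobEv.muData {R : T} [MonObj R] [IsCommMonObj R] (D : CobEv (stdEven T) R)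
    (odd : ∀ (p : ℕ) [Fact p.Prime], p ≠ 2 → ∀ (C : T) (i : 𝟙_ T ⟶ C) (δ : C ⟶ (𝟙_ T)⟦(1 : ℤ)⟧),
      Triangle.mk ((p : ℤ) • 𝟙 (𝟙_ T)) i δ ∈ distTriang T → ∀ (k : ℤ)
      (f : (𝟙_ T)⟦2 * k + 1⟧ ⟶ Am R 1 ⊗ C), f = 0)
    (surj : ∀ (p : ℕ) [Fact p.Prime], p ≠ 2 → ∀ (C : T) (i : 𝟙_ T ⟶ C) (δ : C ⟶ (𝟙_ T)⟦(1 : ℤ)⟧),
      Triangle.mk ((p : ℤ) • 𝟙 (𝟙_ T)) i δ ∈ distTriang T → ∀ (w : ℤ)
      (f : (stdEven T).S w ⟶ Am R 1 ⊗ C),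
      ∃ (z : Cob Laz 0) (a : (stdEven T).S w ⟶ Am R 1), Cob.IsWt w z ∧
        D.ev 0 z = HRing.of (stdEven T) (Am R 1) w a ∧
        f = a ≫ (ρ_ (Am R 1)).inv ≫ (Am R 1 ◁ i))
    (ker : ∀ (p : ℕ) [Fact p.Prime], p ≠ 2 → ∀ (C : T) (i : 𝟙_ T ⟶ C) (δ : C ⟶ (𝟙_ T)⟦(1 : ℤ)⟧),
      Triangle.mk ((p : ℤ) • 𝟙 (𝟙_ T)) i δ ∈ distTriang T → ∀ (w : ℤ) (z : Cob Laz 0),
      Cob.IsWt w z → ∀ (a : (stdEven T).S w ⟶ Am R 1),
      D.ev 0 z = HRing.of (stdEven T) (Am R 1) w a →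
      a ≫ (ρ_ (Am R 1)).inv ≫ (Am R 1 ◁ i) = 0 →
      ∃ y : Cob Laz 0, Cob.IsWt w y ∧ z = (p : ℤ) • y)
    (cells : ∀ n : ℕ, ∃ (F : ℕ ⥤ T) (ι : ∀ j, F.obj j ⟶ Am R n), M.IsTel F (Am R n) ι ∧
      ∀ j, EvenCell T 0 (F.obj j))
    (conn : ∀ (J : T) (ρ : R ⟶ J) (δ : J ⟶ (𝟙_ T)⟦(1 : ℤ)⟧),
      Triangle.mk (η[R] : 𝟙_ T ⟶ R) ρ δ ∈ distTriang T → BigCell T 2 J)
    (conn_unit : Conn 0 (𝟙_ T)) : MUData T where
  R := R
  ev := D.ev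
  ev_wt := D.ev_wt
  ev_map := D.ev_map
  odd p _ hp s C i δ hC k f := D.odd (Iso.refl _) C (odd p hp C i δ hC) s k f
  surj p _ hp s C i δ hC w f :=
    D.surj (fun n => ⟨2 * n, ⟨(stdEven T).sphIso (Iso.refl _) n⟩⟩) i (surj p hp C i δ hC) s w f
  ker p _ hp s C i δ hC w z hz a ha h := D.ker i (p : ℤ) (ker p hp C i δ hC) s w z hz a ha h
  cells := cells
  conn := conn
  conn_unit := conn_unit

end Vale.Agent.P251.M
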