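import Vale.Agent.P251.M.GPush
import Vale.Agent.P251.M.MUOf
import Vale.Agent.P251.M.MUInst

/-!
# P251, part M (M4c): reduction of the basis theorem to `R ⊗ R`

A basis of `R ⊗ R` over `R` (first factor), given by the monomials in the coefficients of the
isomorphism of the two formal group laws, gives such bases of `R^{⊗ (s+2)}` over `R^{⊗ (s+1)}` for
all `s` (`cobEv`), hence all of `MUModP` from the case `s = 0` (`muModP_all`).
-/

universe v u

namespace Vale.Agent.P251.F

open MvPolynomial

namespace Cob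

variable {N : Type} [CommRing N] [LawRing N]

/-- The map `0 ↦ 0`, `1 ↦ s + 1`. -/
def al (s : ℕ) : Fin 2 → Fin (s + 2) := ![0, Fin.last (s + 1)]

theorem al_zero (s : ℕ) : al s 0 = 0 := rfl

theorem al_one (s : ℕ) : al s 1 = Fin.last (s + 1) := rfl

theorem map_al_X (s m : ℕ) :
    map (al s) (X (Fin.last 0, m) : Cob N 1) = X (Fin.last s, m) := by
  rw [map, ev_X, Chain.res_g]
  have h1 : al s (Fin.last 0).succ = (Fin.last s).succ := by
    rw [Fin.succ_last]
    exact al_one s
  rw [h1, univ_g_succ, al_zero, univ_g_zero, inv_one, mul_one, c_succ_strictMk]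

theorem map_al_monomial (s : ℕ) (u : ℕ →₀ ℕ) :
    map (al s) (monomial (last 0 u) 1 : Cob N 1) = monomial (last s u) 1 := by
  have h : ∀ k : ℕ, (monomial (last k u) 1 : Cob N (k + 1)) =
      u.prod fun m e => X (Fin.last k, m) ^ e := by
    intro k
    rw [monomial_eq, C_1, one_mul, last, Finsupp.prod_mapDomain_index_inj last_inj]
  rw [h, h, Finsupp.prod, Finsupp.prod, _root_.map_prod]
  refine Finset.prod_congr rfl fun m _ => ?_
  rw [_root_.map_pow, map_al_X]

end Cob

end Vale.Agent.P251.F

open CategoryTheory MonoidalCategory MonObj Limits Pretriangulated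

namespace Vale.Agent.P251.M

open Vale.Agent.P251.S Vale.Agent.P251.T Vale.Agent.P251.F Vale.Agent.P251.I EvenSpheres
open MvPolynomial (monomial X)

set_option linter.unusedSectionVars false

section Amitsur

variable {T : Type u} [Category.{v} T] [MonoidalCategory T] [SymmetricCategory T]
  (R : T) [MonObj R] [IsCommMonObj R]

/-- The map of the first factor, tensored with `R`. -/
lemma map_al (s : ℕ) : Am.map R (Cob.al s) = CobEv.v0 R s ▷ R := by
  apply Am.map_eq_of
  intro j
  refine Fin.lastCases ?_ (fun k => ?_) j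
  · rw [Am.v_last, inrM_whiskerRight]
    exact (Am.v_last R (s + 1)).symm
  · rw [Am.v_castSucc, Category.assoc, inlM_whiskerRight, Am.v_map_assoc]
    have h1 : Cob.al s k.castSucc = (0 : Fin (s + 1)).castSucc := by
      rw [Subsingleton.elim k 0]
      rfl
    rw [h1, Am.v_castSucc]

end Amitsur

variable {T : Type u} [Category.{v} T] [Preadditive T] [HasZeroObject T]
    [HasShift T ℤ] [∀ n : ℤ, (shiftFunctor T n).Additive] [Pretriangulated T] [IsTriangulated T]
    [MonoidalCategory T] [SymmetricCategory T] [TensorTriangulated T] [MonoidalClosed T]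
    [HasCoproducts.{0} T] [HasProducts.{0} T] [StableCat T]

/-- A basis of `R ⊗ R` over `R`: the monomials in the coefficients of the isomorphism of the two
formal group laws. -/
structure MUBasis {R : T} [MonObj R] [IsCommMonObj R] (V : MUEv R) where
  /-- the basis elements -/
  w (u : ℕ →₀ ℕ) : (stdEven T).S (Cob.degU u) ⟶ Am R 2
  w_eq (u : ℕ →₀ ℕ) : HRing.of (stdEven T) (Am R 2) (Cob.degU u) (w u) =
    V.ev 1 (monomial (Cob.last 0 u) 1)
  isIso : IsIso (Sigma.desc fun u => FM.bind (R := Am R 1) (Z := R) (w u))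

variable {R : T} [MonObj R] [IsCommMonObj R]

/-- The bases of `R^{⊗ (s+2)}` over `R^{⊗ (s+1)}`. -/
noncomputable def MUBasis.cobEv {V : MUEv R} (b : MUBasis V) : CobEv (stdEven T) R where
  ev := V.ev
  ev_wt := V.ev_wt
  ev_map := V.ev_map
  basis s := (gbasisOfBind (A := Am R 1) (R := R) Cob.degU b.w b.isIso).push (CobEv.v0 R s)
  basis_k s u := rfl
  basis_w s u := by
    change HRing.of (stdEven T) (Am R (s + 2)) (Cob.degU u) (b.w u ≫ CobEv.v0 R s ▷ R) = _
    have h1 := V.ev_map 1 (s + 1) (Cob.al s) (monomial (Cob.last 0 u) 1)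
    rw [Cob.map_al_monomial] at h1
    rw [← h1, ← b.w_eq, HRing.map_of, map_al]

/-- **The statement modulo `p` for all `s`, from the case `s = 0`.** -/
theorem MUBasis.muModP {V : MUEv R} (b : MUBasis V) (h : MUModP V 0) (s : ℕ) : MUModP V s where
  odd p _ hp C i δ hC k f := b.cobEv.odd (Iso.refl _) C (h.odd p hp C i δ hC) s k f
  surj p _ hp C i δ hC w f :=
    b.cobEv.surj (fun n => ⟨2 * n, ⟨(stdEven T).sphIso (Iso.refl _) n⟩⟩) i
      (h.surj p hp C i δ hC) s w f
  ker p _ hp C i δ hC w z hz a ha h' :=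
    b.cobEv.ker i (p : ℤ) (h.ker p hp C i δ hC) s w z hz a ha h'

end Vale.Agent.P251.M
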