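import Vale.Agent.P251.M.MUBasisF
import Vale.Agent.P251.M.CobGlue

/-!
# P251, part M: `MUBasis V` from the classes `b_i`

`muBasisOf`: if the monomials in `b i : S i ⟶ R`, `i ≥ 1` (in the category of free
`Am R 1`-modules) are a basis on homotopy groups and `b (m+1)` represents the `m`-th coefficient
`V.ev 1 (X (0, m))` of the isomorphism of the two formal group laws, then we get `MUBasis V`.
-/

open CategoryTheory MonoidalCategory Limits Pretriangulated MonObj
open scoped DirectSum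

universe v u

noncomputable section

namespace Vale.Agent.P251.M

open Vale.Agent.P251.S Vale.Agent.P251.T Vale.Agent.P251.F Vale.Agent.P251.I
open MvPolynomial (monomial X)

set_option linter.unusedSectionVars false

variable {T : Type u} [Category.{v} T] [Preadditive T] [HasZeroObject T]
    [HasShift T ℤ] [∀ n : ℤ, (shiftFunctor T n).Additive] [Pretriangulated T] [IsTriangulated T]
    [MonoidalCategory T] [SymmetricCategory T] [TensorTriangulated T] [MonoidalClosed T]
    [HasCoproducts.{0} T] [HasProducts.{0} T] [StableCat T]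
    {R : T} [MonObj R] [IsCommMonObj R]

theorem degU_eq (a : ℕ →₀ ℕ) : Cob.degU a = a.sum fun i m => (m : ℤ) * ((i : ℤ) + 1) := by
  unfold Cob.degU
  refine Finsupp.sum_congr fun i _ => ?_
  push_cast
  ring

theorem ev_monomial (V : MUEv R) (u : ℕ →₀ ℕ) :
    V.ev 1 (monomial (Cob.last 0 u) 1) =
      u.prod fun m e => V.ev 1 (X (Fin.last 0, m)) ^ e := by
  have h : (monomial (Cob.last 0 u) 1 : Cob Laz 1) =
      u.prod fun m e => X (Fin.last 0, m) ^ e := by
    rw [MvPolynomial.monomial_eq, MvPolynomial.C_1, _root_.one_mul, Cob.last,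
      Finsupp.prod_mapDomain_index_inj Cob.last_inj]
  rw [h, Finsupp.prod, Finsupp.prod, _root_.map_prod]
  refine Finset.prod_congr rfl fun m _ => ?_
  rw [_root_.map_pow]

/-- The class `b i : S i ⟶ Am R 1 ⊗ R`, typed. -/
def amb (b : ∀ i : ℕ, (sphFM (Am R 1) (stdEven T)).S ((i : ℕ) : ℤ) ⟶ (FM.free (Am R 1)).obj R)
    (i : ℕ) : (stdEven T).S ((i : ℕ) : ℤ) ⟶ Am R 2 := FM.Hom.hom (b i)

/-- **The basis of `R ⊗ R`.** -/
def muBasisOf (V : MUEv R)
    (b : ∀ i : ℕ, (sphFM (Am R 1) (stdEven T)).S ((i : ℕ) : ℤ) ⟶ (FM.free (Am R 1)).obj R)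
    (hb : ∀ j : ℤ, Function.Bijective (BMData.totX (sphFM (Am R 1) (stdEven T))
      (FM.of ((𝟙_ T)⟦j⟧) : FM (Am R 1))
      ((sphFM (Am R 1) (stdEven T)).monP (FM.oneF (Am R 1) R) (FM.mulF (Am R 1) R) b)))
    (h : ∀ m : ℕ, V.ev 1 (X (Fin.last 0, m)) =
      HRing.of (stdEven T) (Am R 2) ((m + 1 : ℕ) : ℤ) (amb b (m + 1))) : MUBasis V where
  w u := (SphD.ofEven (stdEven T)).monP η[Am R 2] μ[Am R 2] (amb b)
    (expEquiv Cob.degU degU_eq u)
  w_eq u := by
    rw [ev_monomial]
    refine (of_monP_expEquiv (Y := Am R 2) Cob.degU degU_eq (amb b) u).trans ?_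
    refine Finset.prod_congr rfl fun m _ => ?_
    dsimp only
    rw [h m]
  isIso := isIso_of_totX (stdEven T) b hb Cob.degU degU_eq _
    (fun a => of_monP_expEquiv (Y := Am R 2) Cob.degU degU_eq (amb b) a)

end Vale.Agent.P251.M
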