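import Vale.Agent.P251.M.Coact
import Vale.Agent.P251.Q.ModP

/-!
# P251, part M: the homotopy of `R ⊗ S/p` (the fields `odd`, `surj`, `ker` of `MUData` for `s = 0`)

`QIn D p` : the output of part Q for the homotopy of `R`; together with `π_0 R = ℤ`, `π_k R = 0` for
`k < 0` it gives the three fields.
-/

open CategoryTheory MonoidalCategory MonObj Limits Pretriangulated

universe v u

namespace Vale.Agent.P251.M

open Vale.Agent.P251.S Vale.Agent.P251.T Vale.Agent.P251.F Vale.Agent.P251.Q EvenSpheres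

set_option linter.unusedSectionVars false

variable {T : Type u} [Category.{v} T] [Preadditive T] [HasZeroObject T]
    [HasShift T ℤ] [∀ n : ℤ, (shiftFunctor T n).Additive] [Pretriangulated T] [IsTriangulated T]
    [MonoidalCategory T] [SymmetricCategory T] [TensorTriangulated T] [MonoidalClosed T]
    [HasCoproducts.{0} T] [HasProducts.{0} T] [StableCat T]

/-- `S^{2n} ≅ 𝟙⟦2n⟧` for the standard even spheres -/
noncomputable def stdSph (n : ℤ) : (stdEven T).S n ≅ (𝟙_ T)⟦2 * n⟧ :=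
  (stdEven T).sphIso (Iso.refl _) n

theorem isSphere_std (n : ℤ) : IsSphere ((stdEven T).S n) := ⟨2 * n, ⟨stdSph n⟩⟩

/-- `π_0 B = ℤ`, `π_{2n} B = 0` for `n < 0`. -/
structure PiConn (B : T) [MonObj B] : Prop where
  neg : ∀ n : ℤ, n < 0 → ∀ a : (stdEven T).S n ⟶ B, a = 0
  zero : ∀ a : 𝟙_ T ⟶ B, ∃ m : ℤ, a = m • η[B]
  inj : ∀ m : ℤ, m • η[B] = 0 → m = 0

theorem PiConn.isConnGr {B : T} [MonObj B] [IsCommMonObj B] (h : PiConn B) :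
    IsConnGr (hgr (stdEven T) B) := by
  refine isConnGr_hgr h.neg ?_ ?_
  · intro a
    obtain ⟨m, hm⟩ := h.zero ((stdEven T).zero.hom ≫ a)
    refine ⟨m, ?_⟩
    rw [← Preadditive.comp_zsmul, ← hm, Iso.inv_hom_id_assoc]
  · intro m hm
    apply h.inj
    rw [← Preadditive.comp_zsmul] at hm
    rw [← cancel_epi (stdEven T).zero.inv, hm, comp_zero]

/-- The output of part Q in terms of the homotopy groups of `B`. -/
structure QIn (B : T) [MonObj B] [IsCommMonObj B] (F : Law (HRing (stdEven T) B)) (p : ℕ) :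
    Prop where
  gen : ∀ (w : ℤ), ∀ x ∈ hgr (stdEven T) B (-w), ∃ c : Laz,
    Cob.IsWt w (MvPolynomial.C c : Cob Laz 0) ∧ ∃ y ∈ hgr (stdEven T) B (-w),
      x = Laz.lift F c + p • y
  torsion : ∀ (w : ℤ) (a : (stdEven T).S w ⟶ B), (p : ℤ) • a = 0 → a = 0
  odd_div : ∀ (k : ℤ) (a : (𝟙_ T)⟦2 * k + 1⟧ ⟶ B), ∃ b, a = (p : ℤ) • b
  odd_torsion : ∀ (k : ℤ) (a : (𝟙_ T)⟦2 * k + 1⟧ ⟶ B), (p : ℤ) • a = 0 → a = 0

section

variable {B : T} [MonObj B] [IsCommMonObj B] {F : Law (HRing (stdEven T) B)} {p : ℕ}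
  {C : T} {i : 𝟙_ T ⟶ C} {δ : C ⟶ (𝟙_ T)⟦(1 : ℤ)⟧}

theorem QIn.htf_even (h : QIn B F p) (k : ℤ) (g : (𝟙_ T)⟦2 * k + 1⟧ ⟶ B⟦(1 : ℤ)⟧)
    (hg : (p : ℤ) • g = 0) : g = 0 := by
  refine ModP.torsionFree_shift (W' := (𝟙_ T)⟦2 * k⟧)
    ((shiftFunctorAdd' T (2 * k) 1 (2 * k + 1) rfl).app _) (fun a ha => ?_) g hg
  have h1 := h.torsion k ((stdSph k).hom ≫ a) (by rw [← Preadditive.comp_zsmul, ha, comp_zero])
  rw [← cancel_epi (stdSph k).hom, h1, comp_zero]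

theorem QIn.htf_odd (h : QIn B F p) (w : ℤ) (g : (stdEven T).S w ⟶ B⟦(1 : ℤ)⟧)
    (hg : (p : ℤ) • g = 0) : g = 0 :=
  ModP.torsionFree_shift (W' := (𝟙_ T)⟦2 * (w - 1) + 1⟧)
    (stdSph w ≪≫ (shiftFunctorAdd' T (2 * (w - 1) + 1) 1 (2 * w) (by ring)).app _)
    (fun a ha => h.odd_torsion _ a ha) g hg

/-- the odd homotopy of `B ⊗ S/p` vanishes -/
theorem QIn.odd (h : QIn B F p)
    (hC : Triangle.mk ((p : ℤ) • 𝟙 (𝟙_ T)) i δ ∈ distTriang T) (k : ℤ)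
    (f : (𝟙_ T)⟦2 * k + 1⟧ ⟶ B ⊗ C) : f = 0 :=
  ModP.eq_zero hC (fun g hg => h.htf_even k g hg) (fun a => h.odd_div k a) f

/-- the even homotopy of `B ⊗ S/p` is generated by the coefficients of the law -/
theorem QIn.surj (h : QIn B F p)
    (hC : Triangle.mk ((p : ℤ) • 𝟙 (𝟙_ T)) i δ ∈ distTriang T) (w : ℤ)
    (hdeg : ∀ c : Laz, Cob.IsWt w (MvPolynomial.C c : Cob Laz 0) →
      ∃ a : (stdEven T).S w ⟶ B, Laz.lift F c = HRing.of (stdEven T) B w a)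
    (f : (stdEven T).S w ⟶ B ⊗ C) :
    ∃ (c : Laz) (a : (stdEven T).S w ⟶ B), Cob.IsWt w (MvPolynomial.C c : Cob Laz 0) ∧
      Laz.lift F c = HRing.of (stdEven T) B w a ∧ f = a ≫ (ρ_ B).inv ≫ (B ◁ i) := by
  obtain ⟨a, rfl⟩ := ModP.exists_lift hC (fun g hg => h.htf_odd w g hg) f
  obtain ⟨c, hc, y, hy, hcy⟩ := h.gen w _ (of_mem_hgr (neg_neg w) a)
  obtain ⟨b, rfl⟩ := exists_of_mem_hgr (neg_neg w) hy
  obtain ⟨a', ha'⟩ := hdeg c hc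
  refine ⟨c, a', hc, ha', ?_⟩
  have h1 : a = a' + (p : ℤ) • b := by
    apply DirectSum.of_injective (β := (stdEven T).Gr B) w
    rw [map_add, map_zsmul]
    refine hcy.trans ?_
    rw [ha', natCast_zsmul]
  rw [h1, Preadditive.add_comp, ModP.zsmul_comp_eq_zero hC, add_zero]

end

namespace CobEv

variable {R : T} [MonObj R] [IsCommMonObj R] (D : CobEv (stdEven T) R) {p : ℕ}
  (h : QIn (Am R 1) D.law p) {C : T} {i : 𝟙_ T ⟶ C} {δ : C ⟶ (𝟙_ T)⟦(1 : ℤ)⟧}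

include h in
theorem surj₀ (hC : Triangle.mk ((p : ℤ) • 𝟙 (𝟙_ T)) i δ ∈ distTriang T) (w : ℤ)
    (f : (stdEven T).S w ⟶ Am R 1 ⊗ C) :
    ∃ (z : Cob Laz 0) (a : (stdEven T).S w ⟶ Am R 1), Cob.IsWt w z ∧
      D.ev 0 z = HRing.of (stdEven T) (Am R 1) w a ∧
      f = a ≫ (ρ_ (Am R 1)).inv ≫ (Am R 1 ◁ i) := by
  obtain ⟨c, a, hc, ha, hf⟩ := h.surj hC w (fun c hc => by
    obtain ⟨a, ha⟩ := D.ev_wt 0 w _ hc
    exact ⟨a, (D.lift_law c).trans ha⟩) f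
  exact ⟨MvPolynomial.C c, a, hc, (D.lift_law c).symm.trans ha, hf⟩

include h in
theorem ker₀ (hconn : PiConn (Am R 1))
    (hC : Triangle.mk ((p : ℤ) • 𝟙 (𝟙_ T)) i δ ∈ distTriang T) (w : ℤ) (z : Cob Laz 0)
    (hz : Cob.IsWt w z) (a : (stdEven T).S w ⟶ Am R 1)
    (ha : D.ev 0 z = HRing.of (stdEven T) (Am R 1) w a)
    (h0 : a ≫ (ρ_ (Am R 1)).inv ≫ (Am R 1 ◁ i) = 0) :
    ∃ y : Cob Laz 0, Cob.IsWt w y ∧ z = (p : ℤ) • y := by
  obtain ⟨c, rfl⟩ := Cob.exists_eq_C z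
  obtain ⟨b, rfl⟩ := ModP.exists_zsmul_of_comp_eq_zero hC a h0
  have h1 : Laz.lift D.law c = p • HRing.of (stdEven T) (Am R 1) w b := by
    rw [lift_law, ha, ← natCast_zsmul]
    exact map_zsmul (DirectSum.of ((stdEven T).Gr (Am R 1)) w) (p : ℤ) b
  obtain ⟨c', hc', hcc'⟩ := hconn.isConnGr.laz_inj_mod_p D.homPS_law (D.rho isSphere_std)
    (D.law_rho isSphere_std) (fun w x hx => D.isBHom_rho isSphere_std w x hx) h.gen hz
    (of_mem_hgr (neg_neg w) b) h1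
  refine ⟨MvPolynomial.C c', hc', ?_⟩
  rw [hcc', natCast_zsmul, map_nsmul]

end CobEv

end Vale.Agent.P251.M
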