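import Vale.Agent.P251.M.Theory
import Vale.Agent.P251.I.CofTriangle

/-!
# P251: the triangles of cofibrations, in the form used by `M.theory`
-/

open CategoryTheory MonoidalCategory Limits Pretriangulated

universe v u

namespace Vale.Agent.P251.M

open G G.LC I Vale.Agent.P251.T

variable {T : Type u} [Category.{v} T] [Preadditive T] [HasZeroObject T]
    [HasShift T ℤ] [∀ n : ℤ, (shiftFunctor T n).Additive] [Pretriangulated T]
    [MonoidalCategory T] [SymmetricCategory T] [TensorTriangulated T]

/-- Every suspension spectrum functor has the triangles of cofibrations. -/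
theorem cofTriangles (F : SpaceFunctor T) : CofTriangles F where
  fc hi hA hB := FC.cof hi hA hB
  tri i hi hA hB := ⟨_, F.cof_distinguished (FCat.hom (X := ⟨_, hA⟩) (Y := ⟨_, hB⟩) i) hi⟩

end Vale.Agent.P251.M
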