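import Vale.Agent.P251.M.SpaceCells
import Vale.Agent.P251.M.EvenShift
import Vale.Agent.P251.M.SeqSys
import Vale.Agent.P251.M.Theory

/-!
# P251, part M (ME): connectivity of the theory of a sequence of even complexes

Input: a multiplicative sequence `A` such that the cofibres of the units `𝟙 ⟶ A.E n` are finite even
complexes with cells in dimensions `≥ 2`, and even spheres `S`.
Output: the fields `deg_unit_pos`, `deg_unit_zero`, `deg_RR_pos` of `ThomTheory`.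
-/

open CategoryTheory MonoidalCategory Limits Pretriangulated
open Vale.Agent.P251.G Vale.Agent.P251.G.LC Vale.Agent.P251.I Vale.Agent.P251.T
open Functor.OplaxMonoidal Functor.LaxMonoidal

universe v u

set_option linter.unusedSectionVars false

noncomputable section

namespace Vale.Agent.P251.M

variable {T : Type u} [Category.{v} T] [Preadditive T] [HasZeroObject T]
    [HasShift T ℤ] [∀ n : ℤ, (shiftFunctor T n).Additive] [Pretriangulated T]
    [MonoidalCategory T] [SymmetricCategory T] [TensorTriangulated T]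

/-- Even complexes with cells in dimensions `≥ 2d` are `(2d-1)`-connected. -/
theorem EvenCell.conn (h0 : Conn (0 : ℤ) (𝟙_ T)) {d : ℤ} {X : T} (hX : EvenCell T d X) :
    Conn (2 * d) X := by
  induction hX with
  | zero X hX => exact Conn.zero hX
  | sphere k hk => exact (h0.shift (2 * k) (2 * k) (by ring)).mono (by omega)
  | ext Δ hΔ _ _ ih₁ ih₃ => exact Conn.ext Δ hΔ ih₁ ih₃

/-- the unit of a multiplicative sequence, at stage `n` -/
def SeqMonoid.u (A : SeqMonoid T) (n : ℕ) : 𝟙_ T ⟶ A.E.obj n :=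
  A.one ≫ A.E.map (homOfLE (Nat.zero_le n))

/-- Input for `A7`. -/
structure EvenSeq (A : SeqMonoid T) (S : EvenSpheres T) : Prop where
  /-- the cofibres of the units are even complexes with cells in dimensions `≥ 2` -/
  cof : ∀ n, CofIn (EvenCell T 1) (A.u n)
  /-- the even spheres are spheres -/
  sph : ∀ n : ℤ, Nonempty (S.S n ≅ (𝟙_ T)⟦2 * n⟧)
  /-- the unit is connective -/
  conn : Conn (0 : ℤ) (𝟙_ T)
  /-- endomorphisms of the unit -/
  endo : ∀ f : 𝟙_ T ⟶ 𝟙_ T, ∃ m : ℤ, f = m • 𝟙 (𝟙_ T)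

namespace EvenSeq

variable {A : SeqMonoid T} {S : EvenSpheres T} (h : EvenSeq A S)

include h

theorem evenCell (n : ℕ) : EvenCell T 0 (A.E.obj n) := by
  obtain ⟨Z, v, w, D, hZ⟩ := h.cof n
  exact EvenCell.ext _ D EvenCell.unit (hZ.mono (by norm_num))

theorem evenCell_obj (n : ℕ) (k : ℤ) : EvenCell T k ((MSys.ofSeq A S).obj n k) := by
  obtain ⟨e⟩ := h.sph k
  exact EvenCell.of_iso (whiskerLeftIso _ e.symm)
    ((h.evenCell n).tensorLeft_shift k k (by ring))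

/-- `H^k(S^j) = 0` for `j < 2k` -/
theorem H_eq_zero {X : T} {j k : ℤ} (e : X ≅ (𝟙_ T)⟦j⟧) (hj : j < 2 * k)
    (c : (MSys.ofSeq A S).H k X) : c = 0 := by
  obtain ⟨n, x, rfl⟩ := MSys.exists_cls c
  have h1 := (h.evenCell_obj n k).conn h.conn j hj (e.inv ≫ x)
  have h2 : x = 0 := by
    rw [← cancel_epi e.inv, h1, comp_zero]
  rw [h2, map_zero]

omit h [Preadditive T] [HasZeroObject T] [HasShift T ℤ]
    [∀ n : ℤ, (shiftFunctor T n).Additive] [Pretriangulated T] [TensorTriangulated T] in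
theorem unit_aux {A₀ X B : T} (o : 𝟙_ T ⟶ A₀) (f : A₀ ⟶ X) (z : 𝟙_ T ⟶ B) :
    ((λ_ (𝟙_ T)).inv ≫ (o ⊗ₘ z)) ≫ (f ▷ B) = (o ≫ f) ≫ (ρ_ X).inv ≫ (X ◁ z) := by
  rw [MonoidalCategory.tensorHom_def, Category.assoc, Category.assoc, whisker_exchange, ← comp_whiskerRight_assoc,
    unitors_inv_equal, ← rightUnitor_inv_naturality_assoc]

/-- `H^0(𝟙) = ℤ` -/
theorem H_unit (c : (MSys.ofSeq A S).H 0 (𝟙_ T)) :
    ∃ m : ℤ, c = m • (MSys.ofSeq A S).unit := by
  obtain ⟨n, x, rfl⟩ := MSys.exists_cls c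
  obtain ⟨Z, v, w, D, hZ⟩ := h.cof n
  -- lift along the unit
  let i : A.E.obj n ≅ (MSys.ofSeq A S).obj n 0 :=
    (ρ_ (A.E.obj n)).symm ≪≫ whiskerLeftIso (A.E.obj n) (asIso S.z)
  have hi : (MSys.ofSeq A S).one ≫ (MSys.ofSeq A S).map 0 (Nat.zero_le n) = A.u n ≫ i.hom :=
    unit_aux A.one (A.E.map (homOfLE (Nat.zero_le n))) S.z
  have h1 : (x ≫ i.inv) ≫ v = 0 := by
    have h2 := hZ.conn h.conn 0 (by norm_num)
      ((shiftFunctorZero' T (0 : ℤ) rfl).hom.app (𝟙_ T) ≫ (x ≫ i.inv) ≫ v)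
    have h3 : IsIso ((shiftFunctorZero' T (0 : ℤ) rfl).hom.app (𝟙_ T)) := inferInstance
    exact (cancel_epi ((shiftFunctorZero' T (0 : ℤ) rfl).hom.app (𝟙_ T))).mp
      (h2.trans comp_zero.symm)
  obtain ⟨g, hg⟩ : ∃ g : 𝟙_ T ⟶ 𝟙_ T, x ≫ i.inv = g ≫ A.u n :=
    Triangle.coyoneda_exact₂ _ D (x ≫ i.inv) h1
  obtain ⟨m, rfl⟩ := h.endo g
  refine ⟨m, ?_⟩
  have h4 : x = m • ((MSys.ofSeq A S).one ≫ (MSys.ofSeq A S).map 0 (Nat.zero_le n)) := by
    have h5 : x = (x ≫ i.inv) ≫ i.hom := by rw [Category.assoc, i.inv_hom_id, Category.comp_id]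
    rw [h5, hg, Preadditive.zsmul_comp, Category.id_comp, Preadditive.zsmul_comp, hi]
  rw [h4, map_zsmul]
  exact congrArg _ (MSys.cls_map _ _)

variable {F : SpaceFunctor T} {hF : CofTriangles F} {s : F.S.obj CCF ⟶ (MSys.ofSeq A S).obj 0 1}
  {hs : (MSys.ofSeq A S).IsSusp s}

theorem udeg_eq_zero {X : LC} (hX : FC X) {j k : ℤ} (e : F.S.obj ⟨X, hX⟩ ≅ (𝟙_ T)⟦j⟧)
    (hj : j < 2 * k) {x : UU (MSys.ofSeq A S) F X} (hx : x ∈ udeg (MSys.ofSeq A S) F X k) :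
    x = 0 := by
  obtain ⟨c, hc⟩ := MSys.mem_tdeg.mp ((mem_udeg hX).mp hx)
  rw [h.H_eq_zero e hj c, map_zero] at hc
  exact uev_inj hX (by rw [← hc, map_zero])

theorem deg_unit_pos (k : ℤ) (hk : 0 < k)
    (x) (hx : x ∈ (theory (MSys.ofSeq A S) F hF s hs).deg (𝟙_ LC) k) : x = 0 :=
  h.udeg_eq_zero fc_unit (j := 0) ((Functor.Monoidal.εIso F.S).symm ≪≫
    ((shiftFunctorZero' T (0 : ℤ) rfl).app (𝟙_ T)).symm) (by omega) hx

theorem deg_RR_pos (k : ℤ) (hk : 0 < k)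
    (x) (hx : x ∈ (theory (MSys.ofSeq A S) F hF s hs).deg (LC.of ℝ) k) : x = 0 :=
  h.udeg_eq_zero fcRR (j := 1) F.line (by omega) hx

theorem deg_unit_zero (x) (hx : x ∈ (theory (MSys.ofSeq A S) F hF s hs).deg (𝟙_ LC) 0) :
    ∃ m : ℤ, x = m • (theory (MSys.ofSeq A S) F hF s hs).one := by
  obtain ⟨c, hc⟩ := MSys.mem_tdeg.mp ((mem_udeg fc_unit).mp hx)
  obtain ⟨c', rfl⟩ := (MSys.pull_bijective (M := MSys.ofSeq A S) (k := 0) (η F.S)).2 c
  obtain ⟨m, rfl⟩ := h.H_unit c'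
  refine ⟨m, uev_inj fc_unit ?_⟩
  rw [← hc, map_zsmul]
  refine Eq.trans ?_ (map_zsmul (uev fc_unit) m _).symm
  rw [map_zsmul]
  refine congrArg _ ?_
  change _ = (MSys.ofSeq A S).tpull (η F.S) (MSys.ofSeq A S).tone
  rw [MSys.tone, MSys.tpull_of]
  rfl

end EvenSeq

end Vale.Agent.P251.M
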