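import Vale.Agent.P251.M.RepQ
import Vale.Agent.P251.M.Theory
import Vale.Agent.P251.G.Retract

/-!
# P251, part M (ME): representability

`rep_of_iso`: in the theory of a multiplicative system, if the Thom classes of `Th a I_a` are given
by isomorphisms `F.S (Th a I_a) ≅ M.obj a a`, then every class is represented by a map to a Thom
space after suspension (field `rep` of `ThomTheory`).
-/

open CategoryTheory MonoidalCategory Limits Pretriangulated
open Vale.Agent.P251.G Vale.Agent.P251.G.LC Vale.Agent.P251.I Vale.Agent.P251.T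
open Functor.OplaxMonoidal Functor.LaxMonoidal

universe v u

set_option linter.style.haveILetI false

noncomputable section

namespace Vale.Agent.P251.M

variable {T : Type u} [Category.{v} T] [Preadditive T] [HasZeroObject T]
    [HasShift T ℤ] [∀ n : ℤ, (shiftFunctor T n).Additive] [Pretriangulated T]
    [MonoidalCategory T] [SymmetricCategory T] [TensorTriangulated T]

section Stable

variable (F : SpaceFunctor T) {A B : FCat}

/-- `g : S A ⟶ S B` becomes a map of spaces after multiplication by `Z`. -/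
def Desusp (g : F.S.obj A ⟶ F.S.obj B) (Z : FCat) : Prop :=
  ∃ h : A ⊗ Z ⟶ B ⊗ Z, δ F.S A Z ≫ (g ▷ F.S.obj Z) = F.S.map h ≫ δ F.S B Z

variable {F}

theorem Desusp.tensor {g : F.S.obj A ⟶ F.S.obj B} {Z : FCat} (h : Desusp F g Z) (W : FCat) :
    Desusp F g (Z ⊗ W) := by
  obtain ⟨h, hh⟩ := h
  refine ⟨(α_ A Z W).inv ≫ (h ▷ W) ≫ (α_ B Z W).hom, ?_⟩
  have h1 : ∀ A : FCat, δ F.S A (Z ⊗ W) = F.S.map (α_ A Z W).inv ≫ δ F.S (A ⊗ Z) W ≫
      (δ F.S A Z ▷ F.S.obj W) ≫ (α_ (F.S.obj A) (F.S.obj Z) (F.S.obj W)).hom ≫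
        (F.S.obj A ◁ μ F.S Z W) := by
    intro A
    rw [Functor.OplaxMonoidal.associativity_assoc, ← Functor.map_comp_assoc, Iso.inv_hom_id,
      F.S.map_id, Category.id_comp, ← MonoidalCategory.whiskerLeft_comp,
      Functor.Monoidal.δ_μ, MonoidalCategory.whiskerLeft_id, Category.comp_id]
  rw [h1 A, h1 B]
  simp only [Category.assoc, Functor.map_comp]
  rw [← Functor.map_comp_assoc (F := F.S) (α_ B Z W).hom, Iso.hom_inv_id, F.S.map_id, Category.id_comp,
    ← δ_natural_left_assoc, ← comp_whiskerRight_assoc, ← hh, comp_whiskerRight_assoc,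
    MonoidalCategory.whisker_exchange, associator_naturality_left_assoc]

theorem Desusp.iso {g : F.S.obj A ⟶ F.S.obj B} {Z Z' : FCat} (h : Desusp F g Z) (e : Z ≅ Z') :
    Desusp F g Z' := by
  obtain ⟨h, hh⟩ := h
  refine ⟨(A ◁ e.inv) ≫ h ≫ (B ◁ e.hom), ?_⟩
  rw [Functor.map_comp, Functor.map_comp, Category.assoc, Category.assoc, ← δ_natural_right,
    ← reassoc_of% hh, ← MonoidalCategory.whisker_exchange, ← δ_natural_right_assoc,
    ← MonoidalCategory.whiskerLeft_comp_assoc, ← F.S.map_comp, e.inv_hom_id, F.S.map_id,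
    MonoidalCategory.whiskerLeft_id, Category.id_comp]

theorem Desusp.of_full (g : F.S.obj A ⟶ F.S.obj B) : ∃ n : ℕ, Desusp F g (SphF n) := by
  obtain ⟨n, h, hh⟩ := F.full g
  refine ⟨n, h, ?_⟩
  rw [hh]
  simp

/-- `ℝⁿ × ℝⁿ ≅ ℂⁿ` -/
def sphSphCpow (n : ℕ) : Sph n ⊗ Sph n ≅ Q.Cpow (Fin n) :=
  ofHomeo (X := LC.of ((Fin n → ℝ) × (Fin n → ℝ))) (Y := Q.Cpow (Fin n))
    { toFun := fun p i => ⟨p.1 i, p.2 i⟩
      invFun := fun v => (fun i => (v i).re, fun i => (v i).im)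
      left_inv := fun p => rfl
      right_inv := fun v => rfl
      continuous_toFun := by
        refine continuous_pi fun i => ?_
        have h1 : Continuous fun p : (Fin n → ℝ) × (Fin n → ℝ) =>
            ((p.1 i : ℂ) + (p.2 i : ℂ) * Complex.I) := by fun_prop
        refine h1.congr fun p => ?_
        apply Complex.ext <;> simp
      continuous_invFun := by
        refine Continuous.prodMk ?_ ?_
        · exact continuous_pi fun i => Complex.continuous_re.comp (continuous_apply i)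
        · exact continuous_pi fun i => Complex.continuous_im.comp (continuous_apply i) }

theorem fcCpow (n : ℕ) : FC (Q.Cpow (Fin n)) :=
  (fc_tensor (FC.sph n) (FC.sph n)).of_iso (sphSphCpow n)

theorem Desusp.of_full' (g : F.S.obj A ⟶ F.S.obj B) :
    ∃ n : ℕ, Desusp F g ⟨Q.Cpow (Fin n), fcCpow n⟩ := by
  obtain ⟨n, h⟩ := Desusp.of_full g
  exact ⟨n, (h.tensor (SphF n)).iso (ObjectProperty.isoMk _ (sphSphCpow n))⟩

end Stable

section Rep

variable {M : MSys T} {F : SpaceFunctor T} {hF : CofTriangles F} {s : F.S.obj CCF ⟶ M.obj 0 1}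
  {hs : M.IsSusp s}

theorem uev_cross_cls {X Y : LC} (hX : FC X) (hY : FC Y) {k l q : ℤ} (hk : k + l = q) {m n p : ℕ}
    (hn : m + n = p) {x : UU M F X} {y : UU M F Y} {f : F.S.obj ⟨X, hX⟩ ⟶ M.obj m k}
    {g : F.S.obj ⟨Y, hY⟩ ⟶ M.obj n l} (hx : uev hX x = M.tof _ k (MSys.cls m f))
    (hy : uev hY y = M.tof _ l (MSys.cls n g)) :
    uev (fc_tensor hX hY) (ucross M F x y) = M.tof _ q (MSys.cls p
      (δ F.S ⟨X, hX⟩ ⟨Y, hY⟩ ≫ (f ⊗ₘ g) ≫ M.mul hn hk)) := by
  rw [uev_ucross hX hY, hx, hy, MSys.tcross_eq hk, MSys.tpull_of, MSys.xprod_cls hk hn,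
    MSys.pull_cls]

theorem uev_umap_cls {X Y : LC} (hX : FC X) (hY : FC Y) (f : X ⟶ Y) {k : ℤ} {m : ℕ}
    {y : UU M F Y} {g : F.S.obj ⟨Y, hY⟩ ⟶ M.obj m k} (hy : uev hY y = M.tof _ k (MSys.cls m g)) :
    uev hX (umap M F f y) = M.tof _ k (MSys.cls m
      (F.S.map (FCat.hom (X := ⟨X, hX⟩) (Y := ⟨Y, hY⟩) f) ≫ g)) := by
  rw [uev_umap hX hY, hy, MSys.tpull_of, MSys.pull_cls]

/-- The suspension class of `ℂ^N` lives at stage `0`. -/
theorem lin_stage_zero (o : Q.Orientation (theory M F hF s hs)) (N : ℕ) :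
    ∃ l : F.S.obj ⟨Q.Cpow (Fin N), fcCpow N⟩ ⟶ M.obj 0 N,
      uev (fcCpow N) (o.lin (Fin N)) = M.tof _ (N : ℤ) (MSys.cls 0 l) := by
  induction N with
  | zero =>
    have h1 : o.lin (Fin 0) =
        (theory M F hF s hs).map (Q.cpowEmpty (Fin 0)).inv (theory M F hF s hs).one := by
      rw [← Q.lin_empty o (I := Fin 0), Q.MultTheory.map_inv_hom]
    have h2 : uev fc_unit (theory M F hF s hs).one =
        M.tof _ ((0 : ℕ) : ℤ) (MSys.cls 0 (η F.S ≫ M.one)) := by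
      change uev fc_unit (umk fc_unit (M.tpull (η F.S) M.tone)) = _
      rw [uev_umk, MSys.tone, MSys.tpull_of]
      rfl
    have h3 := uev_umap_cls (fcCpow 0) fc_unit (Q.cpowEmpty (Fin 0)).inv h2
    rw [h1]
    exact ⟨_, h3⟩
  | succ n ih =>
    obtain ⟨l, hl⟩ := ih
    have h0 : uev (fcCC) ((theory M F hF s hs).sg) = M.tof _ (1 : ℤ) (MSys.cls 0 s) := rfl
    have h1 : uev (fc_tensor (fcCpow n) fcCC)
        ((theory M F hF s hs).cross (o.lin (Fin n)) (theory M F hF s hs).sg) = _ :=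
      uev_cross_cls (fcCpow n) fcCC (q := ((n + 1 : ℕ) : ℤ)) (by push_cast; rfl)
        (rfl : 0 + 0 = 0) hl h0
    have h2 : o.lin (Fin (n + 1)) = (theory M F hF s hs).map
        ((Q.cpowIso (Q.finSumUnit n)).inv ≫ (Th.csum (Fin n) Unit).inv ≫
          (Q.Cpow (Fin n) ◁ Q.cpowUnit.hom))
        ((theory M F hF s hs).cross (o.lin (Fin n)) (theory M F hF s hs).sg) := by
      rw [← Q.lin_unit o, Q.MultTheory.map_comp, Q.MultTheory.map_comp, ← Q.MultTheory.cross_map_right,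
        Q.MultTheory.map_hom_inv, ← Q.lin_sum, Q.MultTheory.map_inv_hom, ← Q.lin_reindex o (Q.finSumUnit n),
        Q.MultTheory.map_inv_hom]
    rw [h2]
    exact ⟨_, uev_umap_cls (fcCpow (n + 1)) (fc_tensor (fcCpow n) fcCC) _ h1⟩

/-- Representability of all classes by maps to Thom spaces. -/
theorem rep_of_iso (o : Q.Orientation (theory M F hF s hs))
    (hθ : ∀ a : ℕ, ∃ (I : Type) (_ : Fintype I) (h : FC (LC.of (Th a I)))
      (θ : F.S.obj ⟨LC.of (Th a I), h⟩ ≅ M.obj a a),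
        uev h (o.tau a I) = M.tof _ (a : ℤ) (MSys.cls a θ.hom))
    {X : LC} (hX : FC X) {k : ℤ} {x : (theory M F hF s hs).U X}
    (hx : x ∈ (theory M F hF s hs).deg X k) :
    ∃ (N N' : ℕ) (I : Type) (_ : Fintype I), (N' : ℤ) = N + k ∧
      ∃ f : X ⊗ Q.Cpow (Fin N) ⟶ LC.of (Th N' I),
        (theory M F hF s hs).cross x (o.lin (Fin N)) =
          (theory M F hF s hs).map f (o.tau N' I) := by
  obtain ⟨c, hc⟩ := MSys.mem_tdeg.mp ((mem_udeg hX).mp hx)
  obtain ⟨m, f₀, rfl⟩ := MSys.exists_cls c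
  -- the stage
  let a : ℕ := max m k.toNat
  have ha : m ≤ a := le_max_left _ _
  have hk : k.toNat ≤ a := le_max_right _ _
  obtain ⟨N, hN⟩ : ∃ N : ℕ, k + N = a := ⟨(a - k).toNat, by omega⟩
  obtain ⟨f, hf⟩ : ∃ f : F.S.obj ⟨X, hX⟩ ⟶ M.obj a k, uev hX x = M.tof _ k (MSys.cls a f) :=
    ⟨f₀ ≫ M.map k ha, by rw [MSys.cls_map]; exact hc.symm⟩
  obtain ⟨l, hl⟩ := lin_stage_zero o N
  have h1 := uev_cross_cls hX (fcCpow N) hN (Nat.add_zero a) hf hl
  obtain ⟨I, _, hI, θ, hθ⟩ := hθ a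
  set G := δ F.S ⟨X, hX⟩ ⟨Q.Cpow (Fin N), fcCpow N⟩ ≫ (f ⊗ₘ l) ≫ M.mul (Nat.add_zero a) hN with hG
  obtain ⟨b, h, hh⟩ := Desusp.of_full' (A := ⟨X ⊗ Q.Cpow (Fin N), fc_tensor hX (fcCpow N)⟩)
    (B := ⟨LC.of (Th a I), hI⟩) (G ≫ θ.inv)
  have hX' : (theory M F hF s hs).Good X := ⟨hX⟩
  have key : (theory M F hF s hs).cross ((theory M F hF s hs).cross x (o.lin (Fin N)))
        (o.lin (Fin b)) =
      (theory M F hF s hs).map h.hom
        ((theory M F hF s hs).cross (o.tau a I) (o.lin (Fin b))) := by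
    obtain ⟨l', hl'⟩ := lin_stage_zero o b
    have e1 := uev_cross_cls (fc_tensor hX (fcCpow N)) (fcCpow b) (q := a + b) rfl
      (Nat.add_zero a) h1 hl'
    have e2 := uev_cross_cls hI (fcCpow b) (q := a + b) rfl (Nat.add_zero a) hθ hl'
    have e3 := uev_umap_cls (fc_tensor (fc_tensor hX (fcCpow N)) (fcCpow b))
      (fc_tensor hI (fcCpow b)) h.hom e2
    refine uev_inj (fc_tensor (fc_tensor hX (fcCpow N)) (fcCpow b)) (e1.trans (Eq.trans ?_ e3.symm))
    congr 2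
    have e4 : (G ⊗ₘ l') = ((G ≫ θ.inv) ▷ _) ≫ (θ.hom ⊗ₘ l') := by
      rw [← tensorHom_id, tensorHom_comp_tensorHom]
      simp
    rw [e4, Category.assoc, reassoc_of% hh]
    rfl
  obtain ⟨f', hf'⟩ := Q.rep_of_stable o h.hom key
  exact ⟨N + b, a + b, I ⊕ Fin b, inferInstance, by push_cast; omega, f', hf'⟩

end Rep

end Vale.Agent.P251.M
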