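import Vale.Agent.P251.M.Orient
import Vale.Agent.P251.M.Rep
import Vale.Agent.P251.M.A7

/-!
# P251, part M (ME): the Thom theory of a multiplicative sequence with Thom classes
-/

open CategoryTheory MonoidalCategory Limits Pretriangulated
open Vale.Agent.P251.G Vale.Agent.P251.G.LC Vale.Agent.P251.I Vale.Agent.P251.T

universe v u

noncomputable section

namespace Vale.Agent.P251.M

variable {T : Type u} [Category.{v} T] [Preadditive T] [HasZeroObject T]
    [HasShift T ℤ] [∀ n : ℤ, (shiftFunctor T n).Additive] [Pretriangulated T]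
    [MonoidalCategory T] [SymmetricCategory T] [TensorTriangulated T]

namespace ThomFam

variable [ThFC] {M : MSys T} {F : SpaceFunctor T} {s : F.S.obj CCF ⟶ M.obj 0 1}
  (W : ThomFam M F s)

theorem wI_fin (n N : ℕ) : W.wI n (Fin N) = W.w n N := by
  rw [← W.wI_eq (I := Fin N) (N := N) le_rfl, TO.j_refl, MSys.pull_id]

/-- The Thom classes of the spaces `Th a I_a` are given by isomorphisms. -/
def IsoClasses : Prop :=
  ∀ a : ℕ, ∃ (N : ℕ) (θ : TO F.S a (Fin N) ≅ M.obj a a), W.w a N = MSys.cls a θ.hom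

variable {W}

theorem IsoClasses.rep (h : W.IsoClasses) (hF : CofTriangles F) (hs : M.IsSusp s)
    {X : LC} (hX : FC X) {k : ℤ} {x : (theory M F hF s hs).U X}
    (hx : x ∈ (theory M F hF s hs).deg X k) :
    ∃ (N N' : ℕ) (I : Type) (_ : Fintype I), (N' : ℤ) = N + k ∧
      ∃ f : X ⊗ Q.Cpow (Fin N) ⟶ LC.of (Th N' I),
        (theory M F hF s hs).cross x ((W.orientation hF hs).lin (Fin N)) =
          (theory M F hF s hs).map f ((W.orientation hF hs).tau N' I) := by
  refine rep_of_iso (W.orientation hF hs) (fun a => ?_) hX hx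
  obtain ⟨N, θ, hθ⟩ := h a
  refine ⟨Fin N, inferInstance, ThFC.fc a (Fin N), θ, ?_⟩
  rw [W.uev_tau hF hs a (Fin N), W.wI_fin, hθ]

end ThomFam

section

variable [ThFC] {A : SeqMonoid T} {S : EvenSpheres T} {F : SpaceFunctor T}
  {s : F.S.obj CCF ⟶ (MSys.ofSeq A S).obj 0 1}

/-- The Thom theory of a multiplicative sequence with Thom classes. -/
def thomTheory (W : ThomFam (MSys.ofSeq A S) F s) (hF : CofTriangles F)
    (hs : (MSys.ofSeq A S).IsSusp s) (hW : W.IsoClasses) (hA : EvenSeq A S) :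
    Q.ThomTheory.{v} where
  toMultTheory := theory (MSys.ofSeq A S) F hF s hs
  o := W.orientation hF hs
  rep hX _ _ hx := hW.rep hF hs hX hx
  deg_unit_pos := hA.deg_unit_pos
  deg_unit_zero := hA.deg_unit_zero
  deg_RR_pos := hA.deg_RR_pos

end

end Vale.Agent.P251.M
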