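import Vale.Agent.P251.M.QTrans
import Vale.Agent.P251.M.ThomTh
import Vale.Agent.P251.M.ThFCInst
import Vale.Agent.P251.M.CofTri
import Vale.Agent.P251.Q.Main

/-!
# P251, part M: `MUModP V 0` for the Thom theory of `MU`
-/

open CategoryTheory MonoidalCategory MonObj Limits Pretriangulated

universe v u

set_option linter.unusedSectionVars false

namespace Vale.Agent.P251.M

open Vale.Agent.P251.S Vale.Agent.P251.T Vale.Agent.P251.F Vale.Agent.P251.Q EvenSpheres
open Vale.Agent.P251.G Vale.Agent.P251.G.LC Vale.Agent.P251.I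

variable {T : Type u} [Category.{v} T] [Preadditive T] [HasZeroObject T]
    [HasShift T ℤ] [∀ n : ℤ, (shiftFunctor T n).Additive] [Pretriangulated T] [IsTriangulated T]
    [MonoidalCategory T] [SymmetricCategory T] [TensorTriangulated T] [MonoidalClosed T]
    [HasCoproducts.{0} T] [HasProducts.{0} T] [StableCat T]

/-- The lowest homotopy groups of the telescope of a sequence of even complexes. -/
theorem PiConn.of_cofIn (F : SpaceFunctor T) (A : SeqMonoid T) {R : T} {q : ∀ n, A.E.obj n ⟶ R}
    (tel : IsTel A.E R q) [MonObj R] (hone : A.one ≫ q 0 = η[R])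
    (hcof : ∀ n, CofIn (EvenCell T 1) (A.u n)) : PiConn R := by
  obtain ⟨J, a, b, hD⟩ := distinguished_cocone_triangle (η[R] : 𝟙_ T ⟶ R)
  refine PiConn.of_dist F (J := J) (a := a) (b := b) hD ?_
  exact (bigCell_of_unit A tel hcof _ hone.symm J a b hD).conn (unit_conn F)
    (fun Y k f => StableCat.compact k Y f)

section

variable {A : SeqMonoid T} {R : T} {q : ∀ n, A.E.obj n ⟶ R} (tel : IsTel A.E R q)
  [MonObj R] [IsCommMonObj R] (h : TelMon tel) {F : SpaceFunctor T} (hF : CofTriangles F)
  (s : F.S.obj CCF ⟶ (MSys.ofSeq A (stdEven T)).obj 0 1)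
  (hs : (MSys.ofSeq A (stdEven T)).IsSusp s)

include tel h in
/-- the unit of the theory generates a free group -/
theorem zsmul_one_eq_zero (hπ : PiConn R) (a : ℤ)
    (ha : a • (theory (MSys.ofSeq A (stdEven T)) F hF s hs).one = 0) : a = 0 := by
  have h1 : a • (1 : (theory (MSys.ofSeq A (stdEven T)) F hF s hs).A) = 0 := ha
  have h2 := congrArg (coefRing tel F h hF s hs) h1
  rw [map_zsmul, _root_.map_one, _root_.map_zero, zsmul_one] at h2
  exact hπ.isConnGr.inj a h2

end

/-- **`MUModP V 0`** for the Thom theory of `MU`. -/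
theorem muModP_zero_of {F : SpaceFunctor T} {A : SeqMonoid T} {R : T}
    {q : ∀ n, A.E.obj n ⟶ R} (tel : IsTel A.E R q) [MonObj R] [IsCommMonObj R] (h : TelMon tel)
    {s : F.S.obj CCF ⟶ (MSys.ofSeq A (stdEven T)).obj 0 1}
    {hs : (MSys.ofSeq A (stdEven T)).IsSusp s} (W : ThomFam (MSys.ofSeq A (stdEven T)) F s)
    (hW : W.IsoClasses) (hA : EvenSeq A (stdEven T)) {V : MUEv R} (b : MUBasis V)
    (hlaw : b.cobEv.law.map (HRing.map (E := stdEven T) (amOne R)) =
      (thomTheory W (cofTriangles F) hs hW hA).o.law.map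
        (coefRing tel F h (cofTriangles F) s hs).toRingHom)
    (H : ∀ r, (r + 1).Prime → 2 ≤ r → ∀ k,
      LensEuler (thomTheory W (cofTriangles F) hs hW hA).o
        (thomTheory W (cofTriangles F) hs hW hA).o.coeff r k (Idx k)) : MUModP V 0 := by
  have hπ : PiConn R := PiConn.of_cofIn F A tel h.one hA.cof
  have h1 : amOne R ≫ Am.v R (0 : Fin 1) = 𝟙 (Am R 1) := amOne_v_zero R
  refine b.muModP_zero (PiConn.of_iso (amOne R) (Am.v R (0 : Fin 1)) h1 hπ) ?_
  intro p hp hp2
  have hQ := (thomTheory W (cofTriangles F) hs hW hA).qData_of_euler hp hp2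
    (fun r hr k => H r (hr ▸ hp) (by have := hp.two_le; omega) k) (fun a ha => by
      have h2 : ((p : ℤ) * a) • (theory (MSys.ofSeq A (stdEven T)) F (cofTriangles F) s hs).one =
          0 := by
        rw [mul_smul, natCast_zsmul]
        exact ha
      have h3 := zsmul_one_eq_zero tel h (cofTriangles F) s hs hπ _ h2
      have h4 : a = 0 := (mul_eq_zero.mp h3).resolve_left (by exact_mod_cast hp.ne_zero)
      rw [h4, zero_smul])
  exact (QIn.of_qData tel h (cofTriangles F) s hs hQ).of_iso (amOne R) (Am.v R (0 : Fin 1)) h1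
    hlaw

end Vale.Agent.P251.M
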