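import Vale.Agent.P251.M.Kleisli
import Vale.Agent.P251.S.Amitsur
import Mathlib.CategoryTheory.Adjunction.Limits
import Mathlib.CategoryTheory.Limits.Preserves.Shapes.Products

/-!
# P251, part M: base change of bases

Let `β a : S a ⟶ R ⊗ R` be such that `R ⊗ ∐ S a ⟶ R ⊗ R` is an isomorphism. Then for every
morphism of commutative monoids `u : R ⟶ E` the map `E ⊗ ∐ S a ⟶ E ⊗ R` is an isomorphism.
-/

open CategoryTheory MonoidalCategory Limits MonObj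

set_option linter.unusedSectionVars false

universe v u

namespace Vale.Agent.P251.M

open Vale.Agent.P251.S

variable {T : Type u} [Category.{v} T] [MonoidalCategory T] [SymmetricCategory T]

section mon

variable {E Y : T} [MonObj E] [MonObj Y]

theorem inlM_mul_id : ((inlM E Y) ▷ (E ⊗ Y)) ≫ μ[E ⊗ Y] = (α_ E E Y).inv ≫ μ[E] ▷ Y := by
  unfold inlM
  rw [tensorObj.mul_def, comp_whiskerRight, Category.assoc]
  have h1 : ((E ◁ η[Y]) ▷ (E ⊗ Y)) ≫ tensorμ E Y E Y =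
      tensorμ E (𝟙_ T) E Y ≫ ((E ⊗ E) ◁ (η[Y] ▷ Y)) := by
    have := tensorμ_natural (𝟙 E) η[Y] (𝟙 E) (𝟙 Y)
    simpa using this
  rw [reassoc_of% h1]
  have h2 : ((E ⊗ E) ◁ (η[Y] ▷ Y)) ≫ (μ[E] ⊗ₘ μ[Y]) = (μ[E] ⊗ₘ (λ_ Y).hom) := by
    rw [← id_tensorHom, tensorHom_comp_tensorHom, Category.id_comp, MonObj.one_mul]
  rw [h2]
  have h3 : ((ρ_ E).inv ▷ (E ⊗ Y)) ≫ tensorμ E (𝟙_ T) E Y ≫ ((E ⊗ E) ◁ (λ_ Y).hom) =
      (α_ E E Y).inv := by
    unfold tensorμ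
    rw [braiding_tensorUnit_left]
    monoidal
  rw [tensorHom_def', reassoc_of% h3]

/-- multiplication of `g : X ⟶ E ⊗ Y` by the first factor is the linear extension of `g` -/
theorem inlM_tensor_mul {X : T} (g : X ⟶ E ⊗ Y) :
    (inlM E Y ⊗ₘ g) ≫ μ[E ⊗ Y] = FM.bind g := by
  rw [tensorHom_def', Category.assoc, inlM_mul_id, FM.bind]

end mon

section bind

variable {R : T} [MonObj R]

/-- a morphism of free modules from its values on generators -/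
def FM.lin {X Y : T} (g : X ⟶ R ⊗ Y) : (FM.of X : FM R) ⟶ FM.of Y := FM.Hom.mk g

theorem FM.isIso_of_bind {X Y : T} (g : X ⟶ R ⊗ Y) [IsIso (FM.bind g)] :
    IsIso (FM.lin g) := by
  let k : Y ⟶ R ⊗ X := FM.unit R Y ≫ inv (FM.bind g)
  have h1 : k ≫ FM.bind g = FM.unit R Y := by
    change (FM.unit R Y ≫ inv (FM.bind g)) ≫ FM.bind g = _
    simp
  have h2 : FM.bind k = inv (FM.bind g) := by
    rw [← cancel_mono (FM.bind g), FM.bind_bind, h1, FM.bind_unit, IsIso.inv_hom_id]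
  refine ⟨⟨FM.lin k, ?_, ?_⟩⟩
  · apply FM.hom_ext
    change g ≫ FM.bind k = FM.unit R X
    rw [h2, IsIso.comp_inv_eq, FM.unit_bind]
  · apply FM.hom_ext
    exact h1

theorem FM.isIso_bind {X Y : T} (g : X ⟶ R ⊗ Y) [IsIso (FM.lin g)] :
    IsIso (FM.bind g) := by
  let G := FM.lin g
  have h1 : g ≫ FM.bind (FM.Hom.hom (inv G)) = FM.unit R X := by
    have := congrArg FM.Hom.hom (IsIso.hom_inv_id G)
    exact this
  have h2 : FM.Hom.hom (inv G) ≫ FM.bind g = FM.unit R Y := by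
    have := congrArg FM.Hom.hom (IsIso.inv_hom_id G)
    exact this
  refine ⟨⟨FM.bind (FM.Hom.hom (inv G)), ?_, ?_⟩⟩
  · rw [FM.bind_bind, h1, FM.bind_unit]
  · rw [FM.bind_bind, h2, FM.bind_unit]

/-- Base change of an isomorphism `R ⊗ X ⟶ R ⊗ Y` of free modules along a monoid map. -/
theorem FM.isIso_bind_push {R' : T} [MonObj R'] (u : R ⟶ R') [IsMonHom u] {X Y : T}
    (g : X ⟶ R ⊗ Y) [IsIso (FM.bind g)] : IsIso (FM.bind (g ≫ u ▷ Y)) := by
  have := FM.isIso_of_bind g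
  have h : IsIso (FM.lin (g ≫ u ▷ Y)) :=
    inferInstanceAs (IsIso ((FM.push u).map (FM.lin g)))
  exact FM.isIso_bind (g ≫ u ▷ Y)

/-- Base change of an isomorphism `R ⊗ X ⟶ R ⊗ Y` of free modules to a module `N`. -/
theorem isIso_ten_module [IsCommMonObj R] {N : T} (M : ModStr R N) {X Y : T}
    (g : X ⟶ R ⊗ Y) [IsIso (FM.bind g)] :
    IsIso (N ◁ g ≫ (α_ N R Y).inv ≫ ract M ▷ Y) := by
  have := FM.isIso_of_bind g
  exact inferInstanceAs (IsIso ((tenFunctor M).map (FM.lin g)))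

end bind

section am

variable (R : T) [MonObj R] [IsCommMonObj R]

/-- `Am R 2 ⟶ R ⊗ R` -/
def amPair : Am R 2 ⟶ R ⊗ R := (λ_ R).hom ▷ R

instance : IsIso (amPair R) := inferInstanceAs (IsIso ((λ_ R).hom ▷ R))

instance : IsMonHom (amPair R) := inferInstanceAs (IsMonHom ((λ_ R).hom ▷ R))

theorem v_amOne' : Am.v R (0 : Fin 1) ≫ (λ_ R).hom = 𝟙 R := by
  change inrM (𝟙_ T) R ≫ (λ_ R).hom = 𝟙 R
  unfold inrM
  have h1 : (η[𝟙_ T] : 𝟙_ T ⟶ 𝟙_ T) = 𝟙 _ := rfl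
  rw [h1]
  simp

theorem v_zero_amPair : Am.v R (0 : Fin 2) ≫ amPair R = inlM R R := by
  have h : Am.v R (0 : Fin 2) = Am.v R (0 : Fin 1) ≫ inlM (Am R 1) R :=
    Am.v_castSucc R (0 : Fin 1)
  rw [h, Category.assoc, amPair, inlM_whiskerRight, ← Category.assoc, v_amOne', Category.id_comp]

theorem v_one_amPair : Am.v R (1 : Fin 2) ≫ amPair R = inrM R R := by
  have h : Am.v R (1 : Fin 2) = inrM (Am R 1) R := Am.v_last R 1
  rw [h, amPair, inrM_whiskerRight]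

theorem v_tensor_mul_amPair {X : T} (g : X ⟶ Am R 2) :
    ((Am.v R (0 : Fin 2) ⊗ₘ g) ≫ μ[Am R 2]) ≫ amPair R = FM.bind (g ≫ amPair R) := by
  rw [Category.assoc, IsMonHom.mul_hom, ← inlM_tensor_mul, tensorHom_comp_tensorHom_assoc,
    v_zero_amPair]

/-- Base change of a basis of `R ⊗ R` over the first factor. -/
theorem isIso_bind_of_am {E : T} [MonObj E] (u : R ⟶ E) [IsMonHom u] {X : T}
    (g : X ⟶ Am R 2) (h : IsIso ((Am.v R (0 : Fin 2) ⊗ₘ g) ≫ μ[Am R 2])) :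
    IsIso (FM.bind (g ≫ amPair R ≫ u ▷ R)) := by
  have h1 : IsIso (FM.bind (g ≫ amPair R)) := by
    rw [← v_tensor_mul_amPair]
    infer_instance
  have h2 := FM.isIso_bind_push u (g ≫ amPair R)
  rwa [Category.assoc] at h2

end am

section desc

variable [MonoidalClosed T] [HasCoproducts.{0} T] {J : Type}

/-- the coproduct form -/
theorem isIso_desc_bind {E Y : T} [MonObj E] (X : J → T) (g : ∀ j, X j ⟶ E ⊗ Y)
    (h : IsIso (FM.bind (Sigma.desc g))) :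
    IsIso (Sigma.desc fun j => (FM.bind (g j) : E ⊗ X j ⟶ E ⊗ Y)) := by
  have : (tensorLeft E).IsLeftAdjoint := ⟨_, ⟨ihom.adjunction E⟩⟩
  have e : (Sigma.desc fun j => (FM.bind (g j) : E ⊗ X j ⟶ E ⊗ Y)) =
      sigmaComparison (tensorLeft E) X ≫ FM.bind (Sigma.desc g) := by
    apply Sigma.hom_ext
    intro j
    have e1 : Sigma.ι (fun j => E ⊗ X j) j ≫ sigmaComparison (tensorLeft E) X =
        E ◁ Sigma.ι X j := ι_comp_sigmaComparison (tensorLeft E) X j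
    rw [Sigma.ι_desc, reassoc_of% e1]
    rw [FM.bind, FM.bind, ← MonoidalCategory.whiskerLeft_comp_assoc, Sigma.ι_desc]
  rw [e]
  infer_instance

/-- **Base change of bases.** -/
theorem isIso_desc_of_am {R : T} [MonObj R] [IsCommMonObj R] {E : T} [MonObj E] (u : R ⟶ E)
    [IsMonHom u] (X : J → T) (β : ∀ j, X j ⟶ Am R 2)
    (h : IsIso ((Am.v R (0 : Fin 2) ⊗ₘ Sigma.desc β) ≫ μ[Am R 2])) :
    IsIso (Sigma.desc fun j => (inlM E R ⊗ₘ (β j ≫ amPair R ≫ u ▷ R)) ≫ μ[E ⊗ R]) := by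
  have h1 := isIso_bind_of_am R u (Sigma.desc β) h
  have h2 : Sigma.desc β ≫ amPair R ≫ u ▷ R = Sigma.desc fun j => β j ≫ amPair R ≫ u ▷ R := by
    apply Sigma.hom_ext
    intro j
    rw [Sigma.ι_desc_assoc, Sigma.ι_desc]
  rw [h2] at h1
  have h3 := isIso_desc_bind X (fun j => β j ≫ amPair R ≫ u ▷ R) h1
  have h4 : (fun j => (inlM E R ⊗ₘ (β j ≫ amPair R ≫ u ▷ R)) ≫ μ[E ⊗ R]) =
      fun j => (FM.bind (β j ≫ amPair R ≫ u ▷ R) : E ⊗ X j ⟶ E ⊗ R) :=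
    funext fun j => inlM_tensor_mul _
  rw [h4]
  exact h3

end desc

end Vale.Agent.P251.M
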