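import Vale.Agent.P251.S.Defs
import Mathlib.CategoryTheory.Monoidal.Braided.Basic
import Mathlib.Tactic.CategoryTheory.Slice

/-!
# P251, part M: the symmetric monoidal category of free modules

For a commutative monoid `R` of a symmetric monoidal category `T`, `FM R` is the category of free
`R`-modules `R ⊗ X` (the Kleisli category: morphisms `X ⟶ Y` of `FM R` are morphisms
`X ⟶ R ⊗ Y` of `T`).  It is symmetric monoidal, the free functor `FM.free R : T ⥤ FM R` is a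
strict symmetric monoidal functor, and every `R`-module `N` gives a functor
`ModStr.ten : FM R ⥤ T`, `X ↦ N ⊗ X` (`= N ⊗_R (R ⊗ X)`).
-/

open CategoryTheory MonoidalCategory MonObj

universe v u

namespace Vale.Agent.P251.M

variable {T : Type u} [Category.{v} T] [MonoidalCategory T]

/-- The category of free `R`-modules: objects are objects `X` of `T` (to be thought of as
`R ⊗ X`). -/
@[ext]
structure FM (R : T) where
  /-- the generating object -/
  of ::
  /-- the generating object -/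
  obj : T

namespace FM

variable {R : T}

/-- Morphisms of free modules. -/
@[ext]
structure Hom (X Y : FM R) where
  /-- the underlying morphism `X ⟶ R ⊗ Y` -/
  hom : X.obj ⟶ R ⊗ Y.obj

section cat

variable [MonObj R]

/-- The linear extension `R ⊗ Y ⟶ R ⊗ Z` of `g : Y ⟶ R ⊗ Z`. -/
def bind {Y Z : T} (g : Y ⟶ R ⊗ Z) : R ⊗ Y ⟶ R ⊗ Z :=
  R ◁ g ≫ (α_ R R Z).inv ≫ μ[R] ▷ Z

/-- The unit `Y ⟶ R ⊗ Y`. -/
def unit (R : T) [MonObj R] (Y : T) : Y ⟶ R ⊗ Y := (λ_ Y).inv ≫ η[R] ▷ Y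

@[reassoc]
theorem unit_naturality {X Y : T} (f : X ⟶ Y) : f ≫ unit R Y = unit R X ≫ R ◁ f := by
  simp only [unit, Category.assoc, whisker_exchange, leftUnitor_inv_naturality_assoc]

@[simp] theorem bind_unit (Y : T) : bind (unit R Y) = 𝟙 _ := by
  simp only [bind, unit, MonoidalCategory.whiskerLeft_comp, Category.assoc]
  rw [associator_inv_naturality_middle_assoc, ← comp_whiskerRight, MonObj.mul_one]
  simp

@[reassoc (attr := simp)]
theorem unit_bind {Y Z : T} (g : Y ⟶ R ⊗ Z) : unit R Y ≫ bind g = g := by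
  rw [bind, ← unit_naturality_assoc, unit, Category.assoc, associator_inv_naturality_left_assoc,
    ← comp_whiskerRight, MonObj.one_mul]
  simp

@[reassoc]
theorem bind_bind {X Y Z : T} (f : X ⟶ R ⊗ Y) (g : Y ⟶ R ⊗ Z) :
    bind f ≫ bind g = bind (f ≫ bind g) := by
  simp only [bind, MonoidalCategory.whiskerLeft_comp, Category.assoc]
  congr 1
  rw [← whisker_exchange_assoc, associator_inv_naturality_left_assoc, ← comp_whiskerRight,
    MonObj.mul_assoc]
  simp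

theorem bind_comp_unit {Y Z : T} (f : Y ⟶ Z) : bind (f ≫ unit R Z) = R ◁ f := by
  rw [bind, MonoidalCategory.whiskerLeft_comp, Category.assoc]
  change R ◁ f ≫ bind (unit R Z) = _
  rw [bind_unit, Category.comp_id]

@[reassoc]
theorem bind_whiskerLeft {Y Z W : T} (g : Y ⟶ R ⊗ Z) (f : Z ⟶ W) :
    bind g ≫ R ◁ f = bind (g ≫ R ◁ f) := by
  rw [← bind_comp_unit (R := R) f, bind_bind]

instance : Category (FM R) where
  Hom X Y := Hom X Y
  id X := ⟨unit R X.obj⟩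
  comp f g := ⟨f.hom ≫ bind g.hom⟩
  id_comp f := Hom.ext (unit_bind _)
  comp_id f := by
    apply Hom.ext
    change f.hom ≫ bind (unit R _) = f.hom
    rw [bind_unit, Category.comp_id]
  assoc f g h := by
    apply Hom.ext
    change (f.hom ≫ bind g.hom) ≫ bind h.hom = f.hom ≫ bind (g.hom ≫ bind h.hom)
    rw [Category.assoc, bind_bind]

@[ext (iff := false)]
theorem hom_ext {X Y : FM R} {f g : X ⟶ Y} (h : Hom.hom f = Hom.hom g) : f = g := Hom.ext h

theorem id_hom (X : FM R) : Hom.hom (𝟙 X) = unit R X.obj := rfl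

theorem comp_hom {X Y Z : FM R} (f : X ⟶ Y) (g : Y ⟶ Z) :
    Hom.hom (f ≫ g) = Hom.hom f ≫ bind (Hom.hom g) := rfl

/-- The free functor. -/
@[simps]
def free (R : T) [MonObj R] : T ⥤ FM R where
  obj X := of X
  map f := ⟨f ≫ unit R _⟩
  map_id X := by
    apply hom_ext
    change 𝟙 X ≫ unit R X = unit R X
    rw [Category.id_comp]
  map_comp {X Y Z} f g := by
    apply hom_ext
    change (f ≫ g) ≫ unit R Z = (f ≫ unit R Y) ≫ bind (g ≫ unit R Z)
    rw [Category.assoc, Category.assoc, unit_bind]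

/-- Morphisms from a free module. -/
theorem free_map_comp_hom {X Y : T} {Z : FM R} (f : X ⟶ Y) (g : of Y ⟶ Z) :
    Hom.hom ((free R).map f ≫ g) = f ≫ Hom.hom g := by
  change (f ≫ unit R Y) ≫ bind (Hom.hom g) = _
  rw [Category.assoc, unit_bind]

theorem comp_free_map_hom {X : FM R} {Y Z : T} (f : X ⟶ of Y) (g : Y ⟶ Z) :
    Hom.hom (f ≫ (free R).map g) = Hom.hom f ≫ R ◁ g := by
  change Hom.hom f ≫ bind (g ≫ unit R Z) = _
  rw [bind_comp_unit]

end cat

section monoidal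

variable [MonObj R] [BraidedCategory T]

/-- The lax structure `(R ⊗ X) ⊗ (R ⊗ Y) ⟶ R ⊗ (X ⊗ Y)`. -/
def ten (R : T) [MonObj R] (X Y : T) : (R ⊗ X) ⊗ (R ⊗ Y) ⟶ R ⊗ (X ⊗ Y) :=
  tensorμ R X R Y ≫ μ[R] ▷ (X ⊗ Y)

@[reassoc]
theorem ten_naturality {X X' Y Y' : T} (f : X ⟶ X') (g : Y ⟶ Y') :
    (R ◁ f ⊗ₘ R ◁ g) ≫ ten R X' Y' = ten R X Y ≫ R ◁ (f ⊗ₘ g) := by
  rw [ten, ten, ← id_tensorHom, ← id_tensorHom, tensorμ_natural_assoc, Category.assoc,
    id_tensorHom_id, id_tensorHom, whisker_exchange]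

@[reassoc]
theorem unit_ten (X Y : T) : (unit R X ⊗ₘ unit R Y) ≫ ten R X Y = unit R (X ⊗ Y) := by
  have h : (unit R X ⊗ₘ unit R Y) =
      ((λ_ X).inv ⊗ₘ (λ_ Y).inv) ≫ ((η[R] ⊗ₘ 𝟙 X) ⊗ₘ (η[R] ⊗ₘ 𝟙 Y)) := by
    simp only [unit, tensorHom_id, tensorHom_comp_tensorHom]
  have h2 : ((λ_ X).inv ⊗ₘ (λ_ Y).inv) ≫ tensorμ (𝟙_ T) X (𝟙_ T) Y =
      (λ_ (X ⊗ Y)).inv ≫ (λ_ (𝟙_ T)).inv ▷ (X ⊗ Y) := by
    have h3 := leftUnitor_monoidal X Y
    have h4 : ((λ_ X).inv ⊗ₘ (λ_ Y).inv) ≫ ((λ_ X).hom ⊗ₘ (λ_ Y).hom) = 𝟙 _ := by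
      rw [tensorHom_comp_tensorHom]; simp
    rw [h3] at h4
    rw [← Category.assoc] at h4
    rw [← cancel_mono ((λ_ (𝟙_ T)).hom ▷ (X ⊗ Y) ≫ (λ_ (X ⊗ Y)).hom), h4]
    simp
  rw [h, ten, Category.assoc, tensorμ_natural_assoc, reassoc_of% h2, id_tensorHom_id,
    tensorHom_id, ← comp_whiskerRight, MonObj.one_mul_hom, unit]
  congr 1
  rw [← comp_whiskerRight]
  simp

@[reassoc]
theorem ten_assoc (X Y Z : T) :
    ten R X Y ▷ (R ⊗ Z) ≫ ten R (X ⊗ Y) Z ≫ R ◁ (α_ X Y Z).hom =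
      (α_ (R ⊗ X) (R ⊗ Y) (R ⊗ Z)).hom ≫ (R ⊗ X) ◁ ten R Y Z ≫ ten R X (Y ⊗ Z) := by
  simp only [ten, comp_whiskerRight, MonoidalCategory.whiskerLeft_comp, Category.assoc]
  have h1 : (μ[R] ▷ (X ⊗ Y)) ▷ (R ⊗ Z) ≫ tensorμ R (X ⊗ Y) R Z =
      tensorμ (R ⊗ R) (X ⊗ Y) R Z ≫ (μ[R] ▷ R) ▷ ((X ⊗ Y) ⊗ Z) := by
    have := tensorμ_natural_left μ[R] (𝟙 (X ⊗ Y)) R Z
    simpa using this
  have h2 : (R ⊗ X) ◁ (μ[R] ▷ (Y ⊗ Z)) ≫ tensorμ R X R (Y ⊗ Z) =
      tensorμ R X (R ⊗ R) (Y ⊗ Z) ≫ (R ◁ μ[R]) ▷ (X ⊗ (Y ⊗ Z)) := by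
    have := tensorμ_natural_right R X μ[R] (𝟙 (Y ⊗ Z))
    simpa using this
  rw [reassoc_of% h1, reassoc_of% h2, ← tensor_associativity_assoc]
  congr 2
  rw [← comp_whiskerRight_assoc, MonObj.mul_assoc, ← whisker_exchange, tensorHom_def',
    Category.assoc, ← comp_whiskerRight, ← comp_whiskerRight]

@[reassoc]
theorem unit_ten_left (Y : T) :
    unit R (𝟙_ T) ▷ (R ⊗ Y) ≫ ten R (𝟙_ T) Y ≫ R ◁ (λ_ Y).hom = (λ_ (R ⊗ Y)).hom := by
  have h1 : (η[R] ▷ (𝟙_ T)) ▷ (R ⊗ Y) ≫ tensorμ R (𝟙_ T) R Y =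
      tensorμ (𝟙_ T) (𝟙_ T) R Y ≫ (η[R] ▷ R) ▷ ((𝟙_ T) ⊗ Y) := by
    have := tensorμ_natural_left η[R] (𝟙 (𝟙_ T)) R Y
    simpa using this
  simp only [unit, comp_whiskerRight, Category.assoc, ten]
  rw [reassoc_of% h1, ← comp_whiskerRight_assoc, MonObj.one_mul, ← tensorHom_def,
    ← tensor_left_unitality]

@[reassoc]
theorem unit_ten_right (X : T) :
    (R ⊗ X) ◁ unit R (𝟙_ T) ≫ ten R X (𝟙_ T) ≫ R ◁ (ρ_ X).hom = (ρ_ (R ⊗ X)).hom := by
  have h1 : (R ⊗ X) ◁ (η[R] ▷ (𝟙_ T)) ≫ tensorμ R X R (𝟙_ T) =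
      tensorμ R X (𝟙_ T) (𝟙_ T) ≫ (R ◁ η[R]) ▷ (X ⊗ (𝟙_ T)) := by
    have := tensorμ_natural_right R X η[R] (𝟙 (𝟙_ T))
    simpa using this
  simp only [unit, MonoidalCategory.whiskerLeft_comp, Category.assoc, ten]
  rw [reassoc_of% h1, ← comp_whiskerRight_assoc, MonObj.mul_one, ← tensorHom_def,
    ← tensor_right_unitality]

/-- The multiplication is monoidal (uses commutativity). -/
@[reassoc]
theorem bind_ten [IsCommMonObj R] {X X' Y Y' : T} (f : X ⟶ R ⊗ X') (g : Y ⟶ R ⊗ Y') :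
    (bind f ⊗ₘ bind g) ≫ ten R X' Y' = ten R X Y ≫ bind ((f ⊗ₘ g) ≫ ten R X' Y') := by
  have key : (((α_ R R X').inv ≫ μ[R] ▷ X') ⊗ₘ ((α_ R R Y').inv ≫ μ[R] ▷ Y')) ≫ ten R X' Y' =
      ten R (R ⊗ X') (R ⊗ Y') ≫ R ◁ ten R X' Y' ≫ (α_ R R (X' ⊗ Y')).inv ≫
        μ[R] ▷ (X' ⊗ Y') := by
    have e1 : (μ[R] ▷ X' ⊗ₘ μ[R] ▷ Y') ≫ tensorμ R X' R Y' =
        tensorμ (R ⊗ R) X' (R ⊗ R) Y' ≫ (μ[R] ⊗ₘ μ[R]) ▷ (X' ⊗ Y') := by
      have := tensorμ_natural μ[R] (𝟙 X') μ[R] (𝟙 Y')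
      simpa using this
    have e2 : (μ[R] ⊗ₘ μ[R]) ≫ μ[R] = tensorμ R R R R ≫ (μ[R] ⊗ₘ μ[R]) ≫ μ[R] :=
      (MonObj.mul_mul_mul_comm R).symm
    have e3 := associator_monoidal R R X' R R Y'
    have e4 : ((α_ R R X').inv ⊗ₘ (α_ R R Y').inv) ≫ tensorμ (R ⊗ R) X' (R ⊗ R) Y' ≫
        tensorμ R R R R ▷ (X' ⊗ Y') =
        tensorμ R (R ⊗ X') R (R ⊗ Y') ≫ (R ⊗ R) ◁ tensorμ R X' R Y' ≫
          (α_ (R ⊗ R) (R ⊗ R) (X' ⊗ Y')).inv := by
      have h4 : ((α_ R R X').inv ⊗ₘ (α_ R R Y').inv) ≫ ((α_ R R X').hom ⊗ₘ (α_ R R Y').hom) =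
          𝟙 _ := by
        rw [tensorHom_comp_tensorHom]; simp
      rw [← cancel_mono (α_ (R ⊗ R) (R ⊗ R) (X' ⊗ Y')).hom]
      simp only [Category.assoc, Iso.inv_hom_id, Category.comp_id]
      rw [e3, reassoc_of% h4]
    calc _ = ((α_ R R X').inv ⊗ₘ (α_ R R Y').inv) ≫ tensorμ (R ⊗ R) X' (R ⊗ R) Y' ≫
            ((μ[R] ⊗ₘ μ[R]) ≫ μ[R]) ▷ (X' ⊗ Y') := by
          rw [ten, ← tensorHom_comp_tensorHom, Category.assoc, reassoc_of% e1,
            ← comp_whiskerRight]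
      _ = _ := by
          rw [e2, comp_whiskerRight, reassoc_of% e4, ten, comp_whiskerRight]
          simp only [Category.assoc, MonoidalCategory.whiskerLeft_comp, ten]
          rw [tensorHom_def μ[R] μ[R], comp_whiskerRight, Category.assoc,
            ← associator_inv_naturality_left_assoc, ← associator_inv_naturality_middle_assoc,
            whisker_exchange_assoc]
  rw [bind, bind, ← tensorHom_comp_tensorHom, Category.assoc, key, ten_naturality_assoc, bind,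
    MonoidalCategory.whiskerLeft_comp, Category.assoc]

instance : MonoidalCategoryStruct (FM R) where
  tensorObj X Y := of (X.obj ⊗ Y.obj)
  tensorUnit := of (𝟙_ T)
  tensorHom f g := ⟨(Hom.hom f ⊗ₘ Hom.hom g) ≫ ten R _ _⟩
  whiskerLeft X _ _ g := ⟨(unit R X.obj ⊗ₘ Hom.hom g) ≫ ten R _ _⟩
  whiskerRight f Y := ⟨(Hom.hom f ⊗ₘ unit R Y.obj) ≫ ten R _ _⟩
  associator X Y Z := (free R).mapIso (α_ X.obj Y.obj Z.obj)
  leftUnitor X := (free R).mapIso (λ_ X.obj)
  rightUnitor X := (free R).mapIso (ρ_ X.obj)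

theorem tensorHom_hom {X Y X' Y' : FM R} (f : X ⟶ X') (g : Y ⟶ Y') :
    Hom.hom (f ⊗ₘ g) = (Hom.hom f ⊗ₘ Hom.hom g) ≫ ten R _ _ := rfl

theorem whiskerLeft_hom (X : FM R) {Y Y' : FM R} (g : Y ⟶ Y') :
    Hom.hom (X ◁ g) = (unit R X.obj ⊗ₘ Hom.hom g) ≫ ten R _ _ := rfl

theorem whiskerRight_hom {X X' : FM R} (f : X ⟶ X') (Y : FM R) :
    Hom.hom (f ▷ Y) = (Hom.hom f ⊗ₘ unit R Y.obj) ≫ ten R _ _ := rfl

theorem free_tensorHom {X Y X' Y' : T} (f : X ⟶ X') (g : Y ⟶ Y') :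
    ((free R).map f ⊗ₘ (free R).map g : (free R).obj X ⊗ (free R).obj Y ⟶ _) =
      (free R).map (f ⊗ₘ g) := by
  apply hom_ext
  change ((f ≫ unit R X') ⊗ₘ (g ≫ unit R Y')) ≫ ten R _ _ = (f ⊗ₘ g) ≫ unit R _
  rw [← tensorHom_comp_tensorHom, Category.assoc, unit_ten]

instance [IsCommMonObj R] : MonoidalCategory (FM R) :=
  MonoidalCategory.ofTensorHom
    (id_tensorHom_id := fun X Y => by
      apply hom_ext
      exact unit_ten X.obj Y.obj)
    (id_tensorHom := fun X _ _ f => rfl)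
    (tensorHom_id := fun f Y => rfl)
    (tensorHom_comp_tensorHom := fun {X₁ Y₁ Z₁ X₂ Y₂ Z₂} f₁ f₂ g₁ g₂ => by
      apply hom_ext
      simp only [comp_hom, tensorHom_hom]
      rw [← tensorHom_comp_tensorHom, Category.assoc, Category.assoc, bind_ten])
    (associator_naturality := fun f₁ f₂ f₃ => by
      apply hom_ext
      change Hom.hom (((f₁ ⊗ₘ f₂) ⊗ₘ f₃) ≫ (free R).map (α_ _ _ _).hom) =
        Hom.hom ((free R).map (α_ _ _ _).hom ≫ (f₁ ⊗ₘ (f₂ ⊗ₘ f₃)))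
      rw [comp_free_map_hom, free_map_comp_hom]
      simp only [tensorHom_hom]
      calc _ = ((Hom.hom f₁ ⊗ₘ Hom.hom f₂) ⊗ₘ Hom.hom f₃) ≫ ten R _ _ ▷ (R ⊗ _) ≫
                ten R _ _ ≫ R ◁ (α_ _ _ _).hom := by
              rw [← Category.comp_id (Hom.hom f₃), ← tensorHom_comp_tensorHom, Category.assoc,
                Category.assoc, Category.comp_id, tensorHom_id]
              rfl
        _ = _ := by
              rw [ten_assoc, associator_naturality_assoc]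
              congr 1
              rw [← Category.assoc, ← id_tensorHom, tensorHom_comp_tensorHom, Category.comp_id]
              rfl)
    (leftUnitor_naturality := fun {X Y} f => by
      apply hom_ext
      change Hom.hom ((𝟙 (𝟙_ (FM R)) ⊗ₘ f) ≫ (free R).map (λ_ _).hom) =
        Hom.hom ((free R).map (λ_ _).hom ≫ f)
      rw [comp_free_map_hom, free_map_comp_hom]
      simp only [tensorHom_hom]
      change ((unit R (𝟙_ T) ⊗ₘ Hom.hom f) ≫ ten R _ _) ≫ R ◁ (λ_ Y.obj).hom = _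
      rw [tensorHom_def', Category.assoc, Category.assoc, unit_ten_left, leftUnitor_naturality])
    (rightUnitor_naturality := fun {X Y} f => by
      apply hom_ext
      change Hom.hom ((f ⊗ₘ 𝟙 (𝟙_ (FM R))) ≫ (free R).map (ρ_ _).hom) =
        Hom.hom ((free R).map (ρ_ _).hom ≫ f)
      rw [comp_free_map_hom, free_map_comp_hom]
      simp only [tensorHom_hom]
      change ((Hom.hom f ⊗ₘ unit R (𝟙_ T)) ≫ ten R _ _) ≫ R ◁ (ρ_ Y.obj).hom = _
      rw [tensorHom_def, Category.assoc, Category.assoc, unit_ten_right, rightUnitor_naturality])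
    (pentagon := fun W X Y Z => by
      have e1 := free_tensorHom (R := R) (α_ W.obj X.obj Y.obj).hom (𝟙 Z.obj)
      have e2 := free_tensorHom (R := R) (𝟙 W.obj) (α_ X.obj Y.obj Z.obj).hom
      rw [(free R).map_id] at e1 e2
      have e : (free R).map ((α_ W.obj X.obj Y.obj).hom ⊗ₘ 𝟙 Z.obj) ≫
          (free R).map (α_ W.obj (X.obj ⊗ Y.obj) Z.obj).hom ≫
            (free R).map (𝟙 W.obj ⊗ₘ (α_ X.obj Y.obj Z.obj).hom) =
          (free R).map (α_ (W.obj ⊗ X.obj) Y.obj Z.obj).hom ≫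
            (free R).map (α_ W.obj X.obj (Y.obj ⊗ Z.obj)).hom := by
        rw [← (free R).map_comp, ← (free R).map_comp, ← (free R).map_comp, tensorHom_id,
          id_tensorHom, pentagon]
      exact (congrArg₂ (· ≫ ·) e1 (congrArg ((free R).map _ ≫ ·) e2)).trans e)
    (triangle := fun X Y => by
      have e1 := free_tensorHom (R := R) (ρ_ X.obj).hom (𝟙 Y.obj)
      have e2 := free_tensorHom (R := R) (𝟙 X.obj) (λ_ Y.obj).hom
      rw [(free R).map_id] at e1 e2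
      have e : (free R).map (α_ X.obj (𝟙_ T) Y.obj).hom ≫
          (free R).map (𝟙 X.obj ⊗ₘ (λ_ Y.obj).hom) =
            (free R).map ((ρ_ X.obj).hom ⊗ₘ 𝟙 Y.obj) := by
        rw [← (free R).map_comp, tensorHom_id, id_tensorHom, triangle]
      exact ((congrArg ((free R).map _ ≫ ·) e2).trans e).trans e1.symm)

end monoidal

section symmetric

/-- Compatibility of `tensorμ` with the braiding in a symmetric category. -/
@[reassoc]
theorem braiding_tensorμ {C : Type*} [Category* C] [MonoidalCategory C] [SymmetricCategory C]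
    (X₁ X₂ Y₁ Y₂ : C) :
    (β_ (X₁ ⊗ X₂) (Y₁ ⊗ Y₂)).hom ≫ tensorμ Y₁ Y₂ X₁ X₂ =
      tensorμ X₁ X₂ Y₁ Y₂ ≫ ((β_ X₁ Y₁).hom ⊗ₘ (β_ X₂ Y₂).hom) := by
  simp [tensorμ, SymmetricCategory.braiding_swap_eq_inv_braiding Y₂ X₁, tensorHom_def]

variable [MonObj R] [SymmetricCategory T] [IsCommMonObj R]

@[reassoc]
theorem ten_braiding (X Y : T) :
    ten R X Y ≫ R ◁ (β_ X Y).hom = (β_ (R ⊗ X) (R ⊗ Y)).hom ≫ ten R Y X := by
  rw [ten, ten, braiding_tensorμ_assoc, tensorHom_def', Category.assoc, Category.assoc,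
    ← comp_whiskerRight, IsCommMonObj.mul_comm, whisker_exchange]

instance : BraidedCategory (FM R) where
  braiding X Y := (free R).mapIso (β_ X.obj Y.obj)
  braiding_naturality_right X {Y Z} f := by
    apply hom_ext
    change Hom.hom (X ◁ f ≫ (free R).map (β_ _ _).hom) =
      Hom.hom ((free R).map (β_ _ _).hom ≫ f ▷ X)
    rw [comp_free_map_hom, free_map_comp_hom, whiskerLeft_hom, whiskerRight_hom, Category.assoc,
      ten_braiding, BraidedCategory.braiding_naturality_assoc]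
  braiding_naturality_left {X Y} f Z := by
    apply hom_ext
    change Hom.hom (f ▷ Z ≫ (free R).map (β_ _ _).hom) =
      Hom.hom ((free R).map (β_ _ _).hom ≫ Z ◁ f)
    rw [comp_free_map_hom, free_map_comp_hom, whiskerLeft_hom, whiskerRight_hom, Category.assoc,
      ten_braiding, BraidedCategory.braiding_naturality_assoc]
  hexagon_forward X Y Z := by
    have e1 := free_tensorHom (R := R) (β_ X.obj Y.obj).hom (𝟙 Z.obj)
    have e2 := free_tensorHom (R := R) (𝟙 Y.obj) (β_ X.obj Z.obj).hom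
    rw [(free R).map_id] at e1 e2
    have e : (free R).map (α_ X.obj Y.obj Z.obj).hom ≫
        (free R).map (β_ X.obj (Y.obj ⊗ Z.obj)).hom ≫
          (free R).map (α_ Y.obj Z.obj X.obj).hom =
        (free R).map ((β_ X.obj Y.obj).hom ⊗ₘ 𝟙 Z.obj) ≫
          (free R).map (α_ Y.obj X.obj Z.obj).hom ≫
            (free R).map (𝟙 Y.obj ⊗ₘ (β_ X.obj Z.obj).hom) := by
      simp only [← (free R).map_comp, tensorHom_id, id_tensorHom]
      rw [BraidedCategory.hexagon_forward]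
    exact e.trans (congrArg₂ (· ≫ ·) e1 (congrArg ((free R).map _ ≫ ·) e2)).symm
  hexagon_reverse X Y Z := by
    have e1 := free_tensorHom (R := R) (𝟙 X.obj) (β_ Y.obj Z.obj).hom
    have e2 := free_tensorHom (R := R) (β_ X.obj Z.obj).hom (𝟙 Y.obj)
    rw [(free R).map_id] at e1 e2
    have e : (free R).map (α_ X.obj Y.obj Z.obj).inv ≫
        (free R).map (β_ (X.obj ⊗ Y.obj) Z.obj).hom ≫
          (free R).map (α_ Z.obj X.obj Y.obj).inv =
        (free R).map (𝟙 X.obj ⊗ₘ (β_ Y.obj Z.obj).hom) ≫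
          (free R).map (α_ X.obj Z.obj Y.obj).inv ≫
            (free R).map ((β_ X.obj Z.obj).hom ⊗ₘ 𝟙 Y.obj) := by
      simp only [← (free R).map_comp, tensorHom_id, id_tensorHom]
      rw [BraidedCategory.hexagon_reverse]
    exact e.trans (congrArg₂ (· ≫ ·) e1 (congrArg ((free R).map _ ≫ ·) e2)).symm

instance : SymmetricCategory (FM R) where
  symmetry X Y := by
    change (free R).map (β_ X.obj Y.obj).hom ≫ (free R).map (β_ Y.obj X.obj).hom =
      𝟙 ((free R).obj (X.obj ⊗ Y.obj))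
    rw [← (free R).map_comp, SymmetricCategory.symmetry, (free R).map_id]

theorem free_whiskerLeft (X : T) {Y Z : T} (f : Y ⟶ Z) :
    ((free R).obj X ◁ (free R).map f : (free R).obj X ⊗ (free R).obj Y ⟶ _) =
      (free R).map (X ◁ f) := by
  have := free_tensorHom (R := R) (𝟙 X) f
  rw [(free R).map_id, id_tensorHom, id_tensorHom] at this
  exact this

theorem free_whiskerRight {Y Z : T} (f : Y ⟶ Z) (X : T) :
    ((free R).map f ▷ (free R).obj X : (free R).obj Y ⊗ (free R).obj X ⟶ _) =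
      (free R).map (f ▷ X) := by
  have := free_tensorHom (R := R) f (𝟙 X)
  rw [(free R).map_id, tensorHom_id, tensorHom_id] at this
  exact this

omit [IsCommMonObj R] in
@[reassoc]
theorem unit_tensor_ten (W Y : T) :
    unit R W ▷ (R ⊗ Y) ≫ ten R W Y =
      (α_ W R Y).inv ≫ (β_ W R).hom ▷ Y ≫ (α_ R W Y).hom := by
  have h1 : (η[R] ▷ W) ▷ (R ⊗ Y) ≫ tensorμ R W R Y =
      tensorμ (𝟙_ T) W R Y ≫ (η[R] ▷ R) ▷ (W ⊗ Y) := by
    have := tensorμ_natural_left η[R] (𝟙 W) R Y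
    simpa using this
  rw [unit, ten, comp_whiskerRight, Category.assoc, reassoc_of% h1, ← comp_whiskerRight,
    MonObj.one_mul]
  simp [tensorμ]

omit [IsCommMonObj R] in
@[reassoc]
theorem tensor_unit_ten (X Y : T) :
    (R ⊗ X) ◁ unit R Y ≫ ten R X Y = (α_ R X Y).hom := by
  have h1 : (R ⊗ X) ◁ (η[R] ▷ Y) ≫ tensorμ R X R Y =
      tensorμ R X (𝟙_ T) Y ≫ (R ◁ η[R]) ▷ (X ⊗ Y) := by
    have := tensorμ_natural_right R X η[R] (𝟙 Y)
    simpa using this
  rw [unit, ten, MonoidalCategory.whiskerLeft_comp, Category.assoc, reassoc_of% h1,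
    ← comp_whiskerRight, MonObj.mul_one]
  simp only [tensorμ, braiding_tensorUnit_right]
  monoidal

omit [IsCommMonObj R] in
theorem whiskerLeft_hom' (X : FM R) {Y Y' : FM R} (g : Y ⟶ Y') :
    Hom.hom (X ◁ g) = X.obj ◁ Hom.hom g ≫
      (α_ X.obj R Y'.obj).inv ≫ (β_ X.obj R).hom ▷ Y'.obj ≫ (α_ R X.obj Y'.obj).hom := by
  rw [whiskerLeft_hom, tensorHom_def', Category.assoc, unit_tensor_ten]

omit [IsCommMonObj R] in
theorem whiskerRight_hom' {X X' : FM R} (f : X ⟶ X') (Y : FM R) :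
    Hom.hom (f ▷ Y) = Hom.hom f ▷ Y.obj ≫ (α_ R X'.obj Y.obj).hom := by
  rw [whiskerRight_hom, tensorHom_def, Category.assoc, tensor_unit_ten]

/-- The free functor is monoidal. -/
instance : (free R).Monoidal :=
  Functor.CoreMonoidal.toMonoidal
    { εIso := Iso.refl _
      μIso := fun _ _ => Iso.refl _
      μIso_hom_natural_left := fun {X Y} f Z =>
        (Category.comp_id _).trans ((free_whiskerRight f Z).trans (Category.id_comp _).symm)
      μIso_hom_natural_right := fun {X Y} Z f =>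
        (Category.comp_id _).trans ((free_whiskerLeft Z f).trans (Category.id_comp _).symm)
      associativity := fun X Y Z => by
        change (𝟙 ((free R).obj X ⊗ (free R).obj Y)) ▷ (free R).obj Z ≫
          𝟙 (((free R).obj X ⊗ (free R).obj Y) ⊗ (free R).obj Z) ≫
            (α_ ((free R).obj X) ((free R).obj Y) ((free R).obj Z)).hom =
          (α_ ((free R).obj X) ((free R).obj Y) ((free R).obj Z)).hom ≫
            (free R).obj X ◁ (𝟙 ((free R).obj Y ⊗ (free R).obj Z)) ≫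
              𝟙 ((free R).obj X ⊗ (free R).obj Y ⊗ (free R).obj Z)
        simp
      left_unitality := fun X => by
        change (λ_ ((free R).obj X)).hom = 𝟙 (𝟙_ (FM R)) ▷ (free R).obj X ≫
          𝟙 (𝟙_ (FM R) ⊗ (free R).obj X) ≫ (λ_ ((free R).obj X)).hom
        simp
      right_unitality := fun X => by
        change (ρ_ ((free R).obj X)).hom = (free R).obj X ◁ 𝟙 (𝟙_ (FM R)) ≫
          𝟙 ((free R).obj X ⊗ 𝟙_ (FM R)) ≫ (ρ_ ((free R).obj X)).hom
        simp }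

theorem free_μ (X Y : T) : Functor.LaxMonoidal.μ (free R) X Y = 𝟙 _ := rfl

theorem free_δ (X Y : T) : Functor.OplaxMonoidal.δ (free R) X Y = 𝟙 _ := rfl

theorem free_ε : Functor.LaxMonoidal.ε (free R) = 𝟙 _ := rfl

theorem free_η : Functor.OplaxMonoidal.η (free R) = 𝟙 _ := rfl

/-- The free functor is symmetric monoidal. -/
instance : (free R).Braided where
  braided X Y := by
    change 𝟙 _ ≫ (β_ ((free R).obj X) ((free R).obj Y)).hom =
      (β_ ((free R).obj X) ((free R).obj Y)).hom ≫ 𝟙 _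
    rw [Category.comp_id, Category.id_comp]

end symmetric

section preadditive

variable [MonObj R] [Preadditive T] [MonoidalPreadditive T]

theorem bind_add {X Y : T} (f g : X ⟶ R ⊗ Y) : bind (f + g) = bind f + bind g := by
  simp only [bind, MonoidalPreadditive.whiskerLeft_add, Preadditive.add_comp]

instance (X Y : FM R) : Zero (Hom X Y) := ⟨⟨0⟩⟩
instance (X Y : FM R) : Add (Hom X Y) := ⟨fun f g => ⟨f.hom + g.hom⟩⟩
instance (X Y : FM R) : Neg (Hom X Y) := ⟨fun f => ⟨-f.hom⟩⟩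
instance (X Y : FM R) : Sub (Hom X Y) := ⟨fun f g => ⟨f.hom - g.hom⟩⟩
instance (X Y : FM R) : SMul ℕ (Hom X Y) := ⟨fun n f => ⟨n • f.hom⟩⟩
instance (X Y : FM R) : SMul ℤ (Hom X Y) := ⟨fun n f => ⟨n • f.hom⟩⟩

instance (X Y : FM R) : AddCommGroup (Hom X Y) :=
  Function.Injective.addCommGroup Hom.hom (fun _ _ h => Hom.ext h) rfl (fun _ _ => rfl)
    (fun _ => rfl) (fun _ _ => rfl) (fun _ _ => rfl) (fun _ _ => rfl)

instance : Preadditive (FM R) where
  homGroup X Y := inferInstanceAs (AddCommGroup (Hom X Y))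
  add_comp X Y Z f f' g := by
    apply hom_ext
    change (Hom.hom f + Hom.hom f') ≫ bind (Hom.hom g) =
      Hom.hom f ≫ bind (Hom.hom g) + Hom.hom f' ≫ bind (Hom.hom g)
    rw [Preadditive.add_comp]
  comp_add X Y Z f g g' := by
    apply hom_ext
    change Hom.hom f ≫ bind (Hom.hom g + Hom.hom g') =
      Hom.hom f ≫ bind (Hom.hom g) + Hom.hom f ≫ bind (Hom.hom g')
    rw [bind_add, Preadditive.comp_add]

theorem add_hom {X Y : FM R} (f g : X ⟶ Y) : Hom.hom (f + g) = Hom.hom f + Hom.hom g := rfl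

theorem zero_hom (X Y : FM R) : Hom.hom (0 : X ⟶ Y) = 0 := rfl

theorem neg_hom {X Y : FM R} (f : X ⟶ Y) : Hom.hom (-f) = -Hom.hom f := rfl

instance : (free R).Additive where
  map_add {X Y f g} := by
    apply hom_ext
    change (f + g) ≫ unit R Y = f ≫ unit R Y + g ≫ unit R Y
    rw [Preadditive.add_comp]

variable [SymmetricCategory T] [IsCommMonObj R]

instance : MonoidalPreadditive (FM R) where
  whiskerLeft_zero {X Y Z} := by
    apply hom_ext
    change (unit R X.obj ⊗ₘ (0 : Y.obj ⟶ R ⊗ Z.obj)) ≫ ten R _ _ = 0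
    simp
  zero_whiskerRight {X Y Z} := by
    apply hom_ext
    change ((0 : Y.obj ⟶ R ⊗ Z.obj) ⊗ₘ unit R X.obj) ≫ ten R _ _ = 0
    simp
  whiskerLeft_add {X Y Z} f g := by
    apply hom_ext
    change (unit R X.obj ⊗ₘ (Hom.hom f + Hom.hom g)) ≫ ten R _ _ = _
    rw [MonoidalPreadditive.tensor_add, Preadditive.add_comp]
    rfl
  add_whiskerRight {X Y Z} f g := by
    apply hom_ext
    change ((Hom.hom f + Hom.hom g) ⊗ₘ unit R X.obj) ≫ ten R _ _ = _
    rw [MonoidalPreadditive.add_tensor, Preadditive.add_comp]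
    rfl

end preadditive

end FM

section modules

open Vale.Agent.P251.S

variable [SymmetricCategory T] {R : T} [MonObj R] {N : T}

/-- The right action of a module. -/
def ract (M : ModStr R N) : N ⊗ R ⟶ N := (β_ N R).hom ≫ M.act

@[reassoc]
theorem whiskerLeft_one_ract (M : ModStr R N) : N ◁ η[R] ≫ ract M = (ρ_ N).hom := by
  rw [ract, BraidedCategory.braiding_naturality_right_assoc, M.one_act]
  simp

@[reassoc]
theorem whiskerLeft_mul_ract [IsCommMonObj R] (M : ModStr R N) :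
    N ◁ μ[R] ≫ ract M = (α_ N R R).inv ≫ ract M ▷ R ≫ ract M := by
  have h : N ◁ μ[R] = N ◁ (β_ R R).hom ≫ N ◁ μ[R] := by
    rw [← MonoidalCategory.whiskerLeft_comp, IsCommMonObj.mul_comm]
  rw [h, ract, Category.assoc, BraidedCategory.braiding_naturality_right_assoc,
    BraidedCategory.braiding_naturality_right_assoc, M.mul_act, comp_whiskerRight,
    Category.assoc, BraidedCategory.braiding_naturality_left_assoc,
    BraidedCategory.braiding_tensor_right_hom, BraidedCategory.braiding_tensor_left_hom]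
  simp only [Category.assoc]

variable [IsCommMonObj R]

/-- The functor `X ↦ N ⊗_R (R ⊗ X) = N ⊗ X` on the category of free `R`-modules. -/
def tenFunctor (M : ModStr R N) : FM R ⥤ T where
  obj X := N ⊗ X.obj
  map {X Y} f := N ◁ FM.Hom.hom f ≫ (α_ N R Y.obj).inv ≫ ract M ▷ Y.obj
  map_id X := by
    rw [FM.id_hom, FM.unit, MonoidalCategory.whiskerLeft_comp, Category.assoc,
      associator_inv_naturality_middle_assoc, ← comp_whiskerRight, whiskerLeft_one_ract]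
    simp
  map_comp {X Y Z} f g := by
    rw [FM.comp_hom, FM.bind]
    simp only [MonoidalCategory.whiskerLeft_comp, Category.assoc]
    rw [associator_inv_naturality_middle_assoc, ← comp_whiskerRight, whiskerLeft_mul_ract]
    rw [← whisker_exchange_assoc]
    simp

theorem tenFunctor_map (M : ModStr R N) {X Y : FM R} (f : X ⟶ Y) :
    (tenFunctor M).map f = N ◁ FM.Hom.hom f ≫ (α_ N R Y.obj).inv ≫ ract M ▷ Y.obj := rfl

theorem unit_ract (M : ModStr R N) (Y : T) :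
    N ◁ FM.unit R Y ≫ (α_ N R Y).inv ≫ ract M ▷ Y = 𝟙 _ :=
  (tenFunctor M).map_id (FM.of Y)

@[simp]
theorem tenFunctor_map_free (M : ModStr R N) {X Y : T} (f : X ⟶ Y) :
    (tenFunctor M).map ((FM.free R).map f) = N ◁ f := by
  change N ◁ (f ≫ FM.unit R Y) ≫ (α_ N R Y).inv ≫ ract M ▷ Y = _
  rw [MonoidalCategory.whiskerLeft_comp, Category.assoc, unit_ract, Category.comp_id]

omit [IsCommMonObj R] in
@[reassoc]
theorem ract_naturality {N' : T} (M : ModStr R N) (M' : ModStr R N') (f : N ⟶ N')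
    (hf : M.IsLinear M' f) : ract M ≫ f = f ▷ R ≫ ract M' := by
  rw [ract, ract, Category.assoc, BraidedCategory.braiding_naturality_left_assoc, hf]

@[reassoc]
theorem tenFunctorMap_naturality {N' : T} (M : ModStr R N) (M' : ModStr R N') (f : N ⟶ N')
    (hf : M.IsLinear M' f) {X Y : FM R} (g : X ⟶ Y) :
    (tenFunctor M).map g ≫ f ▷ Y.obj = f ▷ X.obj ≫ (tenFunctor M').map g := by
  change (N ◁ FM.Hom.hom g ≫ (α_ N R Y.obj).inv ≫ ract M ▷ Y.obj) ≫ f ▷ Y.obj =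
      f ▷ X.obj ≫ N' ◁ FM.Hom.hom g ≫ (α_ N' R Y.obj).inv ≫ ract M' ▷ Y.obj
  rw [Category.assoc, Category.assoc, ← comp_whiskerRight, ract_naturality M M' f hf,
      comp_whiskerRight, ← whisker_exchange_assoc, associator_inv_naturality_left_assoc]

/-- A linear map gives a natural transformation. -/
def tenFunctorMap {N' : T} (M : ModStr R N) (M' : ModStr R N') (f : N ⟶ N')
    (hf : M.IsLinear M' f) : tenFunctor M ⟶ tenFunctor M' where
  app X := f ▷ X.obj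
  naturality _ _ g := tenFunctorMap_naturality M M' f hf g

/-- `(N ⊗ W) ⊗_R X = N ⊗_R (W ⊗ X)`. -/
@[reassoc]
theorem tenFunctor_tensorRight (M : ModStr R N) (W : T) {X Y : FM R} (f : X ⟶ Y) :
    (tenFunctor (M.tensorRight W)).map f ≫ (α_ N W Y.obj).hom =
      (α_ N W X.obj).hom ≫ (tenFunctor M).map ((FM.free R).obj W ◁ f) := by
  change ((N ⊗ W) ◁ FM.Hom.hom f ≫ (α_ (N ⊗ W) R Y.obj).inv ≫
    ((β_ (N ⊗ W) R).hom ≫ (α_ R N W).inv ≫ M.act ▷ W) ▷ Y.obj) ≫ (α_ N W Y.obj).hom =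
    (α_ N W X.obj).hom ≫ N ◁ FM.Hom.hom ((FM.free R).obj W ◁ f) ≫
        (α_ N R (W ⊗ Y.obj)).inv ≫ ((β_ N R).hom ≫ M.act) ▷ (W ⊗ Y.obj)
  rw [FM.whiskerLeft_hom', BraidedCategory.braiding_tensor_left_hom]
  change _ = (α_ N W X.obj).hom ≫ N ◁ (W ◁ FM.Hom.hom f ≫
      (α_ W R Y.obj).inv ≫ (β_ W R).hom ▷ Y.obj ≫ (α_ R W Y.obj).hom) ≫
        (α_ N R (W ⊗ Y.obj)).inv ≫ ((β_ N R).hom ≫ M.act) ▷ (W ⊗ Y.obj)
  simp only [MonoidalCategory.whiskerLeft_comp, comp_whiskerRight, Category.assoc,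
    Iso.hom_inv_id_assoc]
  simp

variable (R) in
omit [IsCommMonObj R] [SymmetricCategory T] in
/-- The regular module. -/
def regMod : ModStr R R where
  act := μ[R]
  one_act := MonObj.one_mul R
  mul_act := MonObj.mul_assoc R

theorem tenFunctor_regMod {X Y : FM R} (f : X ⟶ Y) :
    (tenFunctor (regMod R)).map f = FM.bind (FM.Hom.hom f) := by
  rw [tenFunctor_map, ract, FM.bind]
  change _ ≫ _ ≫ ((β_ R R).hom ≫ μ[R]) ▷ _ = _
  rw [IsCommMonObj.mul_comm]

end modules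

section push

variable {R R' : T} [MonObj R] [MonObj R'] (φ : R ⟶ R') [IsMonHom φ]

namespace FM

@[reassoc]
theorem bind_push {Y Z : T} (g : Y ⟶ R ⊗ Z) :
    bind g ≫ φ ▷ Z = φ ▷ Y ≫ bind (g ≫ φ ▷ Z) := by
  rw [bind, bind, Category.assoc, Category.assoc, ← comp_whiskerRight, IsMonHom.mul_hom,
    tensorHom_def, comp_whiskerRight, comp_whiskerRight, MonoidalCategory.whiskerLeft_comp,
    Category.assoc, Category.assoc, ← whisker_exchange_assoc,
    ← associator_inv_naturality_left_assoc, ← associator_inv_naturality_middle_assoc]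

@[reassoc (attr := simp)]
theorem unit_push (Y : T) : unit R Y ≫ φ ▷ Y = unit R' Y := by
  rw [unit, unit, Category.assoc, ← comp_whiskerRight, IsMonHom.one_hom]

@[reassoc]
theorem ten_push [BraidedCategory T] (X Y : T) :
    ten R X Y ≫ φ ▷ (X ⊗ Y) = (φ ▷ X ⊗ₘ φ ▷ Y) ≫ ten R' X Y := by
  have h1 : (φ ▷ X ⊗ₘ φ ▷ Y) ≫ tensorμ R' X R' Y = tensorμ R X R Y ≫ (φ ⊗ₘ φ) ▷ (X ⊗ Y) := by
    have := tensorμ_natural φ (𝟙 X) φ (𝟙 Y)
    simpa using this
  rw [ten, ten, Category.assoc, reassoc_of% h1, ← comp_whiskerRight, IsMonHom.mul_hom,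
    comp_whiskerRight]

/-- Extension of scalars along a monoid map. -/
def push : FM R ⥤ FM R' where
  obj X := of X.obj
  map {X Y} f := ⟨Hom.hom (X := X) (Y := Y) f ≫ φ ▷ Y.obj⟩
  map_id X := by
    apply hom_ext
    exact unit_push φ X.obj
  map_comp {X Y Z} f g := by
    apply hom_ext
    change (Hom.hom f ≫ bind (Hom.hom g)) ≫ φ ▷ Z.obj =
      (Hom.hom f ≫ φ ▷ Y.obj) ≫ bind (Hom.hom g ≫ φ ▷ Z.obj)
    rw [Category.assoc, Category.assoc, bind_push]

theorem push_map_hom {X Y : FM R} (f : X ⟶ Y) :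
    Hom.hom ((push φ).map f) = Hom.hom f ≫ φ ▷ Y.obj := rfl

theorem push_map_free {X Y : T} (f : X ⟶ Y) :
    (push φ).map ((free R).map f) = (free R').map f := by
  apply hom_ext
  change (f ≫ unit R Y) ≫ φ ▷ Y = f ≫ unit R' Y
  rw [Category.assoc, unit_push]

theorem push_tensorHom [BraidedCategory T] {X Y X' Y' : FM R} (f : X ⟶ X') (g : Y ⟶ Y') :
    (push φ).map (f ⊗ₘ g) =
      ((push φ).map f ⊗ₘ (push φ).map g : (push φ).obj X ⊗ (push φ).obj Y ⟶ _) := by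
  apply hom_ext
  change ((Hom.hom f ⊗ₘ Hom.hom g) ≫ ten R _ _) ≫ φ ▷ _ =
    ((Hom.hom f ≫ φ ▷ _) ⊗ₘ (Hom.hom g ≫ φ ▷ _)) ≫ ten R' _ _
  rw [Category.assoc, ten_push, ← tensorHom_comp_tensorHom, Category.assoc]

end FM

end push

end Vale.Agent.P251.M
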