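import Vale.Agent.P251.T.Axioms
import Mathlib.Algebra.DirectSum.Module
import Mathlib.CategoryTheory.Preadditive.Biproducts
import Mathlib.Tactic

/-!
# P251, part M: homotopy groups and coproducts in a stable homotopy category
-/

open CategoryTheory MonoidalCategory Limits Pretriangulated
open Vale.Agent.P251.T
open scoped DirectSum

universe v u

namespace Vale.Agent.P251.M

set_option linter.unusedSectionVars false

variable {T : Type u} [Category.{v} T] [Preadditive T] [HasZeroObject T]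
    [HasShift T ℤ] [∀ n : ℤ, (shiftFunctor T n).Additive] [Pretriangulated T]

/-- A family of objects which is closed under shifts and detects zero objects detects
isomorphisms. -/
theorem isIso_of_bijective_hom (S : ℤ → T) (hS : ∀ k k', k + 1 = k' → Nonempty ((S k)⟦(1 : ℤ)⟧ ≅ S k'))
    (hgen : ∀ X : T, (∀ (n : ℤ) (f : S n ⟶ X), f = 0) → IsZero X)
    {X Y : T} (f : X ⟶ Y) (hinj : ∀ k (x : S k ⟶ X), x ≫ f = 0 → x = 0)
    (hsurj : ∀ k (y : S k ⟶ Y), ∃ x : S k ⟶ X, x ≫ f = y) : IsIso f := by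
  obtain ⟨Z, g, h, hT⟩ := distinguished_cocone_triangle f
  have hZ : IsZero Z := by
    apply hgen
    intro k z
    have h1 : (z ≫ h) ≫ f⟦(1 : ℤ)⟧' = 0 := by
      have this : h ≫ f⟦(1 : ℤ)⟧' = 0 := comp_distTriang_mor_zero₃₁ _ hT
      rw [Category.assoc, this, comp_zero]
    obtain ⟨e⟩ := hS (k - 1) k (by ring)
    have h2 : z ≫ h = 0 := by
      obtain ⟨x, hx⟩ := (shiftFunctor T (1 : ℤ)).map_surjective (e.hom ≫ z ≫ h)
      have h3 : x ≫ f = 0 := by
        apply (shiftFunctor T (1 : ℤ)).map_injective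
        rw [Functor.map_comp, hx, Functor.map_zero]
        simp only [Category.assoc] at h1 ⊢
        rw [h1, comp_zero]
      rw [hinj _ x h3, Functor.map_zero] at hx
      rw [← cancel_epi e.hom, ← hx, comp_zero]
    obtain ⟨y, hy⟩ : ∃ y : S k ⟶ Y, z = y ≫ g := Triangle.coyoneda_exact₃ _ hT z h2
    obtain ⟨x, rfl⟩ := hsurj k y
    have h3 : f ≫ g = 0 := comp_distTriang_mor_zero₁₂ _ hT
    rw [hy, Category.assoc, h3, comp_zero]
  exact (Triangle.isZero₃_iff_isIso₁ _ hT).1 hZ

/-- Maps from a compact object to a coproduct are finite sums. -/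
theorem exists_sum_of_compact [HasCoproducts.{0} T] {W : T} {I : Type} (X : I → T)
    (f : W ⟶ ∐ X)
    (hf : ∃ (s : Finset I) (g : W ⟶ ∐ (fun i : s => X i)),
      g ≫ Sigma.desc (fun i : s => Sigma.ι X i) = f) :
    ∃ (s : Finset I) (g : ∀ i : s, W ⟶ X i), f = ∑ i : s, g i ≫ Sigma.ι X i := by
  classical
  obtain ⟨s, g, rfl⟩ := hf
  have : HasBiproduct (fun i : s => X i) := HasBiproduct.of_hasCoproduct _
  refine ⟨s, fun i => g ≫ (biproduct.isoCoproduct _).inv ≫ biproduct.π _ i, ?_⟩
  have h : (𝟙 (∐ fun i : s => X i)) = ∑ i : s, ((biproduct.isoCoproduct _).inv ≫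
      biproduct.π (fun i : s => X i) i) ≫ Sigma.ι (fun i : s => X i) i := by
    have := biproduct.total (f := fun i : s => X i)
    have h2 : (biproduct.isoCoproduct (fun i : s => X i)).inv ≫ (𝟙 _) ≫
        (biproduct.isoCoproduct (fun i : s => X i)).hom = 𝟙 _ := by
      rw [Category.id_comp, Iso.inv_hom_id]
    rw [← h2, ← this, Preadditive.sum_comp, Preadditive.comp_sum]
    refine Finset.sum_congr rfl fun i _ => ?_
    simp
  calc g ≫ Sigma.desc (fun i : s => Sigma.ι X i)
      = (g ≫ 𝟙 _) ≫ Sigma.desc (fun i : s => Sigma.ι X i) := by rw [Category.comp_id]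
    _ = _ := by
      rw [h, Preadditive.comp_sum, Preadditive.sum_comp]
      refine Finset.sum_congr rfl fun i _ => ?_
      simp

/-- If `⨁ π_k(F i) ⟶ π_k K` is bijective for all `k`, then `∐ F ⟶ K` is an isomorphism. -/
theorem isIso_desc_of_bijective [HasCoproducts.{0} T] (S : ℤ → T)
    (hS : ∀ k k', k + 1 = k' → Nonempty ((S k)⟦(1 : ℤ)⟧ ≅ S k'))
    (hgen : ∀ X : T, (∀ (n : ℤ) (f : S n ⟶ X), f = 0) → IsZero X)
    (hcomp : ∀ (n : ℤ) {I : Type} (X : I → T) (f : S n ⟶ ∐ X),
      ∃ (s : Finset I) (g : S n ⟶ ∐ (fun i : s => X i)),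
        g ≫ Sigma.desc (fun i : s => Sigma.ι X i) = f)
    {I : Type} [DecidableEq I] (F : I → T) {K : T} (e : ∀ i, F i ⟶ K)
    (hinj : ∀ k, Function.Injective (DirectSum.toAddMonoid (β := fun i => (S k ⟶ F i))
      (fun i => Preadditive.rightComp (S k) (e i))))
    (hsurj : ∀ k, Function.Surjective (DirectSum.toAddMonoid (β := fun i => (S k ⟶ F i))
      (fun i => Preadditive.rightComp (S k) (e i)))) : IsIso (Sigma.desc e) := by
  have key : ∀ k (u : ⨁ i, (S k ⟶ F i)),
      (DirectSum.toAddMonoid (β := fun i => (S k ⟶ F i))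
        (fun i => Preadditive.rightComp (S k) (Sigma.ι F i)) u) ≫ Sigma.desc e =
      DirectSum.toAddMonoid (β := fun i => (S k ⟶ F i))
        (fun i => Preadditive.rightComp (S k) (e i)) u := by
    intro k u
    induction u using DirectSum.induction_on with
    | zero => simp
    | of i x => simp [Preadditive.rightComp]
    | add u v hu hv => rw [map_add, map_add, Preadditive.add_comp, hu, hv]
  refine isIso_of_bijective_hom S hS hgen _ ?_ ?_
  · intro k x hx
    obtain ⟨s, g, rfl⟩ := exists_sum_of_compact F x (hcomp k F x)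
    have h1 : ∑ i : s, g i ≫ Sigma.ι F i = DirectSum.toAddMonoid (β := fun i => (S k ⟶ F i))
        (fun i => Preadditive.rightComp (S k) (Sigma.ι F i))
        (∑ i : s, DirectSum.of (fun i => (S k ⟶ F i)) i (g i)) := by
      rw [map_sum]
      refine Finset.sum_congr rfl fun i _ => ?_
      simp [Preadditive.rightComp]
    rw [h1] at hx ⊢
    rw [key] at hx
    rw [hinj k (hx.trans (map_zero _).symm), map_zero]
  · intro k y
    obtain ⟨u, rfl⟩ := hsurj k y
    exact ⟨_, key k u⟩

end Vale.Agent.P251.M
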