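import Vale.Agent.P251.M.CofIn

/-!
# P251, part M (task M5): the cofibre of the unit of a telescope

* `isTel_const` : `X` is the telescope of the constant sequence `X = X = ...`;
* `cofIn_unit_of_tel` : if `R` is the telescope of `E 0 ⟶ E 1 ⟶ ...` and the maps `u n : W ⟶ E n`
  (`W` compact) are compatible and have their cofibres in `P`, then so does `W ⟶ R`.
-/

open CategoryTheory MonoidalCategory Limits Pretriangulated ZeroObject
open Vale.Agent.P251.T Vale.Agent.P251.H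

universe v u

set_option linter.unusedSectionVars false
set_option linter.style.haveILetI false

namespace Vale.Agent.P251.M

variable {T : Type u} [Category.{v} T] [Preadditive T] [HasZeroObject T]
    [HasShift T ℤ] [∀ n : ℤ, (shiftFunctor T n).Additive] [Pretriangulated T]
    [HasCoproducts.{0} T]

/-- `X` is the telescope of the constant sequence. -/
theorem isTel_const (X : T) :
    S.IsTel (X := fun _ => X) (fun _ => 𝟙 X) (fun _ => 𝟙 X) := by
  let Y : ℕ → T := fun _ => X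
  let s : ∐ Y ⟶ ∐ Y := S.telShift (X := Y) (fun _ => 𝟙 X)
  have hs : ∀ n, Sigma.ι Y n ≫ s = Sigma.ι Y (n + 1) := fun n => by
    simp only [s, S.telShift, Sigma.ι_desc]
    exact Category.id_comp _
  let r : ∐ Y ⟶ ∐ Y := Sigma.desc fun n => -∑ k ∈ Finset.range n, Sigma.ι Y k
  have hr : ∀ n, Sigma.ι Y n ≫ r = -∑ k ∈ Finset.range n, Sigma.ι Y k := fun n => by
    simp only [r, Sigma.ι_desc]
  let p : ∐ Y ⟶ X := Sigma.desc fun _ => 𝟙 X
  have hp : ∀ n, Sigma.ι Y n ≫ p = 𝟙 X := fun n => by simp only [p, Sigma.ι_desc]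
  have h1 : (𝟙 _ - s) ≫ r = 𝟙 _ := by
    refine Sigma.hom_ext _ _ fun n => ?_
    rw [← Category.assoc, Preadditive.comp_sub, Category.comp_id, hs, Preadditive.sub_comp, hr, hr,
      Finset.sum_range_succ]
    abel
  have h2 : (𝟙 _ - s) ≫ p = 0 := by
    refine Sigma.hom_ext _ _ fun n => ?_
    rw [← Category.assoc, Preadditive.comp_sub, Category.comp_id, hs, Preadditive.sub_comp, hp, hp,
      sub_self, comp_zero]
  have h3 : r ≫ (𝟙 _ - s) = 𝟙 _ - p ≫ Sigma.ι Y 0 := by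
    refine Sigma.hom_ext _ _ fun n => ?_
    have h4 : (∑ k ∈ Finset.range n, Sigma.ι Y k) ≫ s =
        ∑ k ∈ Finset.range n, Sigma.ι Y (k + 1) := by
      rw [Preadditive.sum_comp]
      exact Finset.sum_congr rfl fun k _ => hs k
    let ε : ℕ → (X ⟶ ∐ Y) := fun k => Sigma.ι Y k
    have h5 := Finset.sum_range_sub' ε n
    simp only [ε] at h5
    rw [Finset.sum_sub_distrib] at h5
    have h6 : Sigma.ι Y n ≫ p ≫ Sigma.ι Y 0 = Sigma.ι Y 0 := by
      rw [← Category.assoc, hp]; exact Category.id_comp _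
    rw [← Category.assoc, hr, Preadditive.comp_sub, Category.comp_id,
      Preadditive.neg_comp, h4, Preadditive.comp_sub, Category.comp_id, h6]
    rw [neg_sub_neg, ← neg_sub, h5, neg_sub]
  obtain ⟨Z, v, w, D⟩ := exists_cone (𝟙 (∐ Y) - s)
  have hmono : Mono (𝟙 (∐ Y) - s) := ⟨fun a b hab => by
    have := congrArg (fun t => t ≫ r) hab
    simpa only [Category.assoc, h1, Category.comp_id] using this⟩
  have hw : w = 0 := Triangle.mor₃_eq_zero_of_mono₁ _ D hmono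
  have hepi : Epi v := Triangle.epi₂ _ D hw
  obtain ⟨c, hc⟩ := D.desc₂ p h2
  have h5 : (Sigma.ι Y 0 ≫ v) ≫ c = 𝟙 X := by rw [Category.assoc, hc, hp]
  have h6 : c ≫ (Sigma.ι Y 0 ≫ v) = 𝟙 Z := by
    rw [← cancel_epi v, ← Category.assoc, hc, ← Category.assoc, Category.comp_id]
    have h7 : p ≫ Sigma.ι Y 0 = 𝟙 _ - r ≫ (𝟙 _ - s) := by rw [h3]; abel
    rw [h7, Preadditive.sub_comp, Category.id_comp, Category.assoc, D.zero₁₂, comp_zero, sub_zero]
  have hiso : IsIso (Sigma.ι Y 0 ≫ v) := ⟨c, h5, h6⟩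
  refine ⟨(Sigma.ι Y 0 ≫ v) ≫ w, ?_⟩
  exact D.of_iso₃ (Sigma.ι Y 0 ≫ v) (by
    change p ≫ Sigma.ι Y 0 ≫ v = v
    rw [← hc, Category.assoc, h6, Category.comp_id]) rfl

/-- The cofibre of the unit of a telescope. -/
theorem cofIn_unit_of_tel [IsTriangulated T] {P : T → Prop} (hP : ExtClosed P)
    (hcop : ∀ X : ℕ → T, (∀ n, P (X n)) → P (∐ X)) (hsh : ∀ X : T, P X → P (X⟦(1 : ℤ)⟧))
    {W : T} (hW : CompactObj W) {E : ℕ → T} {f : ∀ n, E n ⟶ E (n + 1)} {R : T}
    {ι : ∀ n, E n ⟶ R} (hR : S.IsTel f ι) (u : ∀ n, W ⟶ E n) (hu : ∀ n, u n ≫ f n = u (n + 1))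
    (η : W ⟶ R) (hη : ∀ n, u n ≫ ι n = η) (hcof : ∀ n, CofIn P (u n)) : CofIn P η :=
  CofIn.tel hP hcop hsh (isTel_const W) hR (fun _ => hW) u
    (fun n => by rw [hu]; exact Category.id_comp _) η (fun n => by rw [hη]; exact Category.id_comp _)
    hcof

/-- The cofibre `J` of `𝟙 ⟶ R` for a telescope `R` of even complexes `E n` such that the cofibre
of `𝟙 ⟶ E n` has cells in dimensions `≥ 2d`: it is in `BigCell (2 * d)`. -/
theorem bigCell_cofibre_unit [MonoidalCategory T] [IsTriangulated T] {d : ℤ}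
    (hW : CompactObj (𝟙_ T)) {E : ℕ → T} {f : ∀ n, E n ⟶ E (n + 1)} {R : T}
    {ι : ∀ n, E n ⟶ R} (hR : S.IsTel f ι) (u : ∀ n, 𝟙_ T ⟶ E n)
    (hu : ∀ n, u n ≫ f n = u (n + 1))
    (η : 𝟙_ T ⟶ R) (hη : ∀ n, u n ≫ ι n = η) (hcof : ∀ n, CofIn (EvenCell T d) (u n))
    {J : T} {a : R ⟶ J} {b : J ⟶ (𝟙_ T)⟦(1 : ℤ)⟧} (D : Dist η a b) : BigCell T (2 * d) J :=
  CofIn.of_dist (bigCell_extClosed (2 * d)) D
    (cofIn_unit_of_tel (bigCell_extClosed (2 * d)) (fun X hX => BigCell.coprod X hX)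
      (fun X hX => (hX.shift 1 (2 * d + 1) rfl).mono (by omega)) hW hR u hu η hη
      (fun n => (hcof n).mono fun X hX => hX.bigCell (2 * d) le_rfl))

end Vale.Agent.P251.M
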