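import Vale.Agent.P251.M.PiZero

/-!
# P251, part M (task M5): the lowest homotopy groups of a ring with unit of connectivity 2

Let `η : 𝟙 ⟶ R` have a cofibre `J` with `π_k J = 0` for `k < 2` (e.g. `R = MU`). Then
`π_k 𝟙 = π_k R` for `k ≤ 0` and `π_1 𝟙 → π_1 R` is onto.
-/

open CategoryTheory MonoidalCategory Limits Pretriangulated ZeroObject
open Vale.Agent.P251.T Vale.Agent.P251.S Vale.Agent.P251.H Vale.Agent.P251.I

universe v u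

set_option linter.unusedSectionVars false
set_option linter.style.haveILetI false

namespace Vale.Agent.P251.M

variable {T : Type u} [Category.{v} T] [Preadditive T] [HasZeroObject T]
    [HasShift T ℤ] [∀ n : ℤ, (shiftFunctor T n).Additive] [Pretriangulated T]
    [MonoidalCategory T]

section Low

variable {R J : T} {η : 𝟙_ T ⟶ R} {a : R ⟶ J} {b : J ⟶ (𝟙_ T)⟦(1 : ℤ)⟧}

lemma exists_lift_unit (D : Dist η a b) {n : ℤ} (hJ : Conn n J) (k : ℤ) (hk : k < n)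
    (f : (𝟙_ T)⟦k⟧ ⟶ R) : ∃ g : (𝟙_ T)⟦k⟧ ⟶ 𝟙_ T, g ≫ η = f :=
  D.lift₂ f (hJ k hk _)

lemma eq_zero_of_comp_unit (D : Dist η a b) {n : ℤ} (hJ : Conn n J) (k : ℤ) (hk : k + 1 < n)
    (g : (𝟙_ T)⟦k⟧ ⟶ 𝟙_ T) (hg : g ≫ η = 0) : g = 0 := by
  obtain ⟨x, y, D'⟩ := Dist.invRot' D
  obtain ⟨c, hc⟩ := D'.lift₂ g hg
  have h1 : c = 0 := eq_zero_of_shift (k + 1) (-1) k (by ring) (fun f => hJ (k + 1) hk f) c
  rw [← hc, h1, zero_comp]

lemma conn_of_unit (D : Dist η a b) {m n : ℤ} (h1 : Conn m (𝟙_ T)) (hJ : Conn n J) (hmn : m ≤ n) :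
    Conn m R := Conn.ext _ D h1 (hJ.mono hmn)

end Low

section PiZero

variable [SymmetricCategory T] [TensorTriangulated T] (F : SpaceFunctor T)
  {R J : T} {η : 𝟙_ T ⟶ R} {a : R ⟶ J} {b : J ⟶ (𝟙_ T)⟦(1 : ℤ)⟧}

include F in
/-- `π_k R = 0` for `k < 0`. -/
theorem conn_ring (D : Dist η a b) (hJ : Conn 2 J) : Conn (0 : ℤ) R :=
  conn_of_unit D (unit_conn F) hJ (by norm_num)

include F in
/-- `π_0 R = ℤ · 1`. -/
theorem exists_int_ring (D : Dist η a b) (hJ : Conn 2 J) (f : 𝟙_ T ⟶ R) :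
    ∃ m : ℤ, f = m • η := by
  let e : (𝟙_ T)⟦(0 : ℤ)⟧ ≅ 𝟙_ T := (shiftFunctorZero T ℤ).app (𝟙_ T)
  obtain ⟨g, hg⟩ := exists_lift_unit D hJ 0 (by norm_num) (e.hom ≫ f)
  obtain ⟨m, hm⟩ := exists_int_unit F (e.inv ≫ g)
  refine ⟨m, ?_⟩
  have h1 : f = (e.inv ≫ g) ≫ η := by
    rw [Category.assoc, hg, Iso.inv_hom_id_assoc]
  rw [h1, hm, Preadditive.zsmul_comp, Category.id_comp]

include F in
/-- `ℤ → π_0 R` is injective. -/
theorem eq_zero_of_zsmul_unit (D : Dist η a b) (hJ : Conn 2 J) (m : ℤ) (h : m • η = 0) :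
    m = 0 := by
  apply eq_zero_of_zsmul_id F m
  let e : (𝟙_ T)⟦(0 : ℤ)⟧ ≅ 𝟙_ T := (shiftFunctorZero T ℤ).app (𝟙_ T)
  have h1 : (e.hom ≫ (m • 𝟙 (𝟙_ T))) ≫ η = 0 := by
    rw [Category.assoc, Preadditive.zsmul_comp, Category.id_comp, h, comp_zero]
  have h2 := eq_zero_of_comp_unit D hJ 0 (by norm_num) _ h1
  rw [← cancel_epi e.hom, h2, comp_zero]

end PiZero

end Vale.Agent.P251.M
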