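import Vale.Agent.P251.T.Axioms
import Mathlib.CategoryTheory.Monoidal.Closed.Braided
import Mathlib.CategoryTheory.ObjectProperty.Basic
import Mathlib.CategoryTheory.Limits.Preserves.Shapes.Products
import Mathlib.CategoryTheory.Triangulated.TriangleShift
import Mathlib.Tactic

/-!
# P251, part M (task M5): connectivity in a tensor triangulated category

* `tensorShift X n : X ⊗ 𝟙⟦n⟧ ≅ X⟦n⟧` (existence only, no coherence);
* `Conn n X` : `π_k X = 0` for `k < n`;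
* `BigCell n` : the smallest class containing `𝟙⟦k⟧`, `k ≥ n`, closed under (small) coproducts and
  extensions; it is closed under cones of maps of coproducts (telescopes), and
  `BigCell m X → BigCell n Y → BigCell (m + n) (X ⊗ Y)`.
-/

open CategoryTheory MonoidalCategory Limits Pretriangulated
open Vale.Agent.P251.T

universe v u

set_option linter.unusedSectionVars false
set_option linter.style.haveILetI false

namespace Vale.Agent.P251.M

variable {T : Type u} [Category.{v} T] [Preadditive T] [HasZeroObject T]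
    [HasShift T ℤ] [∀ n : ℤ, (shiftFunctor T n).Additive] [Pretriangulated T]

section Shift

omit [Preadditive T] [HasZeroObject T] [∀ n : ℤ, (shiftFunctor T n).Additive]
  [Pretriangulated T] in
/-- The shift by `n` reflects isomorphy (existence). -/
lemma nonempty_iso_of_shift {X Y : T} (n : ℤ) (h : Nonempty (X⟦n⟧ ≅ Y⟦n⟧)) : Nonempty (X ≅ Y) := by
  obtain ⟨e⟩ := h
  exact ⟨(shiftFunctor T n).preimageIso e⟩

variable [MonoidalCategory T] [SymmetricCategory T] [TensorTriangulated T]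

/-- `X ⊗ Y⟦1⟧ ≅ (X ⊗ Y)⟦1⟧`. -/
noncomputable def tensorShiftOne (X Y : T) : X ⊗ (Y⟦(1 : ℤ)⟧) ≅ (X ⊗ Y)⟦(1 : ℤ)⟧ :=
  whiskerLeftIso X (TensorTriangulated.e Y).symm ≪≫ (α_ X Y ((𝟙_ T)⟦(1 : ℤ)⟧)).symm ≪≫
    TensorTriangulated.e (X ⊗ Y)

lemma nonempty_tensor_shift (X Y : T) (n : ℤ) :
    Nonempty (X ⊗ (Y⟦n⟧) ≅ (X ⊗ Y)⟦n⟧) := by
  induction n with
  | zero =>
    exact ⟨whiskerLeftIso X ((shiftFunctorZero T ℤ).app Y) ≪≫
      ((shiftFunctorZero T ℤ).app (X ⊗ Y)).symm⟩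
  | succ n ih =>
    obtain ⟨e⟩ := ih
    exact ⟨whiskerLeftIso X ((shiftFunctorAdd T (n : ℤ) 1).app Y) ≪≫
      tensorShiftOne X (Y⟦(n : ℤ)⟧) ≪≫ (shiftFunctor T (1 : ℤ)).mapIso e ≪≫
      ((shiftFunctorAdd T (n : ℤ) 1).app (X ⊗ Y)).symm⟩
  | pred n ih =>
    obtain ⟨e⟩ := ih
    refine nonempty_iso_of_shift 1 ⟨(tensorShiftOne X (Y⟦(-(n : ℤ) - 1)⟧)).symm ≪≫
      whiskerLeftIso X ((shiftFunctorAdd' T (-(n : ℤ) - 1) 1 (-(n : ℤ)) (by ring)).app Y).symm ≪≫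
      e ≪≫ (shiftFunctorAdd' T (-(n : ℤ) - 1) 1 (-(n : ℤ)) (by ring)).app (X ⊗ Y)⟩

/-- A (non-canonical) isomorphism `X ⊗ Y⟦n⟧ ≅ (X ⊗ Y)⟦n⟧`. -/
noncomputable def tensorShiftIso (X Y : T) (n : ℤ) : X ⊗ (Y⟦n⟧) ≅ (X ⊗ Y)⟦n⟧ :=
  (nonempty_tensor_shift X Y n).some

/-- A (non-canonical) isomorphism `X ⊗ 𝟙⟦n⟧ ≅ X⟦n⟧`. -/
noncomputable def tensorUnitShiftIso (X : T) (n : ℤ) : X ⊗ ((𝟙_ T)⟦n⟧) ≅ X⟦n⟧ :=
  tensorShiftIso X (𝟙_ T) n ≪≫ (shiftFunctor T n).mapIso (ρ_ X)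

end Shift

section Conn

variable [MonoidalCategory T]

/-- `Conn n X` : `π_k X = 0` for `k < n`. -/
def Conn (n : ℤ) (X : T) : Prop := ∀ k : ℤ, k < n → ∀ f : (𝟙_ T)⟦k⟧ ⟶ X, f = 0

lemma Conn.mono {m n : ℤ} {X : T} (h : m ≤ n) (hX : Conn n X) : Conn m X :=
  fun k hk f => hX k (by omega) f

lemma Conn.of_iso {n : ℤ} {X Y : T} (e : X ≅ Y) (hX : Conn n X) : Conn n Y := fun k hk f => by
  have := hX k hk (f ≫ e.inv)
  rw [← cancel_mono e.inv, this, zero_comp]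

lemma Conn.of_retract {n : ℤ} {X Y : T} (i : Y ⟶ X) (r : X ⟶ Y) (h : i ≫ r = 𝟙 Y)
    (hX : Conn n X) : Conn n Y := fun k hk f => by
  have := hX k hk (f ≫ i)
  calc f = (f ≫ i) ≫ r := by rw [Category.assoc, h, Category.comp_id]
    _ = 0 := by rw [this, zero_comp]

lemma Conn.zero {n : ℤ} {X : T} (hX : IsZero X) : Conn n X := fun _ _ _ => hX.eq_of_tgt _ _

lemma Conn.shift {n : ℤ} {X : T} (hX : Conn n X) (m p : ℤ) (h : n + m = p) :
    Conn p (X⟦m⟧) := by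
  intro k hk f
  have e : (𝟙_ T)⟦k⟧ ≅ (((𝟙_ T)⟦k - m⟧))⟦m⟧ :=
    (shiftFunctorAdd' T (k - m) m k (by ring)).app (𝟙_ T)
  obtain ⟨g, hg⟩ := (shiftFunctor T m).map_surjective (e.inv ≫ f)
  have := hX (k - m) (by omega) g
  rw [this, Functor.map_zero] at hg
  rw [← cancel_epi e.inv, ← hg, comp_zero]

lemma Conn.ext {n : ℤ} (Δ : Triangle T) (hΔ : Δ ∈ distTriang T)
    (h₁ : Conn n Δ.obj₁) (h₃ : Conn n Δ.obj₃) : Conn n Δ.obj₂ := by
  intro k hk f
  obtain ⟨g, hg⟩ := Triangle.coyoneda_exact₂ Δ hΔ f (h₃ k hk _)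
  rw [hg, h₁ k hk g, zero_comp]

lemma Conn.ext₃ {n : ℤ} (Δ : Triangle T) (hΔ : Δ ∈ distTriang T)
    (h₂ : Conn n Δ.obj₂) (h₁ : Conn (n - 1) Δ.obj₁) : Conn n Δ.obj₃ :=
  Conn.ext _ (rot_of_distTriang _ hΔ) h₂ (h₁.shift 1 n (by ring))

lemma Conn.ext₁ {n : ℤ} (Δ : Triangle T) (hΔ : Δ ∈ distTriang T)
    (h₂ : Conn n Δ.obj₂) (h₃ : Conn (n + 1) Δ.obj₃) : Conn n Δ.obj₁ :=
  Conn.ext _ (inv_rot_of_distTriang _ hΔ) (h₃.shift (-1) n (by ring)) h₂

/-- An object of arbitrary connectivity is zero, if the unit generates. -/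
lemma isZero_of_forall_conn (hgen : ∀ X : T, (∀ (n : ℤ) (f : (𝟙_ T)⟦n⟧ ⟶ X), f = 0) → IsZero X)
    {X : T} (h : ∀ n, Conn n X) : IsZero X :=
  hgen X fun n f => h (n + 1) n (by omega) f

end Conn

section BigCell

variable [MonoidalCategory T] [HasCoproducts.{0} T]

variable (T) in
/-- The smallest class of objects containing `𝟙⟦k⟧`, `k ≥ n`, closed under small coproducts
and extensions. -/
inductive BigCell (n : ℤ) : T → Prop
  | sphere (k : ℤ) (hk : n ≤ k) : BigCell n ((𝟙_ T)⟦k⟧)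
  | coprod {I : Type} (X : I → T) (h : ∀ i, BigCell n (X i)) : BigCell n (∐ X)
  | ext (Δ : Triangle T) (hΔ : Δ ∈ distTriang T) (h₁ : BigCell n Δ.obj₁)
      (h₃ : BigCell n Δ.obj₃) : BigCell n Δ.obj₂

namespace BigCell

lemma mono {m n : ℤ} (h : m ≤ n) {X : T} (hX : BigCell T n X) : BigCell T m X := by
  induction hX with
  | sphere k hk => exact sphere k (h.trans hk)
  | coprod X _ ih => exact coprod X ih
  | ext Δ hΔ _ _ ih₁ ih₃ => exact ext Δ hΔ ih₁ ih₃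

/-- the initial object is the empty coproduct -/
lemma isZero_coprod_empty (X : Empty → T) : IsZero (∐ X) := by
  rw [IsZero.iff_id_eq_zero]
  exact Sigma.hom_ext _ _ (fun i => i.elim)

lemma coprod_empty (n : ℤ) : BigCell T n (∐ (Empty.elim : Empty → T)) :=
  coprod _ (fun i => i.elim)

lemma of_iso {n : ℤ} {X Y : T} (e : X ≅ Y) (hX : BigCell T n X) : BigCell T n Y := by
  have hz : IsZero (∐ (Empty.elim : Empty → T)) := isZero_coprod_empty _
  refine ext (Triangle.mk e.hom (0 : Y ⟶ ∐ (Empty.elim : Empty → T)) 0) ?_ hX (coprod_empty n)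
  rw [Triangle.distinguished_iff_of_isZero₃ _ hz]
  change IsIso e.hom
  infer_instance

lemma zero {n : ℤ} {X : T} (hX : IsZero X) : BigCell T n X :=
  of_iso ((isZero_coprod_empty (Empty.elim : Empty → T)).iso hX) (coprod_empty n)

lemma shift {n : ℤ} {X : T} (hX : BigCell T n X) (m p : ℤ) (h : n + m = p) :
    BigCell T p (X⟦m⟧) := by
  induction hX with
  | sphere k hk =>
    exact of_iso ((shiftFunctorAdd' T k m (k + m) rfl).app (𝟙_ T)) (sphere (k + m) (by omega))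
  | coprod X _ ih =>
    have e : (∐ fun i => (X i)⟦m⟧) ≅ (∐ X)⟦m⟧ :=
      (PreservesCoproduct.iso (shiftFunctor T m) X).symm
    exact of_iso e (coprod _ ih)
  | ext Δ hΔ _ _ ih₁ ih₃ =>
    exact ext _ (Triangle.shift_distinguished Δ hΔ m) ih₁ ih₃

/-- extension with the cell pieces at positions 2 and 1 -/
lemma ext₃ {n : ℤ} (Δ : Triangle T) (hΔ : Δ ∈ distTriang T)
    (h₂ : BigCell T n Δ.obj₂) (h₁ : BigCell T (n - 1) Δ.obj₁) : BigCell T n Δ.obj₃ :=
  ext _ (rot_of_distTriang _ hΔ) h₂ (h₁.shift 1 n (by ring))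

/-- the cone of a map between coproducts of objects of `BigCell n` (e.g. a telescope). -/
lemma cone {n : ℤ} (Δ : Triangle T) (hΔ : Δ ∈ distTriang T)
    (h₁ : BigCell T n Δ.obj₁) (h₂ : BigCell T n Δ.obj₂) : BigCell T n Δ.obj₃ :=
  ext₃ Δ hΔ h₂ (h₁.mono (by omega))

/-- `BigCell` objects are connected. -/
lemma conn {n : ℤ} {X : T} (hX : BigCell T n X)
    (h0 : Conn (0 : ℤ) (𝟙_ T))
    (hcomp : ∀ {I : Type} (Y : I → T) (k : ℤ) (f : (𝟙_ T)⟦k⟧ ⟶ ∐ Y),
      ∃ (s : Finset I) (g : (𝟙_ T)⟦k⟧ ⟶ ∐ (fun i : s => Y i)),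
        g ≫ Sigma.desc (fun i : s => Sigma.ι Y i) = f) : Conn n X := by
  induction hX with
  | sphere k hk =>
    exact (h0.shift k k (by ring)).mono hk
  | @coprod I X _ ih =>
    intro k hk f
    obtain ⟨s, g, rfl⟩ := hcomp X k f
    suffices g = 0 by rw [this, zero_comp]
    classical
    haveI : HasBiproductsOfShape s T := by
      haveI : HasFiniteBiproducts T := HasFiniteBiproducts.of_hasFiniteCoproducts
      infer_instance
    rw [← cancel_mono (biproduct.isoCoproduct (fun i : s => X i)).inv, zero_comp]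
    refine biproduct.hom_ext _ _ (fun i => ?_)
    rw [zero_comp]
    exact ih i k hk _
  | ext Δ hΔ _ _ ih₁ ih₃ => exact Conn.ext Δ hΔ ih₁ ih₃

section Tensor

variable [SymmetricCategory T] [TensorTriangulated T] [MonoidalClosed T]

lemma tensor {m n : ℤ} {X Y : T} (hX : BigCell T m X) (hY : BigCell T n Y) (p : ℤ)
    (h : m + n = p) : BigCell T p (X ⊗ Y) := by
  induction hY with
  | sphere k hk =>
    exact of_iso (tensorUnitShiftIso X k).symm ((hX.shift k (m + k) rfl).mono (by omega))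
  | coprod Y _ ih =>
    exact of_iso (PreservesCoproduct.iso (tensorLeft X) Y).symm (coprod _ ih)
  | ext Δ hΔ _ _ ih₁ ih₃ =>
    exact ext _ (TensorTriangulated.distinguished X Δ hΔ) ih₁ ih₃

end Tensor

end BigCell

end BigCell

end Vale.Agent.P251.M
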