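import Vale.Agent.P251.M.SpaceCells
import Vale.Agent.P251.G.FinSum
import Vale.Agent.P251.G.GLn
import Vale.Agent.P251.G.Pinch

/-!
# P251, part M (task M5): `End(𝟙) = ℤ`

* `sum_finProd` : `𝟙 = ∑ i, S (coll i) ≫ S (incl i)` for `k` disjoint copies of a space;
* `act g Z` : the action of `g : 𝟙_ T ⟶ 𝟙_ T` on `Z`;
* `exists_int_unit` : every `g : 𝟙_ T ⟶ 𝟙_ T` is an integer multiple of the identity;
* `zsmul_id_unit_ne_zero` : `m • 𝟙 = 0 → m = 0`.
-/

open CategoryTheory MonoidalCategory Limits Pretriangulated ZeroObject OnePoint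
open Vale.Agent.P251.T Vale.Agent.P251.S Vale.Agent.P251.H Vale.Agent.P251.G
  Vale.Agent.P251.G.LC Vale.Agent.P251.I

universe v u

set_option linter.unusedSectionVars false
set_option linter.style.haveILetI false

namespace Vale.Agent.P251.M

variable {T : Type u} [Category.{v} T] [Preadditive T] [HasZeroObject T]
    [HasShift T ℤ] [∀ n : ℤ, (shiftFunctor T n).Additive] [Pretriangulated T]

/-- A distinguished triangle with compatible splittings. -/
lemma split_id {A W U : T} {i : A ⟶ W} {q : W ⟶ U} {h : U ⟶ A⟦(1 : ℤ)⟧} (D : Dist i q h)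
    (r : W ⟶ A) (s : U ⟶ W) (hir : i ≫ r = 𝟙 A) (hsq : s ≫ q = 𝟙 U) (hsr : s ≫ r = 0) :
    r ≫ i + q ≫ s = 𝟙 W := by
  obtain ⟨e', he'⟩ := D.lift₂ (𝟙 W - r ≫ i - q ≫ s) (by
    rw [Preadditive.sub_comp, Preadditive.sub_comp, Category.id_comp, Category.assoc,
      Category.assoc, D.zero₁₂, hsq, comp_zero, Category.comp_id, sub_zero, sub_self])
  have h1 : (𝟙 W - r ≫ i - q ≫ s) ≫ r = 0 := by
    rw [Preadditive.sub_comp, Preadditive.sub_comp, Category.id_comp, Category.assoc,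
      Category.assoc, hir, hsr, comp_zero, Category.comp_id, sub_zero, sub_self]
  have h2 : e' = 0 := by
    rw [← he', Category.assoc, hir, Category.comp_id] at h1
    exact h1
  rw [h2, zero_comp] at he'
  have h3 : 𝟙 W - (r ≫ i + q ≫ s) = 0 := by rw [he']; abel
  exact (sub_eq_zero.mp h3).symm

variable [MonoidalCategory T] [SymmetricCategory T] [TensorTriangulated T]

section FinProd

variable (F : SpaceFunctor T)

/-- `k` copies of `X` in `FCat` -/
abbrev fProd (X : FCat) (k : ℕ) : FCat := FCat.mk (fc_finProd X.2 k)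

/-- the inclusion of the `i`-th copy -/
abbrev fIncl (X : FCat) (k : ℕ) (i : Fin k) : X ⟶ fProd X k := FCat.hom (finIncl X.obj k i)

/-- the collapse onto the `i`-th copy -/
noncomputable abbrev fColl (X : FCat) (k : ℕ) (i : Fin k) : fProd X k ⟶ X :=
  FCat.hom (finColl X.obj k i)

lemma S_comp_eq {X Y Z : FCat} (f : X ⟶ Y) (g : Y ⟶ Z) (h : X ⟶ Z)
    (w : f.hom ≫ g.hom = h.hom) : F.S.map f ≫ F.S.map g = F.S.map h := by
  rw [← Functor.map_comp]
  congr 1
  exact ObjectProperty.hom_ext _ w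

lemma S_comp_eq_id {X Y : FCat} (f : X ⟶ Y) (g : Y ⟶ X)
    (w : f.hom ≫ g.hom = 𝟙 X.obj) : F.S.map f ≫ F.S.map g = 𝟙 (F.S.obj X) := by
  rw [S_comp_eq F f g (𝟙 X) w, F.S.map_id]

lemma S_comp_eq_zero {X Y Z : FCat} (f : X ⟶ Y) (g : Y ⟶ Z)
    (w : f.hom ≫ g.hom = 0) : F.S.map f ≫ F.S.map g = 0 := by
  rw [S_comp_eq F f g (FCat.hom 0) w, S_map_zero]

/-- The identity of `k` disjoint copies of `X` is the sum of the projections. -/
theorem sum_finProd (X : FCat) : ∀ k : ℕ,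
    ∑ i : Fin k, F.S.map (fColl X k i) ≫ F.S.map (fIncl X k i) = 𝟙 (F.S.obj (fProd X k))
  | 0 => by
    have hz : IsZero (F.S.obj (fProd X 0)) :=
      F.isZero (X := fProd X 0) (inferInstanceAs (IsEmpty (Fin 0 × X.obj)))
    exact hz.eq_of_src _ _
  | k + 1 => by
    let z : fProd X k ⟶ fProd X (k + 1) := FCat.hom (finCast X.obj k)
    let r : fProd X (k + 1) ⟶ fProd X k := FCat.hom (finDrop X.obj k)
    obtain ⟨h, D⟩ := exists_cofTriangle F z (cofib_finCast X.obj k)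
    let e : FCat.mk (FC.cof (cofib_finCast X.obj k) (fProd X k).2 (fProd X (k + 1)).2) ≅ X :=
      fcIso (cofFinCast X.obj k)
    have D' : Dist (F.S.map z) (F.S.map (fColl X (k + 1) (Fin.last k)))
        ((F.S.mapIso e).inv ≫ h) := by
      refine D.of_iso₃ (F.S.mapIso e).inv ?_ rfl
      rw [Iso.comp_inv_eq]
      exact (S_comp_eq F _ _ _ (cofMap_cofFinCast X.obj k)).symm
    have key := split_id D' (F.S.map r) (F.S.map (fIncl X (k + 1) (Fin.last k)))
      (S_comp_eq_id F _ _ (finCast_finDrop X.obj k))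
      (S_comp_eq_id F _ _ (finIncl_finColl X.obj (k + 1) (Fin.last k)))
      (S_comp_eq_zero F _ _ (finIncl_last_finDrop X.obj k))
    rw [Fin.sum_univ_castSucc]
    have h1 : F.S.map r ≫ F.S.map z = ∑ i : Fin k,
        F.S.map (fColl X (k + 1) i.castSucc) ≫ F.S.map (fIncl X (k + 1) i.castSucc) := by
      calc F.S.map r ≫ F.S.map z
          = F.S.map r ≫ (∑ i : Fin k, F.S.map (fColl X k i) ≫ F.S.map (fIncl X k i)) ≫
              F.S.map z := by rw [sum_finProd X k, Category.id_comp]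
        _ = ∑ i : Fin k, (F.S.map r ≫ F.S.map (fColl X k i)) ≫
              (F.S.map (fIncl X k i) ≫ F.S.map z) := by
            rw [Preadditive.sum_comp, Preadditive.comp_sum]
            refine Finset.sum_congr rfl fun i _ => ?_
            simp only [Category.assoc]
        _ = _ := by
            refine Finset.sum_congr rfl fun i _ => ?_
            rw [S_comp_eq F r (fColl X k i) (fColl X (k + 1) i.castSucc)
                (finDrop_finColl X.obj k i),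
              S_comp_eq F (fIncl X k i) z (fIncl X (k + 1) i.castSucc)
                (finIncl_castSucc X.obj k i)]
    rw [← h1]
    exact key

/-- Morphisms through `k` disjoint copies. -/
theorem S_map_finProd {X Z Y : FCat} (k : ℕ) (c : Z ⟶ fProd X k) (g : fProd X k ⟶ Y) :
    F.S.map c ≫ F.S.map g = ∑ i : Fin k, F.S.map (c ≫ fColl X k i) ≫
      F.S.map (fIncl X k i ≫ g) := by
  calc F.S.map c ≫ F.S.map g
      = F.S.map c ≫ (∑ i : Fin k, F.S.map (fColl X k i) ≫ F.S.map (fIncl X k i)) ≫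
          F.S.map g := by rw [sum_finProd F X k, Category.id_comp]
    _ = _ := by
      rw [Preadditive.sum_comp, Preadditive.comp_sum]
      refine Finset.sum_congr rfl fun i _ => ?_
      simp only [Functor.map_comp, Category.assoc]

end FinProd

section Act

/-- the action of an endomorphism of the unit -/
def act (g : 𝟙_ T ⟶ 𝟙_ T) (Z : T) : Z ⟶ Z := (λ_ Z).inv ≫ (g ▷ Z) ≫ (λ_ Z).hom

lemma act_naturality (g : 𝟙_ T ⟶ 𝟙_ T) {Z W : T} (f : Z ⟶ W) : act g Z ≫ f = f ≫ act g W := by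
  simp only [act, Category.assoc]
  rw [← leftUnitor_naturality, ← whisker_exchange_assoc, leftUnitor_inv_naturality_assoc]

lemma act_unit (g : 𝟙_ T ⟶ 𝟙_ T) : act g (𝟙_ T) = g := by
  simp only [act]
  rw [unitors_equal, rightUnitor_naturality, ← unitors_equal, Iso.inv_hom_id_assoc]

lemma act_whiskerRight (g : 𝟙_ T ⟶ 𝟙_ T) (Z W : T) : act g Z ▷ W = act g (Z ⊗ W) := by
  simp only [act, comp_whiskerRight, leftUnitor_tensor_inv, leftUnitor_tensor_hom, whiskerRight_tensor,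
    Category.assoc, Iso.hom_inv_id_assoc]

lemma whiskerLeft_act (g : 𝟙_ T ⟶ 𝟙_ T) (Z W : T) : Z ◁ act g W = act g (Z ⊗ W) := by
  have h1 := BraidedCategory.braiding_naturality_right Z (act g W)
  rw [act_whiskerRight] at h1
  have h2 := act_naturality g (β_ Z W).hom
  rw [← h2] at h1
  exact (cancel_mono _).mp h1

lemma act_add (g g' : 𝟙_ T ⟶ 𝟙_ T) (Z : T) : act (g + g') Z = act g Z + act g' Z := by
  simp [act, MonoidalPreadditive.add_whiskerRight, Preadditive.add_comp, Preadditive.comp_add]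

lemma act_id (Z : T) : act (𝟙 (𝟙_ T)) Z = 𝟙 Z := by simp [act]

/-- `act` as a homomorphism -/
def actHom (Z : T) : (𝟙_ T ⟶ 𝟙_ T) →+ (Z ⟶ Z) where
  toFun g := act g Z
  map_zero' := by simp [act, MonoidalPreadditive.zero_whiskerRight]
  map_add' g g' := act_add g g' Z

lemma act_zsmul_id (m : ℤ) (Z : T) : act (m • 𝟙 (𝟙_ T)) Z = m • 𝟙 Z := by
  change actHom Z (m • 𝟙 (𝟙_ T)) = _
  rw [map_zsmul]
  congr 1
  exact act_id Z

lemma eq_of_act_shift (g g' : 𝟙_ T ⟶ 𝟙_ T) {Z : T} (n : ℤ) (e : Z ≅ (𝟙_ T)⟦n⟧)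
    (h : act g Z = act g' Z) : g = g' := by
  have h1 : act g ((𝟙_ T)⟦n⟧) = act g' ((𝟙_ T)⟦n⟧) := by
    rw [← cancel_epi e.hom, ← act_naturality, ← act_naturality, h]
  have h2 : g ▷ ((𝟙_ T)⟦n⟧) = g' ▷ ((𝟙_ T)⟦n⟧) := by
    simpa [act] using h1
  rw [← sub_eq_zero]
  refine eq_zero_of_whiskerRight_shift _ n ?_
  have h3 : (g - g') ▷ ((𝟙_ T)⟦n⟧) = g ▷ ((𝟙_ T)⟦n⟧) - g' ▷ ((𝟙_ T)⟦n⟧) := by
    have := ((tensoringRight T).obj ((𝟙_ T)⟦n⟧)).map_sub (f := g) (g := g')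
    exact this
  rw [h3, h2, sub_self]

end Act

section Space

variable (F : SpaceFunctor T)

lemma S_whiskerRight {X Y : FCat} (f : X ⟶ Y) (Z : FCat) :
    F.S.map (f ▷ Z) = (Functor.Monoidal.μIso F.S X Z).inv ≫ (F.S.map f ▷ F.S.obj Z) ≫
      (Functor.Monoidal.μIso F.S Y Z).hom := Functor.Monoidal.map_whiskerRight F.S f Z

lemma S_whiskerLeft (Z : FCat) {X Y : FCat} (f : X ⟶ Y) :
    F.S.map (Z ◁ f) = (Functor.Monoidal.μIso F.S Z X).inv ≫ (F.S.obj Z ◁ F.S.map f) ≫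
      (Functor.Monoidal.μIso F.S Z Y).hom := Functor.Monoidal.map_whiskerLeft F.S Z f

/-- The swap of `ℝ × ℝ` goes to `-1`. -/
theorem S_swap : F.S.map (β_ RRF RRF).hom = -𝟙 (F.S.obj (RRF ⊗ RRF)) := by
  have h1 : (β_ (F.S.obj RRF) (F.S.obj RRF)).hom = -𝟙 _ := by
    have h2 := BraidedCategory.braiding_naturality F.line.hom F.line.hom
    rw [TensorTriangulated.sign, Preadditive.comp_neg, Category.comp_id] at h2
    rw [← cancel_mono (F.line.hom ⊗ₘ F.line.hom), ← h2, Preadditive.neg_comp, Category.id_comp]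
  rw [Functor.map_braiding, h1, Preadditive.neg_comp, Category.id_comp, Preadditive.comp_neg]
  congr 1
  exact Functor.Monoidal.δ_μ F.S RRF RRF

/-- the vector space underlying `SphE n` -/
abbrev EE (n : ℕ) : Type := (ℝ × ℝ) × (Fin n → ℝ)

theorem fcEE (n : ℕ) : FC (LC.of (EE n)) := (fcRR.tensor fcRR).tensor (FC.sph n)

/-- The model `(ℝ × ℝ) × ℝⁿ` of the sphere. -/
abbrev SphE (n : ℕ) : FCat := FCat.mk (fcEE n)

/-- the swap of the first two coordinates -/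
noncomputable def swapE (n : ℕ) : EE n ≃L[ℝ] EE n :=
  (ContinuousLinearEquiv.prodComm ℝ ℝ ℝ).prodCongr (ContinuousLinearEquiv.refl ℝ (Fin n → ℝ))

theorem det_swapE (n : ℕ) : (swapE n : EE n →L[ℝ] EE n).det = -1 := by
  have h1 : ((swapE n : EE n →L[ℝ] EE n) : EE n →ₗ[ℝ] EE n) =
      (LinearEquiv.prodComm ℝ ℝ ℝ : (ℝ × ℝ) →ₗ[ℝ] (ℝ × ℝ)).prodMap LinearMap.id := by
    ext x <;> rfl
  rw [ContinuousLinearMap.det, h1, LinearMap.det_prodMap, LinearMap.det_id, mul_one,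
    ← LinearMap.det_toMatrix (Module.Basis.finTwoProd ℝ), Matrix.det_fin_two]
  simp [LinearMap.toMatrix_apply]

theorem S_lin_swapE (n : ℕ) :
    F.S.map (FCat.hom (lin (swapE n)) : SphE n ⟶ SphE n) = -𝟙 (F.S.obj (SphE n)) := by
  have h1 : (FCat.hom (lin (swapE n)) : SphE n ⟶ SphE n) = (β_ RRF RRF).hom ▷ SphF n := by
    apply ObjectProperty.hom_ext
    apply hom_ext
    rintro ⟨⟨x, y⟩, z⟩
    rfl
  have h3 : F.S.map ((β_ RRF RRF).hom ▷ SphF n) = -𝟙 (F.S.obj ((RRF ⊗ RRF) ⊗ SphF n)) := by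
    rw [S_whiskerRight, S_swap]
    have h2 : (-𝟙 (F.S.obj (RRF ⊗ RRF))) ▷ F.S.obj (SphF n) =
        -𝟙 (F.S.obj (RRF ⊗ RRF) ⊗ F.S.obj (SphF n)) := by
      have := ((tensoringRight T).obj (F.S.obj (SphF n))).map_neg
        (f := 𝟙 (F.S.obj (RRF ⊗ RRF)))
      rw [CategoryTheory.Functor.map_id] at this
      exact this
    rw [h2, Preadditive.neg_comp, Category.id_comp, Preadditive.comp_neg, Iso.inv_hom_id]
  rw [h1]
  exact h3

theorem S_lin (n : ℕ) (a : EE n ≃L[ℝ] EE n) : ∃ m : ℤ,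
    F.S.map (FCat.hom (lin a) : SphE n ⟶ SphE n) = m • 𝟙 (F.S.obj (SphE n)) := by
  have hdet : (a : EE n →L[ℝ] EE n).det ≠ 0 := by
    have := a.toLinearEquiv.isUnit_det'
    exact this.ne_zero
  rcases lt_or_gt_of_ne hdet with h | h
  · refine ⟨-1, ?_⟩
    rw [neg_one_smul, ← S_lin_swapE]
    refine F.map_eq _ _ (homotopic_lin_of_det a (swapE n) ?_)
    rw [det_swapE]
    linarith
  · refine ⟨1, ?_⟩
    rw [one_smul, ← F.S.map_id]
    exact F.map_eq _ _ (homotopic_lin_id a h)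

/-- Every endomorphism of a sphere induces an integer, if linear isomorphisms do. -/
theorem S_int_aux {E : Type} [NormedAddCommGroup E] [NormedSpace ℝ E] [FiniteDimensional ℝ E]
    [ProperSpace E] (hE : FC (LC.of E))
    (hlin : ∀ a : E ≃L[ℝ] E, ∃ m : ℤ,
      F.S.map (FCat.hom (lin a) : FCat.mk hE ⟶ FCat.mk hE) = m • 𝟙 (F.S.obj (FCat.mk hE)))
    (f : LC.of E ⟶ LC.of E) : ∃ m : ℤ,
    F.S.map (FCat.hom f : FCat.mk hE ⟶ FCat.mk hE) = m • 𝟙 (F.S.obj (FCat.mk hE)) := by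
  obtain ⟨k, a, c, hc, hf⟩ := exists_branches f
  let c' : FCat.mk hE ⟶ fProd (FCat.mk hE) k := FCat.hom c
  let g : fProd (FCat.mk hE) k ⟶ FCat.mk hE := FCat.hom (fold a)
  have h1 : F.S.map (FCat.hom f : FCat.mk hE ⟶ FCat.mk hE) = F.S.map c' ≫ F.S.map g := by
    rw [← Functor.map_comp]
    exact F.map_eq _ _ hf
  choose m hm using fun i => hlin (a i)
  refine ⟨∑ i, m i, ?_⟩
  rw [h1, S_map_finProd, Finset.sum_smul]
  refine Finset.sum_congr rfl fun i _ => ?_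
  have h2 : F.S.map (c' ≫ fColl (FCat.mk hE) k i) = 𝟙 _ := by
    rw [← F.S.map_id]
    exact F.map_eq _ _ (hc i)
  have h3 : fIncl (FCat.mk hE) k i ≫ g = FCat.hom (lin (a i)) := by
    apply ObjectProperty.hom_ext
    apply hom_ext
    intro x
    rfl
  rw [h2, h3, hm, Category.id_comp]

theorem S_int (n : ℕ) (f : SphE n ⟶ SphE n) : ∃ m : ℤ,
    F.S.map f = m • 𝟙 (F.S.obj (SphE n)) :=
  S_int_aux F (fcEE n) (S_lin F n) f.hom

/-- `S (SphE n) ≅ 𝟙⟦2 + n⟧`. -/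
noncomputable def sphEIso (n : ℕ) : F.S.obj (SphE n) ≅ (𝟙_ T)⟦((1 + 1 + n : ℕ) : ℤ)⟧ :=
  F.S.mapIso (fcIso (X := SphE n) (Y := SphF (1 + 1 + n))
    (whiskerRightIso ((lineSph ⊗ᵢ lineSph).symm ≪≫ sphTensor 1 1) (Sph n) ≪≫
      sphTensor (1 + 1) n)) ≪≫ sphIso F (1 + 1 + n)

/-- Every endomorphism of the unit acts on `S (SphE n)`, for some `n`, through a map of spaces. -/
theorem exists_realize (g : 𝟙_ T ⟶ 𝟙_ T) : ∃ (n : ℕ) (f : SphE n ⟶ SphE n),
    F.S.map f = act g (F.S.obj (SphE n)) := by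
  obtain ⟨n, h, hh⟩ := F.full (act g (F.S.obj (𝟙_ FCat)))
  have h0 : F.S.map h = act g (F.S.obj (𝟙_ FCat ⊗ SphF n)) := by
    rw [hh, act_whiskerRight, act_naturality, Iso.inv_hom_id_assoc]
  let h1 : SphF n ⟶ SphF n := (λ_ (SphF n)).inv ≫ h ≫ (λ_ (SphF n)).hom
  have e1 : F.S.map h1 = act g (F.S.obj (SphF n)) := by
    rw [Functor.map_comp, Functor.map_comp, h0, act_naturality, ← Functor.map_comp_assoc,
      Iso.inv_hom_id, F.S.map_id, Category.id_comp]
  have e2 : F.S.map ((RRF ⊗ RRF) ◁ h1) = act g (F.S.obj ((RRF ⊗ RRF) ⊗ SphF n)) := by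
    rw [S_whiskerLeft, e1, whiskerLeft_act, act_naturality, Iso.inv_hom_id_assoc]
  exact ⟨n, (RRF ⊗ RRF) ◁ h1, e2⟩

include F in
/-- Every endomorphism of the unit is an integer. -/
theorem exists_int_unit (g : 𝟙_ T ⟶ 𝟙_ T) : ∃ m : ℤ, g = m • 𝟙 (𝟙_ T) := by
  obtain ⟨n, f, hf⟩ := exists_realize F g
  obtain ⟨m, hm⟩ := S_int F n f
  refine ⟨m, eq_of_act_shift g _ _ (sphEIso F n) ?_⟩
  rw [← hf, hm, act_zsmul_id]

/-- the collapse onto `m` lines, followed by the collapse onto one of them -/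
theorem ofOpen_lines_finColl (m : ℕ) (i : Fin m) :
    ofOpen (X := LC.of ℝ) (Y := finProd RR m) (lines m) (isOpenEmbedding_lines m) ≫
      finColl RR m i = collapseBall ((i : ℕ) : ℝ) (1 / 2) (by norm_num) := by
  apply hom_ext
  intro x
  rw [app_comp]
  by_cases hx : x ∈ Set.range (lines m)
  · obtain ⟨⟨j, y⟩, rfl⟩ := hx
    have h1 : app (ofOpen (X := LC.of ℝ) (Y := finProd RR m) (lines m)
        (isOpenEmbedding_lines m)) ((lines m (j, y) : ℝ) : OnePoint ℝ) =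
        (((j, y) : Fin m × ℝ) : OnePoint (Fin m × ℝ)) :=
      app_ofOpen_coe (X := LC.of ℝ) (Y := finProd RR m) (lines m)
        (isOpenEmbedding_lines m) (j, y)
    rw [h1]
    by_cases hij : j = i
    · subst hij
      rw [app_finColl_same]
      exact (app_ofOpen_coe (X := LC.of ℝ) (Y := LC.of ℝ) (ballEmb ((j : ℕ) : ℝ) (1 / 2))
        (isOpenEmbedding_ballEmb ((j : ℕ) : ℝ) (by norm_num)) y).symm
    · rw [app_finColl_ne RR m hij]
      refine (app_ofOpen_of_notMem (X := LC.of ℝ) (Y := LC.of ℝ) (ballEmb ((i : ℕ) : ℝ) (1 / 2))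
        (isOpenEmbedding_ballEmb ((i : ℕ) : ℝ) (by norm_num)) ?_).symm
      intro hmem
      have h2 := (mem_range_ballEmb' ((i : ℕ) : ℝ) (by norm_num)).1 hmem
      have h3 := lines_mem_ball (j, y)
      exact Set.disjoint_left.1 (ball_disjoint fun h => hij (Fin.ext h)) h3 h2
  · have h1 : app (ofOpen (X := LC.of ℝ) (Y := finProd RR m) (lines m)
        (isOpenEmbedding_lines m)) (x : OnePoint ℝ) = ∞ :=
      app_ofOpen_of_notMem (X := LC.of ℝ) (Y := finProd RR m) (lines m)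
        (isOpenEmbedding_lines m) hx
    rw [h1, app_infty]
    refine (app_ofOpen_of_notMem (X := LC.of ℝ) (Y := LC.of ℝ) (ballEmb ((i : ℕ) : ℝ) (1 / 2))
      (isOpenEmbedding_ballEmb ((i : ℕ) : ℝ) (by norm_num)) ?_).symm
    rintro ⟨y, hy⟩
    exact hx ⟨(i, y), hy⟩

/-- The degree `m` map of the circle induces `m`. -/
theorem S_mfold (m : ℕ) : F.S.map (FCat.hom (mfold m) : RRF ⟶ RRF) =
    (m : ℤ) • 𝟙 (F.S.obj RRF) := by
  let c : RRF ⟶ fProd RRF m :=
    FCat.hom (ofOpen (X := LC.of ℝ) (Y := finProd RR m) (lines m) (isOpenEmbedding_lines m))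
  let g : fProd RRF m ⟶ RRF := FCat.hom (foldR m)
  have h1 : F.S.map (FCat.hom (mfold m) : RRF ⟶ RRF) = F.S.map c ≫ F.S.map g :=
    (S_comp_eq F c g _ rfl).symm
  rw [h1, S_map_finProd]
  have h2 : ∀ i : Fin m, F.S.map (c ≫ fColl RRF m i) ≫ F.S.map (fIncl RRF m i ≫ g) =
      𝟙 (F.S.obj RRF) := by
    intro i
    have h3 : F.S.map (c ≫ fColl RRF m i) = 𝟙 _ := by
      rw [← F.S.map_id]
      refine F.map_eq _ _ ?_
      have h4 : (c ≫ fColl RRF m i).hom = collapseBall ((i : ℕ) : ℝ) (1 / 2) (by norm_num) :=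
        ofOpen_lines_finColl m i
      rw [h4]
      exact homotopic_collapseBall ((i : ℕ) : ℝ) (by norm_num)
    have h5 : fIncl RRF m i ≫ g = 𝟙 RRF := by
      apply ObjectProperty.hom_ext
      apply hom_ext
      intro x
      rfl
    rw [h3, h5, F.S.map_id, Category.id_comp]
  rw [Finset.sum_congr rfl fun i _ => h2 i]
  simp

include F in
/-- `ℤ → End(𝟙)` is injective. -/
theorem eq_zero_of_nsmul_id (m : ℕ) (h : (m : ℤ) • 𝟙 (𝟙_ T) = 0) : m = 0 := by
  have h1 : F.S.map (FCat.hom (mfold m) : RRF ⟶ RRF) = F.S.map (FCat.hom 0 : RRF ⟶ RRF) := by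
    rw [S_mfold, S_map_zero, ← act_zsmul_id, h]
    exact (actHom (F.S.obj RRF)).map_zero
  obtain ⟨n, hn⟩ := F.faithful _ _ h1
  have h2 : deg (E := ℝ × (Fin n → ℝ)) (mfold m ▷ LC.of (Fin n → ℝ)) =
      deg (E := ℝ × (Fin n → ℝ)) ((0 : LC.of ℝ ⟶ LC.of ℝ) ▷ LC.of (Fin n → ℝ)) :=
    deg_homotopic hn
  rw [deg_whiskerRight, deg_whiskerRight, deg_mfold, deg_zero] at h2
  exact_mod_cast h2

include F in
/-- `ℤ → End(𝟙)` is injective. -/
theorem eq_zero_of_zsmul_id (m : ℤ) (h : m • 𝟙 (𝟙_ T) = 0) : m = 0 := by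
  obtain ⟨n, rfl | rfl⟩ := m.eq_nat_or_neg
  · rw [eq_zero_of_nsmul_id F n h]; rfl
  · rw [neg_smul, neg_eq_zero] at h
    rw [eq_zero_of_nsmul_id F n h]; rfl

end Space

end Vale.Agent.P251.M
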