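import Vale.Agent.P251.M.SpaceConn
import Vale.Agent.P251.M.JConn
import Vale.Agent.P251.G.Glue
import Vale.Agent.P251.G.Gen3

/-!
# P251, part M (task M5): cofibration triangles and cell complexes in `T`

* `exists_cofTriangle` : the triangle `S A ⟶ S B ⟶ S (cof i)` of a cofibration;
* `relCell_cofIn` : if `B` is obtained from `A` by attaching cells with dimensions in `D`, the
  cofibre of `S A ⟶ S B` is in every class closed under extensions containing `𝟙⟦a⟧`, `a ∈ D`;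
* `unit_conn` : `π_k 𝟙 = 0` for `k < 0`.
-/

open CategoryTheory MonoidalCategory Limits Pretriangulated ZeroObject
open Vale.Agent.P251.T Vale.Agent.P251.S Vale.Agent.P251.H Vale.Agent.P251.G
  Vale.Agent.P251.G.LC Vale.Agent.P251.I

universe v u

set_option linter.unusedSectionVars false
set_option linter.style.haveILetI false

namespace Vale.Agent.P251.M

variable {T : Type u} [Category.{v} T] [Preadditive T] [HasZeroObject T]
    [HasShift T ℤ] [∀ n : ℤ, (shiftFunctor T n).Additive] [Pretriangulated T]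
    [MonoidalCategory T] [SymmetricCategory T] [TensorTriangulated T]

variable (F : SpaceFunctor T)

include F in
/-- `π_k 𝟙 = 0` for `k < 0`. -/
theorem unit_conn : Conn (0 : ℤ) (𝟙_ T) :=
  conn_unit F (fun _ _ h f => homotopic_zero_of_lt h f)

/-- The triangle of a mapping cone. -/
theorem exists_coneTriangle {X Y : FCat} (f : X ⟶ Y) :
    ∃ h, Dist (F.S.map f)
      (F.S.map (FCat.hom (coneInr f.hom) : Y ⟶ FCat.mk (FC.cone X.2 Y.2 f.hom))) h := by
  let C : FCat := FCat.mk (FC.cone X.2 Y.2 f.hom)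
  let j : Y ⟶ C := FCat.hom (coneInr f.hom)
  let d : C ⟶ X ⊗ RRF := FCat.hom (coneConn f.hom)
  exact ⟨_, F.cone f j (coneInl f.hom) (isPushout_cone f.hom) d (coneInr_conn f.hom)
    (coneInl_conn f.hom)⟩

/-- The triangle of a cofibration. -/
theorem exists_cofTriangle {A B : FCat} (i : A ⟶ B) (hi : Cofib i.hom) :
    ∃ h, Dist (F.S.map i)
      (F.S.map (FCat.hom (cofMap i.hom) : B ⟶ FCat.mk (FC.cof hi A.2 B.2))) h := by
  obtain ⟨h, D⟩ := exists_coneTriangle F i
  let C : FCat := FCat.mk (FC.cone A.2 B.2 i.hom)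
  let K : FCat := FCat.mk (FC.cof hi A.2 B.2)
  let c : C ⟶ K := FCat.hom (coneToCof i.hom)
  haveI : IsIso (F.S.map c) := isIso_of_isHEquiv F c (isHEquiv_coneToCof hi)
  refine ⟨inv (F.S.map c) ≫ h, D.of_iso₃ (inv (F.S.map c)) ?_ rfl⟩
  rw [IsIso.comp_inv_eq, ← Functor.map_comp]
  congr 1
  apply ObjectProperty.hom_ext
  exact (coneInr_coneToCof i.hom).symm

theorem relCell_aux [IsTriangulated T] {P : T → Prop} (hP : ExtClosed P) {D : Set ℕ}
    (hD : ∀ a ∈ D, P ((𝟙_ T)⟦(a : ℤ)⟧)) {A B : LC} (i : A ⟶ B) (hi : RelCell D i) (hA : FC A)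
    (hB : FC B) : CofIn P (F.S.map (FCat.hom i : FCat.mk hA ⟶ FCat.mk hB)) := by
  induction hi with
  | @iso A B f _ =>
    haveI : IsIso (FCat.hom f : FCat.mk hA ⟶ FCat.mk hB) :=
      (ObjectProperty.isIso_hom_iff (P := FCP) (FCat.hom f : FCat.mk hA ⟶ FCat.mk hB)).mp
        (inferInstanceAs (IsIso f))
    exact CofIn.of_isIso hP (F.S.map (FCat.hom f : FCat.mk hA ⟶ FCat.mk hB))
  | @step A B i a ha hi e =>
    obtain ⟨h, D⟩ := exists_cofTriangle F (FCat.hom i : FCat.mk hA ⟶ FCat.mk hB) hi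
    refine ⟨_, _, _, D, hP.iso ?_ (hD a ha)⟩
    exact (F.S.mapIso (fcIso (X := FCat.mk (FC.cof hi hA hB)) (Y := SphF a) e.some) ≪≫
      sphIso F a).symm
  | @comp A B C f g hf hg ihf ihg =>
    have hB' : FC B := hf.fc hA
    have h1 : (FCat.hom (f ≫ g) : FCat.mk hA ⟶ FCat.mk hB) =
        (FCat.hom f : FCat.mk hA ⟶ FCat.mk hB') ≫ (FCat.hom g : FCat.mk hB' ⟶ FCat.mk hB) := by
      apply ObjectProperty.hom_ext
      rfl
    have h2 : F.S.map (FCat.hom (f ≫ g) : FCat.mk hA ⟶ FCat.mk hB) =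
        F.S.map (FCat.hom f : FCat.mk hA ⟶ FCat.mk hB') ≫
          F.S.map (FCat.hom g : FCat.mk hB' ⟶ FCat.mk hB) := by
      rw [h1, Functor.map_comp]
    rw [h2]
    exact CofIn.comp hP (ihf hA hB') (ihg hB' hB)

/-- Relative cell complexes: the cofibre is built from the spheres `𝟙⟦a⟧`, `a ∈ D`. -/
theorem relCell_cofIn [IsTriangulated T] {P : T → Prop} (hP : ExtClosed P) {D : Set ℕ}
    (hD : ∀ a ∈ D, P ((𝟙_ T)⟦(a : ℤ)⟧)) {A B : FCat} (i : A ⟶ B) (hi : RelCell D i.hom) :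
    CofIn P (F.S.map i) :=
  relCell_aux F hP hD i.hom hi A.2 B.2

/-- The even version. -/
theorem relCell_evenCell [IsTriangulated T] (d : ℤ) {D : Set ℕ}
    (hD : ∀ a ∈ D, ∃ k : ℤ, d ≤ k ∧ (a : ℤ) = 2 * k) {A B : FCat} (i : A ⟶ B)
    (hi : RelCell D i.hom) : CofIn (EvenCell T d) (F.S.map i) := by
  refine relCell_cofIn F (evenCell_extClosed d) (fun a ha => ?_) i hi
  obtain ⟨k, hk, hak⟩ := hD a ha
  exact EvenCell.sphere' _ k hak.symm hk

/-- A space with cells from the empty space. -/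
theorem evenCell_of_relCell [IsTriangulated T] (d : ℤ) {D : Set ℕ}
    (hD : ∀ a ∈ D, ∃ k : ℤ, d ≤ k ∧ (a : ℤ) = 2 * k) {A B : FCat} (i : A ⟶ B)
    (hi : RelCell D i.hom) (hA : EvenCell T d (F.S.obj A)) : EvenCell T d (F.S.obj B) := by
  obtain ⟨Z, g, h, D', hZ⟩ := relCell_evenCell F d hD i hi
  exact (evenCell_extClosed d).ext D' hA hZ

theorem evenCell_of_empty (d : ℤ) {A : FCat} (hA : IsEmpty A.obj) : EvenCell T d (F.S.obj A) :=
  EvenCell.zero _ (F.isZero hA)

end Vale.Agent.P251.M
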