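import Vale.Agent.P251.M.Theory
import Vale.Agent.P251.M.EvenShift

/-!
# P251, part M: the suspension spectrum of the complex line

`lineIso F : F.S.obj CCF ≅ (stdEven T).L`.
-/

open CategoryTheory MonoidalCategory Limits Pretriangulated
open Vale.Agent.P251.G Vale.Agent.P251.G.LC Vale.Agent.P251.I Vale.Agent.P251.T

universe v u

noncomputable section

namespace Vale.Agent.P251.M

variable {T : Type u} [Category.{v} T] [Preadditive T] [HasZeroObject T]
    [HasShift T ℤ] [∀ n : ℤ, (shiftFunctor T n).Additive] [Pretriangulated T]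
    [MonoidalCategory T] [SymmetricCategory T] [TensorTriangulated T]

/-- `ℂ ≅ ℝ ⊗ ℝ` as finite cell spaces -/
def ccfIso : CCF ≅ RRF ⊗ RRF :=
  FCP.isoMk (ofHomeo (X := LC.of ℂ) (Y := LC.of (ℝ × ℝ))
    Complex.equivRealProdCLM.toHomeomorph)

/-- `Σ ℂ ≅ S¹ ⊗ S¹` -/
def lineIso (F : SpaceFunctor T) : F.S.obj CCF ≅ (stdEven T).L :=
  F.S.mapIso ccfIso ≪≫ (Functor.Monoidal.μIso F.S RRF RRF).symm ≪≫ (F.line ⊗ᵢ F.line)

end Vale.Agent.P251.M
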