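import Vale.Agent.P251.M.BGlueD
import Vale.Agent.P251.M.LineIso

/-!
# P251, part M: the main result of parts M and Q
-/

universe v u

namespace Vale.Agent.P251.M

open Vale.Agent.P251.I

/-- **The main output of parts M and Q.** -/
theorem MU : MU_statement.{v, u} := by
  intro T _ _ _ _ _ _ _ _ _ _ _ _ _ _ F
  obtain ⟨D, -⟩ := MU_univ T F (lineIso F)
  exact ⟨D⟩

end Vale.Agent.P251.M
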