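import Vale.Agent.P251.M.BaseCh
import Vale.Agent.P251.M.GBasis

/-!
# P251, part M: base change of graded bases

`GBasis.push v b` : a basis of `F ⊗ Y` over `F` gives a basis of `G ⊗ Y` over `G`, for every
morphism of monoids `v : F ⟶ G`.
-/

open CategoryTheory MonoidalCategory MonObj Limits Pretriangulated

universe v u

namespace Vale.Agent.P251.M

open Vale.Agent.P251.S Vale.Agent.P251.T EvenSpheres

set_option linter.unusedSectionVars false

variable {T : Type u} [Category.{v} T] [Preadditive T] [HasZeroObject T]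
    [HasShift T ℤ] [∀ n : ℤ, (shiftFunctor T n).Additive] [Pretriangulated T] [IsTriangulated T]
    [MonoidalCategory T] [SymmetricCategory T] [TensorTriangulated T] [MonoidalClosed T]
    [HasCoproducts.{0} T] [HasProducts.{0} T] [StableCat T] {E : EvenSpheres T}

/-- the coproduct form and the linear extension -/
theorem isIso_desc_bind_iff {G Y : T} [MonObj G] {J : Type} (X : J → T)
    (g : ∀ j, X j ⟶ G ⊗ Y) :
    IsIso (Sigma.desc fun j => (FM.bind (g j) : G ⊗ X j ⟶ G ⊗ Y)) ↔
      IsIso (FM.bind (Sigma.desc g)) := by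
  have : (tensorLeft G).IsLeftAdjoint := ⟨_, ⟨ihom.adjunction G⟩⟩
  have e : (Sigma.desc fun j => (FM.bind (g j) : G ⊗ X j ⟶ G ⊗ Y)) =
      sigmaComparison (tensorLeft G) X ≫ FM.bind (Sigma.desc g) := by
    apply Sigma.hom_ext
    intro j
    have e1 : Sigma.ι (fun j => G ⊗ X j) j ≫ sigmaComparison (tensorLeft G) X =
        G ◁ Sigma.ι X j := ι_comp_sigmaComparison (tensorLeft G) X j
    rw [Sigma.ι_desc, reassoc_of% e1]
    rw [FM.bind, FM.bind, ← MonoidalCategory.whiskerLeft_comp_assoc, Sigma.ι_desc]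
  rw [e]
  constructor
  · intro h
    have h2 : FM.bind (Sigma.desc g) = inv (sigmaComparison (tensorLeft G) X) ≫
        sigmaComparison (tensorLeft G) X ≫ FM.bind (Sigma.desc g) := by simp
    rw [h2]
    infer_instance
  · intro h
    infer_instance

namespace GBasis

/-- **Base change of graded bases.** -/
noncomputable def push {F G Y : T} [MonObj F] [MonObj G] [MonObj Y] {J : Type}
    (b : GBasis E (inlM F Y) J) (v : F ⟶ G) [IsMonHom v] : GBasis E (inlM G Y) J where
  k := b.k
  w j := b.w j ≫ v ▷ Y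
  isIso := by
    have h1 := b.isIso
    have e1 : (fun j => (inlM F Y ⊗ₘ b.w j) ≫ μ[F ⊗ Y]) =
        fun j => (FM.bind (b.w j) : F ⊗ E.S (b.k j) ⟶ F ⊗ Y) :=
      funext fun j => inlM_tensor_mul _
    rw [e1, isIso_desc_bind_iff] at h1
    have h2 := FM.isIso_bind_push v (Sigma.desc b.w)
    have e2 : Sigma.desc b.w ≫ v ▷ Y = Sigma.desc fun j => b.w j ≫ v ▷ Y := by
      apply Sigma.hom_ext
      intro j
      rw [Sigma.ι_desc_assoc, Sigma.ι_desc]
    rw [e2, ← isIso_desc_bind_iff] at h2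
    have e3 : (fun j => (inlM G Y ⊗ₘ (b.w j ≫ v ▷ Y)) ≫ μ[G ⊗ Y]) =
        fun j => (FM.bind (b.w j ≫ v ▷ Y) : G ⊗ E.S (b.k j) ⟶ G ⊗ Y) :=
      funext fun j => inlM_tensor_mul _
    rw [e3]
    exact h2

@[simp] theorem push_k {F G Y : T} [MonObj F] [MonObj G] [MonObj Y] {J : Type}
    (b : GBasis E (inlM F Y) J) (v : F ⟶ G) [IsMonHom v] (j : J) : (b.push v).k j = b.k j := rfl

theorem push_w {F G Y : T} [MonObj F] [MonObj G] [MonObj Y] {J : Type}
    (b : GBasis E (inlM F Y) J) (v : F ⟶ G) [IsMonHom v] (j : J) :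
    (b.push v).w j = b.w j ≫ v ▷ Y := rfl

/-- the classes of the new basis are the images of the classes of the old one -/
theorem of_push_w {F G Y : T} [MonObj F] [MonObj G] [MonObj Y] {J : Type}
    (b : GBasis E (inlM F Y) J) (v : F ⟶ G) [IsMonHom v] (j : J) :
    HRing.of E (G ⊗ Y) ((b.push v).k j) ((b.push v).w j) =
      HRing.map (E := E) (v ▷ Y) (HRing.of E (F ⊗ Y) (b.k j) (b.w j)) :=
  (HRing.map_of _ _ _).symm

end GBasis

end Vale.Agent.P251.M
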