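import Vale.Agent.P251.M.MUBasis

/-!
# P251, part M: the data for the homology of `MU` from Thom spaces

`BTData D` extends `BUData D` by products of Thom spaces and comparison maps
`q : th n N ⟶ M a ⊗ S n`. Desuspending them through the Thom isomorphisms gives a `BMData D`.
-/

open CategoryTheory MonoidalCategory Limits

universe v u

noncomputable section

namespace Vale.Agent.P251.M

set_option linter.unusedSectionVars false
set_option linter.dupNamespace false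

/-- `BUData` together with products of Thom spaces, a multiplicative sequence `M` and comparison
maps `th n N ⟶ M a ⊗ S n`. -/
structure BTData (D : Type u) [Category.{v} D] [Preadditive D] [MonoidalCategory D]
    [SymmetricCategory D] [MonoidalPreadditive D] extends BUData D where
  /-- direct sum on Thom spaces -/
  tmu {n m k : ℕ} (h : n + m = k) {N M K : ℕ} (hK : N + M ≤ K) :
    (th n).obj N ⊗ (th m).obj M ⟶ (th k).obj K
  θ_tmu {n m k : ℕ} (h : n + m = k) (h' : (n : ℤ) + m = k) {N M K : ℕ} (hK : N + M ≤ K) :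
    ((θ n).hom.app N ⊗ₘ (θ m).hom.app M) ≫
      tensorμ ((g n).obj N) (S n) ((g m).obj M) (S m) ≫ (gmu h hK ⊗ₘ (mu n m k h').hom) =
      tmu h hK ≫ (θ k).hom.app K
  /-- the sequence -/
  M : ℕ ⥤ D
  /-- the unit -/
  one : 𝟙_ D ⟶ M.obj 0
  /-- the product -/
  Mmu {m n p : ℕ} (h : m + n = p) : M.obj m ⊗ M.obj n ⟶ M.obj p
  Mmu_map {m n p m' n' p' : ℕ} (h : m + n = p) (h' : m' + n' = p') (hm : m ≤ m') (hn : n ≤ n')
    (hp : p ≤ p') : (M.map (homOfLE hm) ⊗ₘ M.map (homOfLE hn)) ≫ Mmu h' =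
      Mmu h ≫ M.map (homOfLE hp)
  one_mul (n : ℕ) : (one ▷ M.obj n) ≫ Mmu (Nat.zero_add n) = (λ_ (M.obj n)).hom
  /-- the comparison maps -/
  q {n N a : ℕ} (h : n ≤ a) (h' : N ≤ a + n) : (th n).obj N ⟶ M.obj a ⊗ S n
  q_map {n N a b : ℕ} (h : n ≤ a) (h' : N ≤ a + n) (hab : a ≤ b) (h1 : n ≤ b) (h1' : N ≤ b + n) :
    q h h' ≫ (M.map (homOfLE hab) ▷ S n) = q h1 h1'
  th_q {n N N' a : ℕ} (hN : N ≤ N') (h : n ≤ a) (h' : N' ≤ a + n) (h1' : N ≤ a + n) :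
    (th n).map (homOfLE hN) ≫ q h h' = q h h1'
  q_mul {n m k N N' K a b c : ℕ} (hk : n + m = k) (hk' : (n : ℤ) + m = k) (hK : N + N' ≤ K)
    (hc : a + b = c) (h1 : n ≤ a) (h1' : N ≤ a + n) (h2 : m ≤ b) (h2' : N' ≤ b + m) (h3 : k ≤ c)
    (h3' : K ≤ c + k) : (q h1 h1' ⊗ₘ q h2 h2') ≫ tensorμ (M.obj a) (S n) (M.obj b) (S m) ≫
      (Mmu hc ⊗ₘ (mu n m k hk').hom) = tmu hk hK ≫ q h3 h3'
  q_iso (a : ℕ) : IsIso (q (le_refl a) (le_refl (a + a)))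
  /-- the bottom cell of `th 0` -/
  ℓ0 : S ((0 : ℕ) : ℤ) ⟶ (th 0).obj 0
  ℓ0_θ : ℓ0 ≫ (θ 0).hom.app 0 = (λ_ _).inv ≫ ((pt0 0).hom ▷ S ((0 : ℕ) : ℤ))
  ℓ0_q (h : 0 ≤ 0) (h' : 0 ≤ 0 + 0) : ℓ0 ≫ q h h' = (λ_ _).inv ≫ (one ▷ S ((0 : ℕ) : ℤ))
  /-- the bottom cell of `th 1` -/
  ℓ1 : S ((1 : ℕ) : ℤ) ⟶ (th 1).obj 1
  ℓ1_θ : ℓ1 ≫ (θ 1).hom.app 1 = (λ_ _).inv ≫ (pt1 ▷ S ((1 : ℕ) : ℤ))
  ℓ1_q (h : 1 ≤ 1) (h' : 1 ≤ 1 + 1) : ℓ1 ≫ q h h' =
    (λ_ _).inv ≫ ((one ≫ M.map (homOfLE (Nat.zero_le 1))) ▷ S ((1 : ℕ) : ℤ))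

namespace BTData

variable {D : Type u} [Category.{v} D] [Preadditive D] [MonoidalCategory D]
    [SymmetricCategory D] [MonoidalPreadditive D] (B : BTData D)

/-- right multiplication by the sphere `S n` -/
abbrev tS (n : ℕ) : D ⥤ D := tensorRight (B.S n)

instance isEq_tS (n : ℕ) : (B.tS n).IsEquivalence := isEquivalence_tensorRight _

/-- The comparison maps `g n N ⟶ M a`. -/
def w {n N a : ℕ} (h : n ≤ a) (h' : N ≤ a + n) : (B.g n).obj N ⟶ B.M.obj a :=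
  (B.tS n).preimage ((B.θ n).inv.app N ≫ B.q h h')

@[reassoc]
theorem w_whisker {n N a : ℕ} (h : n ≤ a) (h' : N ≤ a + n) :
    B.w h h' ▷ B.S n = (B.θ n).inv.app N ≫ B.q h h' :=
  (B.tS n).map_preimage ((B.θ n).inv.app N ≫ B.q h h')

@[reassoc]
theorem θ_w {n N a : ℕ} (h : n ≤ a) (h' : N ≤ a + n) :
    (B.θ n).hom.app N ≫ (B.w h h' ▷ B.S n) = B.q h h' := by
  rw [w_whisker]
  exact Iso.hom_inv_id_app_assoc (B.θ n) N _

theorem ext_tS {n : ℕ} {X Y : D} {f f' : X ⟶ Y} (h : f ▷ B.S n = f' ▷ B.S n) : f = f' :=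
  (B.tS n).map_injective h

theorem w_map {n N a b : ℕ} (h : n ≤ a) (h' : N ≤ a + n) (hab : a ≤ b) (h1 : n ≤ b)
    (h1' : N ≤ b + n) : B.w h h' ≫ B.M.map (homOfLE hab) = B.w h1 h1' := by
  apply B.ext_tS (n := n)
  rw [comp_whiskerRight, w_whisker, w_whisker, Category.assoc, B.q_map h h' hab h1 h1']

theorem g_w {n N N' a : ℕ} (hN : N ≤ N') (h : n ≤ a) (h' : N' ≤ a + n) (h1' : N ≤ a + n) :
    (B.g n).map (homOfLE hN) ≫ B.w h h' = B.w h h1' := by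
  apply B.ext_tS (n := n)
  rw [comp_whiskerRight, w_whisker, w_whisker, ← B.th_q hN h h' h1']
  have e := (B.θ n).inv.naturality (homOfLE hN)
  change ((B.g n).map (homOfLE hN) ▷ B.S n) ≫ _ = _ at e
  rw [reassoc_of% e]

theorem w_mul {n m k N N' K a b c : ℕ} (hk : n + m = k) (hK : N + N' ≤ K) (hc : a + b = c)
    (h1 : n ≤ a) (h1' : N ≤ a + n) (h2 : m ≤ b) (h2' : N' ≤ b + m) (h3 : k ≤ c)
    (h3' : K ≤ c + k) :
    (B.w h1 h1' ⊗ₘ B.w h2 h2') ≫ B.Mmu hc = B.gmu hk hK ≫ B.w h3 h3' := by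
  have hk' : (n : ℤ) + m = k := by rw [← hk]; push_cast; rfl
  have e1 : ((B.w h1 h1' ▷ B.S n) ⊗ₘ (B.w h2 h2' ▷ B.S m)) ≫
      tensorμ (B.M.obj a) (B.S n) (B.M.obj b) (B.S m) ≫ (B.Mmu hc ⊗ₘ (B.mu n m k hk').hom) =
      tensorμ ((B.g n).obj N) (B.S n) ((B.g m).obj N') (B.S m) ≫
        (((B.w h1 h1' ⊗ₘ B.w h2 h2') ≫ B.Mmu hc) ⊗ₘ (B.mu n m k hk').hom) := by
    rw [← tensorHom_id, ← tensorHom_id, tensorμ_natural_assoc, tensorHom_comp_tensorHom]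
    simp
  have e2 : ((B.θ n).hom.app N ⊗ₘ (B.θ m).hom.app N') ≫
      ((B.w h1 h1' ▷ B.S n) ⊗ₘ (B.w h2 h2' ▷ B.S m)) ≫
      tensorμ (B.M.obj a) (B.S n) (B.M.obj b) (B.S m) ≫ (B.Mmu hc ⊗ₘ (B.mu n m k hk').hom) =
      ((B.θ n).hom.app N ⊗ₘ (B.θ m).hom.app N') ≫
      tensorμ ((B.g n).obj N) (B.S n) ((B.g m).obj N') (B.S m) ≫
        (B.gmu hk hK ⊗ₘ (B.mu n m k hk').hom) ≫ (B.w h3 h3' ▷ B.S k) := by
    rw [tensorHom_comp_tensorHom_assoc, θ_w, θ_w, B.q_mul hk hk' hK hc h1 h1' h2 h2' h3 h3',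
      reassoc_of% (B.θ_tmu hk hk' hK), θ_w]
  have i1 : IsIso ((B.θ n).hom.app N) := inferInstance
  have i2 : IsIso ((B.θ m).hom.app N') := inferInstance
  have i3 : IsIso ((B.θ n).hom.app N ⊗ₘ (B.θ m).hom.app N') := inferInstance
  have i4 : IsIso (tensorμ ((B.g n).obj N) (B.S n) ((B.g m).obj N') (B.S m)) :=
    ⟨tensorδ _ _ _ _, tensorμ_tensorδ _ _ _ _, tensorδ_tensorμ _ _ _ _⟩
  rw [e1] at e2
  have e3 := (cancel_epi _).1 ((cancel_epi _).1 e2)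
  apply B.ext_tS (n := k)
  have e4 := congrArg (fun f => (_ ◁ (B.mu n m k hk').inv) ≫ f) e3
  simp only [← id_tensorHom, ← tensorHom_id, tensorHom_comp_tensorHom,
    Category.id_comp, Category.comp_id, Iso.inv_hom_id] at e4 ⊢
  exact e4

theorem w_iso (a : ℕ) : IsIso (B.w (le_refl a) (le_refl (a + a))) := by
  have i1 := B.q_iso a
  have i2 : IsIso ((B.θ a).inv.app (a + a)) := inferInstance
  have i3 : IsIso ((B.tS a).map (B.w (le_refl a) (le_refl (a + a)))) := by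
    have : (B.tS a).map (B.w (le_refl a) (le_refl (a + a))) =
      (B.θ a).inv.app (a + a) ≫ B.q (le_refl a) (le_refl (a + a)) := B.w_whisker _ _
    rw [this]
    exact IsIso.comp_isIso' i2 i1
  exact isIso_of_fully_faithful (B.tS a) _

theorem w_pt0 (h : 0 ≤ 0) (h' : 0 ≤ 0 + 0) : (B.pt0 0).hom ≫ B.w h h' = B.one := by
  apply B.ext_tS (n := 0)
  rw [comp_whiskerRight, ← cancel_epi (λ_ (B.S ((0 : ℕ) : ℤ))).inv, ← B.ℓ0_q h h',
    ← Category.assoc, ← B.ℓ0_θ, Category.assoc]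
  exact congrArg (B.ℓ0 ≫ ·) (B.θ_w h h')

theorem w_pt1 (h : 1 ≤ 1) (h' : 1 ≤ 1 + 1) :
    B.pt1 ≫ B.w h h' = B.one ≫ B.M.map (homOfLE (Nat.zero_le 1)) := by
  apply B.ext_tS (n := 1)
  rw [comp_whiskerRight, ← cancel_epi (λ_ (B.S ((1 : ℕ) : ℤ))).inv, ← B.ℓ1_q h h',
    ← Category.assoc, ← B.ℓ1_θ, Category.assoc]
  exact congrArg (B.ℓ1 ≫ ·) (B.θ_w h h')

/-- The data for the homology of `MU`. -/
def toBMData : BMData D where
  toBUData := B.toBUData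
  M := B.M
  one := B.one
  Mmu := B.Mmu
  Mmu_map := B.Mmu_map
  one_mul := B.one_mul
  w := B.w
  w_map := B.w_map
  g_w := B.g_w
  w_mul := B.w_mul
  w_iso := B.w_iso
  w_pt0 := B.w_pt0
  w_pt1 := B.w_pt1

end BTData

end Vale.Agent.P251.M
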