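import Vale.Agent.P251.M.ThomUniv

/-!
# P251, part M: the universal Thom classes

* `Cls.ofHom ι` : a natural, multiplicative, unital family `ι n : MU n ⟶ K` (e.g. the structure maps
  of the telescope) defines Thom classes `θ ≫ (ι a ▷ S^{2n})`;
* `Cls.push f` : Thom classes and monoid maps;
* `ofHom_θK`.
-/

open CategoryTheory MonoidalCategory MonObj

universe v u

set_option linter.unusedSectionVars false

noncomputable section

namespace Vale.Agent.P251.M

variable {T : Type u} [Category.{v} T] [MonoidalCategory T] [SymmetricCategory T]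

namespace ThomSys

open CommSys

variable {R : ThomSys T} {K K' : T} [MonObj K] [IsCommMonObj K] [MonObj K'] [IsCommMonObj K']

/-- A natural, multiplicative and unital family of maps `MU n ⟶ K`. -/
structure SeqHom (R : ThomSys T) (K : T) [MonObj K] [IsCommMonObj K] where
  /-- the maps -/
  ι (n : ℕ) : R.MU.E.obj n ⟶ K
  ι_map {a b : ℕ} (h : a ≤ b) : R.MU.E.map (homOfLE h) ≫ ι b = ι a
  ι_one : R.MU.one ≫ ι 0 = η[K]
  ι_mul {a b c : ℕ} (h : a + b = c) : (ι a ⊗ₘ ι b) ≫ μ[K] = R.MU.mu h ≫ ι c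

attribute [reassoc] SeqHom.ι_map SeqHom.ι_one SeqHom.ι_mul

/-- the morphism of sequences defined by Thom classes -/
def Cls.seqHom (C : Cls R K) : SeqHom R K where
  ι := C.θK
  ι_map h := C.θK_map h
  ι_one := C.θK_one
  ι_mul h := C.θK_mul h

namespace Cls

theorem ext' {C C' : Cls R K} (h : ∀ n N, C.τ n N = C'.τ n N) : C = C' := by
  obtain ⟨τ, _, _, _, _⟩ := C
  obtain ⟨τ', _, _, _, _⟩ := C'
  obtain rfl : τ = τ' := by
    funext n N
    exact h n N
  rfl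

/-- Thom classes and monoid maps. -/
def push (C : Cls R K) (f : K ⟶ K') [IsMonHom f] : Cls R K' where
  τ n N := C.τ n N ≫ (f ▷ R.E.S n)
  zt_τ h := by rw [← Category.assoc, C.zt_τ]
  τ_mul {n m p N M Q} h h' := by
    have e1 := tensorμ_natural f (𝟙 (R.E.S n)) f (𝟙 (R.E.S m))
    rw [tensorHom_id, tensorHom_id] at e1
    rw [← tensorHom_comp_tensorHom, Category.assoc, reassoc_of% e1, tensorHom_comp_tensorHom,
      id_tensorHom_id, Category.id_comp, ← IsMonHom.mul_hom, ← Category.assoc (R.t.mul h),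
      ← C.τ_mul h h', Category.assoc, Category.assoc, ← tensorHom_id, tensorHom_comp_tensorHom,
      Category.comp_id]
  τ_one := by
    have e : ((λ_ (𝟙_ T)).inv ≫ (η[K] ⊗ₘ R.E.z)) ≫ (f ▷ R.E.S 0) =
        (λ_ (𝟙_ T)).inv ≫ (η[K'] ⊗ₘ R.E.z) := by
      rw [Category.assoc, ← tensorHom_id, tensorHom_comp_tensorHom, IsMonHom.one_hom,
        Category.comp_id]
    refine Eq.trans ?_ e
    rw [← C.τ_one]
    exact (Category.assoc _ _ _).symm
  τ_ℓ := by
    have e : ((ρ_ R.E.L).inv ≫ (λ_ (R.E.S 1)).inv ≫ (η[K] ▷ R.E.S 1)) ≫ (f ▷ R.E.S 1) =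
        (ρ_ R.E.L).inv ≫ (λ_ (R.E.S 1)).inv ≫ (η[K'] ▷ R.E.S 1) := by
      have e2 : (η[K] ▷ R.E.S 1) ≫ (f ▷ R.E.S 1) = (η[K'] ▷ R.E.S 1) := by
        rw [← comp_whiskerRight, IsMonHom.one_hom]
      rw [← e2]
      exact (Category.assoc _ _ _).trans
        (congrArg (fun q => (ρ_ R.E.L).inv ≫ q) (Category.assoc _ _ _))
    refine Eq.trans ?_ e
    rw [← C.τ_ℓ]
    exact (Category.assoc _ _ _).symm

@[simp] theorem push_τ (C : Cls R K) (f : K ⟶ K') [IsMonHom f] (n N : ℕ) :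
    (C.push f).τ n N = C.τ n N ≫ (f ▷ R.E.S n) := rfl

end Cls

namespace SeqHom

variable (I : SeqHom R K)

/-- the class `θ ≫ (ι a ▷ S^{2n})` does not depend on the stage `a` -/
theorem θ_ι {n N a b : ℕ} (h : n ≤ a) (h' : N ≤ a + n) (k : n ≤ b) (k' : N ≤ b + n) :
    R.θ h h' ≫ (I.ι a ▷ R.E.S n) = R.θ k k' ≫ (I.ι b ▷ R.E.S n) := by
  have ha : a ≤ a + b := Nat.le_add_right _ _
  have hb : b ≤ a + b := Nat.le_add_left _ _
  rw [← I.ι_map ha, ← I.ι_map hb, comp_whiskerRight, comp_whiskerRight, R.θ_map_assoc h h' ha,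
    R.θ_map_assoc k k' hb]

theorem ua_ι (a : ℕ) : R.ua a ≫ I.ι a = η[K] := by
  rw [← R.one_map, Category.assoc, I.ι_map, I.ι_one]

theorem b_θ_ι {n a : ℕ} (h : n ≤ a) (h' : n ≤ a + n) :
    R.b n ≫ R.θ h h' ≫ (I.ι a ▷ R.E.S n) = R.ηS K n := by
  rw [R.b_θ_assoc, ← comp_whiskerRight, I.ua_ι]
  rfl

/-- The Thom classes defined by a morphism of sequences. -/
def cls : Cls R K where
  τ n N := R.θ (a := n + N) (Nat.le_add_right _ _) (by omega) ≫ (I.ι (n + N) ▷ R.E.S n)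
  zt_τ {n N N' l} h := by
    rw [R.zt_θ_assoc _ _ h]
    exact I.θ_ι _ _ _ _
  τ_mul {n m p N M Q} h h' := by
    have hp : n + m = p := congrArg Prod.fst h
    have hQ : N + M = Q := congrArg Prod.snd h
    have ha : n + N + (m + M) = p + Q := by omega
    have e1 := tensorμ_natural (I.ι (n + N)) (𝟙 (R.E.S n)) (I.ι (m + M)) (𝟙 (R.E.S m))
    rw [tensorHom_id, tensorHom_id] at e1
    have e2 := R.θ_mul hp hQ ha h' (h₁ := Nat.le_add_right n N) (h₂ := by omega)
      (h₁' := Nat.le_add_right m M) (h₂' := by omega) h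
    rw [← tensorHom_comp_tensorHom, Category.assoc, reassoc_of% e1, tensorHom_comp_tensorHom,
      id_tensorHom_id, Category.id_comp, I.ι_mul ha, ← Category.assoc (R.t.mul h), ← e2,
      Category.assoc, Category.assoc, ← tensorHom_id, tensorHom_comp_tensorHom, Category.comp_id]
  τ_one := by
    have e := I.b_θ_ι (n := 0) (a := 0) le_rfl le_rfl
    refine Eq.trans e ?_
    change (λ_ (𝟙_ T)).inv ≫ (η[K] ▷ 𝟙_ T) = (λ_ (𝟙_ T)).inv ≫ (η[K] ⊗ₘ 𝟙 (𝟙_ T))
    rw [tensorHom_id]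
  τ_ℓ := by
    have e := I.b_θ_ι (n := 1) (a := 1 + 1) (by norm_num) (by norm_num)
    have e1 : ((ρ_ R.E.L).hom ≫ R.ℓ) ≫ R.θ (n := 1) (N := 1) (a := 1 + 1) (by norm_num)
        (by norm_num) ≫ (I.ι (1 + 1) ▷ R.E.S 1) = R.ηS K 1 := by
      rw [← R.b_one]
      exact e
    refine ((Iso.inv_comp_eq _).mpr ?_).symm
    exact e1.symm.trans (Category.assoc _ _ _)

theorem cls_τ {n N a : ℕ} (h : n ≤ a) (h' : N ≤ a + n) :
    I.cls.τ n N = R.θ h h' ≫ (I.ι a ▷ R.E.S n) := I.θ_ι _ _ _ _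

theorem cls_push (f : K ⟶ K') [IsMonHom f] (J : SeqHom R K') (hJ : ∀ n, I.ι n ≫ f = J.ι n) :
    I.cls.push f = J.cls := by
  refine Cls.ext' fun n N => ?_
  have h : n ≤ n + N := Nat.le_add_right _ _
  have h' : N ≤ n + N + n := by omega
  rw [Cls.push_τ, I.cls_τ h h', J.cls_τ h h', Category.assoc, ← comp_whiskerRight, hJ]

end SeqHom

theorem Cls.seqHom_cls (C : Cls R K) : C.seqHom.cls = C := by
  refine Cls.ext' fun n N => ?_
  have h : n ≤ n + N := Nat.le_add_right _ _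
  have h' : N ≤ n + N + n := by omega
  rw [C.seqHom.cls_τ h h']
  exact C.θ_θK h h'

end ThomSys

end Vale.Agent.P251.M
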