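import Vale.Agent.P251.M.ThomCl
import Vale.Agent.P251.M.BMInst
import Vale.Agent.P251.M.ThomCls

/-!
# P251, part M: the instance of `BTData`

Let `S : SpaceFunctor T`, `E` even spheres, `e : S.S ℂ ≅ E.L`, `K` a commutative monoid with Thom
classes `C : ThomSys.Cls (thomSys S E e) K`.

* `btDataK C : BTData (FM K)`, with `M a = K ⊗ MU a`;
* `bmDataK C : BMData (FM K)`.
-/

set_option linter.unusedSectionVars false
set_option linter.style.haveILetI false

open CategoryTheory MonoidalCategory Limits Pretriangulated Topology OnePoint Matrix MonObj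

universe v u

noncomputable section

namespace Vale.Agent.P251.M

open G G.LC I Vale.Agent.P251.T

/-! ### Thom isomorphisms and the augmentation -/

section general

variable {D : Type u} [Category.{v} D] [MonoidalCategory D] [SymmetricCategory D]
variable {F : FCat ⥤ D} [F.Braided] [HInv F] (t : ThomStr F)
variable {n m k : ℕ} {I J L : Type} [Fintype I] [Fintype J] [Fintype L]
  [DecidableEq I] [DecidableEq J] [DecidableEq L]

/-- Multiplicativity of the Thom isomorphism. -/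
theorem ThomStr.TT_tmu (h : n + m = k) (hc : Fintype.card I + Fintype.card J ≤ Fintype.card L) :
    (t.TT n I ⊗ₘ t.TT m J) ≫ tensorμ (ob F (GrO n I)) (t.S n) (ob F (GrO m J)) (t.S m) ≫
        (gmu F h hc ⊗ₘ (t.mu h).hom) = tmu F h hc ≫ t.TT k L := by
  have e3 := t.TT_sum (I := I) (J := J) h (GS.gsum h) (isGrSum_gsum h)
  have e4 : tmu F h hc ≫ t.TT k L = ((tn F (ThO n I) (ThO m J)).hom ≫ mp F (Th.sum h) ≫
      t.TT k (I ⊕ J)) ≫ (gj F k (Thh.card_sum_le hc) ▷ t.S k) := by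
    rw [tmu]
    simp only [Category.assoc]
    rw [t.tj_TT]
  rw [e4, e3]
  simp only [Category.assoc]
  rw [← tensorHom_id (gj F k _) (t.S k), tensorHom_comp_tensorHom, Category.comp_id, gmu,
    Category.assoc]

/-- The Thom class is the Thom isomorphism followed by the augmentation. -/
theorem ThomStr.TT_aug' (n : ℕ) (I : Type) [Fintype I] [DecidableEq I] :
    t.TT n I ≫ (aug F n I ▷ t.S n) = t.th n I ≫ (λ_ (t.S n)).inv := by
  rw [Iso.eq_comp_inv, Category.assoc]
  exact t.TT_aug (GS.gaug n I) (fun _ => rfl)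

theorem gaug_pt1 (h : Fintype.card Unit ≤ Fintype.card (Fin 1)) :
    GS.gaug 1 (Fin 1) ≫ GS.pt1 ≫ GS.gmap (chosenIsom h) (chosenIsom_spec h) = 𝟙 (GrO 1 (Fin 1)) := by
  have h0 : ∀ x y : Gr 1 (Fin 1), x = y := by
    intro x y
    apply Gr.ext
    ext i j
    have hi : i = 0 := Subsingleton.elim _ _
    have hj : j = 0 := Subsingleton.elim _ _
    subst hi hj
    have h1 := x.isProj.trace
    have h2 := y.isProj.trace
    rw [Matrix.trace_fin_one] at h1 h2
    rw [h1, h2]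
  apply LC.hom_ext; intro x
  rw [app_id]
  exact congrArg _ (h0 _ _)

variable (F) in
theorem aug_pt1 (h : 1 ≤ Fintype.card (Fin 1)) : aug F 1 (Fin 1) ≫ pt1 F h = 𝟙 _ := by
  rw [aug, pt1, Category.assoc, Iso.inv_hom_id_assoc, gj, ← mp_comp, ← mp_comp, gaug_pt1, mp_id]

variable (F) in
theorem aug_pt0 (I : Type) [Fintype I] : aug F 0 I ≫ (pt0 F I).hom = 𝟙 _ := by
  rw [aug, pt0_hom, Category.assoc, Iso.inv_hom_id_assoc, ← mp_comp, GS.gaug_gunit, mp_id]

/-- The bottom cell at rank `0`. -/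
theorem ThomStr.ℓ_TT0 {X : D} (f : X ⟶ ob F (ThO 0 I)) :
    f ≫ t.TT 0 I = (f ≫ t.th 0 I) ≫ (λ_ (t.S 0)).inv ≫ ((pt0 F I).hom ▷ t.S 0) := by
  have h1 := t.TT_aug' 0 I
  rw [Category.assoc, ← reassoc_of% h1, ← comp_whiskerRight, aug_pt0, id_whiskerRight,
    Category.comp_id]

/-- The bottom cell at rank `1`. -/
theorem ThomStr.ℓ_TT1 {X : D} (f : X ⟶ ob F (ThO 1 (Fin 1))) (h : 1 ≤ Fintype.card (Fin 1)) :
    f ≫ t.TT 1 (Fin 1) =
      (f ≫ t.th 1 (Fin 1)) ≫ (λ_ (t.S 1)).inv ≫ (pt1 F h ▷ t.S 1) := by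
  have h1 := t.TT_aug' 1 (Fin 1)
  rw [Category.assoc, ← reassoc_of% h1, ← comp_whiskerRight, aug_pt1, id_whiskerRight,
    Category.comp_id]

end general

/-! ### Free modules -/

section free

variable {T : Type u} [Category.{v} T] [MonoidalCategory T] [SymmetricCategory T]
  (K : T) [MonObj K] [IsCommMonObj K]

theorem free_tensorμ (W X Y Z : T) :
    tensorμ ((FM.free K).obj W) ((FM.free K).obj X) ((FM.free K).obj Y) ((FM.free K).obj Z) =
      (FM.free K).map (tensorμ W X Y Z) := by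
  have h := tensorμ_comp_μ_tensorHom_μ_comp_μ (FM.free K) W X Y Z
  rw [FM.free_μ, FM.free_μ, FM.free_μ, FM.free_μ, FM.free_μ, FM.free_μ] at h
  change _ ≫ (𝟙 ((FM.free K).obj (W ⊗ Y)) ⊗ₘ 𝟙 ((FM.free K).obj (X ⊗ Z))) ≫ 𝟙 _ =
    (𝟙 ((FM.free K).obj (W ⊗ X)) ⊗ₘ 𝟙 ((FM.free K).obj (Y ⊗ Z))) ≫ 𝟙 _ ≫ _ at h
  rw [id_tensorHom_id, id_tensorHom_id] at h
  simp only [Category.comp_id] at h
  exact (Category.comp_id _).symm.trans (h.trans ((Category.id_comp _).trans (Category.id_comp _)))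

end free

/-! ### The comparison maps -/

section comp

variable {T : Type u} [Category.{v} T] [Preadditive T] [HasZeroObject T]
    [HasShift T ℤ] [∀ n : ℤ, (shiftFunctor T n).Additive] [Pretriangulated T]
    [MonoidalCategory T] [SymmetricCategory T] [TensorTriangulated T]
variable (S : SpaceFunctor T) (E : EvenSpheres T) (e : S.S.obj CCF ≅ E.L)

/-- The multiplicative sequence of `MU`. -/
abbrev muSeq : SeqMonoid T := (thomSys S E e).MU

theorem thomθ_map {n N a b : ℕ} (h : n ≤ a) (h' : N ≤ a + n) (hab : a ≤ b) (h1 : n ≤ b)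
    (h1' : N ≤ b + n) : thomθ S E e h h' ≫ ((muSeq S E e).E.map (homOfLE hab) ▷ E.S n) =
      thomθ S E e h1 h1' := (thomSys S E e).θ_map h h' hab

theorem thomθ_j {n N N' a : ℕ} (hN : N ≤ N') (h : n ≤ a) (h' : N' ≤ a + n) (h1' : N ≤ a + n)
    (hj : Fintype.card (Fin N) ≤ Fintype.card (Fin N')) :
    TO.j S.S n hj ≫ thomθ S E e h h' = thomθ S E e h h1' :=
  (thetaData S E e).θ_j hN h h1' h'

theorem thomθ_mul {n m k N N' L a b c : ℕ} (hk : n + m = k) (hk' : (n : ℤ) + m = k)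
    (hL : N + N' ≤ L) (hc : a + b = c) (h1 : n ≤ a) (h1' : N ≤ a + n) (h2 : m ≤ b)
    (h2' : N' ≤ b + m) (h3 : k ≤ c) (h3' : L ≤ c + k)
    (hm : Fintype.card (Fin N) + Fintype.card (Fin N') ≤ Fintype.card (Fin L)) :
    (thomθ S E e h1 h1' ⊗ₘ thomθ S E e h2 h2') ≫
      tensorμ ((muSeq S E e).E.obj a) (E.S n) ((muSeq S E e).E.obj b) (E.S m) ≫
        ((muSeq S E e).mu hc ⊗ₘ (E.mu n m k hk').hom) =
      TO.mul S.S hk hm ≫ thomθ S E e h3 h3' := by
  have h4 : N + N' ≤ c + k := hL.trans h3'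
  have e1 := (thetaData S E e).θ_mul hk hc h1 h1' h2 h2' h3 h4 hk'
  refine e1.trans ?_
  have e2 : TO.mul S.S hk hm = TO.mul S.S (I := Fin N) (J := Fin N') (K := Fin (N + N')) hk
      (by simp) ≫ TO.j S.S k (by simpa using hL) := (TO.mul_j S.S hk _ _).symm
  rw [e2, Category.assoc]
  refine congrArg (_ ≫ ·) ?_
  exact (thomθ_j S E e hL h3 h3' h4 _).symm

theorem unit_thomθ (h : 0 ≤ 0) (h' : 0 ≤ 0 + 0) : TO.unit S.S (Fin 0) ≫ thomθ S E e h h' =
    (λ_ (𝟙_ T)).inv ≫ ((muSeq S E e).one ⊗ₘ E.zero.hom) := (thomSys S E e).unit_θ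

end comp

/-! ### The instance -/

variable {T : Type u} [Category.{v} T] [Preadditive T] [HasZeroObject T]
    [HasShift T ℤ] [∀ n : ℤ, (shiftFunctor T n).Additive] [Pretriangulated T]
    [MonoidalCategory T] [SymmetricCategory T] [TensorTriangulated T]
variable {S : SpaceFunctor T} {E : EvenSpheres T} {e : S.S.obj CCF ≅ E.L}
  {K : T} [MonObj K] [IsCommMonObj K] (C : ThomSys.Cls (thomSys S E e) K)

theorem compatK_θ_app (n N : ℕ) :
    ((compatK C).θ n).hom.app N = (thomStrK C).TT n (Fin N) := by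
  change (thomStrK C).TT n (Fin N) ≫ (_ ◁ 𝟙 _) = _
  rw [whiskerLeft_id, Category.comp_id]

theorem thomStrK_th (n N : ℕ) : (thomStrK C).th n (Fin N) = C.wK n N := by
  change (thomSeqK C).th n (Fin N) = C.wK n N
  rw [← (thomSeqK C).th_eq_of_le n (N := N) (I := Fin N) (by simp), tj_refl, Category.id_comp]
  rfl

/-- the bottom cell at rank `0` -/
def ell0 (S : SpaceFunctor T) (E : EvenSpheres T) : E.S 0 ⟶ TO S.S 0 (Fin 0) :=
  E.zero.inv ≫ TO.unit S.S (Fin 0)

/-- `S^2 ≅ L` -/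
def sL (E : EvenSpheres T) : E.S 1 ≅ E.L := ρ_ E.L

/-- the bottom cell at rank `1` -/
def ell1 (S : SpaceFunctor T) (E : EvenSpheres T) (e : S.S.obj CCF ≅ E.L) :
    E.S 1 ⟶ TO S.S 1 (Fin 1) := (sL E).hom ≫ e.inv ≫ lineTO S

theorem ell0_τT : ell0 S E ≫ C.τT 0 0 = FM.unit K (E.S 0) := by
  rw [ell0, Category.assoc, C.τT_one, FM.unit, tensorHom_def']
  rw [← leftUnitor_inv_naturality_assoc, Iso.inv_hom_id_assoc]

theorem ell1_τT : ell1 S E e ≫ C.τT 1 1 = FM.unit K (E.S 1) := by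
  have h : lineTO S ≫ C.τT 1 1 = (e.hom ≫ (sL E).inv) ≫ FM.unit K (E.S 1) := C.τT_ℓ
  rw [ell1, Category.assoc, Category.assoc, h, Category.assoc, Iso.inv_hom_id_assoc,
    Iso.hom_inv_id_assoc]

theorem ell1_thomθ (h : 1 ≤ 1) (h' : 1 ≤ 1 + 1) : ell1 S E e ≫ thomθ S E e h h' =
    (λ_ (E.S 1)).inv ≫ (((muSeq S E e).one ≫
      (muSeq S E e).E.map (homOfLE (Nat.zero_le 1))) ▷ E.S 1) := by
  have h : lineTO S ≫ thomθ S E e h h' =
      e.hom ≫ (sL E).inv ≫ (λ_ (E.S 1)).inv ≫ (((muSeq S E e).one ≫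
        (muSeq S E e).E.map (homOfLE (Nat.zero_le 1))) ▷ E.S 1) := lineTO_thomθ S E e
  rw [ell1, Category.assoc, Category.assoc, h, Iso.inv_hom_id_assoc, Iso.hom_inv_id_assoc]

theorem ell0_thomθ (h : 0 ≤ 0) (h' : 0 ≤ 0 + 0) : ell0 S E ≫ thomθ S E e h h' =
    (λ_ (E.S 0)).inv ≫ ((muSeq S E e).one ▷ E.S 0) := by
  have h : TO.unit S.S (Fin 0) ≫ thomθ S E e h h' =
    (λ_ (𝟙_ T)).inv ≫ ((muSeq S E e).one ⊗ₘ E.zero.hom) := unit_thomθ S E e h h'
  rw [ell0, Category.assoc, h, tensorHom_def']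
  rw [← leftUnitor_inv_naturality_assoc, Iso.inv_hom_id_assoc]

theorem ell0_wK : (FM.free K).map (ell0 S E) ≫ C.wK 0 0 = 𝟙 _ := by
  apply FM.hom_ext
  refine (FM.free_map_comp_hom _ _).trans ?_
  exact ell0_τT C

theorem ell1_wK : (FM.free K).map (ell1 S E e) ≫ C.wK 1 1 = 𝟙 _ := by
  apply FM.hom_ext
  refine (FM.free_map_comp_hom _ _).trans ?_
  exact ell1_τT C

/-- The comparison maps of free modules. -/
def qK (S : SpaceFunctor T) (E : EvenSpheres T) (e : S.S.obj CCF ≅ E.L) (K : T) [MonObj K]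
    [IsCommMonObj K] {n N a : ℕ} (h : n ≤ a) (h' : N ≤ a + n) :
    (FM.free K).obj (TO S.S n (Fin N)) ⟶
      (FM.free K).obj ((muSeq S E e).E.obj a) ⊗ (FM.free K).obj (E.S n) :=
  (FM.free K).map (thomθ S E e h h')

/-- The data for the homology of `MU`, from Thom spaces. -/
def btDataK : BTData (FM K) where
  toBUData := buDataK C
  tmu {n m k} h {N M L} hK := tmu (FR S K) (I := Fin N) (J := Fin M) (K := Fin L) h
    (by simpa using hK)
  θ_tmu {n m k} h h' {N M L} hK := by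
    have e1 := (thomStrK C).TT_tmu (I := Fin N) (J := Fin M) (L := Fin L) h (by simpa using hK)
    rw [← compatK_θ_app C, ← compatK_θ_app C, ← compatK_θ_app C] at e1
    exact e1
  M := (muSeq S E e).E ⋙ FM.free K
  one := (FM.free K).map (muSeq S E e).one
  Mmu h := (FM.free K).map ((muSeq S E e).mu h)
  Mmu_map {m n p m' n' p'} h h' hm hn hp := by
    have e1 := (muSeq S E e).mu_map h h' hm hn hp
    have e2 := congrArg (FM.free K).map e1
    rw [Functor.map_comp, Functor.map_comp, ← FM.free_tensorHom] at e2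
    exact e2
  one_mul n := by
    have e1 := (muSeq S E e).one_mu n
    have e2 := congrArg (FM.free K).map e1
    rw [Functor.map_comp, ← FM.free_whiskerRight] at e2
    exact e2
  q h h' := qK S E e K h h'
  q_map {n N a b} h h' hab h1 h1' := by
    have e1 := congrArg (FM.free K).map (thomθ_map S E e h h' hab h1 h1')
    rw [Functor.map_comp, ← FM.free_whiskerRight] at e1
    exact e1
  th_q {n N N' a} hN h h' h1' := by
    have e1 := congrArg (FM.free K).map (thomθ_j S E e hN h h' h1' (by simpa using hN))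
    rw [Functor.map_comp] at e1
    refine Eq.trans ?_ e1
    change tj (FR S K) n _ ≫ qK S E e K h h' = _
    rw [tj_FR, tj_eq_TO]
    rfl
  q_mul {n m k N N' L a b c} hk hk' hK hc h1 h1' h2 h2' h3 h3' := by
    have hm : Fintype.card (Fin N) + Fintype.card (Fin N') ≤ Fintype.card (Fin L) := by
      simpa using hK
    have e1 := congrArg (FM.free K).map (thomθ_mul S E e hk hk' hK hc h1 h1' h2 h2' h3 h3' hm)
    rw [Functor.map_comp, Functor.map_comp, Functor.map_comp, ← FM.free_tensorHom,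
      ← FM.free_tensorHom, ← free_tensorμ, ← sphK_mu K E hk'] at e1
    refine Eq.trans ?_ (e1.trans ?_)
    · rfl
    · change _ = tmu (FR S K) hk hm ≫ qK S E e K h3 h3'
      rw [tmu_FR, tmu_eq_TO]
      rfl
  q_iso a := by
    have := isIso_thomθ S E e a
    exact inferInstanceAs (IsIso ((FM.free K).map (thomθ S E e (le_refl a) (le_refl (a + a)))))
  ℓ0 := (FM.free K).map (ell0 S E)
  ℓ0_θ := by
    have e1 := (thomStrK C).ℓ_TT0 (I := Fin 0) ((FM.free K).map (ell0 S E))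
    rw [thomStrK_th, ← compatK_θ_app C] at e1
    exact e1.trans ((congrArg (· ≫ _) (ell0_wK C)).trans (Category.id_comp _))
  ℓ0_q h h' := by
    have e1 := congrArg (FM.free K).map (ell0_thomθ (S := S) (E := E) (e := e) h h')
    rw [Functor.map_comp, Functor.map_comp, ← FM.free_whiskerRight] at e1
    exact e1
  ℓ1 := (FM.free K).map (ell1 S E e)
  ℓ1_θ := by
    have e1 := (thomStrK C).ℓ_TT1 ((FM.free K).map (ell1 S E e)) (by simp)
    rw [thomStrK_th, ← compatK_θ_app C] at e1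
    exact e1.trans ((congrArg (· ≫ _) (ell1_wK C)).trans (Category.id_comp _))
  ℓ1_q h h' := by
    have e1 := congrArg (FM.free K).map (ell1_thomθ (S := S) (E := E) (e := e) h h')
    rw [Functor.map_comp, Functor.map_comp, ← FM.free_whiskerRight, Functor.map_comp] at e1
    exact e1

/-- The data for the homology of `MU`. -/
def bmDataK : BMData (FM K) := (btDataK C).toBMData

end Vale.Agent.P251.M
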