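import Vale.Agent.P251.M.BMMon

/-!
# P251, part M: the Kronecker pairing of the classes `β_i` with the powers of the Euler class

* `B.xp j N : g 1 N ⟶ S j`, the `j`-th power of the Euler class, `⟨x^j, β_i⟩ = δ_{ij}`;
* `BTData.zc`: the class `z : g 1 N ⟶ X ⊗ S 1` of the second orientation;
  `⟨z, β_{i+1}⟩ = b_i`;
* `BTData.eq_bX`: if `z = Σ c_m x^{m+1}` then `c_m = b_m`.
-/

open CategoryTheory MonoidalCategory Limits

universe v u

noncomputable section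

namespace Vale.Agent.P251.M

open CH

set_option linter.unusedSectionVars false
set_option linter.dupNamespace false

namespace BUData

variable {D : Type u} [Category.{v} D] [Preadditive D] [MonoidalCategory D]
    [SymmetricCategory D] [MonoidalPreadditive D] (B : BUData D)

theorem natCast_add_one (j : ℕ) : ((j : ℕ) : ℤ) + ((1 : ℕ) : ℤ) = ((j + 1 : ℕ) : ℤ) := by
  push_cast; rfl

/-- the powers of the Euler class -/
def xp : ∀ (j N : ℕ), (B.g 1).obj N ⟶ B.S ((j : ℕ) : ℤ)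
  | 0, N => B.aug N ≫ B.e0N.hom
  | j + 1, N => (B.zz 1).app N ≫ (xp j N ▷ B.S ((1 : ℕ) : ℤ)) ≫
      (B.mu _ _ _ (natCast_add_one j)).hom

theorem xp_zero (N : ℕ) : B.xp 0 N = B.aug N ≫ B.e0N.hom := rfl

theorem xp_succ (j N : ℕ) : B.xp (j + 1) N = (B.zz 1).app N ≫
    (B.xp j N ▷ B.S ((1 : ℕ) : ℤ)) ≫ (B.mu _ _ _ (natCast_add_one j)).hom := rfl

@[reassoc]
theorem map_zz {n N M : ℕ} (h : N ≤ M) : (B.g n).map (homOfLE h) ≫ (B.zz n).app M =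
    (B.zz n).app N ≫ ((B.g n).map (homOfLE h) ▷ B.S n) :=
  (B.zz n).naturality (homOfLE h)

theorem xp_map (j : ℕ) {N M : ℕ} (h : N ≤ M) :
    (B.g 1).map (homOfLE h) ≫ B.xp j M = B.xp j N := by
  induction j with
  | zero => rw [xp_zero, xp_zero, ← Category.assoc, B.aug_map]
  | succ j ih => rw [xp_succ, xp_succ, map_zz_assoc, ← comp_whiskerRight_assoc, ih]

/-- the Kronecker pairing with the powers of the Euler class -/
def xpC (j : ℕ) (W : D) : CH W (B.g 1) →+ (W ⟶ B.S ((j : ℕ) : ℤ)) :=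
  CH.lift (fun N => Preadditive.rightComp W (B.xp j N)) (fun N N' h x => by
    change (x ≫ (B.g 1).map (homOfLE h)) ≫ B.xp j N' = x ≫ B.xp j N
    rw [Category.assoc, B.xp_map])

@[simp] theorem xpC_cls (j : ℕ) {W : D} (N : ℕ) (x : W ⟶ (B.g 1).obj N) :
    B.xpC j W (cls N x) = x ≫ B.xp j N := rfl

theorem xpC_pre (j : ℕ) {W W' : D} (f : W' ⟶ W) (x : CH W (B.g 1)) :
    B.xpC j W' (pre f x) = f ≫ B.xpC j W x := by
  obtain ⟨N, x, rfl⟩ := exists_cls x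
  rw [pre_cls, xpC_cls, xpC_cls, Category.assoc]

/-- Common representatives. -/
theorem exists_rep {W W' : D} {n : ℕ} (f : W ⟶ W' ⊗ B.S n) (x : CH W (B.g n))
    (y : CH W' (B.g n)) (h : B.PhiT n x = pre f (tens (B.S n) y)) (N₀ : ℕ) :
    ∃ (N : ℕ) (_ : N₀ ≤ N) (x' : W ⟶ (B.g n).obj N) (y' : W' ⟶ (B.g n).obj N),
      x = cls N x' ∧ y = cls N y' ∧ x' ≫ (B.zz n).app N = f ≫ (y' ▷ B.S n) := by
  obtain ⟨N, x, y, rfl, rfl⟩ := exists_cls₂ x y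
  rw [PhiT_cls, tens_cls, pre_cls, cls_eq_iff] at h
  obtain ⟨N', hN, hN', e⟩ := h
  refine ⟨max N₀ N', le_max_left _ _, x ≫ (B.g n).map (homOfLE (hN.trans (le_max_right _ _))),
    y ≫ (B.g n).map (homOfLE (hN.trans (le_max_right _ _))), (cls_map _ _).symm,
    (cls_map _ _).symm, ?_⟩
  have e1 := congrArg (· ≫ (B.g n ⋙ tensorRight (B.S n)).map
    (homOfLE (le_max_right N₀ N'))) e
  have e2 : ∀ (h1 : N ≤ max N₀ N'), (B.g n ⋙ tensorRight (B.S n)).map (homOfLE hN) ≫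
      (B.g n ⋙ tensorRight (B.S n)).map (homOfLE (le_max_right N₀ N')) =
        (B.g n ⋙ tensorRight (B.S n)).map (homOfLE h1) := fun h1 => by
    rw [← Functor.map_comp]
    rfl
  rw [Category.assoc, Category.assoc, e2 (hN.trans (le_max_right _ _))] at e1
  rw [Category.assoc, (B.zz n).naturality]
  refine e1.trans ?_
  rw [comp_whiskerRight, Category.assoc, e2 (hN.trans (le_max_right _ _)), Category.assoc]
  rfl

theorem xpC_succ (j : ℕ) {W W' : D} (f : W ⟶ W' ⊗ B.S ((1 : ℕ) : ℤ)) (x : CH W (B.g 1))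
    (y : CH W' (B.g 1)) (h : B.PhiT 1 x = pre f (tens (B.S ((1 : ℕ) : ℤ)) y)) :
    B.xpC (j + 1) W x = f ≫ (B.xpC j W' y ▷ B.S ((1 : ℕ) : ℤ)) ≫
      (B.mu _ _ _ (natCast_add_one j)).hom := by
  obtain ⟨N, _, x', y', rfl, rfl, e⟩ := B.exists_rep f x y h 0
  rw [xpC_cls, xpC_cls, xp_succ, reassoc_of% e, comp_whiskerRight, Category.assoc]

theorem xpC_of_PhiT_eq_zero (j : ℕ) {W : D} (x : CH W (B.g 1)) (h : B.PhiT 1 x = 0) :
    B.xpC (j + 1) W x = 0 := by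
  obtain ⟨N, x, rfl⟩ := exists_cls x
  rw [PhiT_cls, cls_eq_zero_iff] at h
  obtain ⟨M, hM, e⟩ := h
  rw [Category.assoc, ← (B.zz 1).naturality, ← Category.assoc] at e
  rw [← cls_map hM, xpC_cls, xp_succ, ← Category.assoc, e, zero_comp]

variable {B} (b : B.Beta)

theorem Beta.xpC_succ_succ (i j : ℕ) : B.xpC (j + 1) _ (b.β (i + 1)) =
    (B.mu _ _ _ (natCast_add_one i)).inv ≫ (B.xpC j _ (b.β i) ▷ B.S ((1 : ℕ) : ℤ)) ≫
      (B.mu _ _ _ (natCast_add_one j)).hom :=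
  B.xpC_succ j _ _ _ (b.β_succ i (natCast_add_one i))

theorem Beta.xpC_zero_zero : B.xpC 0 _ (b.β 0) = 𝟙 _ := by
  rw [b.β_zero, xpC_pre]
  have h : B.xpC 0 _ B.ptc = B.e0N.hom := by
    change B.pt1 ≫ B.aug 1 ≫ B.e0N.hom = _
    rw [← Category.assoc, B.pt1_aug, Category.id_comp]
  rw [h, Iso.inv_hom_id]

theorem Beta.xpC_zero_succ (i : ℕ) : B.xpC 0 _ (b.β (i + 1)) = 0 := by
  have h := b.β_aug i
  have key : ∀ {W : D} (x : CH W (B.g 1)), B.xpC 0 W x = B.augC W x ≫ B.e0N.hom := by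
    intro W x
    obtain ⟨N, x, rfl⟩ := exists_cls x
    rw [xpC_cls, augC_cls, xp_zero, Category.assoc]
  rw [key, h, zero_comp]

theorem Beta.xpC_succ_zero (j : ℕ) : B.xpC (j + 1) _ (b.β 0) = 0 := by
  apply B.xpC_of_PhiT_eq_zero
  rw [b.β_zero, PhiT_pre, PhiT_ptc, map_zero]

/-- `⟨x^j, β_j⟩ = 1`. -/
theorem Beta.xpC_self (j : ℕ) : B.xpC j _ (b.β j) = 𝟙 _ := by
  induction j with
  | zero => exact b.xpC_zero_zero
  | succ j ih => rw [b.xpC_succ_succ, ih, id_whiskerRight, Category.id_comp, Iso.inv_hom_id]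

/-- `⟨x^j, β_i⟩ = 0` for `i ≠ j`. -/
theorem Beta.xpC_ne : ∀ {i j : ℕ} (_ : i ≠ j), B.xpC j _ (b.β i) = 0
  | 0, 0, h => absurd rfl h
  | i + 1, 0, _ => b.xpC_zero_succ i
  | 0, j + 1, _ => b.xpC_succ_zero j
  | i + 1, j + 1, h => by
    rw [b.xpC_succ_succ, Beta.xpC_ne (fun e => h (congrArg (· + 1) e)),
      MonoidalPreadditive.zero_whiskerRight, zero_comp, comp_zero]

end BUData

namespace BTData

variable {D : Type u} [Category.{v} D] [Preadditive D] [MonoidalCategory D]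
    [SymmetricCategory D] [MonoidalPreadditive D] (B : BTData D)
  {X : D} (κ : ∀ N, B.M.obj N ⟶ X)
  (hκ : ∀ {N N' : ℕ} (h : N ≤ N'), B.M.map (homOfLE h) ≫ κ N' = κ N)

/-- The class `z : g 1 N ⟶ X ⊗ S 1` of the second orientation (at stage `a`). -/
def zc {N a : ℕ} (h : 1 ≤ a) (h' : N ≤ a + 1) : (B.g 1).obj N ⟶ X ⊗ B.S ((1 : ℕ) : ℤ) :=
  (B.z 1).app N ≫ B.q h h' ≫ (κ a ▷ B.S ((1 : ℕ) : ℤ))

theorem zc_eq_zz {N a : ℕ} (h : 1 ≤ a) (h' : N ≤ a + 1) :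
    B.zc κ h h' = (B.zz 1).app N ≫ ((B.w h h' ≫ κ a) ▷ B.S ((1 : ℕ) : ℤ)) := by
  rw [zc, ← B.θ_w h h', BUData.zz_app, comp_whiskerRight, Category.assoc, Category.assoc]

include hκ in
theorem zc_stage {N a a' : ℕ} (h : 1 ≤ a) (h' : N ≤ a + 1) (k : 1 ≤ a') (k' : N ≤ a' + 1) :
    B.zc κ h h' = B.zc κ k k' := by
  have key : ∀ {a a' : ℕ} (h : 1 ≤ a) (h' : N ≤ a + 1) (k : 1 ≤ a') (k' : N ≤ a' + 1)
      (_ : a ≤ a'), B.zc κ h h' = B.zc κ k k' := by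
    intro a a' h h' k k' haa
    rw [zc, zc, ← B.q_map h h' haa k k', Category.assoc, ← comp_whiskerRight, hκ]
  rcases le_total a a' with haa | haa
  · exact key h h' k k' haa
  · exact (key k k' h h' haa).symm

theorem map_zc {N N' a : ℕ} (hN : N ≤ N') (h : 1 ≤ a) (h' : N' ≤ a + 1) (h1' : N ≤ a + 1) :
    (B.g 1).map (homOfLE hN) ≫ B.zc κ h h' = B.zc κ h h1' := by
  rw [zc, zc, ← B.th_q hN h h' h1', ← Category.assoc, (B.z 1).naturality]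
  simp only [Category.assoc]

/-- the canonical stage -/
def zcN (N : ℕ) : (B.g 1).obj N ⟶ X ⊗ B.S ((1 : ℕ) : ℤ) :=
  B.zc κ (a := N + 1) (by omega) (by omega)

include hκ in
theorem zcN_eq {N a : ℕ} (h : 1 ≤ a) (h' : N ≤ a + 1) : B.zcN κ N = B.zc κ h h' :=
  B.zc_stage κ hκ _ _ _ _

include hκ in
theorem map_zcN {N N' : ℕ} (hN : N ≤ N') :
    (B.g 1).map (homOfLE hN) ≫ B.zcN κ N' = B.zcN κ N := by
  rw [B.zcN_eq κ hκ (N := N) (a := N' + 1) (by omega) (by omega), zcN, B.map_zc]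

/-- the Kronecker pairing with `z` -/
def zcC (W : D) : CH W (B.g 1) →+ (W ⟶ X ⊗ B.S ((1 : ℕ) : ℤ)) :=
  CH.lift (fun N => Preadditive.rightComp W (B.zcN κ N)) (fun N N' h x => by
    change (x ≫ (B.g 1).map (homOfLE h)) ≫ B.zcN κ N' = x ≫ B.zcN κ N
    rw [Category.assoc, B.map_zcN κ hκ])

@[simp] theorem zcC_cls {W : D} (N : ℕ) (x : W ⟶ (B.g 1).obj N) :
    B.zcC κ hκ W (cls N x) = x ≫ B.zcN κ N := rfl

/-- the map `E_*(BU(n)) ⟶ E_*(X)` -/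
def omX {W : D} (n : ℕ) (y : CH W (B.g n)) : W ⟶ X :=
  B.toBMData.toX κ hκ W (B.toBMData.Om n y)

theorem omX_cls {W : D} {n N a : ℕ} (h : n ≤ a) (h' : N ≤ a + n) (y : W ⟶ (B.g n).obj N) :
    B.omX κ hκ n (cls N y) = y ≫ B.w h h' ≫ κ a := by
  refine (congrArg (B.toBMData.toX κ hκ W) (B.toBMData.Om_cls (n := n) (a := a) h h' y)).trans ?_
  exact Category.assoc _ _ _

theorem zcC_of_PhiT {W W' : D} (f : W ⟶ W' ⊗ B.S ((1 : ℕ) : ℤ)) (x : CH W (B.g 1))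
    (y : CH W' (B.g 1)) (h : B.PhiT 1 x = pre f (tens (B.S ((1 : ℕ) : ℤ)) y)) :
    B.zcC κ hκ W x = f ≫ (B.omX κ hκ 1 y ▷ B.S ((1 : ℕ) : ℤ)) := by
  obtain ⟨N, _, x', y', rfl, rfl, e⟩ := B.exists_rep f x y h 0
  rw [B.omX_cls κ hκ (by omega : 1 ≤ N + 1) (by omega : N ≤ N + 1 + 1), zcC_cls, zcN, zc_eq_zz,
    reassoc_of% e]
  simp only [comp_whiskerRight]

variable {B} (b : B.toBUData.Beta)

/-- `⟨z, β_{i+1}⟩ = b_i`. -/
theorem zcC_beta_succ (i : ℕ) : B.zcC κ hκ _ (b.β (i + 1)) =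
    (B.mu _ _ _ (BUData.natCast_add_one i)).inv ≫
      (BMData.bX (B := B.toBMData) κ hκ b i ▷ B.S ((1 : ℕ) : ℤ)) :=
  B.zcC_of_PhiT κ hκ _ _ _ (b.β_succ i (BUData.natCast_add_one i))

/-- **Identification of the `b_j`.** If `z = Σ c_m x^{m+1}` at arbitrarily large stages, then
`c_j = b_j`. -/
theorem eq_bX (c : ∀ m : ℕ, B.S ((m : ℕ) : ℤ) ⟶ X) (j : ℕ)
    (h : ∀ N₀ : ℕ, ∃ (N : ℕ) (_ : N₀ ≤ N) (s : Finset ℕ) (_ : j ∈ s), B.zcN κ N =
      ∑ m ∈ s, B.xp (m + 1) N ≫ (B.mu _ _ _ (BUData.natCast_add_one m)).inv ≫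
        (c m ▷ B.S ((1 : ℕ) : ℤ))) :
    c j = BMData.bX (B := B.toBMData) κ hκ b j := by
  classical
  obtain ⟨N₁, β, hβ⟩ := exists_cls (b.β (j + 1))
  obtain ⟨N, hN, s, hs, e⟩ := h N₁
  have hβ' : b.β (j + 1) = cls N (β ≫ (B.g 1).map (homOfLE hN)) := by rw [cls_map, hβ]
  generalize β ≫ (B.g 1).map (homOfLE hN) = β' at hβ'
  have h1 := zcC_beta_succ κ hκ b j
  rw [hβ', zcC_cls, e, Preadditive.comp_sum, Finset.sum_eq_single j] at h1
  · have h2 : β' ≫ B.xp (j + 1) N = 𝟙 _ := by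
      have := b.xpC_self (j + 1)
      rwa [hβ', BUData.xpC_cls] at this
    rw [reassoc_of% h2] at h1
    exact B.ext_tS ((cancel_epi _).1 h1)
  · intro m _ hm
    have h2 : β' ≫ B.xp (m + 1) N = 0 := by
      have := b.xpC_ne (i := j + 1) (j := m + 1) (by omega)
      rwa [hβ', BUData.xpC_cls] at this
    rw [reassoc_of% h2, zero_comp]
  · intro hj
    exact absurd hs hj

end BTData

end Vale.Agent.P251.M
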