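import Vale.Agent.P251.M.ThomCl
import Vale.Agent.P251.M.BUPair

/-!
# P251, part M: the Euler map is the cap product with the Euler class

* `ThomStr.zz_eq_cap` : `zz n = diag ≫ (Gr n ◁ e)`, `e` the Euler class;
* `hom_xp_zero`, `hom_xp_succ`: for the data `buDataK C`, the `j`-th power `xp j` of the Euler
  class is, as a class `S (Gr 1 (Fin N)) ⟶ K ⊗ E.S j`, the `j`-fold cup product of
  `zero section ≫ C.τT 1 N`.
-/

set_option linter.unusedSectionVars false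
set_option linter.style.haveILetI false

open CategoryTheory MonoidalCategory Limits Pretriangulated Topology OnePoint Matrix MonObj

universe v u

noncomputable section

namespace Vale.Agent.P251.M

open G G.LC I Vale.Agent.P251.T

theorem z_delta (n : ℕ) (I : Type) [Fintype I] :
    GS.z n I ≫ Th.delta = Q.diag (GrO n I) ≫ (GrO n I ◁ GS.z n I) := by
  apply LC.hom_ext
  intro x
  rfl

section general

variable {D : Type u} [Category.{v} D] [MonoidalCategory D] [SymmetricCategory D]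
variable {F : FCat ⥤ D} [F.Braided] [HInv F] (t : ThomStr F)

/-- The Euler map is the cap product with the Euler class. -/
theorem ThomStr.zz_eq_cap (n : ℕ) (I : Type) [Fintype I] :
    t.zz n I = mp F (Q.diag (GrO n I)) ≫ (tn F (GrO n I) (GrO n I)).inv ≫
      (ob F (GrO n I) ◁ (zr F n I ≫ t.th n I)) := by
  rw [ThomStr.zz, TT, zr, ← t.sl_comp, z_delta, ThomStr.sl, mp_comp, Category.assoc,
    tn_inv_natural_right_assoc, ← MonoidalCategory.whiskerLeft_comp]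

end general

variable {T : Type u} [Category.{v} T] [Preadditive T] [HasZeroObject T]
    [HasShift T ℤ] [∀ n : ℤ, (shiftFunctor T n).Additive] [Pretriangulated T]
    [MonoidalCategory T] [SymmetricCategory T] [TensorTriangulated T]
variable {S : SpaceFunctor T} {E : EvenSpheres T} {e : S.S.obj CCF ≅ E.L}
  {K : T} [MonObj K] [IsCommMonObj K] (C : ThomSys.Cls (thomSys S E e) K)

/-- the Thom class of `thomStrK C` on the standard Thom spaces -/
theorem thomStrK_th_app (n N : ℕ) : (thomStrK C).th n (Fin N) = C.wK n N := by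
  have h := (thomSeqK C).th_eq_of_le (I := Fin N) n (N := N) le_rfl
  have h2 : tj (FR S K) (I := Fin N) (J := Fin N) n le_rfl ≫ (thomSeqK C).w n N =
      (thomSeqK C).w n N := by
    rw [tj_refl, Category.id_comp]
  exact h.symm.trans h2

/-- the Euler class in `K^2 (Gr 1 (Fin N))` -/
def eulT (N : ℕ) : ob S.S (GrO 1 (Fin N)) ⟶ K ⊗ E.S ((1 : ℕ) : ℤ) :=
  mp S.S (GS.z 1 (Fin N)) ≫ C.τT 1 N

/-- the Euler class in `FM K` -/
def eulF (N : ℕ) : ob (FR S K) (GrO 1 (Fin N)) ⟶ (sphK E K).S ((1 : ℕ) : ℤ) :=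
  zr (FR S K) 1 (Fin N) ≫ C.wK 1 N

theorem hom_eulF (N : ℕ) : FM.Hom.hom (eulF C N) = eulT C N :=
  FM.free_map_comp_hom (R := K) (mp S.S (GS.z 1 (Fin N))) _

/-- the Euler map, typed -/
def zzK (N : ℕ) : ob (FR S K) (GrO 1 (Fin N)) ⟶
    ob (FR S K) (GrO 1 (Fin N)) ⊗ (sphK E K).S ((1 : ℕ) : ℤ) := ((buDataK C).zz 1).app N

theorem zzK_eq (N : ℕ) : zzK C N =
    mp (FR S K) (Q.diag (GrO 1 (Fin N))) ≫ (tn (FR S K) _ _).inv ≫
      (ob (FR S K) (GrO 1 (Fin N)) ◁ eulF C N) := by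
  have h1 : zzK C N = (thomStrK C).zz 1 (Fin N) ≫
      (ob (FR S K) (GrO 1 (Fin N)) ◁ 𝟙 _) := (compatK C).z_θ 1 N
  rw [h1, MonoidalCategory.whiskerLeft_id, Category.comp_id, ThomStr.zz_eq_cap, thomStrK_th_app]
  rfl

/-- the powers of the Euler class, typed -/
def xpF (j N : ℕ) : ob (FR S K) (GrO 1 (Fin N)) ⟶ (sphK E K).S ((j : ℕ) : ℤ) :=
  (buDataK C).xp j N

/-- the powers of the Euler class in `K^{2j} (Gr 1 (Fin N))` -/
def xpT (j N : ℕ) : ob S.S (GrO 1 (Fin N)) ⟶ K ⊗ E.S ((j : ℕ) : ℤ) := FM.Hom.hom (xpF C j N)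

theorem xpF_succ (j N : ℕ) : xpF C (j + 1) N =
    mp (FR S K) (Q.diag (GrO 1 (Fin N))) ≫ (tn (FR S K) _ _).inv ≫
      (xpF C j N ⊗ₘ eulF C N) ≫ ((sphK E K).mu _ _ _ (BUData.natCast_add_one j)).hom := by
  have h1 : xpF C (j + 1) N = zzK C N ≫
      (xpF C j N ▷ (sphK E K).S ((1 : ℕ) : ℤ)) ≫
      ((sphK E K).mu _ _ _ (BUData.natCast_add_one j)).hom := rfl
  rw [h1, zzK_eq, tensorHom_def']
  simp only [Category.assoc]

/-- The zeroth power of the Euler class. -/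
theorem xpT_zero (N : ℕ) : xpT C 0 N =
    (mp S.S (GS.gaug 1 (Fin N) : GrO 1 (Fin N) ⟶ 𝟙_ LC) ≫ (un S.S).inv) ≫ E.zero.hom ≫
      FM.unit K (E.S 0) := by
  have h1 : xpF C 0 N = aug (FR S K) 1 (Fin N) ≫ (sphK E K).e0.hom := rfl
  have h2 : (un (FR S K)).inv = (FM.free K).map (un S.S).inv :=
    congrArg Iso.inv (Iso.ext (un_FR S K) : un (FR S K) = (FM.free K).mapIso (un S.S))
  have h3 : aug (FR S K) 1 (Fin N) = (FM.free K).map
      (mp S.S (GS.gaug 1 (Fin N) : GrO 1 (Fin N) ⟶ 𝟙_ LC) ≫ (un S.S).inv) := by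
    rw [aug, h2, Functor.map_comp]
    rfl
  rw [xpT, h1, h3, sphK_e0]
  exact FM.free_map_comp_hom (R := K) _ _

/-- The powers of the Euler class are its cup powers. -/
theorem xpT_succ (j N : ℕ) : xpT C (j + 1) N =
    mp S.S (Q.diag (GrO 1 (Fin N))) ≫ (tn S.S _ _).inv ≫
      (xpT C j N ⊗ₘ eulT C N) ≫
      tensorμ K (E.S ((j : ℕ) : ℤ)) K (E.S ((1 : ℕ) : ℤ)) ≫
      (μ[K] ⊗ₘ (E.mu _ _ _ (BUData.natCast_add_one j)).hom) := by
  rw [xpT, xpF_succ, tn_FR_inv, sphK_mu]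
  refine (FM.free_map_comp_hom (R := K) (mp S.S (Q.diag (GrO 1 (Fin N)))) _).trans ?_
  refine congrArg (mp S.S (Q.diag (GrO 1 (Fin N))) ≫ ·) ?_
  refine (FM.free_map_comp_hom (R := K) (tn S.S (GrO 1 (Fin N)) (GrO 1 (Fin N))).inv _).trans ?_
  refine congrArg ((tn S.S (GrO 1 (Fin N)) (GrO 1 (Fin N))).inv ≫ ·) ?_
  refine (FM.comp_free_map_hom (R := K) _ _).trans ?_
  have key : ∀ (f : ob S.S (GrO 1 (Fin N)) ⟶ K ⊗ E.S ((j : ℕ) : ℤ))
      (g : ob S.S (GrO 1 (Fin N)) ⟶ K ⊗ E.S ((1 : ℕ) : ℤ)),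
      ((f ⊗ₘ g) ≫ FM.ten K _ _) ≫ K ◁ (E.mu _ _ _ (BUData.natCast_add_one j)).hom =
        (f ⊗ₘ g) ≫ tensorμ K (E.S ((j : ℕ) : ℤ)) K (E.S ((1 : ℕ) : ℤ)) ≫
      (μ[K] ⊗ₘ (E.mu _ _ _ (BUData.natCast_add_one j)).hom) := by
    intro f g
    rw [FM.ten, Category.assoc, Category.assoc, MonoidalCategory.tensorHom_def (μ[K])]
  refine Eq.trans ?_ (key (xpT C j N) (eulT C N))
  rw [← hom_eulF]
  rfl

end Vale.Agent.P251.M
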