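import Vale.Agent.P251.M.BGlueB
import Vale.Agent.P251.M.BUCap
import Vale.Agent.P251.M.BTInst
import Vale.Agent.P251.M.MUBasisV

/-!
# P251, part M: identification of the coefficients of the comparison of two orientations

The coefficient `c_m` of the comparison of the two orientations of `K ⊗ R` is the class `b_m`.
-/

open CategoryTheory MonoidalCategory Limits Pretriangulated MonObj
open Vale.Agent.P251.G Vale.Agent.P251.G.LC Vale.Agent.P251.I Vale.Agent.P251.T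
open Vale.Agent.P251.F
open Vale.Agent.P251.S (ModStr Sc scMul inlM inrM)
open Functor.OplaxMonoidal Functor.LaxMonoidal
open Vale.Agent.P251.M.EvenSpheres

universe v u

set_option linter.unusedSectionVars false

noncomputable section

namespace Vale.Agent.P251.M

variable {T : Type u} [Category.{v} T] [Preadditive T] [HasZeroObject T]
    [HasShift T ℤ] [∀ n : ℤ, (shiftFunctor T n).Additive] [Pretriangulated T] [IsTriangulated T]
    [MonoidalCategory T] [SymmetricCategory T] [TensorTriangulated T] [MonoidalClosed T]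
    [HasCoproducts.{0} T] [HasProducts.{0} T] [StableCat T]
  {S : EvenSpheres T} {F : SpaceFunctor T} {e : F.S.obj CCF ≅ S.L}

/-- The projective space as a finite cell space. -/
abbrev grX (N : ℕ) : FCat := ⟨GrO 1 (Fin N), (isFC_gr 1 (Fin N)).out⟩

instance compactSpace_grX (N : ℕ) : CompactSpace (GrO 1 (Fin N)) :=
  inferInstanceAs (CompactSpace (Gr 1 (Fin N)))

section pow

variable {K : T} [MonObj K] [IsCommMonObj K] (C : ThomSys.Cls (thomSys F S e) K)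

instance good_grX (N : ℕ) : (thK e K).Good (GrO 1 (Fin N)) := ⟨(grX N).property⟩

theorem eta_tensor_PS : η[K ⊗ S.PS] = S.zero.hom ≫ FM.unit K (S.S 0) ≫ K ◁ S.inPS 0 := by
  rw [← FM.unit_naturality, FM.unit, tensorObj.one_def, PS_one, tensorHom_def',
    ← leftUnitor_inv_naturality_assoc, Category.assoc]

theorem tU_zpow (o : Q.Orientation (thK e K)) (N : ℕ)
    (hz : tU e K (grX N) (o.z (Fin N)) = eulT C N ≫ K ◁ S.inPS ((1 : ℕ) : ℤ)) (j : ℕ) :
    tU e K (grX N) (o.z (Fin N) ^ j) = xpT C j N ≫ K ◁ S.inPS ((j : ℕ) : ℤ) := by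
  induction j with
  | zero =>
    rw [_root_.pow_zero]
    refine (tU_one e (K := K) (grX N)).trans ?_
    rw [xpT_zero, eta_tensor_PS]
    simp only [Category.assoc]
    rfl
  | succ j ih =>
    rw [_root_.pow_succ]
    refine (tU_mul e (grX N) _ _ ⟨(grX N).property⟩).trans ?_
    rw [ih, hz, in_tensor_mul (BUData.natCast_add_one j), xpT_succ]
    simp only [Category.assoc]
    rfl

end pow

/-! ### The expansion of the second Euler class -/

section assoc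

variable {K R : T} [MonObj K] [MonObj R]

theorem inlM_bind_assoc {X Y : T} (h : X ⟶ (K ⊗ R) ⊗ Y) :
    (inlM K R ▷ X) ≫ FM.bind h ≫ (α_ K R Y).hom = FM.bind (h ≫ (α_ K R Y).hom) := by
  unfold FM.bind
  simp only [Category.assoc]
  rw [← whisker_exchange_assoc, associator_inv_naturality_left_assoc,
    ← comp_whiskerRight_assoc, inlM_mul_id, comp_whiskerRight, Category.assoc,
    associator_naturality_left, MonoidalCategory.whiskerLeft_comp, Category.assoc]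
  simp

theorem inrM_whiskerRight_assoc' (Y : T) : (inrM K R ▷ Y) ≫ (α_ K R Y).hom =
    FM.unit K (R ⊗ Y) := by
  unfold inrM FM.unit
  rw [comp_whiskerRight, Category.assoc, associator_naturality_left]
  simp

theorem whiskerLeft_unit_ten {X Y : T} :
    (K ⊗ X) ◁ FM.unit K Y ≫ FM.ten K X Y = (α_ K X Y).hom := by
  have h1 : (K ⊗ X) ◁ (η[K] ▷ Y) ≫ tensorμ K X K Y =
      tensorμ K X (𝟙_ T) Y ≫ ((K ◁ η[K]) ▷ (X ⊗ Y)) := by
    have := tensorμ_natural_right K X η[K] (𝟙 Y)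
    simpa using this
  rw [FM.unit, FM.ten, MonoidalCategory.whiskerLeft_comp, Category.assoc, reassoc_of% h1,
    ← comp_whiskerRight, MonObj.mul_one, tensorμ_unit_right,
    ← MonoidalCategory.whiskerLeft_comp_assoc, Iso.inv_hom_id, MonoidalCategory.whiskerLeft_id,
    Category.id_comp]

theorem hom_whiskerRight_free {X Y Z : T} (c : FM.of (R := K) X ⟶ (FM.free K).obj Z) :
    FM.Hom.hom (c ▷ (FM.free K).obj Y) = (FM.Hom.hom c ▷ Y) ≫ (α_ K Z Y).hom := by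
  have key : ∀ f : X ⟶ K ⊗ Z, (f ⊗ₘ FM.unit K Y) ≫ FM.ten K Z Y =
      (f ▷ Y) ≫ (α_ K Z Y).hom := by
    intro f
    rw [MonoidalCategory.tensorHom_def, Category.assoc, whiskerLeft_unit_ten]
  exact key (FM.Hom.hom c)

end assoc

section expansion

variable {K R : T} [MonObj K] [IsCommMonObj K] [MonObj R] [IsCommMonObj R]
  (C : ThomSys.Cls (thomSys F S e) K) (C' : ThomSys.Cls (thomSys F S e) R)
  (o : Q.Orientation (thK e K)) (o' : Q.Orientation (thK e R))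

/-- the coefficients of the comparison of the orientations of `K ⊗ R` -/
def cmpC (m : ℕ) : (thK e (K ⊗ R)).A :=
  (CPSys.Coord.cmp (coordO ((thKHom e (inlM K R)).push o))
    (coordO ((thKHom e (inrM K R)).push o')) (z_one_eq _ _)).c m

variable {C C' o o'}

theorem tU_left (N j : ℕ)
    (hz : tU e K (grX N) (o.z (Fin N)) = eulT C N ≫ K ◁ S.inPS ((1 : ℕ) : ℤ)) :
    tU e (K ⊗ R) (grX N) (((thKHom e (inlM K R)).push o).z (Fin N) ^ j) =
      xpT C j N ≫ (inlM K R ▷ S.S ((j : ℕ) : ℤ)) ≫ ((K ⊗ R) ◁ S.inPS ((j : ℕ) : ℤ)) := by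
  have h1 : ((thKHom e (inlM K R)).push o).z (Fin N) ^ j =
      (thKHom e (inlM K R)).app (GrO 1 (Fin N)) (o.z (Fin N) ^ j) := by
    rw [push_z]
    exact (map_pow ((thKHom e (inlM K R)).mapU (GrO 1 (Fin N))) (o.z (Fin N)) j).symm
  rw [h1]
  refine (tU_push e (inlM K R) (grX N) _).trans ?_
  rw [tU_zpow C o N hz j, Category.assoc, whisker_exchange]

theorem tU_right (N : ℕ)
    (hz : tU e R (grX N) (o'.z (Fin N)) = eulT C' N ≫ R ◁ S.inPS ((1 : ℕ) : ℤ)) :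
    tU e (K ⊗ R) (grX N) (((thKHom e (inrM K R)).push o').z (Fin N)) =
      (eulT C' N ≫ (inrM K R ▷ S.S ((1 : ℕ) : ℤ))) ≫ ((K ⊗ R) ◁ S.inPS ((1 : ℕ) : ℤ)) := by
  rw [push_z]
  refine (tU_push e (inrM K R) (grX N) _).trans ?_
  rw [hz, Category.assoc, Category.assoc, whisker_exchange]

theorem cancel_inPS {P W : T} {k : ℤ} {f g : W ⟶ P ⊗ S.S k}
    (h : f ≫ P ◁ S.inPS k = g ≫ P ◁ S.inPS k) : f = g := by
  have h1 : P ◁ S.inPS k ≫ P ◁ S.pr k = 𝟙 (P ⊗ S.S k) := by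
    rw [← MonoidalCategory.whiskerLeft_comp, inPS_pr _ _ rfl, castIso_refl, Iso.refl_hom,
      MonoidalCategory.whiskerLeft_id]
  have h2 := congrArg (· ≫ P ◁ S.pr k) h
  simpa only [Category.assoc, h1, Category.comp_id] using h2

/-- The Euler class of the second orientation in terms of the powers of the first one. -/
theorem expansion (g : ∀ i : ℕ, S.S ((i : ℕ) : ℤ) ⟶ K ⊗ R)
    (hg : ∀ i : ℕ, coefK e (K ⊗ R) (cmpC o o' i) = HRing.of S (K ⊗ R) ((i : ℕ) : ℤ) (g i))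
    (n : ℕ)
    (hz : tU e K (grX (n + 1)) (o.z (Fin (n + 1))) =
      eulT C (n + 1) ≫ K ◁ S.inPS ((1 : ℕ) : ℤ))
    (hz' : tU e R (grX (n + 1)) (o'.z (Fin (n + 1))) =
      eulT C' (n + 1) ≫ R ◁ S.inPS ((1 : ℕ) : ℤ)) :
    eulT C' (n + 1) ≫ (inrM K R ▷ S.S ((1 : ℕ) : ℤ)) =
      ∑ i : Fin n, xpT C ((i : ℕ) + 1) (n + 1) ≫
        (inlM K R ▷ S.S ((((i : ℕ) + 1 : ℕ)) : ℤ)) ≫
          FM.bind ((S.mu _ _ _ (BUData.natCast_add_one (i : ℕ))).inv ≫
            (g (i : ℕ) ▷ S.S ((1 : ℕ) : ℤ))) := by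
  have h1 := z_eq_sum_cmp ((thKHom e (inlM K R)).push o) ((thKHom e (inrM K R)).push o')
    (z_one_eq _ _) n
  have h2 := congrArg (tU e (K ⊗ R) (grX (n + 1))) h1
  rw [map_sum] at h2
  apply cancel_inPS
  refine (tU_right (n + 1) hz').symm.trans (h2.trans ?_)
  rw [Preadditive.sum_comp]
  refine Finset.sum_congr rfl fun i _ => ?_
  refine (tU_smul e (grX (n + 1)) _ _).trans ?_
  have h3 : coefK e (K ⊗ R) ((CPSys.Coord.cmp (coordO ((thKHom e (inlM K R)).push o))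
    (coordO ((thKHom e (inrM K R)).push o')) (z_one_eq _ _)).c (i : ℕ)) =
      HRing.of S (K ⊗ R) (((i : ℕ) : ℕ) : ℤ) (g (i : ℕ)) := hg i
  rw [h3, HRing.of, sharpTot_of, tU_left (n + 1) ((i : ℕ) + 1) hz]
  simp only [Category.assoc]
  rw [in_smul_sharp (BUData.natCast_add_one (i : ℕ))]

/-- The same in the category of free `K`-modules. -/
theorem expansionK (g : ∀ i : ℕ, S.S ((i : ℕ) : ℤ) ⟶ K ⊗ R)
    (hg : ∀ i : ℕ, coefK e (K ⊗ R) (cmpC o o' i) = HRing.of S (K ⊗ R) ((i : ℕ) : ℤ) (g i))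
    (n : ℕ)
    (hz : tU e K (grX (n + 1)) (o.z (Fin (n + 1))) =
      eulT C (n + 1) ≫ K ◁ S.inPS ((1 : ℕ) : ℤ))
    (hz' : tU e R (grX (n + 1)) (o'.z (Fin (n + 1))) =
      eulT C' (n + 1) ≫ R ◁ S.inPS ((1 : ℕ) : ℤ)) :
    eulT C' (n + 1) ≫ FM.unit K (R ⊗ S.S ((1 : ℕ) : ℤ)) =
      ∑ i : Fin n, xpT C ((i : ℕ) + 1) (n + 1) ≫
          FM.bind ((S.mu _ _ _ (BUData.natCast_add_one (i : ℕ))).inv ≫
            (g (i : ℕ) ▷ S.S ((1 : ℕ) : ℤ)) ≫ (α_ K R (S.S ((1 : ℕ) : ℤ))).hom) := by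
  have h := congrArg (· ≫ (α_ K R (S.S ((1 : ℕ) : ℤ))).hom) (expansion g hg n hz hz')
  rw [Preadditive.sum_comp, Category.assoc, inrM_whiskerRight_assoc'] at h
  refine h.trans (Finset.sum_congr rfl fun i _ => ?_)
  simp only [Category.assoc]
  rw [inlM_bind_assoc]
  simp only [Category.assoc]

end expansion

/-! ### The identification -/

section ident

variable {K R : T} [MonObj K] [IsCommMonObj K] [MonObj R] [IsCommMonObj R]
  (C : ThomSys.Cls (thomSys F S e) K) (C' : ThomSys.Cls (thomSys F S e) R)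
  (j : ∀ a, (thomSys F S e).MU.E.obj a ⟶ R)

/-- the cocone of free modules -/
def kapF (a : ℕ) : (btDataK C).M.obj a ⟶ (FM.free K).obj R := (FM.free K).map (j a)

theorem zcN_eq_free (hC : ∀ (N a : ℕ) (h : 1 ≤ a) (h' : N ≤ a + 1),
      C'.τT 1 N = thomθ F S e h h' ≫ (j a ▷ S.S ((1 : ℕ) : ℤ))) (N : ℕ) :
    (btDataK C).zcN (kapF C j) N = (FM.free K).map (eulT C' N) := by
  have h1 : (btDataK C).zcN (kapF C j) N =
      (FM.free K).map (mp F.S (GS.z 1 (Fin N))) ≫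
        (FM.free K).map (thomθ F S e (by omega : 1 ≤ N + 1) (by omega : N ≤ N + 1 + 1)) ≫
          ((FM.free K).map (j (N + 1)) ▷ (FM.free K).obj (S.S ((1 : ℕ) : ℤ))) := rfl
  rw [h1, FM.free_whiskerRight, eulT, hC N (N + 1) (by omega) (by omega), Functor.map_comp,
    Functor.map_comp]
  rfl

variable {C'} {j}

theorem kapF_map (hj : ∀ {a a' : ℕ} (h : a ≤ a'),
    (thomSys F S e).MU.E.map (homOfLE h) ≫ j a' = j a) {a a' : ℕ} (h : a ≤ a') :
    (btDataK C).M.map (homOfLE h) ≫ kapF C j a' = kapF C j a := by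
  have h1 : (FM.free K).map ((thomSys F S e).MU.E.map (homOfLE h)) ≫ (FM.free K).map (j a') =
      (FM.free K).map (j a) := by
    rw [← Functor.map_comp, hj h]
  exact h1

theorem hom_term (i N : ℕ) (g : S.S ((i : ℕ) : ℤ) ⟶ K ⊗ R) :
    FM.Hom.hom ((btDataK C).xp (i + 1) N ≫
      ((btDataK C).mu _ _ _ (BUData.natCast_add_one i)).inv ≫
        ((FM.Hom.mk g : (btDataK C).S ((i : ℕ) : ℤ) ⟶ (FM.free K).obj R) ▷
          (btDataK C).S ((1 : ℕ) : ℤ))) =
      xpT C (i + 1) N ≫ FM.bind ((S.mu _ _ _ (BUData.natCast_add_one i)).inv ≫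
        (g ▷ S.S ((1 : ℕ) : ℤ)) ≫ (α_ K R (S.S ((1 : ℕ) : ℤ))).hom) := by
  have h1 : ((btDataK C).mu _ _ _ (BUData.natCast_add_one i)).inv =
      (FM.free K).map (S.mu _ _ _ (BUData.natCast_add_one i)).inv :=
    push_mu_inv (SphD.ofEven S) (K := K) _ _ _ (BUData.natCast_add_one i)
  have h2 := hom_whiskerRight_free (Y := S.S ((1 : ℕ) : ℤ))
    (FM.Hom.mk g : FM.of (R := K) (S.S ((i : ℕ) : ℤ)) ⟶ (FM.free K).obj R)
  have h3 := FM.free_map_comp_hom (R := K) (S.mu _ _ _ (BUData.natCast_add_one i)).inv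
    ((FM.Hom.mk g : FM.of (R := K) (S.S ((i : ℕ) : ℤ)) ⟶ (FM.free K).obj R) ▷
      (FM.free K).obj (S.S ((1 : ℕ) : ℤ)))
  rw [h1]
  exact congrArg (fun t => xpT C (i + 1) N ≫ FM.bind t)
    (h3.trans (congrArg ((S.mu _ _ _ (BUData.natCast_add_one i)).inv ≫ ·) h2))

/-- **Identification of the coefficients.** -/
theorem coefK_cmpC (b : (btDataK C).toBUData.Beta)
    (hj : ∀ {a a' : ℕ} (h : a ≤ a'), (thomSys F S e).MU.E.map (homOfLE h) ≫ j a' = j a)
    (hC : ∀ (N a : ℕ) (h : 1 ≤ a) (h' : N ≤ a + 1),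
      C'.τT 1 N = thomθ F S e h h' ≫ (j a ▷ S.S ((1 : ℕ) : ℤ)))
    (o : Q.Orientation (thK e K)) (o' : Q.Orientation (thK e R))
    (hz : ∀ N, tU e K (grX N) (o.z (Fin N)) = eulT C N ≫ K ◁ S.inPS ((1 : ℕ) : ℤ))
    (hz' : ∀ N, tU e R (grX N) (o'.z (Fin N)) = eulT C' N ≫ R ◁ S.inPS ((1 : ℕ) : ℤ)) (m : ℕ) :
    coefK e (K ⊗ R) (cmpC o o' m) = HRing.of S (K ⊗ R) ((m : ℕ) : ℤ)
      (FM.Hom.hom (BMData.bX (B := (btDataK C).toBMData) (kapF C j) (kapF_map C hj) b m)) := by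
  have hg : ∀ i : ℕ, ∃ g : S.S ((i : ℕ) : ℤ) ⟶ K ⊗ R,
      coefK e (K ⊗ R) (cmpC o o' i) = HRing.of S (K ⊗ R) ((i : ℕ) : ℤ) g := fun i =>
    coefK_deg e (by omega : -((i : ℕ) : ℤ) + ((i : ℕ) : ℤ) = 0) (cmp_c_mem _ _ _ i)
  choose g hg using hg
  rw [hg m]
  have key := BTData.eq_bX (B := btDataK C) (kapF C j) (kapF_map C hj) b
    (fun i => (FM.Hom.mk (g i) : (btDataK C).S ((i : ℕ) : ℤ) ⟶ (FM.free K).obj R)) m ?_
  · exact congrArg (HRing.of S (K ⊗ R) ((m : ℕ) : ℤ)) (congrArg FM.Hom.hom key)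
  · intro N₀
    refine ⟨max N₀ (m + 1) + 1, by omega, Finset.range (max N₀ (m + 1)),
      Finset.mem_range.mpr (by omega), ?_⟩
    rw [zcN_eq_free C C' j hC]
    apply FM.hom_ext
    have h1 := expansionK (C := C) (C' := C') (o := o) (o' := o') g hg (max N₀ (m + 1))
      (hz _) (hz' _)
    refine h1.trans ?_
    rw [Finset.sum_range]
    refine Eq.trans ?_ (map_sum (FM.homEquiv (K := K) (F.S.obj (grX (max N₀ (m + 1) + 1)))
      (R ⊗ S.S ((1 : ℕ) : ℤ))) _ _).symm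
    exact Finset.sum_congr rfl fun i _ => (hom_term C (i : ℕ) _ (g (i : ℕ))).symm

end ident

end Vale.Agent.P251.M
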