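import Vale.Agent.P251.M.MonSeq

/-!
# P251, part M: monoid maps out of the telescope of a multiplicative sequence
-/

open CategoryTheory MonoidalCategory Limits Pretriangulated MonObj

universe v u

set_option linter.unusedSectionVars false

noncomputable section

namespace Vale.Agent.P251.M

open Vale.Agent.P251.T

variable {T : Type u} [Category.{v} T] [Preadditive T] [HasZeroObject T]
    [HasShift T ℤ] [∀ n : ℤ, (shiftFunctor T n).Additive] [Pretriangulated T] [IsTriangulated T]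
    [MonoidalCategory T] [SymmetricCategory T] [TensorTriangulated T] [MonoidalClosed T]
    [HasCoproducts.{0} T] [HasProducts.{0} T] [StableCat T]

/-- the telescope of a constant sequence -/
theorem isTel_constSeq (K : T) : IsTel ((Functor.const ℕ).obj K) K (fun _ => 𝟙 K) := by
  refine IsTel.of_pi ?_ ?_ ?_
  · intro n
    exact Category.id_comp _
  · intro k n w hw
    exact ⟨n, le_refl n, hw⟩
  · intro k w
    exact ⟨0, w, Category.comp_id _⟩

/-- `OddSurj` for a commutative monoid `K` in terms of its cohomology theory -/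
lemma oddSurj_of_pull_const (S : EvenSpheres T) (K : T) [MonObj K] [IsCommMonObj K]
    {W W' V : T} (hW : IsCpt W) (w : W ⟶ W') (v : V ≅ (𝟙_ T)⟦(1 : ℤ)⟧)
    (h : ∀ k, Function.Surjective ((MSys.ofSeq (SeqMonoid.const K) S).pull k (w ▷ V))) :
    OddSurj S K w :=
  oddSurj_of_pull' (A := SeqMonoid.const K) (isTel_constSeq K) hW w v h

section

variable (A : SeqMonoid T) {R : T} {ι : ∀ n, A.E.obj n ⟶ R} (tel : IsTel A.E R ι)

include tel

/-- maps out of `R` are determined on the stages -/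
lemma tel_ext {K : T} (h : MulSeq.LimOne A.E K) {a b : R ⟶ K} (hab : ∀ n, ι n ≫ a = ι n ≫ b) :
    a = b := tel.hom_ext_of_surj h.one a b hab

/-- maps out of `R ⊗ R` are determined on the stages -/
lemma tel_ext₂ {K : T} (h : MulSeq.LimOne A.E K) {a b : R ⊗ R ⟶ K}
    (hab : ∀ n, (ι n ⊗ₘ ι n) ≫ a = (ι n ⊗ₘ ι n) ≫ b) : a = b :=
  (tel.tensor tel).hom_ext_of_surj h.two a b hab

/-- maps out of `(R ⊗ R) ⊗ R` are determined on the stages -/
lemma tel_ext₃ {K : T} (h : MulSeq.LimOne A.E K) {a b : (R ⊗ R) ⊗ R ⟶ K}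
    (hab : ∀ n, ((ι n ⊗ₘ ι n) ⊗ₘ ι n) ≫ a = ((ι n ⊗ₘ ι n) ⊗ₘ ι n) ≫ b) : a = b :=
  ((tel.tensor tel).tensor tel).hom_ext_of_surj h.three a b hab

/-- **Universal property**: a multiplicative cocone on the sequence with target a monoid `K`
defines a unique monoid map from the telescope, if the `lim¹`-condition holds. -/
theorem exists_isMonHom [MonObj R] (hR1 : η[R] = A.one ≫ ι 0)
    (hR : ∀ i j, (ι i ⊗ₘ ι j) ≫ μ[R] = A.mu rfl ≫ ι (i + j)) {K : T} [MonObj K]
    (h : MulSeq.LimOne A.E K) (θ : ∀ n, A.E.obj n ⟶ K)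
    (hmap : ∀ n, A.E.map (homOfLE (Nat.le_succ n)) ≫ θ (n + 1) = θ n)
    (hone : A.one ≫ θ 0 = η[K])
    (hmul : ∀ i j, (θ i ⊗ₘ θ j) ≫ μ[K] = A.mu rfl ≫ θ (i + j)) :
    ∃ f : R ⟶ K, IsMonHom f ∧ ∀ n, ι n ≫ f = θ n := by
  obtain ⟨f, hf⟩ := tel.exists_lift θ hmap
  refine ⟨f, ⟨?_, ?_⟩, hf⟩
  · rw [hR1, Category.assoc, hf, hone]
  · apply tel_ext₂ A tel h
    intro n
    rw [reassoc_of% (hR n n), hf, tensorHom_comp_tensorHom_assoc, hf, hmul]

end

end Vale.Agent.P251.M
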