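import Vale.Agent.P251.M.ThomTheta
import Vale.Agent.P251.M.ThFCInst
import Vale.Agent.P251.M.Orient
import Vale.Agent.P251.M.A7
import Vale.Agent.P251.M.MonUniv
import Vale.Agent.P251.G.CellTh
import Vale.Agent.P251.S.Amitsur

/-!
# P251, part M: cells of `MU`

* `am_cells` : the tensor powers of a telescope of finite even complexes are telescopes of finite
  even complexes;
* `bigCell_of_unit` : the cofibre of the unit of the telescope;
* `TO.isIso_mul`, `TO.cofIn_j` : Thom objects `TO n I`, `|I| = n`, are spheres, and the maps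
  `TO n I ⟶ TO n J` have even cofibres;
* `ThomSys.cofIn_ua` : the cofibres of the units of the sequence `MU`.
-/

open CategoryTheory MonoidalCategory Limits Pretriangulated
open Vale.Agent.P251.T Vale.Agent.P251.S Vale.Agent.P251.H Vale.Agent.P251.G
  Vale.Agent.P251.G.LC Vale.Agent.P251.I

universe v u

set_option linter.unusedSectionVars false
set_option linter.style.haveILetI false

namespace Vale.Agent.P251.M

section Am

variable {T : Type u} [Category.{v} T] [Preadditive T] [HasZeroObject T]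
    [HasShift T ℤ] [∀ n : ℤ, (shiftFunctor T n).Additive] [Pretriangulated T] [IsTriangulated T]
    [MonoidalCategory T] [SymmetricCategory T] [TensorTriangulated T] [MonoidalClosed T]
    [HasCoproducts.{0} T] [HasProducts.{0} T] [StableCat T]

/-- The tensor powers of a telescope of finite even complexes. -/
theorem am_cells {E : ℕ ⥤ T} {R : T} {ι : ∀ n, E.obj n ⟶ R} (tel : IsTel E R ι)
    (hE : ∀ n, EvenCell T 0 (E.obj n)) (n : ℕ) :
    ∃ (F : ℕ ⥤ T) (κ : ∀ j, F.obj j ⟶ Am R n), IsTel F (Am R n) κ ∧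
      ∀ j, EvenCell T 0 (F.obj j) := by
  induction n with
  | zero => exact ⟨_, _, isTel_constSeq (𝟙_ T), fun _ => EvenCell.unit⟩
  | succ n ih =>
    obtain ⟨F, κ, hF, hc⟩ := ih
    exact ⟨_, _, hF.tensor tel, fun j => (hc j).tensor (hE j) 0 rfl⟩

lemma compactObj_unit : CompactObj (𝟙_ T) := by
  refine CompactObj.of_factor fun Y f => ?_
  exact isCpt_unit Y f

/-- The cofibre of the unit of the monoid of a multiplicative sequence. -/
theorem bigCell_of_unit (A : SeqMonoid T) {R : T} {ι : ∀ n, A.E.obj n ⟶ R} (tel : IsTel A.E R ι)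
    (hu : ∀ n, CofIn (EvenCell T 1) (A.u n)) (η : 𝟙_ T ⟶ R) (hη : η = A.one ≫ ι 0)
    (J : T) (ρ : R ⟶ J) (δ : J ⟶ (𝟙_ T)⟦(1 : ℤ)⟧)
    (hJ : Triangle.mk η ρ δ ∈ distTriang T) : BigCell T 2 J :=
  bigCell_cofibre_unit (d := 1) compactObj_unit ((isTel_iff A.E R ι).mp tel) A.u
    (fun n => by
      rw [SeqMonoid.u, SeqMonoid.u, Category.assoc, ← A.E.map_comp]
      rfl) η (fun n => by rw [SeqMonoid.u, Category.assoc, tel.comp, hη]) hu hJ

end Am

/-! ### The Thom objects -/

section TO

variable {T : Type u} [Category.{v} T] [MonoidalCategory T] [SymmetricCategory T]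

namespace TO

variable {n m k : ℕ} {I J K : Type} [Fintype I] [Fintype J] [Fintype K]
  [DecidableEq I] [DecidableEq J] [DecidableEq K]

/-- The direct sum is an isomorphism for full ranks. -/
theorem isIso_thSum (h : n + m = k) (hI : Fintype.card I = n) (hJ : Fintype.card J = m) :
    IsIso (Th.sum (I := I) (J := J) h) := by
  have hk : Fintype.card (I ⊕ J) = k := by rw [Fintype.card_sum, hI, hJ, h]
  have i1 := Cell.isIso_incl' (I := I) hI
  have i2 := Cell.isIso_incl' (I := J) hJ
  have i3 := Cell.isIso_incl' (I := I ⊕ J) hk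
  have h1 := Th.incl_sum hI hJ hk h
  have h2 : Th.sum (I := I) (J := J) h =
      inv (Th.incl' hI ⊗ₘ Th.incl' hJ) ≫ (Th.csum I J).hom ≫ Th.incl' hk := by
    rw [IsIso.eq_inv_comp, h1]
  rw [h2]
  infer_instance

theorem isIso_thUnit [IsEmpty I] : IsIso (Th.unit I) := by
  have hI : Fintype.card I = 0 := Fintype.card_eq_zero
  have i1 := Cell.isIso_incl' (I := I) hI
  let e : 𝟙_ LC ⟶ Th.CC I := LC.point (X := Th.CC I) (fun i => isEmptyElim i)
  have he : IsIso e := by
    apply Cell.isIso_of_bijective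
    constructor
    · intro x y h
      induction x using OnePoint.rec with
      | infty =>
        induction y using OnePoint.rec with
        | infty => rfl
        | coe y => 
          rw [app_infty] at h
          exact absurd h.symm (OnePoint.coe_ne_infty _)
      | coe x =>
        induction y using OnePoint.rec with
        | infty =>
          rw [app_infty] at h
          exact absurd h (OnePoint.coe_ne_infty _)
        | coe y => rfl
    · intro y
      induction y using OnePoint.rec with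
      | infty => exact ⟨OnePoint.infty, app_infty _⟩
      | coe y => exact ⟨((() : Unit) : OnePoint Unit),
          congrArg (fun z : I → ℂ => (z : OnePoint (I → ℂ))) (Subsingleton.elim _ _)⟩
  have h1 : Th.unit I = e ≫ Th.incl' hI := by
    apply LC.hom_ext
    rintro ⟨⟩
    have h2 : app e ((() : Unit) : OnePoint Unit) =
      (((fun i => isEmptyElim i : I → ℂ)) : OnePoint (I → ℂ)) := rfl
    rw [app_comp, h2, Th.app_incl'_coe, Th.app_unit]
    congr 1
    ext i j
    · exact isEmptyElim i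
    · exact isEmptyElim i
  rw [h1]
  infer_instance

variable [ThFC] (F : FCat ⥤ T)

theorem isIso_map_of_isIso {X Y : FCat} (f : X ⟶ Y) [IsIso f.hom] : IsIso (F.map f) := by
  have : IsIso f := (ObjectProperty.isIso_hom_iff (P := FCP) f).mp inferInstance
  infer_instance

variable [HInv F]

theorem isIso_j [F.LaxBraided] (h : Fintype.card I = Fintype.card J) :
    IsIso (j F (I := I) (J := J) n h.le) := by
  refine ⟨j F n h.ge, ?_, ?_⟩
  · rw [j_j, j_refl]
  · rw [j_j, j_refl]

theorem isIso_unit [F.LaxBraided] [IsIso (Functor.LaxMonoidal.ε F)] [IsEmpty I] :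
    IsIso (unit F I) := by
  have h1 := isIso_thUnit (I := I)
  have h2 : IsIso (F.map (FCat.hom (X := 𝟙_ FCat) (Y := ThF 0 I) (Th.unit I))) := by
    have : IsIso (FCat.hom (X := 𝟙_ FCat) (Y := ThF 0 I) (Th.unit I)).hom := h1
    exact isIso_map_of_isIso F _
  unfold unit
  infer_instance

theorem isIso_sum [F.LaxBraided] [∀ X Y, IsIso (Functor.LaxMonoidal.μ F X Y)] (h : n + m = k)
    (hI : Fintype.card I = n) (hJ : Fintype.card J = m) :
    IsIso (sum F (I := I) (J := J) h) := by
  have h1 := isIso_thSum h hI hJ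
  have h2 : IsIso (F.map (FCat.hom (X := ThF n I ⊗ ThF m J) (Y := ThF k (I ⊕ J)) (Th.sum h))) := by
    have : IsIso (FCat.hom (X := ThF n I ⊗ ThF m J) (Y := ThF k (I ⊕ J)) (Th.sum h)).hom := h1
    exact isIso_map_of_isIso F _
  unfold sum
  exact IsIso.comp_isIso' inferInstance h2

theorem isIso_mul [F.LaxBraided] [∀ X Y, IsIso (Functor.LaxMonoidal.μ F X Y)] (h : n + m = k)
    (hI : Fintype.card I = n) (hJ : Fintype.card J = m) (hK : Fintype.card K = k)
    (h' : Fintype.card I + Fintype.card J ≤ Fintype.card K) :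
    IsIso (mul F (I := I) (J := J) (K := K) h h') := by
  unfold mul
  have h1 := isIso_sum F (I := I) (J := J) h hI hJ
  have h2 := isIso_j F (I := I ⊕ J) (J := K) (n := k) (by rw [Fintype.card_sum]; omega)
  exact IsIso.comp_isIso' h1 h2

end TO

end TO

section TOcell

variable {T : Type u} [Category.{v} T] [Preadditive T] [HasZeroObject T]
    [HasShift T ℤ] [∀ n : ℤ, (shiftFunctor T n).Additive] [Pretriangulated T]
    [MonoidalCategory T] [SymmetricCategory T] [TensorTriangulated T]

instance (F : SpaceFunctor T) (X Y : FCat) : IsIso (Functor.LaxMonoidal.μ F.S X Y) :=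
  inferInstanceAs (IsIso (Functor.Monoidal.μIso F.S X Y).hom)

instance (F : SpaceFunctor T) : IsIso (Functor.LaxMonoidal.ε F.S) :=
  inferInstanceAs (IsIso (Functor.Monoidal.εIso F.S).hom)

variable {n : ℕ} {I J : Type} [Fintype I] [Fintype J] [DecidableEq I] [DecidableEq J]

/-- The maps `TO n I ⟶ TO n J` have even cofibres. -/
theorem TO.cofIn_j [IsTriangulated T] (F : SpaceFunctor T)
    (h : Fintype.card I ≤ Fintype.card J) (d : ℤ) (hd : d ≤ Fintype.card I + 1) :
    CofIn (EvenCell T d) (TO.j F.S (I := I) (J := J) n h) := by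
  obtain ⟨f⟩ := Function.Embedding.nonempty_of_card_le h
  rw [← TO.map_eq_j F.S (injMat f) (injMat_isom f.injective) h]
  refine relCell_evenCell F d (D := Cell.evens (2 * Fintype.card I + 2)) ?_
    (FCat.hom (X := ThF n I) (Y := ThF n J) (Th.inj f f.injective))
    (Cell.relCell_inj n f f.injective)
  rintro a ⟨ha, hb⟩
  obtain ⟨c, hc⟩ := ha
  exact ⟨c, by omega, by omega⟩

end TOcell

/-! ### The units of the sequence `MU` -/

namespace CommSys

variable {T : Type u} [Category.{v} T] [MonoidalCategory T] [SymmetricCategory T]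
  {J : Type} [AddCommMonoid J] (S S' : CommSys T J)

theorem tensor_act_ext {i m n : J} (x : 𝟙_ T ⟶ S.X i) (y : 𝟙_ T ⟶ S'.X i) (h : i + m = n) :
    (S.tensor S').act (ext S S' x y) h = S.act x h ⊗ₘ S'.act y h := by
  change (λ_ (S.X m ⊗ S'.X m)).inv ≫ (((λ_ (𝟙_ T)).inv ≫ (x ⊗ₘ y)) ▷ (S.X m ⊗ S'.X m)) ≫
    tensorμ _ _ _ _ ≫ (S.mul h ⊗ₘ S'.mul h) =
    ((λ_ (S.X m)).inv ≫ (x ▷ S.X m) ≫ S.mul h) ⊗ₘ ((λ_ (S'.X m)).inv ≫ (y ▷ S'.X m) ≫ S'.mul h)
  rw [comp_whiskerRight, Category.assoc, tensorμ_natural_left_assoc, Iso.inv_comp_eq,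
    tensor_left_unitality]
  simp only [Category.assoc, tensorHom_comp_tensorHom, Iso.hom_inv_id_assoc]

theorem isIso_act_one {m n : J} (h : 0 + m = n) : IsIso (S.act S.one h) := by
  obtain rfl : m = n := by rw [← h, zero_add]
  rw [S.act_one m]
  infer_instance

end CommSys

namespace ThomSys

open CommSys

section

variable {T : Type u} [Category.{v} T] [MonoidalCategory T] [SymmetricCategory T]
  (R : ThomSys T)

theorem ua_eq (a : ℕ) (h : degZ a + degU a = degUZ (dg a)) :
    R.ua a = R.uP.e a ≫ R.P.act (R.zP.e a) h := by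
  have h' : degU a + degZ a = degUZ (dg a) := rfl
  rw [R.P.comp_act, ← R.P.em_comm (R.uP.e a) (R.zP.e a) h' h]
  rfl

/-- The bottom cells are isomorphisms if the products of full rank are. -/
theorem isIso_b (h0 : IsIso R.t.one) (h1 : IsIso R.ℓ)
    (h2 : ∀ (n : ℕ) (h : ((1, 1) + (n, n) : ℕ × ℕ) = (n + 1, n + 1)), IsIso (R.t.mul h)) (n : ℕ) :
    IsIso (R.b n) := by
  induction n with
  | zero => exact h0
  | succ n ih =>
    have h : ((1, 1) + (n, n) : ℕ × ℕ) = (n + 1, n + 1) := by
      simp only [Prod.mk_add_mk, Prod.mk.injEq]; omega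
    have i2 := h2 n h
    have e : R.b (n + 1) = (R.ℓ ⊗ₘ R.b n) ≫ R.t.mul h := R.E.sig_succ R.t dg R.ℓ n h
    have i3 : IsIso (R.ℓ ⊗ₘ R.b n) := inferInstance
    rw [e]
    exact IsIso.comp_isIso' i3 i2

end

section

variable {T : Type u} [Category.{v} T] [Preadditive T] [HasZeroObject T]
    [HasShift T ℤ] [∀ n : ℤ, (shiftFunctor T n).Additive] [Pretriangulated T] [IsTriangulated T]
    [MonoidalCategory T] [SymmetricCategory T] [TensorTriangulated T] (R : ThomSys T)

omit R in
lemma cofIn_tensorHom_aux {P Q : T → Prop} (hQ : ExtClosed Q) {A B C D : T} (f : A ⟶ C)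
    (g : B ⟶ D) (hf : IsIso f) (hg : CofIn P g) (hP : ∀ X, P X → Q (A ⊗ X)) :
    CofIn Q (f ⊗ₘ g) := by
  rw [MonoidalCategory.tensorHom_def']
  exact CofIn.comp hQ (hg.whiskerLeft A hP) (CofIn.of_isIso hQ (f ▷ D))

/-- The cofibres of the units of the sequence `MU`. -/
theorem cofIn_ua {P Q : T → Prop} (hQ : ExtClosed Q) (a : ℕ) (hb : IsIso (R.b a))
    (hP : ∀ X, P X → Q (R.E.S (-a) ⊗ X))
    (hz : CofIn P (R.zt (n := a) (N := a) (N' := a + a) a rfl)) : CofIn Q (R.ua a) := by
  have h : degZ a + degU a = degUZ (dg a) := add_comm _ _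
  have hu : IsIso (R.uP.e a) := by
    rw [R.uP_e a (by ring)]
    have i0 : IsIso (R.E.mu (-(a : ℤ)) a 0 (by ring)).inv := inferInstance
    have i1 : IsIso (R.E.S (-(a : ℤ)) ◁ R.b a) := inferInstance
    exact IsIso.comp_isIso' i0 i1
  rw [R.ua_eq a h]
  refine CofIn.comp hQ (CofIn.of_isIso hQ (R.uP.e a)) ?_
  have e1 : R.P.act (R.zP.e a) h =
      (R.E.sys.comap (AddMonoidHom.fst ℤ (ℕ × ℕ))).act (i := degZ a) R.E.sys.one h ⊗ₘ
        (R.t.comap (AddMonoidHom.snd ℤ (ℕ × ℕ))).act (i := degZ a) (R.z.e a) h :=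
    tensor_act_ext _ _ _ _ h
  have e2 : IsIso ((R.E.sys.comap (AddMonoidHom.fst ℤ (ℕ × ℕ))).act (i := degZ a) R.E.sys.one h) := by
    exact R.E.sys.isIso_act_one (congrArg Prod.fst h)
  rw [e1]
  exact cofIn_tensorHom_aux hQ _ _ e2 hz hP

end

end ThomSys

end Vale.Agent.P251.M
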