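import Vale.Agent.P251.M.MonUniv
import Vale.Agent.P251.M.Theory
import Vale.Agent.P251.M.SpaceConn
import Vale.Agent.P251.S.Tel

/-!
# P251, part M: suspension spectra are compact; `OddSurj` from the theory on spaces
-/

open CategoryTheory MonoidalCategory Limits Pretriangulated
open Vale.Agent.P251.G Vale.Agent.P251.G.LC Vale.Agent.P251.I Vale.Agent.P251.T
open Functor.OplaxMonoidal Functor.LaxMonoidal

universe v u

set_option linter.unusedSectionVars false

noncomputable section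

namespace Vale.Agent.P251.M

section Cpt

variable {T : Type u} [Category.{v} T] [Preadditive T] [HasZeroObject T]
    [HasShift T ℤ] [∀ n : ℤ, (shiftFunctor T n).Additive] [Pretriangulated T]
    [HasCoproducts.{0} T]

/-- comparison of the two notions of compactness -/
theorem isCpt_iff (W : T) : IsCpt W ↔ S.IsCpt W := by
  constructor
  · intro h I X f
    obtain ⟨s, hs⟩ := h.eq_sum X f
    exact ⟨s, fun i => f ≫ proj X i, hs⟩
  · intro h I X f
    obtain ⟨s, g, hs⟩ := h X f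
    refine ⟨s, ∑ i ∈ s.attach, g i.1 ≫ Sigma.ι (fun i : s => X i) i, ?_⟩
    rw [Preadditive.sum_comp, hs, ← Finset.sum_attach s]
    apply Finset.sum_congr rfl
    intro i _
    rw [Category.assoc, Sigma.ι_desc]

end Cpt

variable {T : Type u} [Category.{v} T] [Preadditive T] [HasZeroObject T]
    [HasShift T ℤ] [∀ n : ℤ, (shiftFunctor T n).Additive] [Pretriangulated T] [IsTriangulated T]
    [MonoidalCategory T] [SymmetricCategory T] [TensorTriangulated T] [MonoidalClosed T]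
    [HasCoproducts.{0} T] [HasProducts.{0} T] [StableCat T]

/-- suspension spectra of finite cell spaces are compact -/
theorem isCpt_space (F : SpaceFunctor T) (hF : CofTriangles F) {X : LC} (h : FC X) :
    IsCpt (F.S.obj ⟨X, h⟩) := by
  induction h with
  | empty =>
    rw [isCpt_iff]
    exact S.isCpt_of_isZero (F.isZero (X := ⟨LC.of Empty, FC.empty⟩)
      (inferInstanceAs (IsEmpty Empty)))
  | sph n => exact IsCpt.of_iso (isCpt_sph n) (sphIso F n).symm
  | @hequiv X Y hX hXY ih =>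
    obtain ⟨f, g, h1, h2⟩ := hXY
    have hiso : IsIso (F.S.map (FCat.hom (X := ⟨X, hX⟩) (Y := ⟨Y, hX.hequiv ⟨f, g, h1, h2⟩⟩) f)) :=
      isIso_of_isHEquiv F _ ⟨g, h1, h2⟩
    exact IsCpt.of_iso ih (asIso (F.S.map
      (FCat.hom (X := ⟨X, hX⟩) (Y := ⟨Y, hX.hequiv ⟨f, g, h1, h2⟩⟩) f)))
  | @ext A B i hi hA hC ihA ihC =>
    rw [isCpt_iff] at *
    obtain ⟨w, hw⟩ := hF.tri i hi hA (FC.ext hi hA hC)
    exact S.IsCpt.of_dist₂ _ hw ihA ihC

section Pull

variable {M : MSys T} {F : SpaceFunctor T} {hF : CofTriangles F} {s : F.S.obj CCF ⟶ M.obj 0 1}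
  {hs : M.IsSusp s}

/-- surjectivity on total groups gives surjectivity in each degree -/
theorem pull_surjective_of_map {X Y : LC} (hX : FC X) (hY : FC Y) (f : X ⟶ Y)
    (h : Function.Surjective ((theory M F hF s hs).map f)) (k : ℤ) :
    Function.Surjective
      (M.pull k (F.S.map (FCat.hom (X := ⟨X, hX⟩) (Y := ⟨Y, hY⟩) f))) := by
  intro a
  obtain ⟨v, hv⟩ : ∃ v : UU M F Y, umap M F f v = umk hX (M.tof _ k a) :=
    h (umk hX (M.tof _ k a))
  refine ⟨(uev hY v) k, ?_⟩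
  have h1 : uev hX (umap M F f v) = M.tof _ k a := congrArg (uev hX) hv
  rw [uev_umap hX hY] at h1
  rw [← MSys.tpull_apply, h1]
  exact DirectSum.of_eq_same _ _

end Pull

section Onto

variable {A : SeqMonoid T} {Ev : EvenSpheres T} {R : T} {ι : ∀ n, A.E.obj n ⟶ R}
  (tel : IsTel A.E R ι)
  (F : SpaceFunctor T) (hF : CofTriangles F) (s : F.S.obj CCF ⟶ (MSys.ofSeq A Ev).obj 0 1)
  (hs : (MSys.ofSeq A Ev).IsSusp s)

include tel in
/-- `OddSurj` from surjectivity of the restriction in the theory on spaces -/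
theorem oddSurj_of_map {X Y : FCat} (f : X ⟶ Y)
    (h : Function.Surjective ((theory (MSys.ofSeq A Ev) F hF s hs).map (f.hom ▷ RR))) :
    OddSurj Ev R (F.S.map f) := by
  refine oddSurj_of_pull' tel (isCpt_space F hF X.property) (F.S.map f) F.line (fun k a => ?_)
  obtain ⟨b, hb⟩ := pull_surjective_of_map (X ⊗ RRF).property (Y ⊗ RRF).property _ h k
    (MSys.pull _ k (δ F.S X RRF) a)
  refine ⟨MSys.pull _ k (μ F.S Y RRF) b, ?_⟩
  have h1 : (F.S.map f ▷ F.S.obj RRF) ≫ μ F.S Y RRF = μ F.S X RRF ≫ F.S.map (f ▷ RRF) :=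
    μ_natural_left F.S f RRF
  rw [← MSys.pull_comp, h1, MSys.pull_comp]
  have h2 : F.S.map (f ▷ RRF) = F.S.map (FCat.hom (X := X ⊗ RRF) (Y := Y ⊗ RRF) (f.hom ▷ RR)) :=
    rfl
  rw [h2]
  refine (congrArg (MSys.pull _ k (μ F.S X RRF)) hb).trans ?_
  rw [← MSys.pull_comp, Functor.Monoidal.μ_δ, MSys.pull_id]

/-- the theory has the extension property along `f` (with arbitrary coefficients) -/
def OntoMap (E : Q.MultTheory) {X Y : LC} (f : X ⟶ Y) : Prop :=
  ∀ Z : LC, FC Z → Function.Surjective (E.map (Z ◁ f))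

/-- `w` has the extension property after tensoring with all suspension spectra -/
def OntoT (Ev : EvenSpheres T) (R : T) (F : SpaceFunctor T) {W W' : T} (w : W ⟶ W') : Prop :=
  ∀ Z : FCat, OddSurj Ev R (F.S.obj Z ◁ w)

variable {F}

omit tel in
lemma OntoT.oddSurj {W W' : T} {w : W ⟶ W'} (h : OntoT Ev R F w) : OddSurj Ev R w := by
  let e : F.S.obj (𝟙_ FCat) ≅ 𝟙_ T := (Functor.Monoidal.εIso F.S).symm
  let c (W : T) : F.S.obj (𝟙_ FCat) ⊗ W ≅ W := whiskerRightIso e W ≪≫ λ_ W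
  refine (h (𝟙_ FCat)).of_arrow (c W).symm (c W').symm ?_
  rw [Iso.symm_hom, Iso.symm_hom, Iso.comp_inv_eq, Category.assoc, Iso.eq_inv_comp]
  simp only [c, Iso.trans_hom, whiskerRightIso_hom, Category.assoc]
  rw [whisker_exchange_assoc, leftUnitor_naturality]

omit tel in
lemma OntoT.comp {W W' W'' : T} {w : W ⟶ W'} {w' : W' ⟶ W''} (h : OntoT Ev R F w)
    (h' : OntoT Ev R F w') : OntoT Ev R F (w ≫ w') := by
  intro Z
  rw [MonoidalCategory.whiskerLeft_comp]
  exact (h Z).comp (h' Z)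

omit tel in
lemma OntoT.whiskerLeft {W W' : T} {w : W ⟶ W'} (h : OntoT Ev R F w) (Y : FCat) :
    OntoT Ev R F (F.S.obj Y ◁ w) := by
  intro Z
  let c (W : T) : F.S.obj Z ⊗ (F.S.obj Y ⊗ W) ≅ F.S.obj (Z ⊗ Y) ⊗ W :=
    (α_ _ _ _).symm ≪≫ whiskerRightIso (Functor.Monoidal.μIso F.S Z Y) W
  refine (h (Z ⊗ Y)).of_arrow (c W) (c W') ?_
  simp only [c, Iso.trans_hom, Iso.symm_hom, whiskerRightIso_hom, Category.assoc]
  rw [associator_inv_naturality_right_assoc, whisker_exchange]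

omit tel in
lemma OntoT.whiskerRight {W W' : T} {w : W ⟶ W'} (h : OntoT Ev R F w) (Y : FCat) :
    OntoT Ev R F (w ▷ F.S.obj Y) := by
  intro Z
  refine (h.whiskerLeft Y Z).of_arrow (whiskerLeftIso (F.S.obj Z) (β_ W (F.S.obj Y)))
    (whiskerLeftIso (F.S.obj Z) (β_ W' (F.S.obj Y))) ?_
  simp only [whiskerLeftIso_hom]
  rw [← MonoidalCategory.whiskerLeft_comp, ← MonoidalCategory.whiskerLeft_comp,
    BraidedCategory.braiding_naturality_left]

include tel in
/-- the extension property of the theory gives the extension property in `T` -/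
theorem OntoT.of_map {X Y : FCat} (f : X ⟶ Y)
    (h : OntoMap (theory (MSys.ofSeq A Ev) F hF s hs) f.hom) :
    OntoT Ev R F (F.S.map f) := by
  intro Z
  -- `S Z ⊗ S f ≅ S (Z ⊗ f)`
  have h1 : OddSurj Ev R (F.S.map (Z ◁ f)) := by
    refine oddSurj_of_map tel F hF s hs (Z ◁ f) ?_
    -- `(Z ◁ f) ▷ RR ≅ (Z ⊗ RR) ◁ f`
    have h2 := h (Z.obj ⊗ RR) (Z ⊗ RRF).property
    let c (X : LC) : (Z.obj ⊗ X) ⊗ RR ≅ (Z.obj ⊗ RR) ⊗ X :=
      α_ _ _ _ ≪≫ whiskerLeftIso Z.obj (β_ X RR) ≪≫ (α_ _ _ _).symm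
    have hc : ((Z.obj ◁ f.hom) ▷ RR) ≫ (c Y.obj).hom =
        (c X.obj).hom ≫ ((Z.obj ⊗ RR) ◁ f.hom) := by
      simp only [c, Iso.trans_hom, Iso.symm_hom, whiskerLeftIso_hom, Category.assoc]
      rw [associator_naturality_middle_assoc, ← MonoidalCategory.whiskerLeft_comp_assoc,
        BraidedCategory.braiding_naturality_left, MonoidalCategory.whiskerLeft_comp_assoc,
        ← associator_inv_naturality_right]
    intro a
    obtain ⟨b, hb⟩ := h2 ((theory (MSys.ofSeq A Ev) F hF s hs).map (c X.obj).inv a)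
    refine ⟨(theory (MSys.ofSeq A Ev) F hF s hs).map (c Y.obj).hom b, ?_⟩
    have f1 : FC ((Z.obj ⊗ X.obj) ⊗ RR) := ((Z ⊗ X) ⊗ RRF).property
    have f2 : FC ((Z.obj ⊗ Y.obj) ⊗ RR) := ((Z ⊗ Y) ⊗ RRF).property
    have f3 : FC ((Z.obj ⊗ RR) ⊗ X.obj) := ((Z ⊗ RRF) ⊗ X).property
    have f4 : FC ((Z.obj ⊗ RR) ⊗ Y.obj) := ((Z ⊗ RRF) ⊗ Y).property
    rw [← (theory (MSys.ofSeq A Ev) F hF s hs).map_comp' f1 f2 f4]
    change (theory (MSys.ofSeq A Ev) F hF s hs).map
      (((Z.obj ◁ f.hom) ▷ RR) ≫ (c Y.obj).hom) b = a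
    rw [hc, (theory (MSys.ofSeq A Ev) F hF s hs).map_comp' f1 f3 f4, hb,
      ← (theory (MSys.ofSeq A Ev) F hF s hs).map_comp' f1 f3 f1, Iso.hom_inv_id,
      (theory (MSys.ofSeq A Ev) F hF s hs).map_id' f1]
  let c (X : FCat) : F.S.obj Z ⊗ F.S.obj X ≅ F.S.obj (Z ⊗ X) := Functor.Monoidal.μIso F.S Z X
  refine h1.of_arrow (c X) (c Y) ?_
  exact μ_natural_right F.S Z f

omit tel in
/-- **The `lim¹`-condition** from the extension property in `T`. -/
theorem limOne_of_ontoT {E : ℕ ⥤ T} {X Y : ℕ → FCat} (f : ∀ n, X n ⟶ Y n)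
    (hE : ∀ n, IsSus Ev (E.map (homOfLE (Nat.le_succ n))) (F.S.map (f n)))
    (h : ∀ n, OntoT Ev R F (F.S.map (f n))) : MulSeq.LimOne E R := by
  have h₂ : ∀ n, OntoT Ev R F (F.S.map (f n) ⊗ₘ F.S.map (f n)) := by
    intro n
    rw [tensorHom_def]
    exact ((h n).whiskerRight (X n)).comp ((h n).whiskerLeft (Y n))
  have h₃ : ∀ n, OntoT Ev R F ((F.S.map (f n) ⊗ₘ F.S.map (f n)) ⊗ₘ F.S.map (f n)) := by
    intro n
    rw [tensorHom_def]
    refine ((h₂ n).whiskerRight (X n)).comp ?_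
    -- `(S Y ⊗ S Y) ◁ S f ≅ S Y ◁ (S Y ◁ S f)`
    intro Z
    have h4 := ((h n).whiskerLeft (Y n)).whiskerLeft (Y n) Z
    let c (W : T) : F.S.obj Z ⊗ ((F.S.obj (Y n) ⊗ F.S.obj (Y n)) ⊗ W) ≅
        F.S.obj Z ⊗ (F.S.obj (Y n) ⊗ (F.S.obj (Y n) ⊗ W)) :=
      whiskerLeftIso (F.S.obj Z) (α_ _ _ _)
    refine h4.of_arrow (c _) (c _) ?_
    simp only [c, whiskerLeftIso_hom]
    rw [← MonoidalCategory.whiskerLeft_comp, ← MonoidalCategory.whiskerLeft_comp,
      associator_naturality_right]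
  exact limOne_of_oddSurj (fun n => F.S.map (f n)) hE (fun n => (h n).oddSurj)
    (fun n => (h₂ n).oddSurj) (fun n => (h₃ n).oddSurj)

include tel in
/-- **The `lim¹`-condition** from the extension property of the theory of a multiplicative sequence
(for maps to its telescope). -/
theorem limOne_of_ontoMap {E : ℕ ⥤ T} {X Y : ℕ → FCat} (f : ∀ n, X n ⟶ Y n)
    (hE : ∀ n, IsSus Ev (E.map (homOfLE (Nat.le_succ n))) (F.S.map (f n)))
    (h : ∀ n, OntoMap (theory (MSys.ofSeq A Ev) F hF s hs) (f n).hom) : MulSeq.LimOne E R :=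
  limOne_of_ontoT f hE (fun n => OntoT.of_map tel hF s hs (f n) (h n))

end Onto

/-- **The `lim¹`-condition** for maps to a commutative monoid `K`, from the extension property of
the theory of `K`. -/
theorem limOne_of_ontoMap_const {Ev : EvenSpheres T} {F : SpaceFunctor T} (hF : CofTriangles F)
    (K : T) [MonObj K] [IsCommMonObj K]
    (s : F.S.obj CCF ⟶ (MSys.ofSeq (SeqMonoid.const K) Ev).obj 0 1)
    (hs : (MSys.ofSeq (SeqMonoid.const K) Ev).IsSusp s)
    {E : ℕ ⥤ T} {X Y : ℕ → FCat} (f : ∀ n, X n ⟶ Y n)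
    (hE : ∀ n, IsSus Ev (E.map (homOfLE (Nat.le_succ n))) (F.S.map (f n)))
    (h : ∀ n, OntoMap (theory (MSys.ofSeq (SeqMonoid.const K) Ev) F hF s hs) (f n).hom) :
    MulSeq.LimOne E K :=
  limOne_of_ontoMap (A := SeqMonoid.const K) (isTel_constSeq K) hF s hs f hE h

end Vale.Agent.P251.M
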