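import Vale.Agent.P251.M.Orient
import Vale.Agent.P251.M.LimTheory
import Vale.Agent.P251.Q.GenThom

/-!
# P251, part M: LIM1 in the form used for the sequence of Thom spaces

`onto_stab` : for an oriented theory `E` the stabilisation `ℂ ⊗ Th n I ⟶ Th (n + 1) J`,
`(c, (P, v)) ↦ (u (1 ⊕ P) uᴴ, u (c, v))`, has the extension property with arbitrary coefficients.
-/

open CategoryTheory MonoidalCategory Matrix OnePoint
open Vale.Agent.P251.G Vale.Agent.P251.G.LC

universe v

noncomputable section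

namespace Vale.Agent.P251.M

theorem ontoMap_of_onto {E : Q.MultTheory.{v}} {X Y : LC} {f : X ⟶ Y} (h : E.Onto f) :
    OntoMap E f := by
  intro Z hZ
  have := Q.MultTheory.Good.of_FC E hZ
  exact h Z

theorem OntoMap.of_homotopic {E : Q.MultTheory.{v}} {X Y : LC} (hX : FC X) (hY : FC Y)
    {f g : X ⟶ Y} (h : OntoMap E f) (hfg : Homotopic f g) : OntoMap E g := by
  intro Z hZ
  have := Q.MultTheory.Good.of_FC E hZ
  have := Q.MultTheory.Good.of_FC E hX
  have := Q.MultTheory.Good.of_FC E hY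
  have h1 : E.map (Z ◁ f) = E.map (Z ◁ g) :=
    AddMonoidHom.ext (Q.MultTheory.map_homotopic (hfg.whiskerLeft Z))
  rw [← h1]
  exact h Z hZ

theorem lineTh_eq : lineTh = Q.Orientation.thUnitIso.hom :=
  (eq_lineTh_of_isPairMap _ fun _ => ⟨_, rfl, rfl, rfl⟩).symm

/-- **LIM1** for the stabilisation maps of the Thom spaces. -/
theorem onto_stab {E : Q.MultTheory.{v}} (o : Q.Orientation E) {n p : ℕ} {I J : Type} [Fintype I]
    [DecidableEq I] [Fintype J] [DecidableEq J] (h : 1 + n = p) (u : Matrix J (Unit ⊕ I) ℂ)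
    (hu : uᴴ * u = 1) :
    OntoMap E ((lineTh ▷ LC.of (Th n I)) ≫ Th.sum h ≫ Th.map u hu) := by
  have := o.goodGr
  rw [lineTh_eq]
  exact ontoMap_of_onto (o.onto_susp_left h u hu)

end Vale.Agent.P251.M
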