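import Vale.Agent.P251.M.ThomInst
import Vale.Agent.P251.M.MUCells
import Vale.Agent.P251.M.PiZero
import Vale.Agent.P251.M.OntoStab
import Vale.Agent.P251.M.LineIso

/-!
# P251, part M: the sequence `MU` is a sequence of even complexes

* `cofIn_u_MU` : the cofibres of the units of `(thomSys F E e).MU` are finite even complexes with
  cells in dimensions `≥ 2`;
* `evenSeq_MU` : the input for the connectivity of the theory of `(thomSys F E e).MU`.
-/

open CategoryTheory MonoidalCategory Limits Pretriangulated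
open Vale.Agent.P251.G Vale.Agent.P251.G.LC Vale.Agent.P251.I Vale.Agent.P251.T
  Vale.Agent.P251.S Vale.Agent.P251.H

universe v u

set_option linter.unusedSectionVars false

noncomputable section

namespace Vale.Agent.P251.M

instance isIso_lineTh : IsIso lineTh := by
  rw [lineTh_eq]
  infer_instance

variable {T : Type u} [Category.{v} T] [Preadditive T] [HasZeroObject T]
    [HasShift T ℤ] [∀ n : ℤ, (shiftFunctor T n).Additive] [Pretriangulated T]
    [MonoidalCategory T] [SymmetricCategory T] [TensorTriangulated T]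

section

variable (F : SpaceFunctor T) (E : EvenSpheres T) (e : F.S.obj CCF ≅ E.L)

theorem isIso_lineTO : IsIso (lineTO F) := by
  have h1 : IsIso (F.S.map (FCat.hom (X := CCF) (Y := ThF 1 Unit) lineTh)) := by
    have : IsIso (FCat.hom (X := CCF) (Y := ThF 1 Unit) lineTh).hom := isIso_lineTh
    exact TO.isIso_map_of_isIso F.S _
  have h2 := TO.isIso_j F.S (I := Unit) (J := Fin 1) (n := 1) (by simp)
  exact IsIso.comp_isIso' h1 h2

/-- The bottom cells `S^{2n} ⟶ TO n (Fin n)` are isomorphisms. -/
theorem isIso_b_thomSys (n : ℕ) : IsIso ((thomSys F E e).b n) := by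
  refine (thomSys F E e).isIso_b ?_ ?_ ?_ n
  · exact TO.isIso_unit F.S
  · have h := isIso_lineTO F
    exact IsIso.comp_isIso' e.isIso_inv h
  · intro n h
    exact TO.isIso_mul F.S (I := Fin 1) (J := Fin n) (K := Fin (n + 1)) (congrArg Prod.fst h)
      (by simp) (by simp) (by simp) (by simp; omega)

end

variable [IsTriangulated T] (F : SpaceFunctor T) (E : EvenSpheres T) (e : F.S.obj CCF ≅ E.L)
variable (sph : ∀ n : ℤ, Nonempty (E.S n ≅ (𝟙_ T)⟦2 * n⟧))

theorem stdEven_sph (n : ℤ) : Nonempty ((stdEven T).S n ≅ (𝟙_ T)⟦2 * n⟧) :=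
  ⟨(stdEven T).sphIso (Iso.refl _) n⟩

include sph in
/-- The cofibres of the units of the sequence `MU`. -/
theorem cofIn_u_MU (n : ℕ) : CofIn (EvenCell T 1) ((thomSys F E e).MU.u n) := by
  have h0 : (thomSys F E e).MU.u n = (thomSys F E e).ua n := (thomSys F E e).one_map n
  rw [h0]
  refine (thomSys F E e).cofIn_ua (P := EvenCell T ((n : ℤ) + 1)) (evenCell_extClosed 1) n
    (isIso_b_thomSys F E e n) (fun X hX => ?_) ?_
  · obtain ⟨i⟩ := sph (-(n : ℤ))
    have h1 : EvenCell T (-(n : ℤ)) (E.S (-(n : ℤ))) :=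
      EvenCell.of_iso i.symm (EvenCell.sphere _ le_rfl)
    exact h1.tensor hX 1 (by ring)
  · rw [thomSys_zt F E e _ (by simp)]
    exact TO.cofIn_j F (I := Fin n) (J := Fin (n + n)) (by simp) _ (by simp)

include sph in
/-- The sequence `MU` is an even sequence. -/
theorem evenSeq_MU : EvenSeq (thomSys F E e).MU E where
  cof := cofIn_u_MU F E e sph
  sph := sph
  conn := unit_conn F
  endo := exists_int_unit F

end Vale.Agent.P251.M
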