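import Vale.Agent.P251.M.EvenPer
import Vale.Agent.P251.S.Amitsur
import Vale.Agent.P251.S.KosData
import Vale.Agent.P251.F.Inv

/-!
# P251, parts M and S2: the invariance data `InvData` for `P = R ⊗ PS`

The elements `v_i` of `Hom(𝟙, R ⊗ PS)` given by homogeneous elements of `π_* R` are invariant in
the sense of `InvRel` if the two images of `v_i` in `π_*(R ⊗ R)` agree modulo the images of
`v_k`, `k < i`, under the left unit. The two periodicity factors of `P ⊗ P` differ by the unit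
`τ_n`.
-/

open CategoryTheory MonoidalCategory MonObj Limits

set_option linter.unusedSectionVars false

universe v u

namespace Vale.Agent.P251.M

open Vale.Agent.P251.S
open EvenSpheres

section basic

variable {T : Type u} [Category.{v} T] [MonoidalCategory T] [SymmetricCategory T]

theorem scL_eq {R R' : T} [MonObj R] [MonObj R'] (a : 𝟙_ T ⟶ R) :
    scL R' a = a ≫ inlM R R' := by
  unfold scL inlM
  rw [tensorHom_def', rightUnitor_inv_naturality_assoc, ← unitors_inv_equal, whisker_exchange]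

theorem scR_eq {R R' : T} [MonObj R] [MonObj R'] (b : 𝟙_ T ⟶ R') :
    scR R b = b ≫ inrM R R' := by
  unfold scR inrM
  rw [tensorHom_def, leftUnitor_inv_naturality_assoc, whisker_exchange]

/-- a scalar as an element of the ring of scalars -/
def asSc {R : T} (x : 𝟙_ T ⟶ R) : Sc R := x

/-- `X ⟶ X ⊗ R` -/
def unR (X R : T) [MonObj R] : X ⟶ X ⊗ R := (ρ_ X).inv ≫ (X ◁ η[R])

theorem inlM_eq (X R : T) [MonObj X] [MonObj R] : inlM X R = unR X R := rfl

theorem inrM_assoc (P R Q : T) [MonObj P] [MonObj R] [MonObj Q] :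
    (inrM P R ▷ Q) ≫ (α_ P R Q).hom = inrM P (R ⊗ Q) := by
  unfold inrM
  simp

theorem inlM_assoc (P R Q : T) [MonObj P] [MonObj R] [MonObj Q] :
    inlM P R ≫ unR (P ⊗ R) Q ≫ (α_ P R Q).hom = inlM P (R ⊗ Q) := by
  unfold inlM unR
  rw [tensorObj.one_def, tensorHom_def, rightUnitor_tensor_inv, unitors_inv_equal]
  simp only [Category.assoc]
  rw [tensor_whiskerLeft]
  simp only [Category.assoc, Iso.inv_hom_id, Category.comp_id, Iso.inv_hom_id_assoc]
  rw [← whiskerLeft_comp_assoc, ← whiskerLeft_comp, ← rightUnitor_inv_naturality_assoc]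
  simp

end basic

variable {T : Type u} [Category.{v} T] [MonoidalCategory T] [SymmetricCategory T]
  [MonoidalClosed T] [HasCoproducts.{0} T] {E : EvenSpheres T}

theorem sharp_zero_inv {X : T} (y : 𝟙_ T ⟶ X) :
    sharp (E := E) (k := 0) (E.zero.inv ≫ y) = y ≫ unR X E.PS := by
  have h : sharp (E := E) (k := 0) (E.zero.inv ≫ η[𝟙_ T]) = η[𝟙_ T ⊗ E.PS] := sharp_one
  have h1 : (η[𝟙_ T] : 𝟙_ T ⟶ 𝟙_ T) = 𝟙 _ := rfl
  rw [h1, Category.comp_id, tensorObj.one_def, h1, id_tensorHom] at h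
  rw [sharp_comp, h]
  unfold unR
  rw [Category.assoc, whisker_exchange, unitors_inv_equal, rightUnitor_inv_naturality_assoc]

/-- `zero.inv ≫ sharp a` as a product in the homotopy ring of `R ⊗ PS` -/
theorem zero_inv_sharp {R : T} [MonObj R] [IsCommMonObj R] (n : ℤ) (a : E.S n ⟶ R) :
    E.zero.inv ≫ sharp a = gmul (add_neg_cancel n) (a ≫ inlM R E.PS) (E.inPS (-n) ≫ inrM R E.PS) := by
  unfold sharp gmul EvenSpheres.ext
  rw [← tensorHom_comp_tensorHom, Category.assoc, Category.assoc, inlM_inrM_mul, Category.comp_id,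
    Iso.inv_hom_id_assoc]


/-- `τ_n τ_{-n} = 1` -/
theorem gmul_tau (R : T) [MonObj R] [IsCommMonObj R] (n : ℤ) :
    gmul (add_neg_cancel n) (E.inPS n ≫ inrM R E.PS) (E.inPS (-n) ≫ inrM R E.PS) =
      E.zero.inv ≫ η[R ⊗ E.PS] := by
  rw [gmul_comp (inrM R E.PS)]
  have h : gmul (add_neg_cancel n) (E.inPS n) (E.inPS (-n)) = E.inPS 0 := by
    unfold gmul EvenSpheres.ext
    rw [Category.assoc, E.in_mul n (-n) 0 (add_neg_cancel n), Iso.inv_hom_id_assoc]
  have h2 : η[R ⊗ E.PS] = η[E.PS] ≫ inrM R E.PS := (IsMonHom.one_hom (inrM R E.PS)).symm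
  rw [h, h2, E.PS_one, Category.assoc, Iso.inv_hom_id_assoc]

section main

variable [Preadditive T] [MonoidalPreadditive T]

/-- the ring homomorphism `π_*(P ⊗ R) ⟶ Hom(𝟙, P ⊗ (R ⊗ PS))` -/
noncomputable def Theta (E : EvenSpheres T) (P R : T) [MonObj P] [IsCommMonObj P] [MonObj R]
    [IsCommMonObj R] : HRing E (P ⊗ R) →+* Sc (P ⊗ (R ⊗ E.PS)) :=
  (Sc.map (α_ P R E.PS).hom).comp (sharpHom (P ⊗ R))

theorem Theta_of (P R : T) [MonObj P] [IsCommMonObj P] [MonObj R] [IsCommMonObj R] (n : ℤ)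
    (x : E.S n ⟶ P ⊗ R) :
    Theta E P R (HRing.of E (P ⊗ R) n x) = sharp x ≫ (α_ P R E.PS).hom := by
  unfold Theta
  rw [RingHom.comp_apply, sharpHom_of]
  rfl

theorem Theta_inr (P R : T) [MonObj P] [IsCommMonObj P] [MonObj R] [IsCommMonObj R] (n : ℤ)
    (b : E.S n ⟶ R) :
    Theta E P R (HRing.of E (P ⊗ R) n (b ≫ inrM P R)) = sharp b ≫ inrM P (R ⊗ E.PS) := by
  rw [Theta_of, sharp_comp, Category.assoc, inrM_assoc]

theorem Theta_zero (P R : T) [MonObj P] [IsCommMonObj P] [MonObj R] [IsCommMonObj R]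
    (x : 𝟙_ T ⟶ P) :
    Theta E P R (HRing.of E (P ⊗ R) 0 (E.zero.inv ≫ x ≫ inlM P R)) =
      x ≫ inlM P (R ⊗ E.PS) := by
  rw [Theta_of, sharp_zero_inv, Category.assoc, Category.assoc, inlM_assoc]

/-- the image of `τ_n` in the homotopy ring of `P ⊗ R`, `P = R ⊗ PS` -/
noncomputable def tau (E : EvenSpheres T) (R : T) [MonObj R] [IsCommMonObj R] (n : ℤ) :
    HRing E ((R ⊗ E.PS) ⊗ R) :=
  HRing.of E ((R ⊗ E.PS) ⊗ R) n (E.inPS n ≫ inrM R E.PS ≫ inlM (R ⊗ E.PS) R)

theorem tau_mul (R : T) [MonObj R] [IsCommMonObj R] (n : ℤ) : tau E R n * tau E R (-n) = 1 := by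
  unfold tau
  rw [of_mul_of (add_neg_cancel n), ← Category.assoc, ← Category.assoc,
    gmul_comp (inlM (R ⊗ E.PS) R), gmul_tau, Category.assoc, IsMonHom.one_hom]
  exact of_one

/-- the left unit of a homogeneous scalar -/
theorem Theta_inl (R : T) [MonObj R] [IsCommMonObj R] (n : ℤ) (a : E.S n ⟶ R) :
    Theta E (R ⊗ E.PS) R (HRing.map (inlM R E.PS ▷ R)
      (HRing.of E (R ⊗ R) n (a ≫ inlM R R))) * Theta E (R ⊗ E.PS) R (tau E R (-n)) =
      (sharp a ≫ inlM (R ⊗ E.PS) (R ⊗ E.PS) : 𝟙_ T ⟶ _) := by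
  rw [← map_mul, HRing.map_of, Category.assoc, inlM_whiskerRight]
  unfold tau
  rw [of_mul_of (add_neg_cancel n), ← Category.assoc, ← Category.assoc,
    gmul_comp (inlM (R ⊗ E.PS) R), ← zero_inv_sharp, Category.assoc, Theta_zero]

/-- **(INV)** for `P = R ⊗ PS` from the invariance in `π_*(R ⊗ R)`. -/
theorem invRel_of_hring (R : T) [MonObj R] [IsCommMonObj R] (n : ℕ → ℤ)
    (a : ∀ i, E.S (n i) ⟶ R) (i : ℕ) (c : ℕ → HRing E (R ⊗ R))
    (h : HRing.of E (R ⊗ R) (n i) (a i ≫ inrM R R) = HRing.of E (R ⊗ R) (n i) (a i ≫ inlM R R) +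
      ∑ k ∈ Finset.range i, HRing.of E (R ⊗ R) (n k) (a k ≫ inlM R R) * c k) :
    InvRel (R ⊗ E.PS) (fun i => sharp (a i)) i := by
  let Ψ : HRing E (R ⊗ R) →+* Sc ((R ⊗ E.PS) ⊗ (R ⊗ E.PS)) :=
    (Theta E (R ⊗ E.PS) R).comp (HRing.map (inlM R E.PS ▷ R))
  let t : ℤ → Sc ((R ⊗ E.PS) ⊗ (R ⊗ E.PS)) := fun m => Theta E (R ⊗ E.PS) R (tau E R m)
  have ht : ∀ m, t m * t (-m) = 1 := fun m => by
    rw [← map_mul, tau_mul, map_one]
  have hL : ∀ k, Ψ (HRing.of E (R ⊗ R) (n k) (a k ≫ inlM R R)) =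
      asSc (scL (R ⊗ E.PS) (sharp (a k))) * t (n k) := by
    intro k
    have h1 := Theta_inl (E := E) R (n k) (a k)
    rw [← scL_eq] at h1
    have h2 : asSc (scL (R ⊗ E.PS) (sharp (a k))) =
      Ψ (HRing.of E (R ⊗ R) (n k) (a k ≫ inlM R R)) * t (-n k) := h1.symm
    rw [h2, _root_.mul_assoc, _root_.mul_comm (t (-n k)), ht, _root_.mul_one]
  have hR : Ψ (HRing.of E (R ⊗ R) (n i) (a i ≫ inrM R R)) =
      scR (R ⊗ E.PS) (sharp (a i)) := by
    rw [scR_eq]
    change Theta E (R ⊗ E.PS) R (HRing.map (inlM R E.PS ▷ R) _) = _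
    rw [HRing.map_of, Category.assoc, inrM_whiskerRight, Theta_inr]
  have h3 := congrArg Ψ h
  rw [map_add, map_sum, hR, hL] at h3
  refine ⟨t (n i), t (-n i), fun k => t (n k) * Ψ (c k), ht (n i), ?_⟩
  refine h3.trans ?_
  rw [mul_comm]
  have h4 : ∀ k ∈ Finset.range i, Ψ (HRing.of E (R ⊗ R) (n k) (a k ≫ inlM R R) * c k) =
      asSc (scL (R ⊗ E.PS) (sharp (a k))) *
        (t (n k) * Ψ (c k)) := by
    intro k _
    rw [map_mul, hL, _root_.mul_assoc]
  rw [Finset.sum_congr rfl h4]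
  rfl

open Vale.Agent.P251.F in
/-- elements of `Ih` as finite sums -/
theorem exists_sum_of_mem_Ih {B : Type*} [CommRing B] (p h : ℕ) (F : Law B) {x : B}
    (hx : x ∈ Ih p h F) : ∃ c : ℕ → B, x = ∑ k ∈ Finset.range h, vv p k F * c k := by
  unfold Ih at hx
  induction hx using Submodule.span_induction with
  | mem x hx =>
    obtain ⟨i, hi, rfl⟩ := hx
    refine ⟨fun k => if k = i then 1 else 0, ?_⟩
    rw [Finset.sum_eq_single_of_mem i (Finset.mem_range.2 hi)]
    · simp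
    · intro k _ hk
      change vv p k F * (if k = i then 1 else 0) = 0
      rw [if_neg hk, mul_zero]
  | zero => exact ⟨fun _ => 0, by simp⟩
  | add x y _ _ hx hy =>
    obtain ⟨c, rfl⟩ := hx
    obtain ⟨d, rfl⟩ := hy
    exact ⟨fun k => c k + d k, by simp only [mul_add, Finset.sum_add_distrib]⟩
  | smul a x _ hx =>
    obtain ⟨c, rfl⟩ := hx
    refine ⟨fun k => a * c k, ?_⟩
    rw [smul_eq_mul, Finset.mul_sum]
    exact Finset.sum_congr rfl fun k _ => by ring

open Vale.Agent.P251.F in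
/-- **(INV)** for `P = R ⊗ PS`: if the two images in `π_*(R ⊗ R)` of a formal group law over
`π_* R` are strictly isomorphic, and the `v_i` are homogeneous. -/
theorem invData_of_law (R : T) [MonObj R] [IsCommMonObj R] (F : Law (HRing E R))
    (g : InvSeries (HRing E (R ⊗ R))) (hg : g.c 0 = 1)
    (hF : g • F.map (HRing.map (inlM R R)) = F.map (HRing.map (inrM R R)))
    (p : ℕ) [Fact p.Prime] (n : ℕ → ℤ) (a : ∀ i, E.S (n i) ⟶ R)
    (ha : ∀ i, vv p i F = HRing.of E R (n i) (a i)) (h : ℕ) :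
    InvData (R ⊗ E.PS) (p : ℤ) h (fun i => sharp (a i)) where
  v0 := by
    have h1 : sharpHom R (vv p 0 F) = sharp (a 0) := by rw [ha 0, sharpHom_of]
    rw [vv_zero, map_natCast] at h1
    have h2 : ((p : ℤ) • (1 : Sc (R ⊗ E.PS))) = (p : Sc (R ⊗ E.PS)) := by
      rw [zsmul_one, Int.cast_natCast]
    exact (h2.trans h1).symm
  inv i _ _ := by
    have h1 := vv_smul_sub_mem p i (F.map (HRing.map (inlM R R))) g
    rw [hg, one_pow, _root_.mul_one, _root_.one_mul, hF, vv_map, vv_map, ha i, HRing.map_of,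
      HRing.map_of] at h1
    obtain ⟨c, hc⟩ := exists_sum_of_mem_Ih p i _ h1
    refine invRel_of_hring R n a i c ?_
    have h3 : ∀ k ∈ Finset.range i, vv p k (F.map (HRing.map (E := E) (inlM R R))) * c k =
        HRing.of E (R ⊗ R) (n k) (a k ≫ inlM R R) * c k := by
      intro k _
      rw [vv_map, ha k, HRing.map_of]
    rw [Finset.sum_congr rfl h3] at hc
    exact sub_eq_iff_eq_add'.1 hc

theorem HRing_map_congr {R R' : T} [MonObj R] [MonObj R'] {f f' : R ⟶ R'} [IsMonHom f]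
    [IsMonHom f'] (h : f = f') : HRing.map (E := E) f = HRing.map f' := by
  subst h
  rfl

open Vale.Agent.P251.F in
/-- **(INV)**, the version with an arbitrary model `R2` of `R ⊗ R` -/
theorem invData_of_vertices (R : T) [MonObj R] [IsCommMonObj R] {R2 : T} [MonObj R2]
    [IsCommMonObj R2] (l r : R ⟶ R2) [IsMonHom l] [IsMonHom r] (j : R2 ⟶ R ⊗ R) [IsMonHom j]
    (hl : l ≫ j = inlM R R) (hr : r ≫ j = inrM R R) (F : Law (HRing E R))
    (g : InvSeries (HRing E R2)) (hg : g.c 0 = 1)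
    (hF : g • F.map (HRing.map l) = F.map (HRing.map r))
    (p : ℕ) [Fact p.Prime] (n : ℕ → ℤ) (a : ∀ i, E.S (n i) ⟶ R)
    (ha : ∀ i, vv p i F = HRing.of E R (n i) (a i)) (h : ℕ) :
    InvData (R ⊗ E.PS) (p : ℤ) h (fun i => sharp (a i)) := by
  refine invData_of_law R F (InvSeries.map (HRing.map j) g) ?_ ?_ p n a ha h
  · rw [InvSeries.c_map, hg, map_one]
  · have h1 : F.map (HRing.map (E := E) (inlM R R)) =
        (F.map (HRing.map l)).map (HRing.map j) := by
      rw [Law.map_map, ← HRing.map_comp, HRing_map_congr hl]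
    have h2 : F.map (HRing.map (E := E) (inrM R R)) =
        (F.map (HRing.map r)).map (HRing.map j) := by
      rw [Law.map_map, ← HRing.map_comp, HRing_map_congr hr]
    rw [h1, h2, ← InvSeries.map_smul, hF]

/-- the components of `amTwo` -/
def amTwoFun (R : T) [MonObj R] (i : Fin 2) : R ⟶ R ⊗ R := if i = 0 then inlM R R else inrM R R

instance (R : T) [MonObj R] (i : Fin 2) : IsMonHom (amTwoFun R i) := by
  unfold amTwoFun
  split_ifs <;> infer_instance

/-- the map `Am R 2 ⟶ R ⊗ R` -/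
def amTwo (R : T) [MonObj R] [IsCommMonObj R] : Am R 2 ⟶ R ⊗ R := Am.lift (amTwoFun R)

instance (R : T) [MonObj R] [IsCommMonObj R] : IsMonHom (amTwo R) := by
  unfold amTwo
  infer_instance

open Vale.Agent.P251.F in
/-- **(INV)**, the version with the tensor powers `Am R 2` -/
theorem invData_of_am (R : T) [MonObj R] [IsCommMonObj R] (F : Law (HRing E R))
    (g : InvSeries (HRing E (Am R 2))) (hg : g.c 0 = 1)
    (hF : g • F.map (HRing.map (Am.v R (0 : Fin 2))) = F.map (HRing.map (Am.v R (1 : Fin 2))))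
    (p : ℕ) [Fact p.Prime] (n : ℕ → ℤ) (a : ∀ i, E.S (n i) ⟶ R)
    (ha : ∀ i, vv p i F = HRing.of E R (n i) (a i)) (h : ℕ) :
    InvData (R ⊗ E.PS) (p : ℤ) h (fun i => sharp (a i)) :=
  invData_of_vertices R (Am.v R (0 : Fin 2)) (Am.v R (1 : Fin 2)) (amTwo R)
    (Am.v_lift (amTwoFun R) 0) (Am.v_lift (amTwoFun R) 1) F g hg hF p n a ha h

end main

end Vale.Agent.P251.M
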