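import Vale.Agent.P251.I.M
import Vale.Agent.P251.M.InvMU
import Vale.Agent.P251.F.CobLoc

/-!
# P251, part M: the formal group law of `MUData` and the invariance data of `P = R ⊗ PS`

* `MUData.law` : the law over `π_{2*} R`;
* `MUData.vel p i : S^{2(p^i-1)} ⟶ R` : the element `v_i`;
* `MUData.invData` : `InvData (R ⊗ PS) p h (sharp v_i)`.
-/

open CategoryTheory MonoidalCategory Limits Pretriangulated MonObj

set_option linter.unusedSectionVars false

universe v u

namespace Vale.Agent.P251.I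

open Vale.Agent.P251.T Vale.Agent.P251.M Vale.Agent.P251.S Vale.Agent.P251.F

section am

variable {T : Type u} [Category.{v} T] [MonoidalCategory T] [SymmetricCategory T]

/-- `Am R 1 ⟶ R` -/
def amOne (R : T) : Am R 1 ⟶ R := (λ_ R).hom

instance (R : T) [MonObj R] : IsMonHom (amOne R) :=
  inferInstanceAs (IsMonHom (λ_ R).hom)

theorem v_amOne (R : T) [MonObj R] : Am.v R (0 : Fin 1) ≫ amOne R = 𝟙 R := by
  change inrM (𝟙_ T) R ≫ (λ_ R).hom = 𝟙 R
  unfold inrM
  have h1 : (η[𝟙_ T] : 𝟙_ T ⟶ 𝟙_ T) = 𝟙 _ := rfl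
  rw [h1]
  simp

theorem amOne_v (R : T) [MonObj R] [IsCommMonObj R] {n : ℕ} (i : Fin n) :
    amOne R ≫ Am.v R i = Am.map R (fun _ : Fin 1 => i) := by
  symm
  apply Am.map_eq_of
  intro j
  obtain rfl : j = 0 := Subsingleton.elim _ _
  rw [← Category.assoc, v_amOne, Category.id_comp]

end am

section cob

/-- the law of the `i`-th vertex of the universal chain -/
theorem univ_map_vertex {n : ℕ} (i : Fin (n + 1)) :
    Laz.univ.map ((Cob.map (N := Laz) (fun _ : Fin (0 + 1) => i)).comp MvPolynomial.C) =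
      (Cob.univ Laz n).g i • Laz.univ.map MvPolynomial.C := by
  have h : (Cob.map (N := Laz) (fun _ : Fin (0 + 1) => i)).comp MvPolynomial.C =
      ((Cob.univ Laz n).res (fun _ : Fin (0 + 1) => i)).pt := by
    ext1 a
    exact Cob.ev_C _ _
  rw [h, Chain.res_pt, Laz.act_eq, Laz.univ_map_lift, Cob.univ_pt]

end cob

variable {T : Type u} [Category.{v} T] [Preadditive T] [HasZeroObject T]
    [HasShift T ℤ] [∀ n : ℤ, (shiftFunctor T n).Additive] [Pretriangulated T]
    [MonoidalCategory T] [SymmetricCategory T] [TensorTriangulated T] [MonoidalClosed T]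
    [HasCoproducts.{0} T] (D : MUData T)

namespace MUData

/-- the formal group law over `π_{2*} (Am R 1)` -/
noncomputable def law1 : Law (HRing (stdEven T) (Am D.R 1)) :=
  Laz.univ.map ((D.ev 0).comp MvPolynomial.C)

/-- the formal group law over `π_{2*} R` -/
noncomputable def law : Law (HRing (stdEven T) D.R) := D.law1.map (HRing.map (amOne D.R))

theorem law_map_v {n : ℕ} (i : Fin (n + 1)) :
    D.law.map (HRing.map (Am.v D.R i)) =
      InvSeries.map (D.ev n) ((Cob.univ Laz n).g i) •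
        Laz.univ.map ((D.ev n).comp MvPolynomial.C) := by
  have h1 : (HRing.map (E := stdEven T) (Am.v D.R i)).comp (HRing.map (amOne D.R)) =
      HRing.map (Am.map D.R (fun _ : Fin (0 + 1) => i)) := by
    rw [← HRing.map_comp, HRing_map_congr (amOne_v D.R i)]
  have h2 : (HRing.map (E := stdEven T) (Am.map D.R (fun _ : Fin (0 + 1) => i))).comp
      ((D.ev 0).comp MvPolynomial.C) = (D.ev n).comp
        ((Cob.map (N := Laz) (fun _ : Fin (0 + 1) => i)).comp MvPolynomial.C) := by
    ext1 a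
    exact D.ev_map 0 n (fun _ => i) (MvPolynomial.C a)
  unfold law law1
  rw [Law.map_map, h1, Law.map_map, h2, ← Law.map_map, univ_map_vertex, InvSeries.map_smul,
    Law.map_map]

/-- the strict isomorphism between the two laws over `π_{2*} (Am R 2)` -/
noncomputable def strictIso : InvSeries (HRing (stdEven T) (Am D.R 2)) :=
  InvSeries.map (D.ev 1) ((Cob.univ Laz 1).g 1)

theorem strictIso_c : D.strictIso.c 0 = 1 := by
  unfold strictIso
  rw [InvSeries.c_map]
  have h : ((Cob.univ Laz 1).g 1).c 0 = 1 := (Cob.univ Laz 1).strict 1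
  rw [h, map_one]

theorem strictIso_smul : D.strictIso • D.law.map (HRing.map (Am.v D.R (0 : Fin 2))) =
    D.law.map (HRing.map (Am.v D.R (1 : Fin 2))) := by
  rw [D.law_map_v (n := 1) 0, D.law_map_v (n := 1) 1, (Cob.univ Laz 1).zero, map_one, one_smul]
  rfl

theorem exists_vel (p i : ℕ) : ∃ a : (stdEven T).S ((p ^ i : ℤ) - 1) ⟶ D.R,
    vv p i D.law = HRing.of (stdEven T) D.R ((p ^ i : ℤ) - 1) a := by
  have hw : Cob.IsWt ((p ^ i : ℤ) - 1) (MvPolynomial.C (Laz.v p i) : Cob Laz 0) := by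
    have := Cob.isWt_v (N := Laz) (n := 0) p i
    rwa [ofLaz_laz, RingHom.id_apply] at this
  obtain ⟨a, ha⟩ := D.ev_wt 0 _ _ hw
  refine ⟨a ≫ amOne D.R, ?_⟩
  have h1 : vv p i D.law1 = D.ev 0 (MvPolynomial.C (Laz.v p i)) := by
    unfold law1
    rw [vv_map]
    rfl
  unfold law
  rw [vv_map, h1, ha, HRing.map_of]

/-- the element `v_i` of `π_{2(p^i-1)} R` -/
noncomputable def vel (p i : ℕ) : (stdEven T).S ((p ^ i : ℤ) - 1) ⟶ D.R :=
  (D.exists_vel p i).choose

theorem vel_spec (p i : ℕ) :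
    vv p i D.law = HRing.of (stdEven T) D.R ((p ^ i : ℤ) - 1) (D.vel p i) :=
  (D.exists_vel p i).choose_spec

/-- the monoid `P = R ⊗ PS` -/
noncomputable abbrev P : T := D.R ⊗ (stdEven T).PS

/-- the elements `v_i` of `Hom(𝟙, P)` -/
noncomputable def vs (p : ℕ) (i : ℕ) : 𝟙_ T ⟶ D.P := sharp (D.vel p i)

/-- the invariance data of `P = R ⊗ PS` -/
theorem invData (p : ℕ) [Fact p.Prime] (h : ℕ) : InvData D.P (p : ℤ) h (D.vs p) :=
  invData_of_am D.R D.law D.strictIso D.strictIso_c D.strictIso_smul p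
    (fun i => (p ^ i : ℤ) - 1) (D.vel p) (D.vel_spec p) h

end MUData

end Vale.Agent.P251.I
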