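import Vale.Agent.P251.M.ChainT
import Vale.Agent.P251.M.MUInv

/-!
# P251, part M4b: from the theory of a sequence to the theory of its telescope

`A` a multiplicative sequence with telescope the commutative monoid `R` :

* `telHom` : the morphism from `A` to the constant sequence `R`;
* `telThHom` : the morphism of theories, an isomorphism on finite cell complexes;
* `coefRing_eq` : the ring isomorphism `coefRing` is the composite with `coefK`;
* `law_of_amEv` : the law of `MUData` with the characteristic homomorphisms `amEv`.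
-/

open CategoryTheory MonoidalCategory Limits Pretriangulated MonObj
open Vale.Agent.P251.G Vale.Agent.P251.G.LC Vale.Agent.P251.I Vale.Agent.P251.T
open Vale.Agent.P251.F Vale.Agent.P251.S
open Functor.OplaxMonoidal Functor.LaxMonoidal
open Vale.Agent.P251.M.EvenSpheres

universe v u

set_option linter.unusedSectionVars false

noncomputable section

namespace Vale.Agent.P251.M

variable {T : Type u} [Category.{v} T] [Preadditive T] [HasZeroObject T]
    [HasShift T ℤ] [∀ n : ℤ, (shiftFunctor T n).Additive] [Pretriangulated T] [IsTriangulated T]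
    [MonoidalCategory T] [SymmetricCategory T] [TensorTriangulated T] [MonoidalClosed T]
    [HasCoproducts.{0} T] [HasProducts.{0} T] [StableCat T]
  {A : SeqMonoid T} {S : EvenSpheres T} {R : T} {jt : ∀ n, A.E.obj n ⟶ R}
  (tel : IsTel A.E R jt) [MonObj R] [IsCommMonObj R]

include tel in
/-- The morphism from a multiplicative sequence to its telescope. -/
def telHom (h : TelMon tel) : SeqMonoid.Hom A (SeqMonoid.const R) where
  app n := jt n
  map_app {m n} hmn := by
    change A.E.map (homOfLE hmn) ≫ jt n = jt m ≫ 𝟙 R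
    rw [tel.comp, Category.comp_id]
  one_app := h.one
  mu_app {m n p} hp := by
    subst hp
    exact (h.mul m n).symm

/-- the comparison on cohomology groups -/
theorem hq_telHom (h : TelMon tel) {k : ℤ} {X : T} (a : (MSys.ofSeq A S).H k X) :
    hq R S k X (((telHom tel h).msys S).hmap k X a) = toTel tel k X a := by
  obtain ⟨n, x, rfl⟩ := MSys.exists_cls a
  rfl

theorem hmap_telHom_bijective (h : TelMon tel) {k : ℤ} {X : T} (hX : IsCpt X) :
    Function.Bijective (((telHom tel h).msys S).hmap k X) := by
  refine (Function.Bijective.of_comp_iff' (hq_bijective (R := R) (S := S) k X) _).1 ?_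
  have : hq R S k X ∘ ((telHom tel h).msys S).hmap k X = toTel tel k X :=
    funext fun a => hq_telHom tel h a
  rw [this]
  exact toTel_bijective tel hX

variable {F : SpaceFunctor T} (e : F.S.obj CCF ≅ S.L)

/-- The morphism from the theory of the sequence to the theory of the telescope. -/
def telThHom (h : TelMon tel) (hF : CofTriangles F) {s : F.S.obj CCF ⟶ (MSys.ofSeq A S).obj 0 1}
    (hs : (MSys.ofSeq A S).IsSusp s)
    (hss : s ≫ ((telHom tel h).msys S).app 0 1 = lineCls e (SeqMonoid.const R)) :
    Q.MultTheory.Hom (theory (MSys.ofSeq A S) F hF s hs) (thK e R) :=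
  theoryHom ((telHom tel h).msys S) hF hs (isSusp_lineCls e _) hss

/-- the suspension classes which are compatible -/
theorem line_telHom (h : TelMon tel) {s : F.S.obj CCF ⟶ (MSys.ofSeq A S).obj 0 1}
    (hs : s = (e.hom ≫ S.oneIso.inv) ≫ MSys.sig A S) :
    s ≫ ((telHom tel h).msys S).app 0 1 = lineCls e (SeqMonoid.const R) := by
  rw [hs, Category.assoc, SeqMonoid.sig_msys_app]
  rfl

theorem sharp_itr {k : ℤ} {X : T} (x : 𝟙_ T ⟶ X ⊗ S.S k) :
    sharp (itr S k X x) = x ≫ (X ◁ S.inPS k) := by
  conv_rhs => rw [← tr_itr S k x]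
  rw [sharp_eq (neg_add_cancel k), tr, coev, EvenSpheres.ext, Iso.trans_hom, Iso.symm_hom]
  simp only [Category.assoc]
  rw [MonoidalCategory.tensorHom_def]

theorem tt_eq_sharpTot (h : TelMon tel) {X : T} (i : 𝟙_ T ⟶ X) (x : (MSys.ofSeq A S).Tot X) :
    i ≫ tt tel X x =
      sharpTot S R (totH R S ((RSys R S).tpull i (((telHom tel h).msys S).tmap X x))) := by
  have key : (Preadditive.leftComp (R ⊗ S.PS) i).comp (tt (S := S) tel X) =
      (sharpTot S R).comp ((totH R S).comp
        (((RSys R S).tpull i).comp (((telHom tel h).msys S).tmap X))) := by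
    refine MSys.tot_ext fun k b => ?_
    rw [AddMonoidHom.comp_apply, AddMonoidHom.comp_apply, AddMonoidHom.comp_apply,
      AddMonoidHom.comp_apply, MSys.Hom.tmap_of, MSys.tpull_of, totH_of, sharpTot_of, sharp_itr,
      hq_pull, hq_telHom, tt_tof, Category.assoc]
    rfl
  exact DFunLike.congr_fun key x

theorem cf_eq_sharpTot (h : TelMon tel) (hF : CofTriangles F)
    {s : F.S.obj CCF ⟶ (MSys.ofSeq A S).obj 0 1} (hs : (MSys.ofSeq A S).IsSusp s)
    (hss : s ≫ ((telHom tel h).msys S).app 0 1 = lineCls e (SeqMonoid.const R))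
    (a : (theory (MSys.ofSeq A S) F hF s hs).A) :
    cf tel F a = sharpTot S R (coefK e R ((telThHom tel e h hF hs hss).mapA a)) :=
  tt_eq_sharpTot tel h (ε F.S) (uev fc_unit a)

/-- The ring isomorphism of the telescope is the one of the theory of `R`. -/
theorem coefRing_eq (h : TelMon tel) (hF : CofTriangles F)
    {s : F.S.obj CCF ⟶ (MSys.ofSeq A S).obj 0 1} (hs : (MSys.ofSeq A S).IsSusp s)
    (hss : s ≫ ((telHom tel h).msys S).app 0 1 = lineCls e (SeqMonoid.const R))
    (a : (theory (MSys.ofSeq A S) F hF s hs).A) :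
    coefRing tel F h hF s hs a = coefK e R ((telThHom tel e h hF hs hss).mapA a) :=
  (coefRing_eq_iff tel h hF s hs a _).2 (cf_eq_sharpTot tel e h hF hs hss a)

theorem mapA_telThHom_bijective (h : TelMon tel) (hF : CofTriangles F)
    {s : F.S.obj CCF ⟶ (MSys.ofSeq A S).obj 0 1} (hs : (MSys.ofSeq A S).IsSusp s)
    (hss : s ≫ ((telHom tel h).msys S).app 0 1 = lineCls e (SeqMonoid.const R)) :
    Function.Bijective (telThHom tel e h hF hs hss).mapA := by
  refine (Function.Bijective.of_comp_iff' (coefK_bijective e R) _).1 ?_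
  have : coefK e R ∘ (telThHom tel e h hF hs hss).mapA = coefRing tel F h hF s hs :=
    funext fun a => (coefRing_eq tel e h hF hs hss a).symm
  rw [this]
  exact (coefRing tel F h hF s hs).bijective

/-- The law of `MUData` with the characteristic homomorphism of the orientation `o`. -/
theorem law_of_amEv (e : F.S.obj CCF ≅ (stdEven T).L) (D : MUData T)
    (o : Q.Orientation (thK e D.R)) (hD : D.ev 0 = amEv e D.R o 0) :
    D.law = o.law.map (coefK e D.R) := by
  have h1 : D.law1 = (o.law.map (coefK e D.R)).map
      (HRing.map (E := stdEven T) (Am.v D.R (0 : Fin (0 + 1)))) := by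
    rw [MUData.law1, hD, amEv_law]
  have h2 : (HRing.map (E := stdEven T) (amOne D.R)).comp
      (HRing.map (E := stdEven T) (Am.v D.R (0 : Fin (0 + 1)))) = RingHom.id _ := by
    rw [← HRing.map_comp]
    have h3 : ∀ (f : D.R ⟶ D.R) [IsMonHom f], f = 𝟙 D.R →
        HRing.map (E := stdEven T) f = RingHom.id _ := by
      intro f _ hf
      subst hf
      exact HRing.map_id _
    exact h3 _ (v_amOne D.R)
  rw [MUData.law, h1, Law.map_map, h2, Law.map_id]

end Vale.Agent.P251.M
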