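import Vale.Agent.P251.M.QFinal
import Vale.Agent.P251.M.ChainMU
import Vale.Agent.P251.Q.Q4

/-!
# P251, part M: `MUModP` for `s = 0`

`muModP_zero_MU` : the fields `odd`, `surj`, `ker` of `MUData` for `s = 0`, for the characteristic
homomorphisms of the Thom theory of a multiplicative sequence `A` with telescope `R`.
-/

open CategoryTheory MonoidalCategory MonObj Limits Pretriangulated

universe v u

set_option linter.unusedSectionVars false

noncomputable section

namespace Vale.Agent.P251.M

open Vale.Agent.P251.S Vale.Agent.P251.T Vale.Agent.P251.F Vale.Agent.P251.Q EvenSpheres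
open Vale.Agent.P251.G Vale.Agent.P251.G.LC Vale.Agent.P251.I

/-- The formula for `e(γ ⊗ ρ̄)` over the lens spaces. -/
theorem lensEuler {E : MultTheory.{v}} (o : Orientation E) (r k : ℕ) :
    LensEuler o o.coeff r k (Idx k) := fun m I _ =>
  eulerForm_lens o (hasLaw_coeff o) (card_Idx k).le m I

variable {T : Type u} [Category.{v} T] [Preadditive T] [HasZeroObject T]
    [HasShift T ℤ] [∀ n : ℤ, (shiftFunctor T n).Additive] [Pretriangulated T] [IsTriangulated T]
    [MonoidalCategory T] [SymmetricCategory T] [TensorTriangulated T] [MonoidalClosed T]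
    [HasCoproducts.{0} T] [HasProducts.{0} T] [StableCat T]

variable {F : SpaceFunctor T} (e : F.S.obj CCF ≅ (stdEven T).L) {R : T} [MonObj R]
  [IsCommMonObj R]

/-- The law of the characteristic homomorphisms of an orientation. -/
theorem law_muEv (o : Q.Orientation (thK e R)) (b : MUBasis (muEv e R o)) :
    b.cobEv.law.map (HRing.map (E := stdEven T) (amOne R)) = o.law.map (coefK e R) := by
  have h1 : b.cobEv.law = (o.law.map (coefK e R)).map
      (HRing.map (E := stdEven T) (Am.v R (0 : Fin (0 + 1)))) := amEv_law e R o 0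
  have h2 : (HRing.map (E := stdEven T) (amOne R)).comp
      (HRing.map (E := stdEven T) (Am.v R (0 : Fin (0 + 1)))) = RingHom.id _ := by
    rw [← HRing.map_comp]
    have h3 : ∀ (f : R ⟶ R) [IsMonHom f], f = 𝟙 R →
        HRing.map (E := stdEven T) f = RingHom.id _ := by
      intro f _ hf
      subst hf
      exact HRing.map_id _
    exact h3 _ (v_amOne R)
  rw [h1, Law.map_map, h2, Law.map_id]

variable {A : SeqMonoid T} {q : ∀ n, A.E.obj n ⟶ R} (tel : IsTel A.E R q) (h : TelMon tel)
  {s : F.S.obj CCF ⟶ (MSys.ofSeq A (stdEven T)).obj 0 1}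
  (hs : (MSys.ofSeq A (stdEven T)).IsSusp s)
  (hss : s ≫ ((telHom tel h).msys (stdEven T)).app 0 1 = lineCls e (SeqMonoid.const R))

theorem law_push_eq (o : Q.Orientation (theory (MSys.ofSeq A (stdEven T)) F (cofTriangles F) s hs)) :
    ((telThHom tel e h (cofTriangles F) hs hss).push o).law.map (coefK e R) =
      o.law.map (coefRing tel F h (cofTriangles F) s hs).toRingHom := by
  rw [law_push, Law.map_map]
  congr 1
  exact RingHom.ext fun a => (coefRing_eq tel e h (cofTriangles F) hs hss a).symm

/-- **The fields `odd`, `surj`, `ker` of `MUData` for `s = 0`.** -/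
theorem muModP_zero_MU (W : ThomFam (MSys.ofSeq A (stdEven T)) F s) (hW : W.IsoClasses)
    (hA : EvenSeq A (stdEven T))
    (b : MUBasis (muEv e R ((telThHom tel e h (cofTriangles F) hs hss).push
      (thomTheory W (cofTriangles F) hs hW hA).o))) :
    MUModP (muEv e R ((telThHom tel e h (cofTriangles F) hs hss).push
      (thomTheory W (cofTriangles F) hs hW hA).o)) 0 :=
  muModP_zero_of tel h W hW hA b ((law_muEv e _ b).trans (law_push_eq e tel h hs hss _))
    (fun r _ _ k => lensEuler _ r k)

end Vale.Agent.P251.M
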