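import Vale.Agent.P251.Q.Ring

/-!
# P251, part M4b: morphisms of multiplicative theories

Morphisms `E ⟶ E'` of multiplicative theories on `LC`, the induced homomorphism `E.A →+* E'.A` of
coefficient rings, compatibility with products and with the actions of coefficients, and the push
forward of orientations.
-/

open CategoryTheory MonoidalCategory OnePoint
open Vale.Agent.P251.G Vale.Agent.P251.G.LC

universe v w w'

namespace Vale.Agent.P251.Q

namespace MultTheory

/-- Morphisms of multiplicative theories. -/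
structure Hom (E : MultTheory.{v}) (E' : MultTheory.{w}) where
  good' : ∀ {X : LC}, E.good X → E'.good X
  /-- the components -/
  app : ∀ X : LC, E.U X →+ E'.U X
  app_deg' : ∀ {X : LC}, E.good X → ∀ {k : ℤ} {x : E.U X}, x ∈ E.deg X k → app X x ∈ E'.deg X k
  app_map' : ∀ {X Y : LC}, E.good X → E.good Y → ∀ (f : X ⟶ Y) (y : E.U Y),
    app X (E.map f y) = E'.map f (app Y y)
  app_cross' : ∀ {X Y : LC}, E.good X → E.good Y → ∀ (x : E.U X) (y : E.U Y),
    app (X ⊗ Y) (E.cross x y) = E'.cross (app X x) (app Y y)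
  app_one : app (𝟙_ LC) E.one = E'.one
  app_sg : app (LC.of ℂ) E.sg = E'.sg

namespace Hom

variable {E : MultTheory.{v}} {E' : MultTheory.{w}} {E'' : MultTheory.{w'}}

@[ext] theorem ext {φ ψ : Hom E E'} (h : ∀ X x, φ.app X x = ψ.app X x) : φ = ψ := by
  have : φ.app = ψ.app := funext fun X => AddMonoidHom.ext (h X)
  cases φ; cases ψ; cases this; rfl

/-- the identity -/
def id (E : MultTheory.{v}) : Hom E E where
  good' h := h
  app X := AddMonoidHom.id _
  app_deg' _ _ _ h := h
  app_map' _ _ _ _ := rfl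
  app_cross' _ _ _ _ := rfl
  app_one := rfl
  app_sg := rfl

@[simp] theorem id_app (X : LC) (x : E.U X) : (id E).app X x = x := rfl

/-- composition, `φ` first -/
def comp (φ : Hom E E') (ψ : Hom E' E'') : Hom E E'' where
  good' h := ψ.good' (φ.good' h)
  app X := (ψ.app X).comp (φ.app X)
  app_deg' h _ _ hx := ψ.app_deg' (φ.good' h) (φ.app_deg' h hx)
  app_map' hX hY f y := by
    change ψ.app _ (φ.app _ _) = _
    rw [φ.app_map' hX hY, ψ.app_map' (φ.good' hX) (φ.good' hY)]
    rfl
  app_cross' hX hY x y := by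
    change ψ.app _ (φ.app _ _) = _
    rw [φ.app_cross' hX hY, ψ.app_cross' (φ.good' hX) (φ.good' hY)]
    rfl
  app_one := by
    change ψ.app _ (φ.app _ _) = _
    rw [φ.app_one, ψ.app_one]
  app_sg := by
    change ψ.app _ (φ.app _ _) = _
    rw [φ.app_sg, ψ.app_sg]

@[simp] theorem comp_app (φ : Hom E E') (ψ : Hom E' E'') (X : LC) (x : E.U X) :
    (φ.comp ψ).app X x = ψ.app X (φ.app X x) := rfl

variable (φ : Hom E E')
variable {X Y Z W : LC} [hX : E.Good X] [hY : E.Good Y] [hZ : E.Good Z]

include φ in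
/-- good objects of the source are good for the target -/
theorem good (X : LC) [hX : E.Good X] : E'.Good X := ⟨φ.good' hX.out⟩

theorem app_deg {k : ℤ} {x : E.U X} (hx : x ∈ E.deg X k) : φ.app X x ∈ E'.deg X k :=
  φ.app_deg' hX.out hx

theorem app_map (f : X ⟶ Y) (y : E.U Y) : φ.app X (E.map f y) = E'.map f (φ.app Y y) :=
  φ.app_map' hX.out hY.out f y

theorem app_cross (x : E.U X) (y : E.U Y) :
    φ.app (X ⊗ Y) (E.cross x y) = E'.cross (φ.app X x) (φ.app Y y) :=
  φ.app_cross' hX.out hY.out x y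

theorem app_act (f : C(Z, Y)) (y : E.U Y) (z : E.U Z) :
    φ.app Z (E.act f y z) = E'.act f (φ.app Y y) (φ.app Z z) := by
  rw [act_apply, app_map, app_cross, act_apply]

/-- The homomorphism of coefficient rings. -/
def mapA : E.A →+* E'.A where
  toFun a := E'.toA (φ.app (𝟙_ LC) (E.ofA a))
  map_zero' := map_zero (φ.app (𝟙_ LC))
  map_add' a b := map_add (φ.app (𝟙_ LC)) a b
  map_one' := φ.app_one
  map_mul' a b := by
    change φ.app (𝟙_ LC) (E.map (λ_ (𝟙_ LC)).inv (E.cross (E.ofA a) (E.ofA b))) =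
      E'.map (λ_ (𝟙_ LC)).inv (E'.cross (φ.app (𝟙_ LC) (E.ofA a)) (φ.app (𝟙_ LC) (E.ofA b)))
    rw [app_map, app_cross]

theorem ofA_mapA (a : E.A) : E'.ofA (φ.mapA a) = φ.app (𝟙_ LC) (E.ofA a) := rfl

theorem mapA_mem {k : ℤ} {a : E.A} (ha : a ∈ E.degA k) : φ.mapA a ∈ E'.degA k := φ.app_deg ha

@[simp] theorem mapA_id : (id E).mapA = RingHom.id E.A := rfl

theorem mapA_comp (ψ : Hom E' E'') : (φ.comp ψ).mapA = ψ.mapA.comp φ.mapA := rfl

theorem app_smul (a : E.A) (x : E.U X) : φ.app X (a • x) = φ.mapA a • φ.app X x := by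
  rw [smul_def, smul_def, app_map, app_cross, ofA_mapA]

theorem app_mul [E'.Good X] (x y : E.U X) : φ.app X (x * y) = φ.app X x * φ.app X y :=
  φ.app_act (ContinuousMap.id X) x y

theorem app_oneU [CompactSpace X] : φ.app X (E.oneU X) = E'.oneU X := by
  rw [oneU, app_map, φ.app_one, oneU]

/-- The ring homomorphism `E.U X →+* E'.U X` for compact `X`. -/
def mapU (X : LC) [hX : E.Good X] [E'.Good X] [CompactSpace X] : E.U X →+* E'.U X where
  toFun := φ.app X
  map_zero' := map_zero _
  map_add' := map_add _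
  map_one' := φ.app_oneU
  map_mul' := φ.app_mul

@[simp] theorem mapU_apply (X : LC) [hX : E.Good X] [E'.Good X] [CompactSpace X] (x : E.U X) :
    φ.mapU X x = φ.app X x := rfl

/-! ### Orientations -/

/-- The push forward of an orientation. -/
def push (o : Orientation E) : Orientation E' where
  good_Th n I _ := φ.good' (o.good_Th n I)
  tau n I _ := φ.app _ (o.tau n I)
  tau_deg n I _ := φ.app_deg' (o.good_Th n I) (o.tau_deg n I)
  tau_isom {n I J _ _ _} u hu f hf := by
    rw [← φ.app_map' (o.good_Th n I) (o.good_Th n J), o.tau_isom u hu f hf]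
  tau_sum {n m p} h {I J _ _} f hf := by
    rw [← φ.app_map' (E.good_tensor' (o.good_Th n I) (o.good_Th m J)) (o.good_Th p (I ⊕ J)),
      o.tau_sum h f hf, φ.app_cross' (o.good_Th n I) (o.good_Th m J)]
  tau_zero {I _} f hf := by
    rw [← φ.app_map' (MultTheory.Good.out (self := (inferInstance : E.Good (𝟙_ LC)))) (o.good_Th 0 I), o.tau_zero f hf, φ.app_one]
  tau_one f hf := by
    rw [← φ.app_map' (MultTheory.Good.out (self := (inferInstance : E.Good (LC.of ℂ)))) (o.good_Th 1 Unit), o.tau_one f hf, φ.app_sg]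

@[simp] theorem push_tau (o : Orientation E) (n : ℕ) (I : Type) [Fintype I] :
    (φ.push o).tau n I = φ.app _ (o.tau n I) := rfl

end Hom

end MultTheory

theorem Orientation.ext_tau {E : MultTheory.{v}} {o o' : Orientation E}
    (h : ∀ (n : ℕ) (I : Type) [Fintype I], o.tau n I = o'.tau n I) : o = o' := by
  have : @Orientation.tau E o = @Orientation.tau E o' := by
    funext n I _
    exact h n I
  cases o; cases o'; cases this; rfl

namespace MultTheory.Hom

variable {E : MultTheory.{v}} {E' : MultTheory.{w}} {E'' : MultTheory.{w'}}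

@[simp] theorem push_id (o : Orientation E) : (id E).push o = o :=
  Orientation.ext_tau fun _ _ _ => rfl

theorem push_comp (φ : Hom E E') (ψ : Hom E' E'') (o : Orientation E) :
    (φ.comp ψ).push o = ψ.push (φ.push o) :=
  Orientation.ext_tau fun _ _ _ => rfl

end MultTheory.Hom

end Vale.Agent.P251.Q
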