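import Vale.Agent.P251.Q.LazData
import Vale.Agent.P251.Q.GoodInst
import Vale.Agent.P251.Q.FGL
import Vale.Agent.P251.M.ThHom
import Vale.Agent.P251.M.ChainWt

/-!
# P251, part M4b: the chain of laws of a family of orientations

For a multiplicative theory `E` and orientations `o 0, …, o n` : the chain `oChain o` of the laws
`(o i).law` and of the strict isomorphisms between them. It is homogeneous, natural for morphisms of
theories and compatible with the restriction along maps of index sets.
-/

open CategoryTheory MonoidalCategory OnePoint Matrix Topology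
open Vale.Agent.P251.G Vale.Agent.P251.G.LC Vale.Agent.P251.Q
open Vale.Agent.P251.F Vale.Agent.P217

universe v w

set_option linter.unusedSectionVars false

noncomputable section

namespace Vale.Agent.P251.M

open MultTheory

/-! ### The class of `Th 1 Unit` -/

/-- `Th 1 Unit` is the complex line -/
def lineHomeo : Th 1 Unit ≃ₜ ℂ where
  toFun x := x.v ()
  invFun c := Th.mk 1 (fun _ => c) IsProj.one (one_mulVec _)
  left_inv x := by
    refine Th.ext ?_ rfl
    exact (gr_one_unit x.gr).symm
  right_inv _ := rfl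
  continuous_toFun := (continuous_apply ()).comp Th.continuous_v
  continuous_invFun := (continuous_const.prodMk (continuous_pi fun _ => continuous_id)).subtype_mk _

variable {E : MultTheory.{v}}

theorem tau_one_unit (o o' : Orientation E) : o.tau 1 Unit = o'.tau 1 Unit := by
  have h : ∀ o : Orientation E,
      E.map (ofHomeo (X := LC.of (Th 1 Unit)) (Y := LC.of ℂ) lineHomeo).inv (o.tau 1 Unit) =
        E.sg := by
    intro o
    exact o.tau_one _ fun c => ⟨Th.mk 1 (fun _ => c) IsProj.one (one_mulVec _), rfl, rfl, rfl⟩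
  have := o.goodTh
  rw [← map_hom_inv (ofHomeo (X := LC.of (Th 1 Unit)) (Y := LC.of ℂ) lineHomeo) (o.tau 1 Unit),
    h o, ← h o', map_hom_inv]

/-- Euler classes on the projective line do not depend on the orientation. -/
theorem z_unit_unit (o o' : Orientation E) : o.z (Unit ⊕ Unit) = o'.z (Unit ⊕ Unit) := by
  rw [← z_collapse, ← z_collapse, tau_one_unit o o']

theorem z_two (o o' : Orientation E) : o.z (Fin 2) = o'.z (Fin 2) := by
  have e : Fin 2 ≃ Unit ⊕ Unit := Fintype.equivOfCardEq (by simp)
  rw [← z_map o (injMat e) (injMat_isom e.injective), ← z_map o' (injMat e)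
    (injMat_isom e.injective), z_unit_unit o o']

/-! ### The projective system of complex projective spaces -/

/-- the dimension of the target of the Segre map -/
def segN (n : ℕ) : ℕ := (n + 1) * (n + 1) - 1

theorem segN_succ (n : ℕ) : (n + 1) * (n + 1) = segN n + 1 := by
  unfold segN
  have : 0 < (n + 1) * (n + 1) := Nat.mul_pos (Nat.succ_pos n) (Nat.succ_pos n)
  omega

/-- coordinates of the target of the Segre map -/
def segEquiv (n : ℕ) : Fin (n + 1) × Fin (n + 1) ≃ Fin (segN n + 1) :=
  finProdFinEquiv.trans (finCongr (segN_succ n))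

/-- the Segre map -/
def segC (n : ℕ) : C(powObj (CP (Fin (n + 1))) (Fin 2), CP (Fin (segN n + 1))) :=
  (grMapC 1 (injMat (segEquiv n)) (injMat_isom (segEquiv n).injective)).comp
    (tens (evL (n + 1) (0 : Fin 2)) (evL (n + 1) (1 : Fin 2)))

/-- The system of the rings of complex projective spaces of a multiplicative theory. -/
def cpSys (E : MultTheory.{v}) : CPSys.{v, v} E.A :=
  { U := fun n => E.U (CP (Fin (n + 1)))
    res := fun n => E.mapAlg (inclC (Nat.le_succ (n + 1)))
    U2 := fun n => E.U (powObj (CP (Fin (n + 1))) (Fin 2))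
    p := fun n => E.mapAlg (evL (n + 1) (0 : Fin 2))
    q := fun n => E.mapAlg (evL (n + 1) (1 : Fin 2))
    N := segN
    s := fun n => E.mapAlg (segC n) }

theorem mapAlg_z (o : Orientation E) {X : LC} [E.Good X] [CompactSpace X] {I : Type} [Fintype I]
    [E.Good (CP I)] (f : C(X, CP I)) : E.mapAlg f (o.z I) = o.lc f := rfl

/-- The coordinate of an orientation. -/
def coordO (o : Orientation E) : (cpSys E).Coord :=
  { z := fun n => o.z (Fin (n + 1))
    res_z := fun n => by
      change E.mapAlg (inclC (Nat.le_succ (n + 1))) (o.z (Fin (n + 1 + 1))) = _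
      rw [mapAlg_z, ← lc_id, ← lc_inclC o (Nat.le_succ (n + 1)) (ContinuousMap.id _)]
      rfl
    pow_z := fun n => z_pow_eq_zero o (n + 1) (Fin (n + 1)) (by simp)
    li := fun n => (freeOn_z o (n + 1) (Fin (n + 1)) (Fintype.card_fin _)).linearIndependent
    span := fun n => by
      intro x _
      obtain ⟨c, hc⟩ := (freeOn_z o (n + 1) (Fin (n + 1)) (Fintype.card_fin _)).bijective_smul.2 x
      exact (Submodule.mem_span_range_iff_exists_fun E.A).2 ⟨c, hc⟩
    li2 := fun n => by
      have h := linearIndependent_lc o (n + 1) (Fin 2)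
      have e : (fun g : Fin 2 → Fin (n + 1) => ∏ s, o.lc (evL (n + 1) s) ^ (g s : ℕ)) =
          fun g : Fin 2 → Fin (n + 1) =>
            ∏ s, ![o.lc (evL (n + 1) (0 : Fin 2)), o.lc (evL (n + 1) (1 : Fin 2))] s ^
              (g s : ℕ) := by
        funext g
        rw [Fin.prod_univ_two, Fin.prod_univ_two]
        rfl
      rw [e] at h
      exact h
    law := o.law
    s_z := fun n => by
      change E.mapAlg (segC n) (o.z _) = _
      rw [mapAlg_z, segC, lc_grMapC, lc_tens]
      rfl }

theorem coordO_z (o : Orientation E) (n : ℕ) :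
    (coordO o).z n = o.z (Fin (n + 1)) := rfl

@[simp] theorem coordO_law (o : Orientation E) :
    (coordO o).law = o.law := rfl

/-! ### Homogeneity -/

/-- The law of an orientation is homogeneous. -/
theorem homPS_law (o : Orientation E) : HomPS E.degA 1 o.law.ps := by
  intro d
  rw [law_ps, coeff_ser]
  have h := lawCoeff_deg o (d 0) (d 1)
  have e : (1 : ℤ) - ((d.degree : ℕ) : ℤ) = 1 - ((d 0 : ℕ) : ℤ) - ((d 1 : ℕ) : ℤ) := by
    rw [Finsupp.degree_eq_sum, Fin.sum_univ_two]
    push_cast
    ring
  rw [e]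
  exact h

/-- The coefficients of the comparison series of two orientations are homogeneous. -/
theorem cmp_c_mem (o o' : Orientation E)
    (h : (coordO o').z 1 = (coordO o).z 1) (m : ℕ) :
    (CPSys.Coord.cmp (coordO o) (coordO o') h).c m ∈ E.degA (-(m : ℤ)) := by
  set g := (CPSys.Coord.cmp (coordO o) (coordO o') h).val with hg
  have h1 : o'.z (Fin (m + 2)) = ∑ i : Fin (m + 2), PowerSeries.coeff (i : ℕ) g •
      o.z (Fin (m + 2)) ^ (i : ℕ) := by
    refine (CPSys.Coord.isCmp_cmp (coordO o) (coordO o') h (m + 1)).trans ?_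
    rw [nev1_eq_sum ((coordO o).pow_z (m + 1)), Finset.sum_range]
    rfl
  have h2 := congrArg (E.proj _ 1) h1
  rw [proj_of_mem (z_deg o' _), map_sum] at h2
  have h3 : ∀ i : Fin (m + 2), E.proj (CP (Fin (m + 2))) 1 (PowerSeries.coeff (i : ℕ) g •
      o.z (Fin (m + 2)) ^ (i : ℕ)) = E.toA (E.proj (𝟙_ LC) (1 - ((i : ℕ) : ℤ))
        (E.ofA (PowerSeries.coeff (i : ℕ) g))) • o.z (Fin (m + 2)) ^ (i : ℕ) := by
    intro i
    have hi := pow_deg (z_deg o (Fin (m + 2))) (i : ℕ)
    rw [mul_one] at hi
    exact proj_smul (by ring) _ hi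
  rw [Finset.sum_congr rfl fun i _ => h3 i, h1] at h2
  have h4 := (freeOn_z o (m + 2) (Fin (m + 2)) (Fintype.card_fin _)).bijective_smul.1
    (a₁ := fun i : Fin (m + 2) => PowerSeries.coeff (i : ℕ) g)
    (a₂ := fun i : Fin (m + 2) => E.toA (E.proj (𝟙_ LC) (1 - ((i : ℕ) : ℤ))
        (E.ofA (PowerSeries.coeff (i : ℕ) g)))) h2
  have h5 : PowerSeries.coeff (m + 1) g = E.toA (E.proj (𝟙_ LC) (1 - ((m + 1 : ℕ) : ℤ))
        (E.ofA (PowerSeries.coeff (m + 1) g))) := congrFun h4 (Fin.last (m + 1))
  have h6 : E.toA (E.proj (𝟙_ LC) (1 - ((m + 1 : ℕ) : ℤ))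
        (E.ofA (PowerSeries.coeff (m + 1) g))) ∈ E.degA (1 - ((m + 1 : ℕ) : ℤ)) := proj_mem _ _
  rw [← h5] at h6
  have e : (1 : ℤ) - ((m + 1 : ℕ) : ℤ) = -(m : ℤ) := by push_cast; ring
  rw [e] at h6
  exact h6

/-- The Euler classes of one orientation in terms of the other one. -/
theorem z_eq_sum_cmp (o o' : Orientation E)
    (h : (coordO o').z 1 = (coordO o).z 1) (n : ℕ) :
    o'.z (Fin (n + 1)) = ∑ i : Fin n, (CPSys.Coord.cmp (coordO o) (coordO o') h).c i •
      o.z (Fin (n + 1)) ^ ((i : ℕ) + 1) := by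
  refine (CPSys.Coord.isCmp_cmp (coordO o) (coordO o') h n).trans ?_
  rw [nev1_eq_sum ((coordO o).pow_z n), Finset.sum_range, Fin.sum_univ_succ]
  have h0 : PowerSeries.coeff 0 (CPSys.Coord.cmp (coordO o) (coordO o') h).val = 0 := by
    rw [PowerSeries.coeff_zero_eq_constantCoeff_apply]
    exact (CPSys.Coord.cmp (coordO o) (coordO o') h).cc
  rw [Fin.val_zero, h0, zero_smul, zero_add]
  rfl

/-- The comparison series is determined by the expansion of the Euler class. -/
theorem cmp_c_eq_of (o o' : Orientation E) (h : (coordO o').z 1 = (coordO o).z 1) {n : ℕ}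
    (a : ℕ → E.A) (ha : o'.z (Fin (n + 1)) = ∑ i : Fin n, a i • o.z (Fin (n + 1)) ^ ((i : ℕ) + 1))
    {i : ℕ} (hi : i < n) : (CPSys.Coord.cmp (coordO o) (coordO o') h).c i = a i := by
  have h1 := z_eq_sum_cmp o o' h n
  rw [ha] at h1
  have h2 : ∀ b : ℕ → E.A, ∑ i : Fin n, b i • o.z (Fin (n + 1)) ^ ((i : ℕ) + 1) =
      ∑ i : Fin (n + 1), (Fin.cases 0 (fun j : Fin n => b j) i : E.A) •
        o.z (Fin (n + 1)) ^ (i : ℕ) := by
    intro b
    rw [Fin.sum_univ_succ, Fin.cases_zero, zero_smul, zero_add]
    refine Finset.sum_congr rfl fun j _ => ?_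
    rw [Fin.cases_succ, Fin.val_succ]
  rw [h2, h2] at h1
  have h3 := congrFun ((freeOn_z o (n + 1) (Fin (n + 1)) (Fintype.card_fin _)).bijective_smul.1 h1)
    (Fin.succ ⟨i, hi⟩)
  rw [Fin.cases_succ, Fin.cases_succ] at h3
  exact h3.symm

/-! ### The chain of a family of orientations -/

theorem z_one_eq (o o' : Orientation E) :
    (coordO o).z 1 = (coordO o').z 1 := z_two o o'

variable {n m : ℕ}

/-- The chain of the laws of a family of orientations. -/
def oChain (o : Fin (n + 1) → Orientation E) :
    LChain n E.A :=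
  CPSys.Coord.chain (fun i => coordO (o i)) fun i j => z_one_eq (o i) (o j)

theorem oChain_law (o : Fin (n + 1) → Orientation E) :
    (oChain o).law = (o 0).law := rfl

theorem oChain_vertex (o : Fin (n + 1) → Orientation E)
    (i : Fin (n + 1)) : (oChain o).vertex i = (o i).law :=
  CPSys.Coord.chain_vertex _ _ i

theorem oChain_res (o : Fin (n + 1) → Orientation E)
    (α : Fin (m + 1) → Fin (n + 1)) :
    (oChain o).res α = oChain fun i => o (α i) :=
  CPSys.Coord.chain_res _ _ α

/-- The chain of a family of orientations is homogeneous. -/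
theorem oChain_isHom (o : Fin (n + 1) → Orientation E) :
    ChainWt.IsHom E.degA (oChain o) where
  law := homPS_law (o 0)
  g i m := cmp_c_mem (o 0) (o i) (z_one_eq (o i) (o 0)) m

/-! ### Naturality -/

section map

variable {E' : MultTheory.{w}} (φ : MultTheory.Hom E E')

theorem push_z (o : Orientation E) (I : Type) [Fintype I] :
    (φ.push o).z I = φ.app _ (o.z I) := by
  have := good_gr_one o I
  have := o.goodTh
  unfold Orientation.z
  rw [φ.app_map]
  rfl

theorem push_lc {X : LC} [E.Good X] [CompactSpace X] (o : Orientation E) {I : Type} [Fintype I]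
    (f : C(X, CP I)) : (φ.push o).lc f = φ.app _ (o.lc f) := by
  have := good_gr_one o I
  unfold Orientation.lc
  rw [push_z, φ.app_map]

/-- The morphism of projective systems induced by a morphism of theories. -/
def cpHom  :
    (cpSys E).Hom (cpSys E') φ.mapA :=
  { f := fun n => φ.mapU (CP (Fin (n + 1)))
    f_alg := fun n r => by
      change φ.app _ (r • E.oneU _) = φ.mapA r • E'.oneU _
      rw [φ.app_smul, φ.app_oneU]
    f2 := fun n => φ.mapU (powObj (CP (Fin (n + 1))) (Fin 2))
    f2_alg := fun n r => by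
      change φ.app _ (r • E.oneU _) = φ.mapA r • E'.oneU _
      rw [φ.app_smul, φ.app_oneU]
    N_eq := fun n => rfl
    f2_p := fun n x => φ.app_map _ x
    f2_q := fun n x => φ.app_map _ x }

theorem oChain_map (o : Fin (n + 1) → Orientation E) :
    (oChain o).map φ.mapA = oChain fun i => φ.push (o i) := by
  refine CPSys.Coord.chain_map (cpHom φ) _ _ _ _ (fun i k => ?_) (fun k => ?_)
  · exact (push_z φ (o i) _).symm
  · change φ.app _ (E.map (cmap (segC k)) ((o 0).z _)) =
      E'.map (cmap (segC k)) ((φ.push (o 0)).z _)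
    rw [φ.app_map, push_z]

/-- Naturality of the law. -/
theorem law_push (o : Orientation E) : (φ.push o).law = o.law.map φ.mapA :=
  (congrArg LChain.law (oChain_map φ fun _ : Fin (0 + 1) => o)).symm

end map

/-! ### The characteristic homomorphism -/

/-- The homomorphism classifying the chain of laws of a family of orientations. -/
def oEv (o : Fin (n + 1) → Orientation E) : Cob Laz n →+* E.A := LChain.ev (oChain o)

theorem oEv_C (o : Fin (n + 1) → Orientation E) (a : Laz) :
    oEv o (MvPolynomial.C a : Cob Laz n) = Laz.lift (o 0).law a := LChain.ev_C _ a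

/-- Functions of weight `w` take values of degree `-w`. -/
theorem oEv_mem (o : Fin (n + 1) → Orientation E) {w : ℤ} {x : Cob Laz n} (hx : Cob.IsWt w x) :
    oEv o x ∈ E.degA (-w) :=
  ChainWt.ev_mem (isMulGr_degA E) (oChain_isHom o) hx

theorem oEv_map (o : Fin (n + 1) → Orientation E) (α : Fin (m + 1) → Fin (n + 1))
    (x : Cob Laz m) : oEv o (Cob.map α x) = oEv (fun i => o (α i)) x := by
  rw [oEv, LChain.ev_map_res, oChain_res]
  rfl

theorem mapA_oEv {E' : MultTheory.{w}} (φ : MultTheory.Hom E E')
    (o : Fin (n + 1) → Orientation E) (x : Cob Laz n) :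
    φ.mapA (oEv o x) = oEv (fun i => φ.push (o i)) x := by
  rw [oEv, LChain.map_ev, oChain_map]
  rfl

end Vale.Agent.P251.M
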