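import Vale.Agent.P251.M.ThK
import Vale.Agent.P251.M.Strict
import Vale.Agent.P251.M.MUInst

/-!
# P251, part M4b: the characteristic homomorphisms of an oriented commutative monoid

For an orientation `o` of the theory of a commutative monoid `R`, the `s + 1` orientations of
`R^{⊗ (s+1)}` and the homomorphism `amEv e R o s : Cob Laz s → ⨁_w Hom(S^{2w}, R^{⊗ (s+1)})`.
-/

open CategoryTheory MonoidalCategory Limits Pretriangulated MonObj
open Vale.Agent.P251.G Vale.Agent.P251.G.LC Vale.Agent.P251.I Vale.Agent.P251.T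
open Vale.Agent.P251.F Vale.Agent.P251.S

universe v u

set_option linter.unusedSectionVars false

noncomputable section

namespace Vale.Agent.P251.M

variable {T : Type u} [Category.{v} T] [Preadditive T] [HasZeroObject T]
    [HasShift T ℤ] [∀ n : ℤ, (shiftFunctor T n).Additive] [Pretriangulated T]
    [MonoidalCategory T] [SymmetricCategory T] [TensorTriangulated T]
  {S : EvenSpheres T} {F : SpaceFunctor T} (e : F.S.obj CCF ≅ S.L)

/-! ### Morphisms of theories -/

theorem lineCls_msys {A A' : SeqMonoid T} (f : SeqMonoid.Hom A A') :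
    lineCls e A ≫ (f.msys S).app 0 1 = lineCls e A' := by
  unfold lineCls
  rw [Category.assoc, SeqMonoid.sig_msys_app]

/-- The morphism of theories given by a morphism of multiplicative sequences. -/
def thSeqHom {A A' : SeqMonoid T} (f : SeqMonoid.Hom A A') :
    Q.MultTheory.Hom (thSeq e A) (thSeq e A') :=
  theoryHom (f.msys S) (cofTriangles F) (isSusp_lineCls e A) (isSusp_lineCls e A')
    (lineCls_msys e f)

section

variable {K K' K'' : T} [MonObj K] [IsCommMonObj K] [MonObj K'] [IsCommMonObj K']
  [MonObj K''] [IsCommMonObj K'']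

/-- The morphism of theories given by a monoid map. -/
def thKHom (f : K ⟶ K') [IsMonHom f] : Q.MultTheory.Hom (thK e K) (thK e K') :=
  thSeqHom e (SeqMonoid.Hom.const f)

theorem coefK_mapA (f : K ⟶ K') [IsMonHom f] (a : (thK e K).A) :
    coefK e K' ((thKHom e f).mapA a) = HRing.map (E := S) f (coefK e K a) := uH_uhom f a

theorem coefK_deg {k w : ℤ} (h : k + w = 0) {a : (thK e K).A} (ha : a ∈ (thK e K).degA k) :
    ∃ x : S.S w ⟶ K, coefK e K a = HRing.of S K w x := by
  obtain rfl : w = -k := by omega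
  exact uH_deg ha

theorem msys_hom_ext {M M' : MSys T} {f g : MSys.Hom M M'} (h : ∀ n k, f.app n k = g.app n k) :
    f = g := by
  have h1 : f.app = g.app := funext fun n => funext fun k => h n k
  cases f
  cases g
  cases h1
  rfl

theorem thKHom_comp (f : K ⟶ K') [IsMonHom f] (g : K' ⟶ K'') [IsMonHom g] :
    thKHom e (f ≫ g) = (thKHom e f).comp (thKHom e g) := by
  have h1 : (SeqMonoid.Hom.const (f ≫ g)).msys S =
      ((SeqMonoid.Hom.const f).msys S).comp ((SeqMonoid.Hom.const g).msys S) :=
    msys_hom_ext fun n k => comp_whiskerRight f g (S.S k)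
  apply Q.MultTheory.Hom.ext
  intro X u
  funext h
  change ((SeqMonoid.Hom.const (f ≫ g)).msys S).tmap _ (u h) = _
  rw [h1]
  exact MSys.Hom.tmap_comp _ _ _ _

theorem thKHom_congr {f g : K ⟶ K'} [IsMonHom f] [IsMonHom g] (h : f = g) :
    thKHom e f = thKHom e g := by
  subst h
  rfl

theorem thKHom_push_comp (f : K ⟶ K') [IsMonHom f] (g : K' ⟶ K'') [IsMonHom g]
    (h : K ⟶ K'') [IsMonHom h] (hh : f ≫ g = h) (o : Q.Orientation (thK e K)) :
    (thKHom e g).push ((thKHom e f).push o) = (thKHom e h).push o := by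
  rw [← Q.MultTheory.Hom.push_comp, ← thKHom_comp]
  congr 1
  exact thKHom_congr e hh

end

/-! ### The orientations of the tensor powers -/

section

variable (R : T) [MonObj R] [IsCommMonObj R] (o : Q.Orientation (thK e R))

/-- The orientation of `R^{⊗ n}` at the vertex `j`. -/
def amO {n : ℕ} (j : Fin n) : Q.Orientation (thK e (Am R n)) := (thKHom e (Am.v R j)).push o

theorem amO_map {m n : ℕ} (α : Fin m → Fin n) (j : Fin m) :
    (thKHom e (Am.map R α)).push (amO e R o j) = amO e R o (α j) :=
  thKHom_push_comp e _ _ _ (Am.v_map R α j) o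

/-- **The characteristic homomorphism.** -/
def amEv (s : ℕ) : Cob Laz s →+* HRing S (Am R (s + 1)) :=
  (coefK e (Am R (s + 1))).comp (oEv fun j : Fin (s + 1) => amO e R o j)

theorem amEv_apply (s : ℕ) (z : Cob Laz s) :
    amEv e R o s z = coefK e (Am R (s + 1)) (oEv (fun j : Fin (s + 1) => amO e R o j) z) := rfl

/-- Functions of weight `w` have values in `π_{2w}`. -/
theorem amEv_wt (s : ℕ) (w : ℤ) (z : Cob Laz s) (hz : Cob.IsWt w z) :
    ∃ a : S.S w ⟶ Am R (s + 1), amEv e R o s z = HRing.of S (Am R (s + 1)) w a :=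
  coefK_deg e (neg_add_cancel w) (oEv_mem (fun j : Fin (s + 1) => amO e R o j) hz)

theorem amEv_map (m n : ℕ) (α : Fin (m + 1) → Fin (n + 1)) (z : Cob Laz m) :
    HRing.map (E := S) (Am.map R α) (amEv e R o m z) = amEv e R o n (Cob.map α z) := by
  have h : (fun j => (thKHom e (Am.map R α)).push (amO e R o j)) = fun j => amO e R o (α j) :=
    funext fun j => amO_map e R o α j
  rw [amEv_apply, amEv_apply, oEv_map, ← coefK_mapA, mapA_oEv, h]

/-- the law at the first vertex -/
theorem amEv_C (s : ℕ) (a : Laz) : amEv e R o s (MvPolynomial.C a) =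
    HRing.map (E := S) (Am.v R (0 : Fin (s + 1))) (coefK e R (Laz.lift o.law a)) := by
  rw [amEv_apply, oEv_C, ← coefK_mapA]
  congr 1
  rw [Laz.map_lift, ← law_push]
  rfl

theorem amEv_law (s : ℕ) : Laz.univ.map ((amEv e R o s).comp MvPolynomial.C) =
    (o.law.map (coefK e R)).map (HRing.map (E := S) (Am.v R (0 : Fin (s + 1)))) := by
  have h : (amEv e R o s).comp MvPolynomial.C =
      ((HRing.map (E := S) (Am.v R (0 : Fin (s + 1)))).comp (coefK e R)).comp
        (Laz.lift o.law) := by
    ext1 a
    exact amEv_C e R o s a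
  rw [h, ← Law.map_map, Laz.univ_map_lift, Law.map_map]

/-- the coefficient of the comparison series of the vertices `0` and `i + 1` -/
theorem amEv_X (s : ℕ) (i : Fin s) (m : ℕ) : amEv e R o s (MvPolynomial.X (i, m)) =
    coefK e (Am R (s + 1)) ((CPSys.Coord.cmp (coordO (amO e R o (0 : Fin (s + 1))))
      (coordO (amO e R o i.succ)) (z_one_eq _ _)).c (m + 1)) := by
  rw [amEv_apply, oEv, LChain.ev_X]
  rfl

end

/-- The characteristic homomorphisms in the form of part M. -/
def muEv [IsTriangulated T] [MonoidalClosed T] [HasCoproducts.{0} T] [HasProducts.{0} T]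
    [StableCat T] (e : F.S.obj CCF ≅ (stdEven T).L) (R : T) [MonObj R] [IsCommMonObj R]
    (o : Q.Orientation (thK e R)) : MUEv R where
  ev := amEv e R o
  ev_wt := amEv_wt e R o
  ev_map := amEv_map e R o

end Vale.Agent.P251.M
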