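import Vale.Agent.P251.M.ThomInst
import Vale.Agent.P251.M.ThomCls
import Vale.Agent.P251.M.ThK

/-!
# P251, part M: Thom classes in a commutative monoid `K`: two forms

`clsOfFam e W : ThomSys.Cls (thomSys F E e) K` for `W : ThomFam (RSys K E) F (lineCls e (const K))`,
and conversely `famOfCls e C`.
-/

open CategoryTheory MonoidalCategory Limits Pretriangulated MonObj
open Vale.Agent.P251.G Vale.Agent.P251.G.LC Vale.Agent.P251.I Vale.Agent.P251.T

universe v u

set_option linter.unusedSectionVars false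

noncomputable section

namespace Vale.Agent.P251.M

variable {T : Type u} [Category.{v} T] [Preadditive T] [HasZeroObject T]
    [HasShift T ℤ] [∀ n : ℤ, (shiftFunctor T n).Additive] [Pretriangulated T]
    [MonoidalCategory T] [SymmetricCategory T] [TensorTriangulated T]

variable [ThFC] {F : SpaceFunctor T} {E : EvenSpheres T} (e : F.S.obj CCF ≅ E.L)
  {K K' : T} [MonObj K] [IsCommMonObj K] [MonObj K'] [IsCommMonObj K']

theorem hq_inj {k : ℤ} {X : T} {a b : (RSys K E).H k X} (h : hq K E k X a = hq K E k X b) :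
    a = b := (hq_bijective k X).1 h

theorem lineCls_eq : lineCls e (SeqMonoid.const K) =
    e.hom ≫ (ρ_ E.L).inv ≫ (λ_ (E.S 1)).inv ≫ (η[K] ▷ E.S 1) := by
  change (e.hom ≫ E.oneIso.inv) ≫ (λ_ (E.S 1)).inv ≫ (η[K] ▷ E.S 1) = _
  rw [oneIso_inv_eq]
  exact Category.assoc _ _ _

/-- From a multiplicative family of Thom classes to classes of the Thom system. -/
def clsOfFam (W : ThomFam (RSys K E) F (lineCls e (SeqMonoid.const K))) :
    ThomSys.Cls (thomSys F E e) K where
  τ n N := hq K E n (TO F.S n (Fin N)) (W.w n N)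
  zt_τ {n N N' l} h := by
    have hN : N ≤ N' := by omega
    rw [thomSys_zt F E e h (by simpa using hN)]
    exact (hq_pull _ _).symm.trans (congrArg _ (W.w_j n hN))
  τ_mul {n m p N M Q} h h' := by
    have hp : n + m = p := congrArg Prod.fst h
    have hQ : N + M ≤ Q := (congrArg Prod.snd h).le
    have e1 := hq_xprod (R := K) (S := E) h' (W.w n N) (W.w m M)
    have e2 := congrArg (hq K E p _) (W.w_mul hp hQ h')
    have e3 := hq_pull (R := K) (S := E) (k := (p : ℤ)) (TO.mul F.S hp (by simpa using hQ) :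
      TO F.S n (Fin N) ⊗ TO F.S m (Fin M) ⟶ TO F.S p (Fin Q)) (W.w p Q)
    exact e1.symm.trans (e2.symm.trans e3)
  τ_one := by
    have e2 := congrArg (hq K E 0 _) W.w_unit
    have e3 := hq_pull (R := K) (S := E) (k := 0) (TO.unit F.S (Fin 0)) (W.w 0 0)
    exact e3.symm.trans e2
  τ_ℓ := by
    have e2 := congrArg (hq K E 1 _) W.w_one
    have e3 := hq_pull (R := K) (S := E) (k := 1) (lineTO F) (W.w 1 1)
    have e4 : lineTO F ≫ hq K E 1 _ (W.w 1 1) =
      e.hom ≫ (ρ_ E.L).inv ≫ (λ_ (E.S 1)).inv ≫ (η[K] ▷ E.S 1) :=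
      e3.symm.trans (e2.trans (lineCls_eq e))
    have e5 : (e.inv ≫ lineTO F) ≫ hq K E 1 _ (W.w 1 1) =
        (ρ_ E.L).inv ≫ (λ_ (E.S 1)).inv ≫ (η[K] ▷ E.S 1) := by
      rw [Category.assoc, e4, Iso.inv_hom_id_assoc]
    exact e5

theorem clsOfFam_τ (W : ThomFam (RSys K E) F (lineCls e (SeqMonoid.const K))) (n N : ℕ) :
    (clsOfFam e W).τ n N = hq K E n (TO F.S n (Fin N)) (W.w n N) := rfl

variable {e}

/-- From classes of the Thom system to a multiplicative family of Thom classes. -/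
def famOfCls (C : ThomSys.Cls (thomSys F E e) K) :
    ThomFam (RSys K E) F (lineCls e (SeqMonoid.const K)) where
  w n N := MSys.cls (M := RSys K E) 0 (C.τ n N)
  w_j n {N N'} h := by
    apply hq_inj
    have h1 := C.zt_τ (n := n) (N := N) (N' := N') (l := N' - N) (by omega)
    rw [thomSys_zt F E e _ (by simpa using h)] at h1
    exact (hq_pull _ _).trans h1
  w_mul {n m k N N' Q} h h' hk := by
    apply hq_inj
    have e1 := hq_xprod (R := K) (S := E) hk (MSys.cls (M := RSys K E) 0 (C.τ n N))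
      (MSys.cls (M := RSys K E) 0 (C.τ m N'))
    have e2 := C.τ_mul (n := n) (m := m) (p := k) (N := N) (M := N') (Q := N + N')
      (by rw [← h]; rfl) hk
    have e3 := hq_pull (R := K) (S := E) (k := (k : ℤ)) (TO.mul F.S h (by simpa using h') :
      TO F.S n (Fin N) ⊗ TO F.S m (Fin N') ⟶ TO F.S k (Fin Q))
      (MSys.cls (M := RSys K E) 0 (C.τ k Q))
    have h1 := C.zt_τ (n := k) (N := N + N') (N' := Q) (l := Q - (N + N')) (by omega)
    rw [thomSys_zt F E e _ (by simpa using h')] at h1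
    have e4 : (TO.mul F.S h (by simpa using h') :
        TO F.S n (Fin N) ⊗ TO F.S m (Fin N') ⟶ TO F.S k (Fin Q)) =
        TO.mul F.S (K := Fin (N + N')) h (by simp) ≫ TO.j F.S k (by simpa using h') := by
      rw [TO.mul_j]
    have e5 : (TO.mul F.S h (by simpa using h') :
        TO F.S n (Fin N) ⊗ TO F.S m (Fin N') ⟶ TO F.S k (Fin Q)) ≫ C.τ k Q =
        TO.mul F.S (K := Fin (N + N')) h (by simp) ≫ C.τ k (N + N') := by
      rw [e4, ← h1]
      exact Category.assoc _ _ _
    exact e3.trans (e5.trans (e2.symm.trans e1.symm))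
  w_unit := by
    apply hq_inj
    exact (hq_pull _ _).trans C.τ_one
  w_one := by
    apply hq_inj
    refine (hq_pull _ _).trans ?_
    have e4 : (e.inv ≫ lineTO F) ≫ C.τ 1 1 =
      (ρ_ E.L).inv ≫ (λ_ (E.S 1)).inv ≫ (η[K] ▷ E.S 1) := C.τ_ℓ
    have e5 : lineTO F ≫ C.τ 1 1 = lineCls e (SeqMonoid.const K) := by
      rw [lineCls_eq]
      refine (Iso.inv_comp_eq e).mp ?_
      exact (Category.assoc _ _ _).symm.trans e4
    exact e5

theorem famOfCls_w (C : ThomSys.Cls (thomSys F E e) K) (n N : ℕ) :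
    (famOfCls C).w n N = MSys.cls (M := RSys K E) 0 (C.τ n N) := rfl

theorem famOfCls_clsOfFam_w (W : ThomFam (RSys K E) F (lineCls e (SeqMonoid.const K)))
    (n N : ℕ) : (famOfCls (clsOfFam e W)).w n N = W.w n N := hq_inj rfl

theorem clsOfFam_famOfCls (C : ThomSys.Cls (thomSys F E e) K) :
    clsOfFam e (famOfCls C) = C := ThomSys.Cls.ext' fun _ _ => rfl

end Vale.Agent.P251.M
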