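import Vale.Agent.P251.M.MU
import Vale.Agent.P251.M.ChainT
import Vale.Agent.P251.M.FamCls

/-!
# P251, part M: the universal property of `MU`

* `ThomFam.push` : Thom classes and morphisms of multiplicative systems;
* `MUMon.fam`, `MUMon.orient` : the Thom classes and the orientation of the theory of `MU`;
* `MUMon.exists_univ`, `MUMon.exists_univ_law` : Thom classes with values in a commutative monoid
  `K` define a monoid map `MU ⟶ K`, compatible with the orientations and the formal group laws.
-/

open CategoryTheory MonoidalCategory Limits Pretriangulated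
open Vale.Agent.P251.G Vale.Agent.P251.G.LC Vale.Agent.P251.I Vale.Agent.P251.T

universe v u

set_option linter.unusedSectionVars false

noncomputable section

namespace Vale.Agent.P251.M

section push

variable {T : Type u} [Category.{v} T] [Preadditive T] [HasZeroObject T]
    [HasShift T ℤ] [∀ n : ℤ, (shiftFunctor T n).Additive] [Pretriangulated T]
    [MonoidalCategory T] [SymmetricCategory T] [TensorTriangulated T]

variable [ThFC] {M M' M'' : MSys T} {F : SpaceFunctor T} {s : F.S.obj CCF ⟶ M.obj 0 1}
  {s' : F.S.obj CCF ⟶ M'.obj 0 1} {s'' : F.S.obj CCF ⟶ M''.obj 0 1}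

namespace ThomFam

theorem ext_w {W W' : ThomFam M F s} (h : ∀ n N, W.w n N = W'.w n N) : W = W' := by
  have h1 : W.w = W'.w := funext fun n => funext fun N => h n N
  cases W
  cases W'
  cases h1
  rfl

/-- Thom classes and morphisms of multiplicative systems -/
def push (W : ThomFam M F s) (f : MSys.Hom M M') (hss : s ≫ f.app 0 1 = s') :
    ThomFam M' F s' where
  w n N := f.hmap n _ (W.w n N)
  w_j n {N N'} h := by rw [← f.hmap_pull, W.w_j n h]
  w_mul h h' hk := by rw [← f.hmap_pull, W.w_mul h h' hk, f.hmap_xprod]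
  w_unit := by
    have h1 := f.hmap_pull (k := 0) (TO.unit F.S (Fin 0)) (W.w 0 0)
    refine h1.symm.trans ?_
    rw [W.w_unit, f.hmap_unit]
  w_one := by
    have h1 := f.hmap_pull (k := 1) (F.S.map (FCat.hom (X := CCF) (Y := ThF 1 Unit) lineTh) ≫
      TO.j F.S (J := Fin 1) 1 (by simp)) (W.w 1 1)
    refine h1.symm.trans ?_
    rw [W.w_one, f.hmap_cls, hss]

theorem push_wI (W : ThomFam M F s) (f : MSys.Hom M M') (hss : s ≫ f.app 0 1 = s') (n : ℕ)
    (I : Type) [Fintype I] [DecidableEq I] : (W.push f hss).wI n I = f.hmap n _ (W.wI n I) :=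
  (f.hmap_pull _ _).symm

theorem push_orientation (W : ThomFam M F s) (f : MSys.Hom M M') (hF : CofTriangles F)
    (hs : M.IsSusp s) (hs' : M'.IsSusp s') (hss : s ≫ f.app 0 1 = s') :
    (theoryHom f hF hs hs' hss).push (W.orientation hF hs) =
      (W.push f hss).orientation hF hs' := by
  apply Q.Orientation.ext_tau
  intro n I _
  apply uev_inj (ThFC.fc n I)
  have h1 : uev (ThFC.fc n I) (((theoryHom f hF hs hs' hss).push (W.orientation hF hs)).tau n I) =
      f.tmap _ (uev (ThFC.fc n I) ((W.orientation hF hs).tau n I)) :=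
    uev_theoryHom_app f hF hs hs' hss (ThFC.fc n I) _
  classical
  rw [W.uev_tau hF hs n I, f.tmap_of] at h1
  refine h1.trans ?_
  refine Eq.trans ?_ ((W.push f hss).uev_tau hF hs' n I).symm
  rw [push_wI]

end ThomFam

end push

variable {T : Type u} [Category.{v} T] [Preadditive T] [HasZeroObject T]
    [HasShift T ℤ] [∀ n : ℤ, (shiftFunctor T n).Additive] [Pretriangulated T] [IsTriangulated T]
    [MonoidalCategory T] [SymmetricCategory T] [TensorTriangulated T] [MonoidalClosed T]
    [HasCoproducts.{0} T] [HasProducts.{0} T] [StableCat T]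

variable {F : SpaceFunctor T} {E : EvenSpheres T} {e : F.S.obj CCF ≅ E.L} (M : MUMon F E e)

namespace MUMon

/-- the Thom classes of the theory of `MU` -/
def fam : ThomFam (RSys M.R E) F (lineCls e (SeqMonoid.const M.R)) :=
  (famMU F E e).push (M.hom.msys E) (lineCls_msys e M.hom)

/-- the orientation of the theory of `MU` -/
def orient : Q.Orientation (thK e M.R) := (thSeqHom e M.hom).push (orientMU F E e)

theorem orient_eq : M.orient =
    M.fam.orientation (cofTriangles F) (isSusp_lineCls e (SeqMonoid.const M.R)) :=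
  (famMU F E e).push_orientation (M.hom.msys E) (cofTriangles F)
    (isSusp_lineCls e (seqMU F E e)) (isSusp_lineCls e (SeqMonoid.const M.R))
    (lineCls_msys e M.hom)

/-- the Thom classes of `MU`, as maps -/
theorem hq_fam {n N a : ℕ} (h : n ≤ a) (h' : N ≤ a + n) :
    hq M.R E n _ (M.fam.w n N) = thomθ F E e h h' ≫ (M.ι a ▷ E.S n) := by
  have h1 : (famMU F E e).w n N =
      MSys.cls (M := MSys.ofSeq (seqMU F E e) E) a ((thetaMU F E e).θ h h') :=
    (thetaMU F E e).cl_eq h h'
  have h2 : M.fam.w n N = (M.hom.msys E).hmap n _ ((famMU F E e).w n N) := rfl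
  rw [h2, h1, MSys.Hom.hmap_cls]
  rfl

variable {K : T} [MonObj K] [IsCommMonObj K]

/-- **Universal property**: Thom classes with values in `K` define a monoid map `MU ⟶ K`. -/
theorem exists_univ_cls (o : Q.Orientation (thK e K)) (C : ThomSys.Cls (thomSys F E e) K) :
    ∃ (u : M.R ⟶ K) (_ : IsMonHom u), ∀ n, M.ι n ≫ u = C.θK n := by
  obtain ⟨u, hu, h⟩ := exists_isMonHom (seqMU F E e) M.tel M.telMon.one.symm M.telMon.mul
    (limOne_MU_const F E e o) (fun n => C.θK n) (fun n => C.θK_map (Nat.le_succ n)) C.θK_one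
    (fun i j => C.θK_mul rfl)
  exact ⟨u, hu, h⟩

/-- **Universal property** of `MU`, for Thom classes. -/
theorem exists_univ_of_cls (W : ThomFam (RSys K E) F (lineCls e (SeqMonoid.const K)))
    (C : ThomSys.Cls (thomSys F E e) K) (hC : ∀ n N : ℕ, hq K E n _ (W.w n N) = C.τ n N) :
    ∃ (u : M.R ⟶ K) (_ : IsMonHom u), (∀ n, M.ι n ≫ u = C.θK n) ∧
      M.fam.push ((SeqMonoid.Hom.const u).msys E) (lineCls_msys e (SeqMonoid.Hom.const u)) = W := by
  obtain ⟨u, hu, h⟩ := M.exists_univ_cls
    (W.orientation (cofTriangles F) (isSusp_lineCls e (SeqMonoid.const K))) C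
  refine ⟨u, hu, h, ThomFam.ext_w fun n N => ?_⟩
  apply (hq_bijective (R := K) (S := E) n _).1
  rw [hC n N]
  have h0 : n ≤ n + N := Nat.le_add_right _ _
  have h0' : N ≤ n + N + n := by omega
  have h1 : hq K E n _ ((M.fam.push ((SeqMonoid.Hom.const u).msys E)
      (lineCls_msys e (SeqMonoid.Hom.const u))).w n N) =
      hq M.R E n _ (M.fam.w n N) ≫ (u ▷ E.S n) := hq_hmap u _
  rw [h1, M.hq_fam h0 h0', Category.assoc, ← comp_whiskerRight, h]
  exact C.θ_θK h0 h0'

/-- compatibility of the orientations -/
theorem push_orient (W : ThomFam (RSys K E) F (lineCls e (SeqMonoid.const K))) (u : M.R ⟶ K)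
    [IsMonHom u] (h : M.fam.push ((SeqMonoid.Hom.const u).msys E)
      (lineCls_msys e (SeqMonoid.Hom.const u)) = W) :
    (thKHom e u).push M.orient =
      W.orientation (cofTriangles F) (isSusp_lineCls e (SeqMonoid.const K)) := by
  rw [← h, M.orient_eq]
  exact M.fam.push_orientation ((SeqMonoid.Hom.const u).msys E) (cofTriangles F)
    (isSusp_lineCls e (SeqMonoid.const M.R)) (isSusp_lineCls e (SeqMonoid.const K))
    (lineCls_msys e (SeqMonoid.Hom.const u))

/-- compatibility of the formal group laws -/
theorem law_push_orient (o : Q.Orientation (thK e K)) (u : M.R ⟶ K) [IsMonHom u]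
    (h : (thKHom e u).push M.orient = o) :
    (M.orient.law.map (coefK e M.R)).map (HRing.map (E := E) u) = o.law.map (coefK e K) := by
  rw [← h, law_push, Vale.Agent.P251.F.Law.map_map, Vale.Agent.P251.F.Law.map_map]
  congr 1
  ext1 a
  exact (coefK_mapA e u a).symm

/-- **Universal property of `MU`**: a multiplicative family of Thom classes with values in a
commutative monoid `K` defines a monoid map `MU ⟶ K` which carries the orientation of `MU` to the
orientation of `K`. -/
theorem exists_univ (W : ThomFam (RSys K E) F (lineCls e (SeqMonoid.const K))) :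
    ∃ (u : M.R ⟶ K) (_ : IsMonHom u), (thKHom e u).push M.orient =
      W.orientation (cofTriangles F) (isSusp_lineCls e (SeqMonoid.const K)) := by
  obtain ⟨u, hu, _, h⟩ := M.exists_univ_of_cls W (clsOfFam e W) (fun _ _ => rfl)
  exact ⟨u, hu, M.push_orient W u h⟩

/-- **Universal property of `MU`**, for the formal group laws. -/
theorem exists_univ_law (W : ThomFam (RSys K E) F (lineCls e (SeqMonoid.const K))) :
    ∃ (u : M.R ⟶ K) (_ : IsMonHom u),
      (M.orient.law.map (coefK e M.R)).map (HRing.map (E := E) u) =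
        (W.orientation (cofTriangles F) (isSusp_lineCls e (SeqMonoid.const K))).law.map
          (coefK e K) := by
  obtain ⟨u, hu, h⟩ := M.exists_univ W
  exact ⟨u, hu, M.law_push_orient _ u h⟩

end MUMon

end Vale.Agent.P251.M
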