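import Vale.Agent.P251.M.MU
import Vale.Agent.P251.M.MUEvenSeq
import Vale.Agent.P251.M.QInst
import Vale.Agent.P251.M.Univ
import Vale.Agent.P251.I.M2

/-!
# P251, part M: final assembly

For `M : MUMon F (stdEven T) e` (the commutative monoid `MU`):

* `M.ori`, `M.V` : the orientation and the characteristic homomorphisms;
* `M.data b` : `MUData T` from a basis `b : MUBasis M.V` of `R ⊗ R`; `M.data_law`;
* `M.muUniv` : `MUUniv e (M.data b)`.
-/

open CategoryTheory MonoidalCategory Limits Pretriangulated MonObj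
open Vale.Agent.P251.G Vale.Agent.P251.G.LC Vale.Agent.P251.I Vale.Agent.P251.T
open Vale.Agent.P251.F Vale.Agent.P251.S

universe v u

set_option linter.unusedSectionVars false

noncomputable section

namespace Vale.Agent.P251.M

variable {T : Type u} [Category.{v} T] [Preadditive T] [HasZeroObject T]
    [HasShift T ℤ] [∀ n : ℤ, (shiftFunctor T n).Additive] [Pretriangulated T] [IsTriangulated T]
    [MonoidalCategory T] [SymmetricCategory T] [TensorTriangulated T] [MonoidalClosed T]
    [HasCoproducts.{0} T] [HasProducts.{0} T] [StableCat T]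
  {F : SpaceFunctor T} {e : F.S.obj CCF ≅ (stdEven T).L}

namespace MUMon

variable (M : MUMon F (stdEven T) e)

/-- the orientation of `MU` -/
def ori : Q.Orientation (thK e M.R) := (thSeqHom e M.hom).push (orientMU F (stdEven T) e)

/-- the characteristic homomorphisms of `MU` -/
def V : MUEv M.R := muEv e M.R M.ori

theorem muModP (b : MUBasis M.V) (s : ℕ) : MUModP M.V s :=
  b.muModP (muModP_zero_MU e M.tel M.telMon (isSusp_lineCls e (seqMU F (stdEven T) e))
    (line_telHom M.tel e M.telMon rfl) (famMU F (stdEven T) e) (famMU_isoClasses F (stdEven T) e)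
    (evenSeq_MU F (stdEven T) e stdEven_sph) b) s

theorem evenCell (n : ℕ) : EvenCell T 0 ((seqMU F (stdEven T) e).E.obj n) := by
  obtain ⟨Z, v, w, D, hZ⟩ := (evenSeq_MU F (stdEven T) e stdEven_sph).cof n
  exact EvenCell.ext _ D EvenCell.unit (hZ.mono (by norm_num))

/-- **The output of parts M and Q.** -/
def data (b : MUBasis M.V) : MUData T where
  R := M.R
  ev := M.V.ev
  ev_wt := M.V.ev_wt
  ev_map := M.V.ev_map
  odd := fun p _ hp s => (M.muModP b s).odd p hp
  surj := fun p _ hp s => (M.muModP b s).surj p hp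
  ker := fun p _ hp s => (M.muModP b s).ker p hp
  cells := am_cells M.tel (evenCell (F := F) (e := e))
  conn := fun J ρ δ hJ => bigCell_of_unit _ M.tel (evenSeq_MU F (stdEven T) e stdEven_sph).cof _
    M.telMon.one.symm J ρ δ hJ
  conn_unit := unit_conn F

theorem data_law (b : MUBasis M.V) : (M.data b).law = M.ori.law.map (coefK e M.R) :=
  law_of_amEv e (M.data b) M.ori rfl

theorem ori_eq : M.ori = M.orient := rfl

/-- `MUUniv` from a basis of `R ⊗ R`. -/
theorem muUniv (b : MUBasis M.V) : MUUniv e (M.data b) where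
  basis := ⟨gbasisOfBind (A := Am M.R 1) (R := M.R) Cob.degU b.w b.isIso, fun _ => rfl, b.w_eq⟩
  univ K _ _ W := by
    obtain ⟨u, hu, h⟩ := M.exists_univ_law W
    exact ⟨u, hu, (congrArg (fun L => L.map (HRing.map (E := stdEven T) u))
      (M.data_law b)).trans h⟩

end MUMon

/-- The second main output of part M, from a basis of `R ⊗ R`. -/
theorem exists_muUniv (F : SpaceFunctor T) (e : F.S.obj CCF ≅ (stdEven T).L)
    (h : ∀ M : MUMon F (stdEven T) e, Nonempty (MUBasis M.V)) : ∃ D : MUData T, MUUniv e D := by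
  obtain ⟨M⟩ := nonempty_MUMon F (stdEven T) e
  obtain ⟨b⟩ := h M
  exact ⟨M.data b, M.muUniv b⟩

end Vale.Agent.P251.M
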