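import Vale.Agent.P251.M.Tel

/-!
# P251, part M: telescopes, homotopy groups, tensor products
-/

open CategoryTheory MonoidalCategory Limits Pretriangulated

universe v u

set_option linter.unusedSectionVars false

namespace Vale.Agent.P251.M

open Vale.Agent.P251.T

section Iso

variable {T : Type u} [Category.{v} T] [Preadditive T] [HasZeroObject T]
    [HasShift T ℤ] [∀ n : ℤ, (shiftFunctor T n).Additive] [Pretriangulated T]

/-- transport of a distinguished triangle along isomorphisms -/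
lemma dist_of_iso {X Y Z X' Y' Z' : T} {f : X ⟶ Y} {g : Y ⟶ Z} {h : Z ⟶ X⟦(1 : ℤ)⟧}
    (H : Triangle.mk f g h ∈ distTriang T) (a : X ≅ X') (b : Y ≅ Y') (c : Z ≅ Z')
    {f' : X' ⟶ Y'} {g' : Y' ⟶ Z'} {h' : Z' ⟶ X'⟦(1 : ℤ)⟧}
    (h1 : f ≫ b.hom = a.hom ≫ f') (h2 : g ≫ c.hom = b.hom ≫ g')
    (h3 : h ≫ a.hom⟦(1 : ℤ)⟧' = c.hom ≫ h') : Triangle.mk f' g' h' ∈ distTriang T := by
  refine isomorphic_distinguished _ H _ (Iso.symm (Triangle.isoMk _ _ a b c ?_ ?_ ?_))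
  · exact h1
  · exact h2
  · exact h3

/-- transport of a distinguished triangle along isomorphisms, third map not specified -/
lemma exists_dist_of_iso {X Y Z X' Y' Z' : T} {f : X ⟶ Y} {g : Y ⟶ Z} {h : Z ⟶ X⟦(1 : ℤ)⟧}
    (H : Triangle.mk f g h ∈ distTriang T) (a : X ≅ X') (b : Y ≅ Y') (c : Z ≅ Z')
    {f' : X' ⟶ Y'} {g' : Y' ⟶ Z'}
    (h1 : f ≫ b.hom = a.hom ≫ f') (h2 : g ≫ c.hom = b.hom ≫ g') :
    ∃ h' : Z' ⟶ X'⟦(1 : ℤ)⟧, Triangle.mk f' g' h' ∈ distTriang T :=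
  ⟨c.inv ≫ h ≫ a.hom⟦(1 : ℤ)⟧', dist_of_iso H a b c h1 h2 (by rw [Iso.hom_inv_id_assoc])⟩

end Iso

section Shift

variable {T : Type u} [Category.{v} T] [Preadditive T] [HasZeroObject T]
    [HasShift T ℤ] [∀ n : ℤ, (shiftFunctor T n).Additive] [Pretriangulated T]
    [HasCoproducts.{0} T]

/-- compact objects are closed under shifts -/
lemma IsCpt.shift {W : T} (hW : IsCpt W) (n : ℤ) : IsCpt (W⟦n⟧) := by
  intro I X f
  -- transport along the shift by `-n`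
  let e : W⟦n⟧⟦-n⟧ ≅ W := (shiftFunctorCompIsoId T n (-n) (by omega)).app W
  let hc := isColimitOfHasCoproductOfPreservesColimit (shiftFunctor T (-n)) X
  let c : (∐ X)⟦-n⟧ ≅ ∐ (fun i => (X i)⟦-n⟧) :=
    hc.coconePointUniqueUpToIso (coproductIsCoproduct (fun i => (X i)⟦-n⟧))
  have hcι : ∀ i, (Sigma.ι X i)⟦-n⟧' ≫ c.hom = Sigma.ι (fun i => (X i)⟦-n⟧) i := fun i =>
    hc.comp_coconePointUniqueUpToIso_hom (coproductIsCoproduct (fun i => (X i)⟦-n⟧)) ⟨i⟩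
  obtain ⟨s, g, hg⟩ := hW (fun i => (X i)⟦-n⟧) (e.inv ≫ f⟦-n⟧' ≫ c.hom)
  let k : ∐ (fun i : s => (X i)⟦-n⟧) ⟶ (∐ (fun i : s => X i))⟦-n⟧ :=
    Sigma.desc (fun i => (Sigma.ι (fun i : s => X i) i)⟦-n⟧')
  obtain ⟨g', hg'⟩ := (shiftFunctor T (-n)).map_surjective (e.hom ≫ g ≫ k)
  refine ⟨s, g', (shiftFunctor T (-n)).map_injective ?_⟩
  rw [Functor.map_comp, hg']
  have h1 : k ≫ (Sigma.desc (fun i : s => Sigma.ι X i))⟦-n⟧' =
      Sigma.desc (fun i : s => Sigma.ι (fun i => (X i)⟦-n⟧) i) ≫ c.inv := by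
    apply Sigma.hom_ext
    intro i
    have h2 : Sigma.ι (fun i => (X i)⟦-n⟧) i ≫ c.inv = (Sigma.ι X i)⟦-n⟧' := by
      rw [Iso.comp_inv_eq, hcι]
    rw [Sigma.ι_desc_assoc, Sigma.ι_desc_assoc, h2, ← Functor.map_comp, Sigma.ι_desc]
  rw [Category.assoc, Category.assoc, h1, reassoc_of% hg]
  simp

/-- a map from a compact object to the telescope factors through a stage -/
lemma IsTel.exists_factor' {F : ℕ ⥤ T} {L : T} {ι : ∀ n, F.obj n ⟶ L} (h : IsTel F L ι) {W : T}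
    (hW : IsCpt W) (w : W ⟶ L) : ∃ (n : ℕ) (w' : W ⟶ F.obj n), w' ≫ ι n = w := by
  let e : W⟦(-1 : ℤ)⟧⟦(1 : ℤ)⟧ ≅ W := (shiftFunctorCompIsoId T (-1 : ℤ) 1 (by omega)).app W
  obtain ⟨n, w', hw'⟩ := h.exists_factor (IsCpt.shift hW (-1)) (IsCpt.of_iso hW e.symm)
    (e.hom ≫ w)
  exact ⟨n, e.inv ≫ w', by rw [Category.assoc, hw', Iso.inv_hom_id_assoc]⟩

end Shift

section Pi

variable {T : Type u} [Category.{v} T] [Preadditive T] [HasZeroObject T]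
    [HasShift T ℤ] [∀ n : ℤ, (shiftFunctor T n).Additive] [Pretriangulated T] [IsTriangulated T]
    [MonoidalCategory T] [SymmetricCategory T] [TensorTriangulated T] [MonoidalClosed T]
    [HasCoproducts.{0} T] [HasProducts.{0} T] [StableCat T]

lemma isCpt_sph (n : ℤ) : IsCpt (S.Sph T n) := fun _ X f => StableCat.compact n X f

/-- the isomorphism `S^(k-1)⟦1⟧ ≅ S^k` -/
noncomputable def sphShift (T : Type u) [Category.{v} T] [MonoidalCategory T] [HasShift T ℤ]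
    (k : ℤ) : (S.Sph T (k - 1))⟦(1 : ℤ)⟧ ≅ S.Sph T k :=
  ((shiftFunctorAdd' T (k - 1) 1 k (by omega)).app (𝟙_ T)).symm

lemma isZero_of_pi {X : T} (h : ∀ (k : ℤ) (w : S.Sph T k ⟶ X), w = 0) : IsZero X :=
  StableCat.generator X h

/-- a map which is bijective on `Hom(S^k, -)` for all `k` is an isomorphism -/
theorem isIso_of_pi {X Y : T} (g : X ⟶ Y)
    (hinj : ∀ (k : ℤ) (w : S.Sph T k ⟶ X), w ≫ g = 0 → w = 0)
    (hsurj : ∀ (k : ℤ) (w : S.Sph T k ⟶ Y), ∃ w' : S.Sph T k ⟶ X, w' ≫ g = w) : IsIso g := by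
  obtain ⟨C, p, δ, h⟩ := distinguished_cocone_triangle g
  have hC : IsZero C := by
    apply isZero_of_pi
    intro k w
    have h1 : w ≫ δ = 0 := by
      obtain ⟨a, ha⟩ := (shiftFunctor T (1 : ℤ)).map_surjective ((sphShift T k).hom ≫ w ≫ δ)
      have h2 : a ≫ g = 0 := by
        apply (shiftFunctor T (1 : ℤ)).map_injective
        rw [Functor.map_comp, ha, Category.assoc, Category.assoc, dist_zero₃₁ h, comp_zero,
          comp_zero, Functor.map_zero]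
      rw [hinj _ a h2, Functor.map_zero] at ha
      rw [← cancel_epi (sphShift T k).hom, ← ha, comp_zero]
    obtain ⟨z, hz⟩ := dist_co₃ h w h1
    obtain ⟨z', hz'⟩ := hsurj k z
    rw [hz, ← hz', Category.assoc, dist_zero₁₂ h, comp_zero]
  exact (Triangle.isZero₃_iff_isIso₁ _ h).1 hC

/-- isomorphisms of telescopes -/
lemma IsTel.of_iso {F G : ℕ ⥤ T} (a : F ≅ G) {L M : T} (e : L ≅ M) {ι : ∀ n, F.obj n ⟶ L}
    {ι' : ∀ n, G.obj n ⟶ M} (h : IsTel F L ι) (hι : ∀ n, ι n ≫ e.hom = a.hom.app n ≫ ι' n) :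
    IsTel G M ι' := by
  obtain ⟨δ, hδ⟩ := h.exists_triangle
  let c : ∐ F.obj ≅ ∐ G.obj := Sigma.mapIso (fun n => a.app n)
  have hc : ∀ n, Sigma.ι F.obj n ≫ c.hom = a.hom.app n ≫ Sigma.ι G.obj n := by
    intro n
    simp [c]
  refine ⟨exists_dist_of_iso hδ c c e ?_ ?_⟩
  · apply Sigma.hom_ext
    intro n
    rw [ι_telMap_assoc, Preadditive.sub_comp, hc, Category.assoc, hc, reassoc_of% (hc n),
      ι_telMap, Preadditive.comp_sub, NatTrans.naturality_assoc]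
  · apply Sigma.hom_ext
    intro n
    rw [Sigma.ι_desc_assoc, hι, reassoc_of% (hc n), Sigma.ι_desc]

/-- A cocone which exhibits `Hom(S^k, L)` as the colimit of the `Hom(S^k, F n)` is a telescope. -/
theorem IsTel.of_pi {F : ℕ ⥤ T} {L : T} {ι : ∀ n, F.obj n ⟶ L}
    (hcomp : ∀ n, F.map (homOfLE (Nat.le_succ n)) ≫ ι (n + 1) = ι n)
    (hinj : ∀ (k : ℤ) (n : ℕ) (w : S.Sph T k ⟶ F.obj n), w ≫ ι n = 0 →
      ∃ (m : ℕ) (hm : n ≤ m), w ≫ F.map (homOfLE hm) = 0)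
    (hsurj : ∀ (k : ℤ) (w : S.Sph T k ⟶ L), ∃ (n : ℕ) (w' : S.Sph T k ⟶ F.obj n),
      w' ≫ ι n = w) : IsTel F L ι := by
  obtain ⟨L', ι', h'⟩ := exists_isTel F
  obtain ⟨g, hg⟩ := h'.exists_lift ι hcomp
  have : IsIso g := by
    apply isIso_of_pi
    · intro k w hw
      obtain ⟨n, w', hw'⟩ := h'.exists_factor (isCpt_sph (k - 1))
        (IsCpt.shift (isCpt_sph (k - 1)) 1) ((sphShift T k).hom ≫ w)
      have h1 : ((sphShift T k).inv ≫ w') ≫ ι' n = w := by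
        rw [Category.assoc, hw', Iso.inv_hom_id_assoc]
      obtain ⟨m, hm, h2⟩ := hinj k n ((sphShift T k).inv ≫ w') (by
        rw [← hg, ← Category.assoc, h1, hw])
      rw [← h1, ← h'.comp hm, ← Category.assoc, h2, zero_comp]
    · intro k w
      obtain ⟨n, w', hw'⟩ := hsurj k w
      exact ⟨w' ≫ ι' n, by rw [Category.assoc, hg, hw']⟩
  exact h'.of_iso (Iso.refl _) (asIso g) (fun n => by simp [hg])

/-! ### tensor products -/

/-- the triangle `Z ⊗ (X ⟶ Y ⟶ W)` -/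
lemma dist_tensor {X Y W : T} {f : X ⟶ Y} {g : Y ⟶ W} {h : W ⟶ X⟦(1 : ℤ)⟧}
    (H : Triangle.mk f g h ∈ distTriang T) (Z : T) :
    Triangle.mk (Z ◁ f) (Z ◁ g) ((Z ◁ h) ≫ (Z ◁ (TensorTriangulated.e X).inv) ≫
        (α_ Z X ((𝟙_ T)⟦(1 : ℤ)⟧)).inv ≫ (TensorTriangulated.e (Z ⊗ X)).hom) ∈ distTriang T :=
  TensorTriangulated.distinguished Z _ H

lemma whiskerLeft_sub (Z : T) {X Y : T} (a b : X ⟶ Y) : Z ◁ (a - b) = Z ◁ a - Z ◁ b :=
  (tensorLeft Z).map_sub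

lemma whiskerRight_sub (Z : T) {X Y : T} (a b : X ⟶ Y) : (a - b) ▷ Z = a ▷ Z - b ▷ Z :=
  (tensorRight Z).map_sub

/-- `Z ⊗ -` preserves telescopes -/
theorem IsTel.whiskerLeft {F : ℕ ⥤ T} {L : T} {ι : ∀ n, F.obj n ⟶ L} (h : IsTel F L ι) (Z : T) :
    IsTel (F ⋙ tensorLeft Z) (Z ⊗ L) (fun n => Z ◁ ι n) := by
  obtain ⟨δ, hδ⟩ := h.exists_triangle
  have hd := dist_tensor hδ Z
  let hc := isColimitOfHasCoproductOfPreservesColimit (tensorLeft Z) F.obj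
  let c : Z ⊗ ∐ F.obj ≅ ∐ (F ⋙ tensorLeft Z).obj :=
    hc.coconePointUniqueUpToIso (coproductIsCoproduct (F ⋙ tensorLeft Z).obj)
  have hc' : ∀ n, (Z ◁ Sigma.ι F.obj n) ≫ c.hom = Sigma.ι (F ⋙ tensorLeft Z).obj n := fun n =>
    hc.comp_coconePointUniqueUpToIso_hom (coproductIsCoproduct (F ⋙ tensorLeft Z).obj) ⟨n⟩
  have hext : ∀ {Y : T} (a b : Z ⊗ ∐ F.obj ⟶ Y),
      (∀ n, (Z ◁ Sigma.ι F.obj n) ≫ a = (Z ◁ Sigma.ι F.obj n) ≫ b) → a = b :=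
    fun a b hab => Cofan.IsColimit.hom_ext hc _ _ hab
  refine ⟨exists_dist_of_iso hd c c (Iso.refl _) ?_ ?_⟩
  · apply hext
    intro n
    rw [← MonoidalCategory.whiskerLeft_comp_assoc, ι_telMap, reassoc_of% (hc' n), ι_telMap,
      whiskerLeft_sub, Preadditive.sub_comp, hc',
      MonoidalCategory.whiskerLeft_comp, Category.assoc, hc']
    rfl
  · apply hext
    intro n
    rw [reassoc_of% (hc' n), Iso.refl_hom, Category.comp_id, ← MonoidalCategory.whiskerLeft_comp,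
      Sigma.ι_desc]
    exact (Sigma.ι_desc (fun n => Z ◁ ι n) n).symm

/-- `- ⊗ Z` preserves telescopes -/
theorem IsTel.whiskerRight {F : ℕ ⥤ T} {L : T} {ι : ∀ n, F.obj n ⟶ L} (h : IsTel F L ι) (Z : T) :
    IsTel (F ⋙ tensorRight Z) (L ⊗ Z) (fun n => ι n ▷ Z) := by
  refine (h.whiskerLeft Z).of_iso
    (NatIso.ofComponents (fun n => β_ Z (F.obj n)) (fun f => by simp)) (β_ Z L) (fun n => ?_)
  simp

/-- the diagonal tensor product of two sequences -/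
@[simps]
def tensSeq (F G : ℕ ⥤ T) : ℕ ⥤ T where
  obj n := F.obj n ⊗ G.obj n
  map f := F.map f ⊗ₘ G.map f
  map_id n := by simp
  map_comp f g := by simp

lemma IsTel.whiskerRight_eq_zero {F : ℕ ⥤ T} {L : T} {ι : ∀ n, F.obj n ⟶ L} (h : IsTel F L ι)
    (Z : T) {W : T} (hW : IsCpt W) {n : ℕ} (w : W ⟶ F.obj n ⊗ Z) (hw : w ≫ (ι n ▷ Z) = 0) :
    ∃ (m : ℕ) (hm : n ≤ m), w ≫ (F.map (homOfLE hm) ▷ Z) = 0 :=
  (h.whiskerRight Z).exists_comp_eq_zero hW w hw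

lemma IsTel.whiskerLeft_eq_zero {F : ℕ ⥤ T} {L : T} {ι : ∀ n, F.obj n ⟶ L} (h : IsTel F L ι)
    (Z : T) {W : T} (hW : IsCpt W) {n : ℕ} (w : W ⟶ Z ⊗ F.obj n) (hw : w ≫ (Z ◁ ι n) = 0) :
    ∃ (m : ℕ) (hm : n ≤ m), w ≫ (Z ◁ F.map (homOfLE hm)) = 0 :=
  (h.whiskerLeft Z).exists_comp_eq_zero hW w hw

lemma IsTel.whiskerRight_factor {F : ℕ ⥤ T} {L : T} {ι : ∀ n, F.obj n ⟶ L} (h : IsTel F L ι)
    (Z : T) {W : T} (hW : IsCpt W) (w : W ⟶ L ⊗ Z) :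
    ∃ (n : ℕ) (w' : W ⟶ F.obj n ⊗ Z), w' ≫ (ι n ▷ Z) = w :=
  (h.whiskerRight Z).exists_factor' hW w

lemma IsTel.whiskerLeft_factor {F : ℕ ⥤ T} {L : T} {ι : ∀ n, F.obj n ⟶ L} (h : IsTel F L ι)
    (Z : T) {W : T} (hW : IsCpt W) (w : W ⟶ Z ⊗ L) :
    ∃ (n : ℕ) (w' : W ⟶ Z ⊗ F.obj n), w' ≫ (Z ◁ ι n) = w :=
  (h.whiskerLeft Z).exists_factor' hW w

lemma homOfLE_comp_homOfLE {a b c : ℕ} (h : a ≤ b) (h' : b ≤ c) :
    homOfLE h ≫ homOfLE h' = homOfLE (h.trans h') := rfl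

/-- the tensor product of two telescopes is the telescope of the diagonal -/
theorem IsTel.tensor {F G : ℕ ⥤ T} {L M : T} {ι : ∀ n, F.obj n ⟶ L} {κ : ∀ n, G.obj n ⟶ M}
    (hF : IsTel F L ι) (hG : IsTel G M κ) :
    IsTel (tensSeq F G) (L ⊗ M) (fun n => ι n ⊗ₘ κ n) := by
  have hA : ∀ n : ℕ, (F.map (homOfLE (Nat.le_succ n)) ⊗ₘ G.map (homOfLE (Nat.le_succ n))) ≫
      (ι (n + 1) ⊗ₘ κ (n + 1)) = ι n ⊗ₘ κ n := by
    intro n
    rw [MonoidalCategory.tensorHom_comp_tensorHom, hF.comp_succ, hG.comp_succ]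
  have hB : ∀ (k : ℤ) (n : ℕ) (w : S.Sph T k ⟶ F.obj n ⊗ G.obj n), w ≫ (ι n ⊗ₘ κ n) = 0 →
      ∃ (m : ℕ) (hm : n ≤ m), w ≫ (F.map (homOfLE hm) ⊗ₘ G.map (homOfLE hm)) = 0 := by
    intro k n w hw
    obtain ⟨m, hm, h2⟩ := hF.whiskerRight_eq_zero M (isCpt_sph k) (w ≫ (F.obj n ◁ κ n)) (by
      rw [Category.assoc, ← MonoidalCategory.tensorHom_def', hw])
    obtain ⟨m', hm', h4⟩ := hG.whiskerLeft_eq_zero (F.obj m) (isCpt_sph k)
      (w ≫ (F.map (homOfLE hm) ▷ G.obj n)) (by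
      rw [Category.assoc, ← MonoidalCategory.whisker_exchange, ← Category.assoc, h2])
    have h5 : w ≫ (F.map (homOfLE hm) ⊗ₘ G.map (homOfLE hm')) = 0 := by
      rw [MonoidalCategory.tensorHom_def, ← Category.assoc, h4]
    refine ⟨max m m', hm.trans (le_max_left _ _), ?_⟩
    have h6 : F.map (homOfLE (hm.trans (le_max_left m m'))) =
      F.map (homOfLE hm) ≫ F.map (homOfLE (le_max_left m m')) := F.map_comp _ _
    have h7 : G.map (homOfLE (hm.trans (le_max_left m m'))) =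
      G.map (homOfLE hm') ≫ G.map (homOfLE (le_max_right m m')) := G.map_comp _ _
    rw [h6, h7, ← MonoidalCategory.tensorHom_comp_tensorHom, ← Category.assoc, h5,
      zero_comp]
  have hC : ∀ (k : ℤ) (w : S.Sph T k ⟶ L ⊗ M), ∃ (n : ℕ) (w' : S.Sph T k ⟶ F.obj n ⊗ G.obj n),
      w' ≫ (ι n ⊗ₘ κ n) = w := by
    intro k w
    obtain ⟨n, w', hw'⟩ := hG.whiskerLeft_factor L (isCpt_sph k) w
    obtain ⟨m, w'', hw''⟩ := hF.whiskerRight_factor (G.obj n) (isCpt_sph k) w'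
    refine ⟨max m n, w'' ≫ (F.map (homOfLE (le_max_left m n)) ⊗ₘ
      G.map (homOfLE (le_max_right m n))), ?_⟩
    rw [Category.assoc, MonoidalCategory.tensorHom_comp_tensorHom, hF.comp, hG.comp,
      MonoidalCategory.tensorHom_def, ← hw', ← hw'', Category.assoc]
  exact IsTel.of_pi hA hB hC

end Pi

end Vale.Agent.P251.M
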