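import Vale.Agent.P251.M.BMMon
import Vale.Agent.P251.M.BaseCh
import Vale.Agent.P251.M.TelPi
import Vale.Agent.P251.M.EvenShift
import Vale.Agent.P251.M.BUPi

/-!
# P251, part M: the basis of `K ⊗ MU`, at the level of `T`

Translation of the statements about the category `FM K` of free `K`-modules to statements about
`T`: monomials, telescopes, and the isomorphism `∐ K ⊗ S(|μ|) ≅ K ⊗ X`.
-/

open CategoryTheory MonoidalCategory Limits Pretriangulated MonObj
open scoped DirectSum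

universe v u

noncomputable section

namespace Vale.Agent.P251.M

open Vale.Agent.P251.T CH

set_option linter.unusedSectionVars false
set_option linter.dupNamespace false

/-! ### Monomials -/

section mon

variable {T : Type u} [Category.{v} T] [MonoidalCategory T] [SymmetricCategory T]
  (A : SphD T) {K X : T} [MonObj K] [IsCommMonObj K] [MonObj X]

variable (K X) in
/-- the unit of the free module on a monoid -/
def FM.oneF : 𝟙_ (FM K) ⟶ (FM.free K).obj X := (FM.free K).map η[X]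

variable (K X) in
/-- the product of the free module on a monoid -/
def FM.mulF : (FM.free K).obj X ⊗ (FM.free K).obj X ⟶ (FM.free K).obj X := (FM.free K).map μ[X]

theorem FM.one_hom_free : FM.Hom.hom (FM.oneF K X) = η[K ⊗ X] := by
  change η[X] ≫ FM.unit K X = _
  rw [FM.unit, tensorObj.one_def, tensorHom_def', leftUnitor_inv_naturality_assoc]

theorem FM.tensor_mul_hom {Y Z : T} (f : FM.of (R := K) Y ⟶ (FM.free K).obj X)
    (g : FM.of (R := K) Z ⟶ (FM.free K).obj X) :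
    FM.Hom.hom ((f ⊗ₘ g) ≫ FM.mulF K X) =
      (FM.Hom.hom f ⊗ₘ FM.Hom.hom g) ≫ μ[K ⊗ X] := by
  have h := FM.comp_free_map_hom (R := K) (X := FM.of Y ⊗ FM.of Z) (f ⊗ₘ g) μ[X]
  refine h.trans ?_
  have key : ∀ (f' : Y ⟶ K ⊗ X) (g' : Z ⟶ K ⊗ X),
      ((f' ⊗ₘ g') ≫ FM.ten K X X) ≫ K ◁ μ[X] = (f' ⊗ₘ g') ≫ μ[K ⊗ X] := by
    intro f' g'
    rw [FM.ten, Category.assoc, Category.assoc, tensorObj.mul_def, tensorHom_def (μ[K])]
  exact key _ _

theorem push_mu_inv (m n p : ℤ) (h : m + n = p) :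
    ((A.push (FM.free K)).mu m n p h).inv = (FM.free K).map (A.mu m n p h).inv := by
  change (FM.free K).map (A.mu m n p h).inv ≫ 𝟙 _ = _
  exact Category.comp_id _

theorem push_e0_inv : (A.push (FM.free K)).e0.inv = (FM.free K).map A.e0.inv := by
  change (FM.free K).map A.e0.inv ≫ 𝟙 _ = _
  exact Category.comp_id _

/-- Monomials in the category of free modules. -/
theorem hom_monD (b : ∀ i : ℕ, (A.push (FM.free K)).S ((i : ℕ) : ℤ) ⟶ (FM.free K).obj X)
    (l : List ℕ) : ∀ {d : ℤ} (hd : d = ((l.sum : ℕ) : ℤ)),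
    FM.Hom.hom ((A.push (FM.free K)).monD (FM.oneF K X) (FM.mulF K X) b l hd) =
      A.monD η[K ⊗ X] μ[K ⊗ X] (fun i => FM.Hom.hom (b i)) l hd := by
  induction l with
  | nil =>
    intro d hd
    obtain rfl : d = 0 := by simpa using hd
    rw [SphD.monD_nil, SphD.monD_nil, push_e0_inv, ← FM.one_hom_free]
    exact FM.free_map_comp_hom (R := K) A.e0.inv _
  | cons i l ih =>
    intro d hd
    have h2 : ((i : ℕ) : ℤ) + ((l.sum : ℕ) : ℤ) = d := by rw [hd]; simp
    rw [SphD.monD_cons _ _ _ _ i l hd rfl h2, SphD.monD_cons _ _ _ _ i l hd rfl h2, push_mu_inv,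
      ← ih rfl]
    refine (FM.free_map_comp_hom (R := K) (A.mu _ _ _ h2).inv _).trans ?_
    exact congrArg ((A.mu _ _ _ h2).inv ≫ ·) (FM.tensor_mul_hom _ _)

theorem hom_monP (b : ∀ i : ℕ, (A.push (FM.free K)).S ((i : ℕ) : ℤ) ⟶ (FM.free K).obj X)
    (ν : MonoP) :
    FM.Hom.hom ((A.push (FM.free K)).monP (FM.oneF K X) (FM.mulF K X) b ν) =
      A.monP η[K ⊗ X] μ[K ⊗ X] (fun i => FM.Hom.hom (b i)) ν :=
  hom_monD A b ν.l ν.hd

end mon

/-! ### Direct sums -/

theorem bijective_toAddMonoid_of_equiv {J : Type*} [DecidableEq J] {β γ : J → Type*}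
    [∀ j, AddCommGroup (β j)] [∀ j, AddCommGroup (γ j)] {P Q : Type*} [AddCommGroup P]
    [AddCommGroup Q] (f : ∀ j, β j →+ P) (g : ∀ j, γ j →+ Q) (e : ∀ j, β j ≃+ γ j) (p : P ≃+ Q)
    (h : ∀ j x, p (f j x) = g j (e j x)) (hf : Function.Bijective (DirectSum.toAddMonoid f)) :
    Function.Bijective (DirectSum.toAddMonoid g) := by
  let E : (⨁ j, β j) ≃+ (⨁ j, γ j) := DFinsupp.mapRange.addEquiv e
  have hE : ∀ j x, E (DirectSum.of β j x) = DirectSum.of γ j (e j x) := by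
    intro j x
    exact DFinsupp.mapRange_single (hf := fun j => map_zero (e j)) (i := j) (b := x)
  have key : ∀ u, DirectSum.toAddMonoid g (E u) = p (DirectSum.toAddMonoid f u) := by
    intro u
    induction u using DirectSum.induction_on with
    | zero => simp
    | of j x => rw [hE, DirectSum.toAddMonoid_of, DirectSum.toAddMonoid_of, h]
    | add u v hu hv => rw [map_add, map_add, map_add, map_add, hu, hv]
  have h1 : (DirectSum.toAddMonoid g : (⨁ j, γ j) → Q) =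
      p ∘ (DirectSum.toAddMonoid f) ∘ E.symm := by
    funext u
    obtain ⟨u, rfl⟩ := E.surjective u
    simp only [Function.comp_apply, AddEquiv.symm_apply_apply]
    exact key u
  rw [h1]
  exact p.bijective.comp (hf.comp E.symm.bijective)

/-! ### Homs of free modules -/

section hom

variable {T : Type u} [Category.{v} T] [Preadditive T] [MonoidalCategory T] [SymmetricCategory T]
  [MonoidalPreadditive T] {K : T} [MonObj K] [IsCommMonObj K]

/-- morphisms of free modules -/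
def FM.homEquiv (W Y : T) : (FM.of (R := K) W ⟶ FM.of Y) ≃+ (W ⟶ K ⊗ Y) where
  toFun f := FM.Hom.hom f
  invFun f := FM.Hom.mk f
  left_inv _ := rfl
  right_inv _ := rfl
  map_add' _ _ := rfl

theorem FM.homEquiv_comp {W Y Z : T} (f : FM.of (R := K) W ⟶ FM.of Y)
    (g : FM.of (R := K) Y ⟶ FM.of Z) :
    FM.homEquiv W Z (f ≫ g) = FM.homEquiv W Y f ≫ FM.bind (FM.homEquiv Y Z g) := rfl

end hom

/-! ### Telescopes -/

section tel

variable {T : Type u} [Category.{v} T] [Preadditive T] [HasZeroObject T]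
    [HasShift T ℤ] [∀ n : ℤ, (shiftFunctor T n).Additive] [Pretriangulated T] [IsTriangulated T]
    [MonoidalCategory T] [SymmetricCategory T] [TensorTriangulated T] [MonoidalClosed T]
    [HasCoproducts.{0} T] [HasProducts.{0} T] [StableCat T]
    {K : T} [MonObj K] [IsCommMonObj K] {F : ℕ ⥤ T} {X : T} {ι : ∀ n, F.obj n ⟶ X}

theorem FM.map_free_ι (h : IsTel F X ι) {N N' : ℕ} (hN : N ≤ N') :
    (F ⋙ FM.free K).map (homOfLE hN) ≫ (FM.free K).map (ι N') = (FM.free K).map (ι N) := by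
  rw [Functor.comp_map, ← Functor.map_comp, h.comp]

/-- `colim_N Hom(W, K ⊗ F N) = Hom(W, K ⊗ X)` for `W` compact. -/
theorem FM.bijective_tel (h : IsTel F X ι) {W : T} (hW : IsCpt W) :
    Function.Bijective (CH.lift (W := (FM.of (R := K) W)) (X := F ⋙ FM.free K)
      (fun N => Preadditive.rightComp (FM.of (R := K) W) ((FM.free K).map (ι N)))
      (fun N N' hN x => by
        change (x ≫ (F ⋙ FM.free K).map (homOfLE hN)) ≫ (FM.free K).map (ι N') =
          x ≫ (FM.free K).map (ι N)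
        rw [Category.assoc, FM.map_free_ι h])) := by
  constructor
  · rw [injective_iff_map_eq_zero]
    intro x hx
    obtain ⟨N, x, rfl⟩ := exists_cls x
    have hx' : x ≫ (FM.free K).map (ι N) = 0 := hx
    have h1 : FM.Hom.hom x ≫ K ◁ ι N = 0 :=
      (FM.comp_free_map_hom (R := K) (X := FM.of W) x (ι N)).symm.trans (congrArg FM.Hom.hom hx')
    obtain ⟨m, hm, e⟩ := h.whiskerLeft_eq_zero K hW (FM.Hom.hom x) h1
    rw [cls_eq_zero_iff]
    refine ⟨m, hm, ?_⟩
    apply FM.hom_ext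
    exact (FM.comp_free_map_hom (R := K) x (F.map (homOfLE hm))).trans e
  · intro y
    obtain ⟨N, x, hx⟩ := h.whiskerLeft_factor K hW (FM.Hom.hom y)
    refine ⟨cls N (FM.Hom.mk x), ?_⟩
    apply FM.hom_ext
    exact (FM.comp_free_map_hom (R := K) (X := FM.of W) (FM.Hom.mk x) (ι N)).trans hx

end tel

/-! ### The isomorphism -/

section iso

variable {T : Type u} [Category.{v} T] [Preadditive T] [HasZeroObject T]
    [HasShift T ℤ] [∀ n : ℤ, (shiftFunctor T n).Additive] [Pretriangulated T] [IsTriangulated T]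
    [MonoidalCategory T] [SymmetricCategory T] [TensorTriangulated T] [MonoidalClosed T]
    [HasCoproducts.{0} T] [HasProducts.{0} T] [StableCat T]
    {K : T} [MonObj K] [IsCommMonObj K]

/-- The spheres `S^ε ⊗ S^{2n}`. -/
def epsIso (E : EvenSpheres T) (i : E.L ≅ (𝟙_ T)⟦(1 : ℤ)⟧ ⊗ (𝟙_ T)⟦(1 : ℤ)⟧) (ε n m : ℤ)
    (h : ε + 2 * n = m) : (𝟙_ T)⟦ε⟧ ⊗ E.S n ≅ (𝟙_ T)⟦m⟧ :=
  (E.shiftNat i n).app ((𝟙_ T)⟦ε⟧) ≪≫ ((shiftFunctorAdd' T ε (2 * n) m h).app (𝟙_ T)).symm

/-- If the `w j` are a basis on the level of homotopy groups, they are a basis. -/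
theorem isIso_desc_bind_of_bijective (E : EvenSpheres T)
    (i : E.L ≅ (𝟙_ T)⟦(1 : ℤ)⟧ ⊗ (𝟙_ T)⟦(1 : ℤ)⟧) {X : T} {J : Type} [DecidableEq J]
    (Y : J → T) (w : ∀ j, FM.of (R := K) (Y j) ⟶ FM.of X)
    (h : ∀ (ε : ℤ) (_ : ε = 0 ∨ ε = 1) (n : ℤ), Function.Bijective
      (DirectSum.toAddMonoid (β := fun j => (FM.of (R := K) ((𝟙_ T)⟦ε⟧ ⊗ E.S n) ⟶ FM.of (Y j)))
        (fun j => Preadditive.rightComp _ (w j)))) :
    IsIso (Sigma.desc fun j => (FM.bind (FM.Hom.hom (w j)) : K ⊗ Y j ⟶ K ⊗ X)) := by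
  have key : ∀ m : ℤ, Function.Bijective
      (DirectSum.toAddMonoid (β := fun j => ((𝟙_ T)⟦m⟧ ⟶ K ⊗ Y j))
        (fun j => Preadditive.rightComp _ (FM.bind (FM.Hom.hom (w j))))) := by
    intro m
    obtain ⟨ε, n, hε, hm⟩ : ∃ ε n : ℤ, (ε = 0 ∨ ε = 1) ∧ ε + 2 * n = m := by
      refine ⟨m % 2, m / 2, Int.emod_two_eq_zero_or_one m, by omega⟩
    let φ := epsIso E i ε n m hm
    let pe : ∀ Z : T, (((𝟙_ T)⟦ε⟧ ⊗ E.S n) ⟶ Z) ≃+ ((𝟙_ T)⟦m⟧ ⟶ Z) := fun Z =>
      { toFun := fun f => φ.inv ≫ f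
        invFun := fun f => φ.hom ≫ f
        left_inv := fun f => by simp
        right_inv := fun f => by simp
        map_add' := fun f g => Preadditive.comp_add _ _ _ _ _ _ }
    refine bijective_toAddMonoid_of_equiv _ _
      (fun j => (FM.homEquiv (K := K) ((𝟙_ T)⟦ε⟧ ⊗ E.S n) (Y j)).trans (pe (K ⊗ Y j)))
      ((FM.homEquiv (K := K) ((𝟙_ T)⟦ε⟧ ⊗ E.S n) X).trans (pe (K ⊗ X))) ?_ (h ε hε n)
    intro j x
    change φ.inv ≫ FM.Hom.hom (x ≫ w j) = (φ.inv ≫ FM.Hom.hom x) ≫ FM.bind (FM.Hom.hom (w j))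
    rw [Category.assoc]
    rfl
  exact isIso_desc_of_bijective (fun m : ℤ => (𝟙_ T)⟦m⟧)
    (fun k k' hk => ⟨((shiftFunctorAdd' T k 1 k' hk).app (𝟙_ T)).symm⟩)
    StableCat.generator StableCat.compact _ _ (fun k => (key k).1) (fun k => (key k).2)

end iso

end Vale.Agent.P251.M
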