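import Vale.Agent.P251.M.BMMon
import Vale.Agent.P251.M.EvenRing
import Mathlib.Data.Finsupp.Multiset
import Mathlib.Data.Multiset.Sort

/-!
# P251, part M: monomials indexed by exponents

The bijection between partitions (`MonoP`) and exponents `ℕ →₀ ℕ` (`a i` is the exponent of
`b_{i+1}`), and the monomials as elements of the homotopy ring.
-/

open CategoryTheory MonoidalCategory Limits MonObj

universe v u

namespace Vale.Agent.P251.M

set_option linter.unusedSectionVars false

/-! ### Exponents and partitions -/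

/-- the sorted list of the indices of the monomial `∏ b_{i+1}^(a i)` -/
noncomputable def expList (a : ℕ →₀ ℕ) : List ℕ := ((Finsupp.toMultiset a).map (· + 1)).sort (· ≤ ·)

theorem expList_coe (a : ℕ →₀ ℕ) :
    (expList a : Multiset ℕ) = (Finsupp.toMultiset a).map (· + 1) :=
  Multiset.sort_eq _ _

theorem expList_sorted (a : ℕ →₀ ℕ) : (expList a).Pairwise (· ≤ ·) :=
  Multiset.pairwise_sort _ _

theorem expList_pos (a : ℕ →₀ ℕ) : ∀ i ∈ expList a, 0 < i := by
  intro i hi
  have h : i ∈ (expList a : Multiset ℕ) := hi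
  rw [expList_coe, Multiset.mem_map] at h
  obtain ⟨j, _, rfl⟩ := h
  omega

theorem prod_toMultiset_map {M : Type*} [CommMonoid M] (f : ℕ → M) (a : ℕ →₀ ℕ) :
    ((Finsupp.toMultiset a).map f).prod = a.prod fun i m => f i ^ m := by
  induction a using Finsupp.induction with
  | zero => simp
  | single_add i m a hi hm ih =>
    rw [map_add, Multiset.map_add, Multiset.prod_add, ih, Finsupp.toMultiset_single,
      Multiset.map_nsmul, Multiset.prod_nsmul, Multiset.map_singleton, Multiset.prod_singleton,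
      Finsupp.prod_add_index' (fun _ => pow_zero _) (fun _ _ _ => pow_add _ _ _)]
    congr 1
    exact (Finsupp.prod_single_index (h := fun i m => f i ^ m) (pow_zero (f i))).symm

theorem prod_expList {M : Type*} [CommMonoid M] (f : ℕ → M) (a : ℕ →₀ ℕ) :
    ((expList a).map f).prod = a.prod fun i m => f (i + 1) ^ m := by
  rw [← Multiset.prod_coe, ← Multiset.map_coe, expList_coe, Multiset.map_map]
  exact prod_toMultiset_map (fun i => f (i + 1)) a

theorem sum_expList (a : ℕ →₀ ℕ) :
    (((expList a).sum : ℕ) : ℤ) = a.sum fun i m => (m : ℤ) * ((i : ℤ) + 1) := by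
  have h := prod_expList (M := Multiplicative ℤ) (fun i => Multiplicative.ofAdd ((i : ℕ) : ℤ)) a
  have h1 : ((expList a).map fun i : ℕ => Multiplicative.ofAdd ((i : ℕ) : ℤ)).prod =
      Multiplicative.ofAdd (((expList a).sum : ℕ) : ℤ) := by
    generalize expList a = l
    induction l with
    | nil => rfl
    | cons i l ih => rw [List.map_cons, List.prod_cons, ih, List.sum_cons, Nat.cast_add]; rfl
  rw [h1] at h
  have h2 := congrArg Multiplicative.toAdd h
  rw [toAdd_ofAdd] at h2
  rw [h2, Finsupp.prod, toAdd_prod, Finsupp.sum]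
  refine Finset.sum_congr rfl fun i _ => ?_
  rw [toAdd_pow, toAdd_ofAdd, nsmul_eq_mul]
  push_cast
  ring

variable (k : (ℕ →₀ ℕ) → ℤ)
  (hk : ∀ a : ℕ →₀ ℕ, k a = a.sum fun i m => (m : ℤ) * ((i : ℤ) + 1))

/-- the partition of an exponent -/
noncomputable def expP (a : ℕ →₀ ℕ) : MonoP :=
  ⟨expList a, k a, expList_sorted a, expList_pos a, by rw [hk, sum_expList]⟩

theorem expP_bijective : Function.Bijective (expP k hk) := by
  constructor
  · intro a a' h
    have h1 : expList a = expList a' := congrArg MonoP.l h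
    have h2 : (expList a : Multiset ℕ) = (expList a' : Multiset ℕ) := by rw [h1]
    rw [expList_coe, expList_coe] at h2
    have h3 := Multiset.map_injective (fun x y (h : x + 1 = y + 1) => by omega) h2
    rw [← Finsupp.toMultiset_toFinsupp a, h3, Finsupp.toMultiset_toFinsupp]
  · intro ν
    refine ⟨Multiset.toFinsupp ((ν.l : Multiset ℕ).map (· - 1)), ?_⟩
    apply MonoP.ext'
    change expList _ = ν.l
    have h1 : ((ν.l : Multiset ℕ).map (· - 1)).map (· + 1) = (ν.l : Multiset ℕ) := by
      rw [Multiset.map_map]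
      conv_rhs => rw [← Multiset.map_id (ν.l : Multiset ℕ)]
      refine Multiset.map_congr rfl fun i hi => ?_
      have := ν.pos i hi
      simp only [Function.comp_apply, id]
      omega
    rw [expList, Multiset.toFinsupp_toMultiset, h1, Multiset.coe_sort]
    exact List.mergeSort_eq_self _ (by simpa using ν.sorted)

/-- the bijection between exponents and partitions -/
noncomputable def expEquiv : (ℕ →₀ ℕ) ≃ MonoP := Equiv.ofBijective _ (expP_bijective k hk)

theorem expEquiv_d (a : ℕ →₀ ℕ) : (expEquiv k hk a).d = k a := rfl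

theorem expEquiv_l (a : ℕ →₀ ℕ) : (expEquiv k hk a).l = expList a := rfl

/-! ### Monomials in the homotopy ring -/

section ring

variable {T : Type u} [Category.{v} T] [MonoidalCategory T] [SymmetricCategory T]
  [Preadditive T] [MonoidalPreadditive T] {E : EvenSpheres T} {Y : T} [MonObj Y] [IsCommMonObj Y]

theorem of_monD (b : ∀ i : ℕ, E.S ((i : ℕ) : ℤ) ⟶ Y) (l : List ℕ) :
    ∀ {d : ℤ} (hd : d = ((l.sum : ℕ) : ℤ)),
    HRing.of E Y d ((SphD.ofEven E).monD η[Y] μ[Y] b l hd) =
      (l.map fun i : ℕ => HRing.of E Y ((i : ℕ) : ℤ) (b i)).prod := by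
  induction l with
  | nil =>
    intro d hd
    obtain rfl : d = 0 := by simpa using hd
    exact of_one
  | cons i l ih =>
    intro d hd
    have h2 : ((i : ℕ) : ℤ) + ((l.sum : ℕ) : ℤ) = d := by rw [hd]; simp
    have e1 := (SphD.ofEven E).monD_cons η[Y] μ[Y] b i l hd rfl h2
    refine (congrArg (HRing.of E Y d) e1).trans ?_
    rw [List.map_cons, List.prod_cons, ← ih rfl]
    have key : ∀ (x : E.S ((i : ℕ) : ℤ) ⟶ Y) (y : E.S ((l.sum : ℕ) : ℤ) ⟶ Y),
        HRing.of E Y d ((E.mu _ _ _ h2).inv ≫ (x ⊗ₘ y) ≫ μ[Y]) =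
          HRing.of E Y _ x * HRing.of E Y _ y := by
      intro x y
      rw [of_mul_of h2]
      unfold EvenSpheres.gmul EvenSpheres.ext
      rw [Category.assoc]
    exact key _ _

/-- The monomial of an exponent in the homotopy ring. -/
theorem of_monP_expEquiv (b : ∀ i : ℕ, E.S ((i : ℕ) : ℤ) ⟶ Y) (a : ℕ →₀ ℕ) :
    HRing.of E Y (k a) ((SphD.ofEven E).monP η[Y] μ[Y] b (expEquiv k hk a)) =
      a.prod fun i m => (HRing.of E Y ((i + 1 : ℕ) : ℤ) (b (i + 1))) ^ m :=
  (of_monD b (expList a) _).trans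
    (prod_expList (fun i : ℕ => HRing.of E Y ((i : ℕ) : ℤ) (b i)) a)

/-- A family with the right classes in the homotopy ring is the family of monomials. -/
theorem eq_monP (b : ∀ i : ℕ, E.S ((i : ℕ) : ℤ) ⟶ Y) (a : ℕ →₀ ℕ) (w : E.S (k a) ⟶ Y)
    (hw : HRing.of E Y (k a) w =
      a.prod fun i m => (HRing.of E Y ((i + 1 : ℕ) : ℤ) (b (i + 1))) ^ m) :
    w = (SphD.ofEven E).monP η[Y] μ[Y] b (expEquiv k hk a) :=
  DirectSum.of_injective (β := E.Gr Y) (k a) (hw.trans (of_monP_expEquiv k hk b a).symm)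

end ring

end Vale.Agent.P251.M
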