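import Vale.Agent.P251.T.Axioms
import Mathlib.CategoryTheory.Monoidal.Mon
import Mathlib.CategoryTheory.Monoidal.CommMon_

/-!
# P251, part M: multiplicative sequences

A multiplicative sequence (`SeqMonoid`) is a sequence `E : ℕ ⥤ T` with products
`E m ⊗ E n ⟶ E (m + n)` which are natural, unital, associative and commutative, i.e. a lax
symmetric monoidal functor `(ℕ, ≤, +) ⟶ T`, in a form free of casts.
-/

open CategoryTheory MonoidalCategory MonObj

universe v u

namespace Vale.Agent.P251.M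

/-- A multiplicative sequence in a symmetric monoidal category. -/
structure SeqMonoid (T : Type u) [Category.{v} T] [MonoidalCategory T] [SymmetricCategory T] where
  /-- the sequence -/
  E : ℕ ⥤ T
  /-- the unit -/
  one : 𝟙_ T ⟶ E.obj 0
  /-- the product -/
  mu {m n p : ℕ} (h : m + n = p) : E.obj m ⊗ E.obj n ⟶ E.obj p
  mu_map {m n p m' n' p' : ℕ} (h : m + n = p) (h' : m' + n' = p') (hm : m ≤ m') (hn : n ≤ n')
    (hp : p ≤ p') :
    (E.map (homOfLE hm) ⊗ₘ E.map (homOfLE hn)) ≫ mu h' = mu h ≫ E.map (homOfLE hp)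
  one_mu (n : ℕ) : (one ▷ E.obj n) ≫ mu (Nat.zero_add n) = (λ_ (E.obj n)).hom
  mu_assoc {m n p a b c : ℕ} (h₁ : m + n = a) (h₂ : a + p = c) (h₃ : n + p = b) (h₄ : m + b = c) :
    (mu h₁ ▷ E.obj p) ≫ mu h₂ =
      (α_ (E.obj m) (E.obj n) (E.obj p)).hom ≫ (E.obj m ◁ mu h₃) ≫ mu h₄
  mu_comm {m n p : ℕ} (h : m + n = p) (h' : n + m = p) :
    (β_ (E.obj m) (E.obj n)).hom ≫ mu h' = mu h

namespace SeqMonoid

variable {T : Type u} [Category.{v} T] [MonoidalCategory T] [SymmetricCategory T]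

/-- The constant sequence at a commutative monoid. -/
def const (R : T) [MonObj R] [IsCommMonObj R] : SeqMonoid T where
  E := (Functor.const ℕ).obj R
  one := η[R]
  mu _ := μ[R]
  mu_map _ _ _ _ _ := by simp
  one_mu _ := MonObj.one_mul R
  mu_assoc _ _ _ _ := MonObj.mul_assoc R
  mu_comm _ _ := IsCommMonObj.mul_comm R

end SeqMonoid

end Vale.Agent.P251.M
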