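import Vale.Agent.P251.M.BUConn
import Vale.Agent.P251.M.MUBasisT
import Vale.Agent.P251.M.MUReindex
import Vale.Agent.P251.M.GBasis
import Vale.Agent.P251.M.SeqDefs

/-!
# P251, part M: the basis of `K ⊗ MU` over `K`

* `BMReal B X`: the ring object `X` is the colimit of the sequence `B.M`;
* `BMReal.totX_bijective`: the monomials in the `b i : S i ⟶ X`, `i ≥ 1`, are a basis on homotopy
  groups;
* `isIso_of_totX`: hence the coproduct of the `K ⊗ S(|a|)` is `K ⊗ X`.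
-/

open CategoryTheory MonoidalCategory Limits Pretriangulated MonObj
open scoped DirectSum

universe v u

noncomputable section

namespace Vale.Agent.P251.M

open Vale.Agent.P251.T CH

set_option linter.unusedSectionVars false
set_option linter.dupNamespace false

variable {T : Type u} [Category.{v} T] [Preadditive T] [HasZeroObject T]
    [HasShift T ℤ] [∀ n : ℤ, (shiftFunctor T n).Additive] [Pretriangulated T] [IsTriangulated T]
    [MonoidalCategory T] [SymmetricCategory T] [TensorTriangulated T] [MonoidalClosed T]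
    [HasCoproducts.{0} T] [HasProducts.{0} T] [StableCat T]
    {K : T} [MonObj K] [IsCommMonObj K]

/-- The ring object `X` is the colimit of the sequence `B.M`, as seen by the spheres. -/
structure BMReal (B : BMData (FM K)) (X : T) [MonObj X] where
  /-- the cocone -/
  κ (N : ℕ) : B.M.obj N ⟶ (FM.free K).obj X
  hκ {N N' : ℕ} (h : N ≤ N') : B.M.map (homOfLE h) ≫ κ N' = κ N
  one : B.one ≫ κ 0 = FM.oneF K X
  mul {m n p : ℕ} (h : m + n = p) : (κ m ⊗ₘ κ n) ≫ FM.mulF K X = B.Mmu h ≫ κ p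
  bij (j : ℤ) : Function.Bijective (B.toX κ hκ (FM.of ((𝟙_ T)⟦j⟧)))

namespace BMReal

variable {B : BMData (FM K)} {X : T} [MonObj X] (r : BMReal B X) (b : B.toBUData.Beta)

/-- the classes `b i` -/
def bb (i : ℕ) : B.S ((i : ℕ) : ℤ) ⟶ (FM.free K).obj X := BMData.bX r.κ r.hκ b i

theorem bb_zero : r.bb b 0 = B.e0.inv ≫ FM.oneF K X :=
  BMData.bX_zero r.κ r.hκ (FM.oneF K X) r.one b

/-- The monomials in the `b i`, `i ≥ 1`, are a basis on homotopy groups. -/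
theorem totX_bijective (hB : ConnData B.toBUData) (j : ℤ) :
    Function.Bijective (BMData.totX B.toSphD (FM.of ((𝟙_ T)⟦j⟧) : FM K)
      (B.monP (FM.oneF K X) (FM.mulF K X) (r.bb b))) := by
  have h1 : (BMData.totX B.toSphD (FM.of ((𝟙_ T)⟦j⟧) : FM K)
      (B.monP (FM.oneF K X) (FM.mulF K X) (r.bb b)) : _ → _) =
      B.toX r.κ r.hκ (FM.of ((𝟙_ T)⟦j⟧)) ∘ BMData.totM b (FM.of ((𝟙_ T)⟦j⟧)) := by
    funext u
    exact BMData.totX_eq r.κ r.hκ (FM.oneF K X) r.one (FM.mulF K X) r.mul b _ u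
  rw [h1]
  exact (r.bij j).comp (hB.totM_bijective_shift b j)

end BMReal

/-! ### From the sequence of `MU` -/

section seq

variable (A : SeqMonoid T) {X : T} [MonObj X] {q : ∀ n, A.E.obj n ⟶ X}

theorem FM.oneF_seq (h1 : A.one ≫ q 0 = η[X]) :
    (show 𝟙_ (FM K) ⟶ (FM.free K).obj (A.E.obj 0) from (FM.free K).map A.one) ≫
      (FM.free K).map (q 0) = FM.oneF K X := by
  change (FM.free K).map A.one ≫ (FM.free K).map (q 0) = (FM.free K).map η[X]
  rw [← Functor.map_comp, h1]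

theorem FM.mulF_seq (h2 : ∀ {m n p : ℕ} (h : m + n = p), (q m ⊗ₘ q n) ≫ μ[X] = A.mu h ≫ q p)
    {m n p : ℕ} (h : m + n = p) :
    ((FM.free K).map (q m) ⊗ₘ (FM.free K).map (q n)) ≫ FM.mulF K X =
      (show (FM.free K).obj (A.E.obj m) ⊗ (FM.free K).obj (A.E.obj n) ⟶
        (FM.free K).obj (A.E.obj p) from (FM.free K).map (A.mu h)) ≫ (FM.free K).map (q p) := by
  have e1 : ((FM.free K).map (q m) ⊗ₘ (FM.free K).map (q n)) = (FM.free K).map (q m ⊗ₘ q n) :=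
    FM.free_tensorHom (R := K) (q m) (q n)
  rw [e1]
  change (FM.free K).map (q m ⊗ₘ q n) ≫ (FM.free K).map μ[X] =
    (FM.free K).map (A.mu h) ≫ (FM.free K).map (q p)
  rw [← Functor.map_comp, ← Functor.map_comp, h2]

end seq

/-! ### The isomorphism -/

section iso

variable (E : EvenSpheres T) {X : T} [MonObj X]

/-- the spheres of `FM K` -/
abbrev sphFM (K : T) [MonObj K] [IsCommMonObj K] (E : EvenSpheres T) : SphD (FM K) :=
  (SphD.ofEven E).push (FM.free K)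

/-- If the monomials are a basis on homotopy groups, then `∐ K ⊗ S(|ν|) ≅ K ⊗ X`. -/
theorem isIso_of_totX' (b : ∀ i : ℕ, (sphFM K E).S ((i : ℕ) : ℤ) ⟶ (FM.free K).obj X)
    (hb : ∀ j : ℤ, Function.Bijective (BMData.totX (sphFM K E) (FM.of ((𝟙_ T)⟦j⟧) : FM K)
      ((sphFM K E).monP (FM.oneF K X) (FM.mulF K X) b))) :
    IsIso (Sigma.desc fun ν : MonoP => (FM.bind ((SphD.ofEven E).monP η[K ⊗ X] μ[K ⊗ X]
      (fun i => FM.Hom.hom (b i)) ν) : K ⊗ E.S ν.d ⟶ K ⊗ X)) := by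
  have key : ∀ m : ℤ, Function.Bijective
      (DirectSum.toAddMonoid (β := fun ν : MonoP => ((𝟙_ T)⟦m⟧ ⟶ K ⊗ E.S ν.d))
        (fun ν => Preadditive.rightComp _ (FM.bind ((SphD.ofEven E).monP η[K ⊗ X] μ[K ⊗ X]
          (fun i => FM.Hom.hom (b i)) ν)))) := by
    intro m
    refine bijective_toAddMonoid_of_equiv _ _
      (fun ν : MonoP => (FM.homEquiv (K := K) ((𝟙_ T)⟦m⟧) (E.S ν.d)))
      (FM.homEquiv (K := K) ((𝟙_ T)⟦m⟧) X) ?_ (hb m)
    intro ν x
    have h := hom_monP (SphD.ofEven E) b ν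
    change FM.Hom.hom x ≫ FM.bind (FM.Hom.hom
      ((sphFM K E).monP (FM.oneF K X) (FM.mulF K X) b ν)) = FM.Hom.hom x ≫ FM.bind _
    rw [← h]
  exact isIso_desc_of_bijective (fun m : ℤ => (𝟙_ T)⟦m⟧)
    (fun k k' hk => ⟨((shiftFunctorAdd' T k 1 k' hk).app (𝟙_ T)).symm⟩)
    StableCat.generator StableCat.compact _ _ (fun k => (key k).1) (fun k => (key k).2)

variable [IsCommMonObj X]

/-- **The basis theorem.** If the monomials in the `b i` are a basis on homotopy groups, and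
`w a : S(|a|) ⟶ K ⊗ X` are maps representing the monomials `b^a = ∏ b_{i+1}^(a i)`, then
`∐ K ⊗ S(|a|) ≅ K ⊗ X`. -/
theorem isIso_of_totX (b : ∀ i : ℕ, (sphFM K E).S ((i : ℕ) : ℤ) ⟶ (FM.free K).obj X)
    (hb : ∀ j : ℤ, Function.Bijective (BMData.totX (sphFM K E) (FM.of ((𝟙_ T)⟦j⟧) : FM K)
      ((sphFM K E).monP (FM.oneF K X) (FM.mulF K X) b)))
    (k : (ℕ →₀ ℕ) → ℤ) (hk : ∀ a : ℕ →₀ ℕ, k a = a.sum fun i m => (m : ℤ) * ((i : ℤ) + 1))
    (w : ∀ a : ℕ →₀ ℕ, E.S (k a) ⟶ K ⊗ X)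
    (hw : ∀ a, HRing.of E (K ⊗ X) (k a) (w a) =
      a.prod fun i m => (HRing.of E (K ⊗ X) ((i + 1 : ℕ) : ℤ)
        (show E.S ((i + 1 : ℕ) : ℤ) ⟶ K ⊗ X from FM.Hom.hom (b (i + 1)))) ^ m) :
    IsIso (Sigma.desc fun a : ℕ →₀ ℕ => (FM.bind (w a) : K ⊗ E.S (k a) ⟶ K ⊗ X)) := by
  have h1 := isIso_of_totX' E b hb
  have h2 := isIso_desc_reindex' (expEquiv k hk) _ h1
  have h3 : (fun a : ℕ →₀ ℕ => (FM.bind (w a) : K ⊗ E.S (k a) ⟶ K ⊗ X)) =
      fun a => FM.bind ((SphD.ofEven E).monP η[K ⊗ X] μ[K ⊗ X]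
        (fun i => FM.Hom.hom (b i)) (expEquiv k hk a)) := by
    funext a
    exact congrArg (FM.bind (R := K)) (eq_monP (Y := K ⊗ X) k hk
      (fun i => FM.Hom.hom (b i)) a (w a) (hw a))
  rw [h3]
  exact h2

end iso

end Vale.Agent.P251.M
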