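import Vale.Agent.P251.M.BTInst
import Vale.Agent.P251.M.MUBasisF
import Vale.Agent.P251.M.Univ
import Vale.Agent.P251.M.QFinal
import Vale.Agent.P251.M.MUEvenSeq

/-!
# P251, part M4a: the basis theorem for `K ⊗ MU`

Let `M : MUMon F E e` and let `K` be a commutative monoid with Thom classes
`C : ThomSys.Cls (thomSys F E e) K`.

* `M.realK C : BMReal (bmDataK C) M.R`;
* `connK`: `ConnData (buDataK C)` for connective `K`; `M.conn`: `MU` is connective;
* `M.cls`, `M.clsAm` : the Thom classes with values in `MU` and `Am MU 1`;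
* `M.isIso_of_monomials`: the basis theorem.
-/

open CategoryTheory MonoidalCategory Limits Pretriangulated MonObj
open Vale.Agent.P251.G Vale.Agent.P251.G.LC Vale.Agent.P251.I Vale.Agent.P251.T
open Vale.Agent.P251.S

universe v u

set_option linter.unusedSectionVars false

noncomputable section

namespace Vale.Agent.P251.M

variable {T : Type u} [Category.{v} T] [Preadditive T] [HasZeroObject T]
    [HasShift T ℤ] [∀ n : ℤ, (shiftFunctor T n).Additive] [Pretriangulated T] [IsTriangulated T]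
    [MonoidalCategory T] [SymmetricCategory T] [TensorTriangulated T] [MonoidalClosed T]
    [HasCoproducts.{0} T] [HasProducts.{0} T] [StableCat T]

/-! ### Connectivity -/

theorem connK {F : SpaceFunctor T} {e : F.S.obj CCF ≅ (stdEven T).L} {K : T} [MonObj K]
    [IsCommMonObj K] (C : ThomSys.Cls (thomSys F (stdEven T) e) K) (hK : Conn (0 : ℤ) K) :
    ConnData (buDataK C) :=
  connData_buData F hK (compatK C) stdEven_sph

theorem conn_am_one {R : T} [MonObj R] (hR : Conn (0 : ℤ) R) : Conn (0 : ℤ) (Am R 1) :=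
  hR.of_iso (λ_ R).symm

namespace MUMon

section gen

variable {F : SpaceFunctor T} {E : EvenSpheres T} {e : F.S.obj CCF ≅ E.L}
variable (M : MUMon F E e)

/-- the maps `ι` -/
def seqHom : ThomSys.SeqHom (thomSys F E e) M.R :=
  ⟨M.ι, fun h => M.tel.comp h, M.telMon.one, fun {a b c} h => by
    subst h
    exact M.telMon.mul a b⟩

/-- The Thom classes with values in `MU`. -/
def cls : ThomSys.Cls (thomSys F E e) M.R := M.seqHom.cls

theorem cls_τ {n N a : ℕ} (h : n ≤ a) (h' : N ≤ a + n) :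
    M.cls.τT n N = thomθ F E e h h' ≫ (M.ι a ▷ E.S n) := M.seqHom.cls_τ h h'

/-- The Thom classes with values in `Am MU 1`. -/
def clsAm : ThomSys.Cls (thomSys F E e) (Am M.R 1) := M.cls.push (Am.v M.R (0 : Fin 1))

theorem clsAm_τ {n N a : ℕ} (h : n ≤ a) (h' : N ≤ a + n) :
    M.clsAm.τT n N = (thomθ F E e h h' ≫ (M.ι a ▷ E.S n)) ≫ (Am.v M.R (0 : Fin 1) ▷ E.S n) :=
  congrArg (· ≫ (Am.v M.R (0 : Fin 1) ▷ E.S n)) (M.cls_τ h h')

variable {K : T} [MonObj K] [IsCommMonObj K] (C : ThomSys.Cls (thomSys F E e) K)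

/-- `MU` is the colimit of its sequence. -/
def realK : BMReal (bmDataK C) M.R where
  κ N := (FM.free K).map (M.ι N)
  hκ h := FM.map_free_ι M.tel h
  one := FM.oneF_seq (seqMU F E e) M.telMon.one
  mul {m n p} h := FM.mulF_seq (K := K) (seqMU F E e) (q := M.ι)
    (fun {m n p} h => by subst h; exact M.telMon.mul m n) h
  bij j := FM.bijective_tel M.tel (fun Y k f => StableCat.compact j k f)

end gen

variable {F : SpaceFunctor T} {e : F.S.obj CCF ≅ (stdEven T).L}
variable (M : MUMon F (stdEven T) e)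

/-- `MU` is connective. -/
theorem conn : Conn (0 : ℤ) M.R := by
  obtain ⟨J, a, b, hD⟩ := distinguished_cocone_triangle (η[M.R] : 𝟙_ T ⟶ M.R)
  exact conn_ring F hD ((bigCell_of_unit (seqMU F (stdEven T) e) M.tel
    (evenSeq_MU F (stdEven T) e stdEven_sph).cof _ M.telMon.one.symm J a b hD).conn (unit_conn F)
    (fun Y k f => StableCat.compact k Y f))

variable {K : T} [MonObj K] [IsCommMonObj K] (C : ThomSys.Cls (thomSys F (stdEven T) e) K)

theorem exists_betaK : Nonempty (buDataK C).Beta := (buDataK C).exists_beta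

/-- The basis theorem on homotopy groups. -/
theorem totK_bijective (hK : Conn (0 : ℤ) K) (b : (buDataK C).Beta) (j : ℤ) :
    Function.Bijective (BMData.totX (sphFM K (stdEven T)) (FM.of ((𝟙_ T)⟦j⟧) : FM K)
      ((sphFM K (stdEven T)).monP (FM.oneF K M.R) (FM.mulF K M.R)
        (BMReal.bb (M.realK C) (b : (bmDataK C).toBUData.Beta)))) :=
  BMReal.totX_bijective (M.realK C) (b : (bmDataK C).toBUData.Beta) (connK C hK) j

/-- **The basis theorem.** -/
theorem isIso_of_monomials (hK : Conn (0 : ℤ) K) (b : (buDataK C).Beta)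
    (k : (ℕ →₀ ℕ) → ℤ) (hk : ∀ a : ℕ →₀ ℕ, k a = a.sum fun i m => (m : ℤ) * ((i : ℤ) + 1))
    (w : ∀ a : ℕ →₀ ℕ, (stdEven T).S (k a) ⟶ K ⊗ M.R)
    (hw : ∀ a, HRing.of (stdEven T) (K ⊗ M.R) (k a) (w a) =
      a.prod fun i m => (HRing.of (stdEven T) (K ⊗ M.R) ((i + 1 : ℕ) : ℤ)
        (show (stdEven T).S ((i + 1 : ℕ) : ℤ) ⟶ K ⊗ M.R from
          FM.Hom.hom (BMReal.bb (M.realK C) (b : (bmDataK C).toBUData.Beta) (i + 1)))) ^ m) :
    IsIso (Sigma.desc fun a : ℕ →₀ ℕ => (FM.bind (w a) :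
      K ⊗ (stdEven T).S (k a) ⟶ K ⊗ M.R)) :=
  isIso_of_totX (stdEven T) (BMReal.bb (M.realK C) (b : (bmDataK C).toBUData.Beta))
    (M.totK_bijective C hK b) k hk w hw

end MUMon

end Vale.Agent.P251.M
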