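import Vale.Agent.P251.M.BGlueC
import Vale.Agent.P251.M.MURealK
import Vale.Agent.P251.M.MUFinal

/-!
# P251, part M: the basis of `R ⊗ R` for `R = MU`

`MUMon.nonempty_muBasis : Nonempty (MUBasis M.V)`.
-/

open CategoryTheory MonoidalCategory Limits Pretriangulated MonObj
open Vale.Agent.P251.G Vale.Agent.P251.G.LC Vale.Agent.P251.I Vale.Agent.P251.T
open Vale.Agent.P251.F
open Vale.Agent.P251.S (ModStr Sc scMul inlM inrM Am)
open Functor.OplaxMonoidal Functor.LaxMonoidal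
open Vale.Agent.P251.M.EvenSpheres

universe v u

set_option linter.unusedSectionVars false

noncomputable section

namespace Vale.Agent.P251.M

variable {T : Type u} [Category.{v} T] [Preadditive T] [HasZeroObject T]
    [HasShift T ℤ] [∀ n : ℤ, (shiftFunctor T n).Additive] [Pretriangulated T] [IsTriangulated T]
    [MonoidalCategory T] [SymmetricCategory T] [TensorTriangulated T] [MonoidalClosed T]
    [HasCoproducts.{0} T] [HasProducts.{0} T] [StableCat T]
  {S : EvenSpheres T} {F : SpaceFunctor T} {e : F.S.obj CCF ≅ S.L}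

section cls

variable {K : T} [MonObj K] [IsCommMonObj K]

/-- The Euler class of the orientation of a family of Thom classes. -/
theorem tU_z_fam (W : ThomFam (RSys K S) F (lineCls e (SeqMonoid.const K)))
    (C : ThomSys.Cls (thomSys F S e) K) (N : ℕ)
    (hC : C.τT 1 N = hq K S ((1 : ℕ) : ℤ) _ (W.w 1 N)) :
    tU e K (grX N)
      ((W.orientation (cofTriangles F) (isSusp_lineCls e (SeqMonoid.const K))).z (Fin N)) =
      eulT C N ≫ K ◁ S.inPS ((1 : ℕ) : ℤ) := by
  have h1 : tU e K (grX N)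
      ((W.orientation (cofTriangles F) (isSusp_lineCls e (SeqMonoid.const K))).z (Fin N)) =
      F.S.map (FCat.hom (X := grX N) (Y := ThF 1 (Fin N)) Gr.zeroHom) ≫
        tU e K (ThF 1 (Fin N)) ((W.orientation (cofTriangles F)
          (isSusp_lineCls e (SeqMonoid.const K))).tau 1 (Fin N)) :=
    tU_map e (FCat.hom (X := grX N) (Y := ThF 1 (Fin N)) Gr.zeroHom) _
  have h2 : W.wI 1 (Fin N) = W.w 1 N := by
    have h3 := W.wI_eq (n := 1) (I := Fin N) (N := N) le_rfl
    rw [← h3, TO.j_refl]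
    exact MSys.pull_id _
  have h4 : tU e K (ThF 1 (Fin N)) ((W.orientation (cofTriangles F)
      (isSusp_lineCls e (SeqMonoid.const K))).tau 1 (Fin N)) =
      C.τT 1 N ≫ K ◁ S.inPS ((1 : ℕ) : ℤ) := by
    refine (congrArg (tK K _) (W.uev_tau (cofTriangles F)
      (isSusp_lineCls e (SeqMonoid.const K)) 1 (Fin N))).trans ?_
    rw [tK_tof, h2, hC]
  have h5 : F.S.map (FCat.hom (X := grX N) (Y := ThF 1 (Fin N)) Gr.zeroHom) =
      mp F.S (GS.z 1 (Fin N)) :=
    congrArg (fun f => F.S.map (FCat.hom (X := grX N) (Y := ThF 1 (Fin N)) f)) zeroHom_eq_z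
  rw [h1, h4, eulT, Category.assoc, h5]

/-- The Euler class of the push forward of an orientation. -/
theorem tU_z_push {K' : T} [MonObj K'] [IsCommMonObj K'] (u : K ⟶ K') [IsMonHom u]
    (C : ThomSys.Cls (thomSys F S e) K) (o : Q.Orientation (thK e K)) (N : ℕ)
    (hz : tU e K (grX N) (o.z (Fin N)) = eulT C N ≫ K ◁ S.inPS ((1 : ℕ) : ℤ)) :
    tU e K' (grX N) (((thKHom e u).push o).z (Fin N)) =
      eulT (C.push u) N ≫ K' ◁ S.inPS ((1 : ℕ) : ℤ) := by
  have h1 : eulT (C.push u) N = eulT C N ≫ (u ▷ S.S ((1 : ℕ) : ℤ)) :=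
    (Category.assoc _ _ _).symm
  rw [push_z, h1]
  refine (tU_push e u (grX N) _).trans ?_
  rw [hz, Category.assoc, Category.assoc, whisker_exchange]

end cls

namespace MUMon

section gen

variable (M : MUMon F S e)

theorem tU_z_orient (N : ℕ) : tU e M.R (grX N) (M.orient.z (Fin N)) =
    eulT M.cls N ≫ M.R ◁ S.inPS ((1 : ℕ) : ℤ) := by
  rw [M.orient_eq]
  refine tU_z_fam M.fam M.cls N ?_
  have h1 : 1 ≤ 1 + N := by omega
  have h2 : N ≤ 1 + N + 1 := by omega
  exact (M.cls_τ h1 h2).trans (M.hq_fam h1 h2).symm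

/-- the orientation of `Am R 1` -/
def orientAm : Q.Orientation (thK e (Am M.R 1)) := (thKHom e (Am.v M.R (0 : Fin 1))).push M.orient

theorem tU_z_orientAm (N : ℕ) : tU e (Am M.R 1) (grX N) (M.orientAm.z (Fin N)) =
    eulT M.clsAm N ≫ Am M.R 1 ◁ S.inPS ((1 : ℕ) : ℤ) :=
  tU_z_push (Am.v M.R (0 : Fin 1)) M.cls M.orient N (M.tU_z_orient N)

/-- The coefficients of the comparison of the two orientations of `R ⊗ R`. -/
theorem coefK_cmp (b : (btDataK M.clsAm).toBUData.Beta) (m : ℕ) :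
    coefK e (Am M.R 1 ⊗ M.R) (cmpC M.orientAm M.orient m) =
      HRing.of S (Am M.R 1 ⊗ M.R) ((m : ℕ) : ℤ)
        (FM.Hom.hom (BMReal.bb (M.realK M.clsAm) (b : (bmDataK M.clsAm).toBUData.Beta) m)) :=
  coefK_cmpC M.clsAm (C' := M.cls) (j := M.ι) b (fun h => M.tel.comp h)
    (fun _ _ h h' => M.cls_τ h h') M.orientAm M.orient M.tU_z_orientAm M.tU_z_orient m

/-- the value of the characteristic homomorphism on the coordinate functions -/
theorem amEv_eq_cmpC (m : ℕ) : amEv e M.R M.orient 1 (MvPolynomial.X ((0 : Fin 1), m)) =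
    coefK e (Am M.R 1 ⊗ M.R) (cmpC M.orientAm M.orient (m + 1)) := by
  have h0 : amO e M.R M.orient (0 : Fin (1 + 1)) =
      (thKHom e (inlM (Am M.R 1) M.R)).push M.orientAm :=
    (thKHom_push_comp e (Am.v M.R (0 : Fin 1)) (inlM (Am M.R 1) M.R)
      (Am.v M.R (0 : Fin (1 + 1))) (Am.v_castSucc M.R (0 : Fin 1)).symm M.orient).symm
  have h1 : amO e M.R M.orient (Fin.succ (0 : Fin 1)) =
      (thKHom e (inrM (Am M.R 1) M.R)).push M.orient :=
    congrArg (fun φ : Q.MultTheory.Hom (thK e M.R) (thK e (Am M.R (1 + 1))) => φ.push M.orient)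
      (thKHom_congr e (Am.v_last M.R 1))
  have key : ∀ {o₁ o₂ o₁' o₂' : Q.Orientation (thK e (Am M.R (1 + 1)))},
      o₁ = o₁' → o₂ = o₂' →
      (CPSys.Coord.cmp (coordO o₁) (coordO o₂) (z_one_eq _ _)).c (m + 1) =
        (CPSys.Coord.cmp (coordO o₁') (coordO o₂') (z_one_eq _ _)).c (m + 1) := by
    rintro o₁ o₂ _ _ rfl rfl
    rfl
  rw [amEv_X]
  exact congrArg (coefK e (Am M.R (1 + 1))) (key h0 h1)

end gen

variable {e : F.S.obj CCF ≅ (stdEven T).L} (M : MUMon F (stdEven T) e)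

/-- **The basis of `R ⊗ R`.** -/
theorem nonempty_muBasis : Nonempty (MUBasis M.V) := by
  obtain ⟨b⟩ := exists_betaK M.clsAm
  refine ⟨muBasisOf M.V (BMReal.bb (M.realK M.clsAm) (b : (bmDataK M.clsAm).toBUData.Beta))
    (M.totK_bijective M.clsAm (conn_am_one M.conn) b) fun m => ?_⟩
  refine (M.amEv_eq_cmpC m).trans ?_
  exact M.coefK_cmp b (m + 1)

end MUMon

/-- **The final output of part M.** -/
theorem MU_univ : I.MU_univ_statement.{v, u} :=
  fun _ _ _ _ _ _ _ _ _ _ _ _ _ _ _ F e => exists_muUniv F e fun M => M.nonempty_muBasis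

end Vale.Agent.P251.M
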