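import Vale.Agent.P251.M.MUArrow
import Vale.Agent.P251.M.ThFCInst
import Vale.Agent.P251.M.ThHomot
import Vale.Agent.P251.M.ThK

/-!
# P251, part M: the commutative monoid `MU`

* `thetaMU`, `famMU`, `orientMU` : Thom classes and orientation of the theory `thSeq e A` of the
  multiplicative sequence `A = (thomSys F E e).MU`;
* `limOne_MU` : the `lim¹`-condition for maps from the sequence of `MU` to its telescope;
* `MUMon F E e` : telescopes of the sequence of `MU` with their structure of commutative monoid;
  `nonempty_MUMon`.
-/

open CategoryTheory MonoidalCategory Limits Pretriangulated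
open Vale.Agent.P251.G Vale.Agent.P251.G.LC Vale.Agent.P251.I Vale.Agent.P251.T

universe v u

set_option linter.unusedSectionVars false

noncomputable section

namespace Vale.Agent.P251.M

section

variable {T : Type u} [Category.{v} T] [Preadditive T] [HasZeroObject T]
    [HasShift T ℤ] [∀ n : ℤ, (shiftFunctor T n).Additive] [Pretriangulated T]
    [MonoidalCategory T] [SymmetricCategory T] [TensorTriangulated T]

variable (F : SpaceFunctor T) (E : EvenSpheres T) (e : F.S.obj CCF ≅ E.L)

/-- the multiplicative sequence of `MU` -/
abbrev seqMU : SeqMonoid T := (thomSys F E e).MU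

theorem suspS_eq : suspS F E e = lineCls e (seqMU F E e) := rfl

/-- Thom classes of finite stage of the sequence of `MU` -/
def thetaMU : ThetaData (MSys.ofSeq (seqMU F E e) E) F (lineCls e (seqMU F E e)) where
  θ := (thetaData F E e).θ
  θ_map := (thetaData F E e).θ_map
  θ_j := (thetaData F E e).θ_j
  θ_mul := (thetaData F E e).θ_mul
  θ_unit := (thetaData F E e).θ_unit
  θ_line := by
    rw [← suspS_eq F E e]
    exact (thetaData F E e).θ_line

/-- the multiplicative family of Thom classes of `MU` -/
def famMU : ThomFam (MSys.ofSeq (seqMU F E e) E) F (lineCls e (seqMU F E e)) :=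
  (thetaMU F E e).fam

theorem famMU_isoClasses : (famMU F E e).IsoClasses :=
  (thetaMU F E e).isoClasses (isIso_thomθ F E e)

/-- the orientation of the theory of the sequence of `MU` -/
def orientMU : Q.Orientation (thSeq e (seqMU F E e)) :=
  (famMU F E e).orientation (cofTriangles F) (isSusp_lineCls e (seqMU F E e))

end

variable {T : Type u} [Category.{v} T] [Preadditive T] [HasZeroObject T]
    [HasShift T ℤ] [∀ n : ℤ, (shiftFunctor T n).Additive] [Pretriangulated T] [IsTriangulated T]
    [MonoidalCategory T] [SymmetricCategory T] [TensorTriangulated T] [MonoidalClosed T]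
    [HasCoproducts.{0} T] [HasProducts.{0} T] [StableCat T]

variable (F : SpaceFunctor T) (E : EvenSpheres T) (e : F.S.obj CCF ≅ E.L)

/-- **The `lim¹`-condition for `MU`**. -/
theorem limOne_MU {R : T} {ι : ∀ n, (seqMU F E e).E.obj n ⟶ R}
    (tel : IsTel (seqMU F E e).E R ι) : MulSeq.LimOne (seqMU F E e).E R :=
  limOne_of_ontoMap tel (cofTriangles F) (lineCls e (seqMU F E e))
    (isSusp_lineCls e (seqMU F E e)) stabN (isSus_stabN F E e)
    (fun n => ontoMap_stabMap (orientMU F E e) n (stabU n) (stabU_isom n))

/-- **The `lim¹`-condition for maps from `MU` to an oriented commutative monoid**. -/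
theorem limOne_MU_const {K : T} [MonObj K] [IsCommMonObj K] (o : Q.Orientation (thK e K)) :
    MulSeq.LimOne (seqMU F E e).E K :=
  limOne_of_ontoMap_const (cofTriangles F) K (lineCls e (SeqMonoid.const K))
    (isSusp_lineCls e (SeqMonoid.const K)) stabN (isSus_stabN F E e)
    (fun n => ontoMap_stabMap o n (stabU n) (stabU_isom n))

/-- Telescopes of the sequence of `MU`, with their structure of commutative monoid. -/
structure MUMon where
  /-- the object -/
  R : T
  /-- the maps from the terms of the sequence -/
  ι (n : ℕ) : (seqMU F E e).E.obj n ⟶ R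
  tel : IsTel (seqMU F E e).E R ι
  [mon : MonObj R]
  [comm : IsCommMonObj R]
  telMon : TelMon tel

attribute [instance] MUMon.mon MUMon.comm

/-- **The commutative monoid `MU`**. -/
theorem nonempty_MUMon : Nonempty (MUMon F E e) := by
  obtain ⟨R, ι, tel⟩ := exists_isTel (seqMU F E e).E
  obtain ⟨i1, i2, h1, h2⟩ := exists_commMon tel (limOne_MU F E e tel)
  exact ⟨{ R := R, ι := ι, tel := tel, mon := i1, comm := i2,
           telMon := ⟨h1.symm, fun i j => h2 rfl⟩ }⟩

variable {F E e}

/-- the maps `ι` as a morphism of multiplicative sequences -/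
def MUMon.hom (M : MUMon F E e) : SeqMonoid.Hom (seqMU F E e) (SeqMonoid.const M.R) where
  app n := M.ι n
  map_app h := (M.tel.comp h).trans (Category.comp_id (M.ι _)).symm
  one_app := M.telMon.one
  mu_app {i j p} h := by
    subst h
    exact (M.telMon.mul i j).symm

end Vale.Agent.P251.M
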