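import Vale.Agent.P251.M.CoeffRing

/-!
# P251, part M: the action of the coefficients on the theory of a commutative monoid, in `T`

* `tr_act` : the product with the element `tr b : 𝟙 ⟶ K ⊗ S^{2k}` given by `b : S^{-2k} ⟶ K` is
  `K ⊗ S^{2l} ≅ K ⊗ (S^{-2k} ⊗ S^{2q}) ⟶ K ⊗ (K ⊗ S^{2q}) ⟶ K ⊗ S^{2q}`;
* `uel` : homogeneous elements of the theory of `K` from morphisms of `T`, with pull backs
  `umap_uel` and scalar multiplication `smul_uel`.
-/

open CategoryTheory MonoidalCategory Limits Pretriangulated MonObj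
open Vale.Agent.P251.G Vale.Agent.P251.G.LC Vale.Agent.P251.I Vale.Agent.P251.T

set_option linter.unusedSectionVars false

universe v u

noncomputable section

namespace Vale.Agent.P251.M

section braid

variable {T : Type u} [Category.{v} T] [MonoidalCategory T] [SymmetricCategory T]

/-- `(A ⊗ B) ⊗ (C ⊗ D) ⟶ (C ⊗ A) ⊗ (B ⊗ D)` in two ways -/
theorem tensorμ_braid (A B C D : T) :
    tensorμ A B C D ≫ ((β_ A C).hom ▷ (B ⊗ D)) =
      (α_ (A ⊗ B) C D).inv ≫ ((β_ (A ⊗ B) C).hom ▷ D) ≫ (α_ C (A ⊗ B) D).hom ≫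
        C ◁ (α_ A B D).hom ≫ (α_ C A (B ⊗ D)).inv := by
  rw [BraidedCategory.braiding_tensor_left_hom]
  unfold tensorμ
  simp only [comp_whiskerRight, Category.assoc]
  monoidal

/-- a unit inserted -/
theorem insert_braid {A B : T} (c : 𝟙_ T ⟶ A ⊗ B) (C D : T) :
    (λ_ (C ⊗ D)).inv ≫ (c ▷ (C ⊗ D)) ≫ tensorμ A B C D ≫ ((β_ A C).hom ▷ (B ⊗ D)) =
      C ◁ ((λ_ D).inv ≫ (c ▷ D) ≫ (α_ A B D).hom) ≫ (α_ C A (B ⊗ D)).inv := by
  rw [tensorμ_braid]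
  have h1 : (c ▷ (C ⊗ D)) ≫ (α_ (A ⊗ B) C D).inv ≫ ((β_ (A ⊗ B) C).hom ▷ D) =
      (α_ (𝟙_ T) C D).inv ≫ ((β_ (𝟙_ T) C).hom ▷ D) ≫ ((C ◁ c) ▷ D) := by
    rw [associator_inv_naturality_left_assoc, ← comp_whiskerRight,
      BraidedCategory.braiding_naturality_left, comp_whiskerRight]
  rw [reassoc_of% h1, braiding_tensorUnit_left]
  monoidal

end braid

section act

variable {T : Type u} [Category.{v} T] [MonoidalCategory T] [SymmetricCategory T]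
variable (S : EvenSpheres T)

theorem coev_act {k l q : ℤ} (h : k + l = q) (h' : -k + q = l) :
    (λ_ (S.S l)).inv ≫ ((coev S k).hom ▷ S.S l) ≫ (α_ (S.S (-k)) (S.S k) (S.S l)).hom ≫
      S.S (-k) ◁ (S.mu k l q h).hom = (S.mu (-k) q l h').inv := by
  refine IsFr.unique (F := S.fr l) (G := (S.fr (-k)).tensor (S.fr q)) (by omega) ?_ ?_
  · refine IsFr.comp (by omega) (by omega) (IsFr.inv' (by omega) (isFr_leftUnitor (S.fr l)))
      (IsFr.comp (by omega) (by omega) (IsFr.whiskerRight (by omega) (isFr_coev S k))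
        (IsFr.comp (by omega) (by omega) (isFr_associator (S.fr (-k)) (S.fr k) (S.fr l))
          (IsFr.whiskerLeft (by omega) (S.isFr_mu k l q h))))
  · exact IsFr.inv' (by omega) (S.isFr_mu (-k) q l h')

/-- multiplication by `b : S^{2m} ⟶ R` -/
def actBy {R : T} [MonObj R] {m l q : ℤ} (h' : m + q = l) (b : S.S m ⟶ R) :
    R ⊗ S.S l ⟶ R ⊗ S.S q :=
  R ◁ (S.mu m q l h').inv ≫ R ◁ (b ▷ S.S q) ≫ (α_ R R (S.S q)).inv ≫ (μ[R] ▷ S.S q)

theorem actBy_cast {R : T} [MonObj R] {m m' l q : ℤ} (h : m + q = l) (h' : m' + q = l)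
    (hm : m' = m) (b : S.S m ⟶ R) : actBy S h' ((S.castIso m' m hm).hom ≫ b) = actBy S h b := by
  subst hm
  rw [EvenSpheres.castIso_refl, Iso.refl_hom, Category.id_comp]

theorem tr_act {R : T} [MonObj R] [IsCommMonObj R] {k l q : ℤ} (h : k + l = q) (h' : -k + q = l)
    (b : S.S (-k) ⟶ R) {Y : T} (x : Y ⟶ R ⊗ S.S l) :
    (λ_ Y).inv ≫ (tr S k b ⊗ₘ x) ≫ tensorμ _ _ _ _ ≫ (μ[R] ⊗ₘ (S.mu k l q h).hom) =
      x ≫ actBy S h' b := by
  have h1 : (λ_ Y).inv ≫ (tr S k b ⊗ₘ x) = x ≫ (λ_ (R ⊗ S.S l)).inv ≫ (tr S k b ▷ (R ⊗ S.S l)) := by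
    rw [tensorHom_def', leftUnitor_inv_naturality_assoc]
  have h2 : (tr S k b ▷ (R ⊗ S.S l)) ≫ tensorμ R (S.S k) R (S.S l) =
      ((coev S k).hom ▷ (R ⊗ S.S l)) ≫ tensorμ (S.S (-k)) (S.S k) R (S.S l) ≫
        ((b ▷ R) ▷ (S.S k ⊗ S.S l)) := by
    rw [tr, comp_whiskerRight, Category.assoc]
    congr 1
    have h3 := tensorμ_natural_left b (𝟙 (S.S k)) R (S.S l)
    rw [tensorHom_id] at h3
    rw [h3, id_whiskerRight, tensorHom_id]
  have h4 : (b ▷ R) ≫ μ[R] = (β_ (S.S (-k)) R).hom ≫ (R ◁ b) ≫ μ[R] := by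
    conv_lhs => rw [← IsCommMonObj.mul_comm (X := R)]
    rw [BraidedCategory.braiding_naturality_left_assoc]
  rw [reassoc_of% h1, reassoc_of% h2]
  congr 1
  have h5 : ((b ▷ R) ▷ (S.S k ⊗ S.S l)) ≫ (μ[R] ⊗ₘ (S.mu k l q h).hom) =
      ((β_ (S.S (-k)) R).hom ▷ (S.S k ⊗ S.S l)) ≫ ((R ◁ b) ▷ (S.S k ⊗ S.S l)) ≫
        (μ[R] ⊗ₘ (S.mu k l q h).hom) := by
    rw [tensorHom_def, ← comp_whiskerRight_assoc, h4]
    simp only [comp_whiskerRight, Category.assoc]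
  rw [h5]
  have h6 := insert_braid (coev S k).hom R (S.S l)
  rw [reassoc_of% h6]
  unfold actBy
  rw [← coev_act S h h']
  simp only [whiskerLeft_comp, Category.assoc]
  rw [tensorHom_def']
  have h7 : (α_ R (S.S (-k)) (S.S k ⊗ S.S l)).inv ≫ ((R ◁ b) ▷ (S.S k ⊗ S.S l)) ≫
      (R ⊗ R) ◁ (S.mu k l q h).hom = R ◁ (S.S (-k) ◁ (S.mu k l q h).hom) ≫ R ◁ (b ▷ S.S q) ≫
        (α_ R R (S.S q)).inv := by
    rw [← whisker_exchange, ← associator_inv_naturality_right_assoc,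
      ← associator_inv_naturality_middle]
  rw [reassoc_of% h7]

end act

/-! ### Elements of the theory of a commutative monoid -/

section theory

variable {T : Type u} [Category.{v} T] [Preadditive T] [HasZeroObject T]
    [HasShift T ℤ] [∀ n : ℤ, (shiftFunctor T n).Additive] [Pretriangulated T]
    [MonoidalCategory T] [SymmetricCategory T] [TensorTriangulated T]
variable {R : T} [MonObj R] [IsCommMonObj R] {S : EvenSpheres T} {F : SpaceFunctor T}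

variable (R S F) in
/-- The homogeneous element of `U(X)` of degree `k` given by a morphism `S X ⟶ R ⊗ S^{2k}`. -/
def uel {X : LC} (hX : FC X) (k : ℤ) : (F.S.obj ⟨X, hX⟩ ⟶ R ⊗ S.S k) →+ UU (RSys R S) F X :=
  (umk hX).comp (((RSys R S).tof _ k).comp (MSys.cls (M := RSys R S) 0))

theorem uel_apply {X : LC} (hX : FC X) (k : ℤ) (x : F.S.obj ⟨X, hX⟩ ⟶ R ⊗ S.S k) :
    uel R S F hX k x = umk hX ((RSys R S).tof _ k (MSys.cls (M := RSys R S) 0 x)) := rfl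

theorem umk_tof {X : LC} (hX : FC X) (k : ℤ) (a : (RSys R S).H k (F.S.obj ⟨X, hX⟩)) :
    umk hX ((RSys R S).tof _ k a) = uel R S F hX k (hq R S k _ a) := by
  rw [uel_apply]
  congr 2
  exact (hq_bijective (R := R) (S := S) k _).1 rfl

theorem uel_injective {X : LC} (hX : FC X) (k : ℤ) : Function.Injective (uel R S F hX k) := by
  intro x y h
  have h1 : (RSys R S).tof _ k (MSys.cls (M := RSys R S) 0 x) =
      (RSys R S).tof _ k (MSys.cls (M := RSys R S) 0 y) := congrArg (uev hX) h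
  have h2 := DirectSum.of_injective (β := fun k => (RSys R S).H k (F.S.obj ⟨X, hX⟩)) k h1
  exact congrArg (hq R S k _) h2

theorem umap_uel {X Y : LC} (hX : FC X) (hY : FC Y) (f : X ⟶ Y) (k : ℤ)
    (y : F.S.obj ⟨Y, hY⟩ ⟶ R ⊗ S.S k) :
    umap (RSys R S) F f (uel R S F hY k y) =
      uel R S F hX k (F.S.map (FCat.hom (X := ⟨X, hX⟩) (Y := ⟨Y, hY⟩) f) ≫ y) := by
  apply uev_inj hX
  rw [uev_umap hX hY, uel_apply, uel_apply, uev_umk, uev_umk, MSys.tpull_of]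
  rfl

theorem ucross_uel {X Y : LC} (hX : FC X) (hY : FC Y) (h : FC (X ⊗ Y)) {k l q : ℤ}
    (hk : k + l = q) (x : F.S.obj ⟨X, hX⟩ ⟶ R ⊗ S.S k) (y : F.S.obj ⟨Y, hY⟩ ⟶ R ⊗ S.S l) :
    ucross (RSys R S) F (uel R S F hX k x) (uel R S F hY l y) =
      uel R S F h q (Functor.OplaxMonoidal.δ F.S ⟨X, hX⟩ ⟨Y, hY⟩ ≫ (x ⊗ₘ y) ≫
        tensorμ _ _ _ _ ≫ (μ[R] ⊗ₘ (S.mu k l q hk).hom)) := by
  apply uev_inj h
  rw [uev_ucross hX hY h, uel_apply, uel_apply, uel_apply, uev_umk, uev_umk, uev_umk,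
    MSys.tcross_eq hk, MSys.tpull_of]
  congr 1

theorem uH_uel (k : ℤ) (x : F.S.obj ⟨𝟙_ LC, fc_unit⟩ ⟶ R ⊗ S.S k) :
    uH R S F (uel R S F fc_unit k x) = HRing.of S R (-k) (itr S k R (eps F ≫ x)) := by
  rw [uH_apply, uel_apply, uev_umk, MSys.tpull_of, totH_of, hq_pull]
  rfl

theorem map_leftUnitor_inv_δ (F : SpaceFunctor T) (X : FCat) :
    F.S.map (λ_ X).inv ≫ Functor.OplaxMonoidal.δ F.S (𝟙_ FCat) X =
      (λ_ (F.S.obj X)).inv ≫ (Functor.LaxMonoidal.ε F.S ▷ F.S.obj X) := by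
  rw [Functor.OplaxMonoidal.left_unitality, Category.assoc, Category.assoc,
      ← comp_whiskerRight, Functor.Monoidal.η_ε, id_whiskerRight, Category.comp_id]

/-- The coefficient given by `b : S^{-2k} ⟶ R`. -/
def ucoef (F : SpaceFunctor T) {k : ℤ} (b : S.S (-k) ⟶ R) : UU (RSys R S) F (𝟙_ LC) :=
  uel R S F fc_unit k (eps' F ≫ tr S k b)

theorem uH_ucoef {k : ℤ} (b : S.S (-k) ⟶ R) : uH R S F (ucoef F b) = HRing.of S R (-k) b := by
  rw [ucoef, uH_uel, eps_eps'_assoc, itr_tr]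

theorem ucoef_cross {X : LC} (hX : FC X) {k l q : ℤ} (h : k + l = q) (h' : -k + q = l)
    (b : S.S (-k) ⟶ R) (x : F.S.obj ⟨X, hX⟩ ⟶ R ⊗ S.S l) :
    umap (RSys R S) F (λ_ X).inv (ucross (RSys R S) F (ucoef F b) (uel R S F hX l x)) =
      uel R S F hX q (x ≫ actBy S h' b) := by
  rw [ucoef, ucross_uel fc_unit hX (fc_tensor fc_unit hX) h, umap_uel hX (fc_tensor fc_unit hX),
    ← tr_act S h h' b x]
  congr 1
  have h1 : F.S.map (FCat.hom (X := ⟨X, hX⟩) (Y := ⟨𝟙_ LC ⊗ X, fc_tensor fc_unit hX⟩)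
      (λ_ X).inv) ≫ Functor.OplaxMonoidal.δ F.S ⟨𝟙_ LC, fc_unit⟩ ⟨X, hX⟩ =
      (λ_ (F.S.obj ⟨X, hX⟩)).inv ≫ (eps F ▷ F.S.obj ⟨X, hX⟩) := map_leftUnitor_inv_δ F ⟨X, hX⟩
  rw [reassoc_of% h1]
  congr 1
  rw [← tensorHom_id, tensorHom_comp_tensorHom_assoc, eps_eps'_assoc, Category.id_comp]

variable {hF : CofTriangles F} {s : F.S.obj CCF ⟶ (RSys R S).obj 0 1} {hs : (RSys R S).IsSusp s}

/-- The coefficient given by `b : S^{2m} ⟶ R`, in the coefficient ring of the theory. -/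
def coefOf (hF : CofTriangles F) (hs : (RSys R S).IsSusp s) {m : ℤ} (b : S.S m ⟶ R) :
    (theory (RSys R S) F hF s hs).A :=
  ucoef F (k := -m) ((S.castIso (- -m) m (neg_neg m)).hom ≫ b)

theorem coeffHom_coefOf {m : ℤ} (b : S.S m ⟶ R) :
    coeffHom hF hs (coefOf hF hs b) = HRing.of S R m b :=
  (uH_ucoef _).trans (of_cast (neg_neg m) b)

/-- The homogeneous class of degree `k` given by a morphism `S X ⟶ R ⊗ S^{2k}`. -/
def tuel (hF : CofTriangles F) (hs : (RSys R S).IsSusp s) {X : LC} (hX : FC X) (k : ℤ)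
    (x : F.S.obj ⟨X, hX⟩ ⟶ R ⊗ S.S k) : (theory (RSys R S) F hF s hs).U X := uel R S F hX k x

theorem tuel_injective {X : LC} (hX : FC X) (k : ℤ) :
    Function.Injective (tuel hF hs hX k) := uel_injective hX k

theorem map_tuel {X Y : LC} (hX : FC X) (hY : FC Y) (f : X ⟶ Y) (k : ℤ)
    (y : F.S.obj ⟨Y, hY⟩ ⟶ R ⊗ S.S k) :
    (theory (RSys R S) F hF s hs).map f (tuel hF hs hY k y) =
      tuel hF hs hX k (F.S.map (FCat.hom (X := ⟨X, hX⟩) (Y := ⟨Y, hY⟩) f) ≫ y) :=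
  umap_uel hX hY f k y

theorem smul_tuel {X : LC} (hX : FC X) {m l q : ℤ} (h : m + q = l)
    (b : S.S m ⟶ R) (x : F.S.obj ⟨X, hX⟩ ⟶ R ⊗ S.S l) :
    coefOf hF hs b • tuel hF hs hX l x = tuel hF hs hX q (x ≫ actBy S h b) := by
  have h1 := ucoef_cross (F := F) hX (k := -m) (l := l) (q := q) (by omega) (by omega)
    ((S.castIso (- -m) m (neg_neg m)).hom ≫ b) x
  rw [actBy_cast S h] at h1
  exact h1

end theory

end Vale.Agent.P251.M
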