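import Vale.Agent.P251.M.CommSys
import Vale.Agent.P251.M.Even

/-!
# P251, part M: the graded system of even spheres

* `EvenSpheres.sys : CommSys T ℤ`;
* `EvenSpheres.dual` : the multiplicative family `𝟙 ⟶ S (-n) ⊗ S n`;
* `EvenSpheres.homOf` : a map `ℓ : L ⟶ S.X (f 1)` extends to a morphism of systems
  `S n ⟶ S.X (f n)`, `n : ℕ`.
-/

open CategoryTheory MonoidalCategory

universe v u

namespace Vale.Agent.P251.M

variable {T : Type u} [Category.{v} T] [MonoidalCategory T] [SymmetricCategory T]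

section

variable {L : T} [IsInv L]

theorem isFr_tensorμ {a b c d : ℤ} {X₁ X₂ Y₁ Y₂ : T} (F₁ : Fr L a X₁) (F₂ : Fr L b X₂)
    (G₁ : Fr L c Y₁) (G₂ : Fr L d Y₂) (h : SymFr F₂ G₁) :
    IsFr ((F₁.tensor F₂).tensor (G₁.tensor G₂)) ((F₁.tensor G₁).tensor (F₂.tensor G₂))
      (tensorμ X₁ X₂ Y₁ Y₂) := by
  unfold tensorμ
  refine IsFr.comp (by ring) (by ring) (isFr_associator F₁ F₂ (G₁.tensor G₂)) ?_
  refine IsFr.comp (by ring) (by ring) (IsFr.whiskerLeft (by ring)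
    (IsFr.inv' (by ring) (isFr_associator F₂ G₁ G₂))) ?_
  refine IsFr.comp (by ring) (by ring) (IsFr.whiskerLeft (by ring) (IsFr.whiskerRight (by ring)
    h)) ?_
  refine IsFr.comp (by ring) (by ring) (IsFr.whiskerLeft (by ring)
    (isFr_associator G₁ F₂ G₂)) ?_
  exact IsFr.inv' (by ring) (isFr_associator F₁ G₁ (F₂.tensor G₂))

end

namespace EvenSpheres

variable (E : EvenSpheres T)

/-- The graded system of even spheres. -/
noncomputable def sys : CommSys T ℤ where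
  X n := E.S n
  one := 𝟙 (𝟙_ T)
  mul h := (E.mu _ _ _ h).hom
  one_mul n := by
    have := E.zero_mu n (zero_add n)
    rw [this]
    exact (congrArg (· ≫ _) (id_whiskerRight (𝟙_ T) (E.S n))).trans (Category.id_comp _)
  mul_assoc h₁ h₂ h₃ h₄ := E.mu_assoc _ _ _ _ _ _ h₁ h₂ h₃ h₄
  mul_comm h h' := E.mu_comm _ _ _ h h'

/-- The multiplicative family `𝟙 ⟶ S (-n) ⊗ S n`. -/
noncomputable def dual : CommSys.Hom (CommSys.triv T ℤ)
    ((E.sys.comap (-AddMonoidHom.id ℤ)).tensor (E.sys.comap (AddMonoidHom.id ℤ))) where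
  app n := (E.mu (-n) n 0 (by ring)).inv
  app_one := by
    have h0 : E.mu 0 0 0 (zero_add 0) = λ_ (𝟙_ T) := Iso.ext (E.zero_mu 0 (zero_add 0))
    have h1 : (E.mu 0 0 0 (zero_add 0)).inv = (λ_ (𝟙_ T)).inv := congrArg Iso.inv h0
    have h2 : (𝟙 (𝟙_ T) : 𝟙_ T ⟶ 𝟙_ T) ≫ (E.mu 0 0 0 (zero_add 0)).inv =
        (λ_ (𝟙_ T)).inv ≫ (𝟙 (𝟙_ T) ⊗ₘ 𝟙 (𝟙_ T)) := by
      rw [h1, id_tensorHom_id]
      exact (Category.id_comp _).trans (Category.comp_id _).symm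
    exact h2
  app_mul {i j k} h := by
    have hi : -i + i = 0 := by ring
    have hj : -j + j = 0 := by ring
    have hk : -k + k = 0 := by ring
    have hn : -i + -j = -k := by omega
    change (λ_ (𝟙_ T)).hom ≫ (E.mu (-k) k 0 hk).inv =
      ((E.mu (-i) i 0 hi).inv ⊗ₘ (E.mu (-j) j 0 hj).inv) ≫
        tensorμ _ _ _ _ ≫ ((E.mu (-i) (-j) (-k) hn).hom ⊗ₘ (E.mu i j k h).hom)
    have f1 : IsFr ((E.fr 0).tensor (E.fr 0)) (E.fr 0) (λ_ (𝟙_ T)).hom := by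
      have := E.isFr_mu 0 0 0 (zero_add 0)
      rwa [E.zero_mu 0 (zero_add 0)] at this
    refine IsFr.unique (F := (E.fr 0).tensor (E.fr 0)) (G := (E.fr (-k)).tensor (E.fr k))
      (by omega) ?_ ?_
    · exact IsFr.comp (by omega) (by omega) f1 (IsFr.inv' (by omega) (E.isFr_mu _ _ _ hk))
    · refine IsFr.comp (by omega) (by omega) (IsFr.tensor (by omega) (by omega)
        (IsFr.inv' (by omega) (E.isFr_mu _ _ _ hi)) (IsFr.inv' (by omega) (E.isFr_mu _ _ _ hj))) ?_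
      refine IsFr.comp (by omega) (by omega) (isFr_tensorμ _ _ _ _ (E.symFr _ _)) ?_
      exact IsFr.tensor (by omega) (by omega) (E.isFr_mu _ _ _ hn) (E.isFr_mu _ _ _ h)

/-- the identity `L ⊗ S^{2k} = S^{2(k+1)}` is framed -/
theorem isFr_succ (k : ℕ) :
    IsFr ((Fr.self E.L).tensor (E.fr k)) (E.fr ((k + 1 : ℕ) : ℤ)) (𝟙 (E.L ⊗ Pw E.L k)) := by
  have a : IsFr ((Fr.self E.L).tensor (E.fr k)) ((Fr.self E.L).tensor ((Fr.self E.L).pow k))
      (E.L ◁ 𝟙 (Pw E.L k)) :=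
    IsFr.whiskerLeft (by simp) (isFr_cast' ((Fr.self E.L).pow k) (by simp))
  have b : IsFr ((Fr.self E.L).tensor ((Fr.self E.L).pow k)) ((Fr.self E.L).pow (k + 1))
      (𝟙 (E.L ⊗ Pw E.L k)) := isFr_cast _ _
  have c : IsFr ((Fr.self E.L).pow (k + 1)) (E.fr ((k + 1 : ℕ) : ℤ))
      (𝟙 (E.L ⊗ Pw E.L k)) := isFr_cast ((Fr.self E.L).pow (k + 1)) (by simp)
  have d := IsFr.comp (by simp) (by simp [add_comm]) a
    (IsFr.comp (by push_cast; ring) (by simp) b c)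
  have e3 : (E.L ◁ 𝟙 (Pw E.L k)) ≫ 𝟙 (E.L ⊗ Pw E.L k) ≫ 𝟙 (E.L ⊗ Pw E.L k) =
      𝟙 (E.L ⊗ Pw E.L k) := by
    rw [whiskerLeft_id, Category.id_comp, Category.id_comp]
  exact (congrArg (IsFr _ _) e3).mp d

theorem isFr_succ' (k : ℕ) :
    IsFr (E.fr ((k + 1 : ℕ) : ℤ)) ((Fr.self E.L).tensor (E.fr k)) (𝟙 (E.L ⊗ Pw E.L k)) :=
  IsFr.inv' (f := Iso.refl (E.L ⊗ Pw E.L k)) (by push_cast; ring) (E.isFr_succ k)

theorem mu_succ (m n p : ℕ) (h : (m : ℤ) + n = p)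
    (h' : ((m + 1 : ℕ) : ℤ) + n = ((p + 1 : ℕ) : ℤ)) :
    (E.mu ((m + 1 : ℕ) : ℤ) n ((p + 1 : ℕ) : ℤ) h').hom =
      (α_ E.L (E.S m) (E.S n)).hom ≫ (E.L ◁ (E.mu m n p h).hom) := by
  refine IsFr.unique (F := (E.fr ((m + 1 : ℕ) : ℤ)).tensor (E.fr n))
    (G := E.fr ((p + 1 : ℕ) : ℤ)) (by omega) (E.isFr_mu _ _ _ _) ?_
  have a : IsFr ((E.fr ((m + 1 : ℕ) : ℤ)).tensor (E.fr n))
      (((Fr.self E.L).tensor (E.fr m)).tensor (E.fr n)) (𝟙 (E.L ⊗ Pw E.L m) ▷ E.S n) :=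
    IsFr.whiskerRight (by push_cast; ring) (E.isFr_succ' m)
  have b := isFr_associator (Fr.self E.L) (E.fr m) (E.fr n)
  have c : IsFr ((Fr.self E.L).tensor ((E.fr m).tensor (E.fr n)))
      ((Fr.self E.L).tensor (E.fr p)) (E.L ◁ (E.mu m n p h).hom) :=
    IsFr.whiskerLeft h (E.isFr_mu m n p h)
  have d := E.isFr_succ p
  have e := IsFr.comp (by push_cast; ring) (by omega) a (IsFr.comp (by ring) (by omega) b
    (IsFr.comp (by omega) (by omega) c d))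
  have e3 : (𝟙 (E.L ⊗ Pw E.L m) ▷ E.S n) ≫ (α_ E.L (Pw E.L m) (E.S n)).hom ≫
      (E.L ◁ (E.mu m n p h).hom) ≫ 𝟙 (E.L ⊗ E.S p) =
      (α_ E.L (Pw E.L m) (E.S n)).hom ≫ (E.L ◁ (E.mu m n p h).hom) := by
    rw [id_whiskerRight, Category.comp_id]
    exact Category.id_comp _
  exact (congrArg (IsFr _ _) e3).mp e

section homOf

variable {J : Type} [AddCommMonoid J] (S : CommSys T J) (f : ℕ →+ J) (ℓ : E.L ⟶ S.X (f 1))

/-- the maps `S^{2n} = L^n ⟶ X (f n)` defined by `ℓ` -/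
noncomputable def sig : ∀ n : ℕ, E.S n ⟶ S.X (f n)
  | 0 => S.one' (map_zero f).symm
  | n + 1 => (ℓ ⊗ₘ sig n) ≫ S.mul (by rw [← map_add, Nat.add_comm])

theorem sig_zero : E.sig S f ℓ 0 = S.one' (map_zero f).symm := rfl

theorem sig_succ (n : ℕ) (h : f 1 + f n = f (n + 1)) :
    E.sig S f ℓ (n + 1) = (ℓ ⊗ₘ E.sig S f ℓ n) ≫ S.mul h := rfl

theorem mu_sig : ∀ (m n p : ℕ) (_h : m + n = p) (h' : (m : ℤ) + n = p)
    (h'' : f m + f n = f p),
    (E.mu m n p h').hom ≫ E.sig S f ℓ p = (E.sig S f ℓ m ⊗ₘ E.sig S f ℓ n) ≫ S.mul h''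
  | 0, n, p, h, h', h'' => by
    obtain rfl : n = p := by omega
    have e1 : (E.mu ((0 : ℕ) : ℤ) n n h').hom = (λ_ (E.S n)).hom := E.zero_mu n h'
    have e2 := S.one'_mul (j := f n) (map_zero f).symm h''
    have e3 : (E.sig S f ℓ 0 ⊗ₘ E.sig S f ℓ n) ≫ S.mul h'' =
        (λ_ (E.S n)).hom ≫ E.sig S f ℓ n := by
      have q : (S.one' (map_zero f).symm ⊗ₘ E.sig S f ℓ n) ≫ S.mul h'' =
          (λ_ (E.S n)).hom ≫ E.sig S f ℓ n := by
        rw [tensorHom_def', Category.assoc, e2, leftUnitor_naturality]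
      exact q
    rw [e3, e1]
    rfl
  | m + 1, n, p', h, h', h'' => by
    obtain ⟨p, rfl⟩ : ∃ p, p' = p + 1 := ⟨m + n, by omega⟩
    have hp : m + n = p := by omega
    have hp' : (m : ℤ) + n = p := by exact_mod_cast hp
    have hp'' : f m + f n = f p := by rw [← map_add, hp]
    have hs : f 1 + f m = f (m + 1) := by rw [← map_add, Nat.add_comm]
    have hs' : f 1 + f p = f (p + 1) := by rw [← map_add, Nat.add_comm]
    have ih := mu_sig m n p hp hp' hp''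
    have key : ∀ (A B C' : T) (a : A ⟶ S.X (f m)) (b : B ⟶ S.X (f n)) (c : C' ⟶ S.X (f p))
        (mu : A ⊗ B ⟶ C') (_ : mu ≫ c = (a ⊗ₘ b) ≫ S.mul hp''),
        ((α_ E.L A B).hom ≫ (E.L ◁ mu)) ≫ (ℓ ⊗ₘ c) ≫ S.mul hs' =
          (((ℓ ⊗ₘ a) ≫ S.mul hs) ⊗ₘ b) ≫ S.mul h'' := by
      intro A B C' a b c mu hmu
      have q1 : (E.L ◁ mu) ≫ (ℓ ⊗ₘ c) = (ℓ ⊗ₘ (a ⊗ₘ b)) ≫ (_ ◁ S.mul hp'') := by
        rw [← id_tensorHom, tensorHom_comp_tensorHom, Category.id_comp, hmu, ← id_tensorHom,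
          tensorHom_comp_tensorHom, Category.comp_id]
      have q2 : ((ℓ ⊗ₘ a) ≫ S.mul hs) ⊗ₘ b = ((ℓ ⊗ₘ a) ⊗ₘ b) ≫ (S.mul hs ▷ _) := by
        rw [← tensorHom_id, tensorHom_comp_tensorHom, Category.comp_id]
      rw [q2, Category.assoc, Category.assoc, reassoc_of% q1, S.mul_assoc hs h'' hp'' hs',
        associator_naturality_assoc]
    rw [E.mu_succ m n p hp' h', E.sig_succ S f ℓ m hs, E.sig_succ S f ℓ p hs']
    exact key _ _ _ _ _ _ _ ih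

/-- the morphism of systems defined by `ℓ : L ⟶ X (f 1)` -/
noncomputable def homOf : CommSys.Hom (E.sys.comap (Nat.castAddMonoidHom ℤ)) (S.comap f) where
  app n := E.sig S f ℓ n
  app_one := Category.id_comp (S.one' (map_zero f).symm)
  app_mul {m n p} h := E.mu_sig S f ℓ m n p h (by exact_mod_cast h) (by rw [← map_add, h])

end homOf

end EvenSpheres

end Vale.Agent.P251.M
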