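import Vale.Agent.P251.M.ChainMU
import Vale.Agent.P251.M.BaseCh

/-!
# P251, part M: the total comparison for the theory of a commutative monoid

For the theory `thK e K` of a commutative monoid `K` and a finite cell space `X` the total
comparison map `tU e K X : U(X) → Hom(Σ X, K ⊗ PS)`; it is multiplicative and natural.
-/

open CategoryTheory MonoidalCategory Limits Pretriangulated MonObj
open Vale.Agent.P251.G Vale.Agent.P251.G.LC Vale.Agent.P251.I Vale.Agent.P251.T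
open Vale.Agent.P251.S (ModStr Sc scMul)
open Functor.OplaxMonoidal Functor.LaxMonoidal
open Vale.Agent.P251.M.EvenSpheres

universe v u

set_option linter.unusedSectionVars false

noncomputable section

namespace Vale.Agent.P251.M

section bind

variable {T : Type u} [Category.{v} T] [MonoidalCategory T] [SymmetricCategory T]

theorem mul_smul_self' {P : T} [MonObj P] [IsCommMonObj P] (x : 𝟙_ T ⟶ P) :
    μ[P] ≫ (ModStr.self P).smul x = P ◁ (ModStr.self P).smul x ≫ μ[P] := by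
  have h1 : (β_ P P).hom ≫ μ[P] = μ[P] := IsCommMonObj.mul_comm P
  have h2 : μ[P] ≫ (ModStr.self P).smul x = (ModStr.self P).smul x ▷ P ≫ μ[P] := by
    unfold ModStr.smul ModStr.self
    simp only [comp_whiskerRight, Category.assoc]
    rw [leftUnitor_inv_naturality_assoc, whisker_exchange_assoc, MonObj.mul_assoc]
    simp
  conv_lhs => rw [← h1]
  rw [Category.assoc, h2, ← BraidedCategory.braiding_naturality_right_assoc, h1]

theorem bind_smul {P Y X : T} [MonObj P] [IsCommMonObj P] [MonObj Y] [IsCommMonObj Y]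
    (g : X ⟶ P ⊗ Y) (x : 𝟙_ T ⟶ P ⊗ Y) :
    FM.bind (g ≫ (ModStr.self (P ⊗ Y)).smul x) = FM.bind g ≫ (ModStr.self (P ⊗ Y)).smul x := by
  rw [← inlM_tensor_mul, ← inlM_tensor_mul, Category.assoc, mul_smul_self',
    ← id_tensorHom, tensorHom_comp_tensorHom_assoc, Category.comp_id]

end bind

variable {T : Type u} [Category.{v} T] [Preadditive T] [HasZeroObject T]
    [HasShift T ℤ] [∀ n : ℤ, (shiftFunctor T n).Additive] [Pretriangulated T] [IsTriangulated T]
    [MonoidalCategory T] [SymmetricCategory T] [TensorTriangulated T] [MonoidalClosed T]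
    [HasCoproducts.{0} T] [HasProducts.{0} T] [StableCat T]
  {S : EvenSpheres T} {F : SpaceFunctor T} (e : F.S.obj CCF ≅ S.L)

section tK

variable (K : T) [MonObj K] [IsCommMonObj K]

theorem toTel_const (k : ℤ) (X : T) (a : (RSys K S).H k X) :
    toTel (isTel_constSeq K) k X a = hq K S k X a := by
  obtain ⟨n, x, rfl⟩ := MSys.exists_cls a
  change x ≫ (𝟙 K ▷ S.S k) = x
  rw [id_whiskerRight]
  exact Category.comp_id x

theorem telMon_const : TelMon (isTel_constSeq K) (A := SeqMonoid.const K) where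
  one := Category.comp_id _
  mul i j := by
    change (𝟙 K ⊗ₘ 𝟙 K) ≫ μ[K] = μ[K] ≫ 𝟙 K
    rw [id_tensorHom_id, Category.id_comp, Category.comp_id]

/-- The total comparison for a commutative monoid. -/
def tK (X : T) : (RSys K S).Tot X →+ (X ⟶ K ⊗ S.PS) := tt (isTel_constSeq K) X

variable {K}

theorem tK_tof {X : T} (k : ℤ) (a : (RSys K S).H k X) :
    tK K X ((RSys K S).tof X k a) = hq K S k X a ≫ K ◁ S.inPS k := by
  rw [← toTel_const]
  exact tt_tof (A := SeqMonoid.const K) (S := S) (isTel_constSeq K) k a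

theorem tK_tpull {X Y : T} (f : X ⟶ Y) (y : (RSys K S).Tot Y) :
    tK K X ((RSys K S).tpull f y) = f ≫ tK K Y y :=
  tt_tpull (A := SeqMonoid.const K) (S := S) (isTel_constSeq K) f y

theorem tK_tcross {X Y : T} (x : (RSys K S).Tot X) (y : (RSys K S).Tot Y) :
    tK K (X ⊗ Y) ((RSys K S).tcross x y) = (tK K X x ⊗ₘ tK K Y y) ≫ μ[K ⊗ S.PS] :=
  tt_tcross (A := SeqMonoid.const K) (S := S) (isTel_constSeq K) (telMon_const K).mul x y

theorem tK_tone : tK K (𝟙_ T) ((RSys K S).tone) = η[K ⊗ S.PS] :=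
  tt_tone (A := SeqMonoid.const K) (S := S) (isTel_constSeq K) (telMon_const K).one

theorem tK_injective {X : T} (hX : IsCpt X) : Function.Injective (tK (S := S) K X) :=
  tt_injective (A := SeqMonoid.const K) (S := S) (isTel_constSeq K) hX

theorem tK_eq_sharpTot {X : T} (i : 𝟙_ T ⟶ X) (x : (RSys K S).Tot X) :
    i ≫ tK K X x = sharpTot S K (totH K S ((RSys K S).tpull i x)) := by
  have key : (Preadditive.leftComp (K ⊗ S.PS) i).comp (tK (S := S) K X) =
      (sharpTot S K).comp ((totH K S).comp ((RSys K S).tpull i)) := by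
    refine MSys.tot_ext fun k b => ?_
    rw [AddMonoidHom.comp_apply, AddMonoidHom.comp_apply, AddMonoidHom.comp_apply,
      MSys.tpull_of, totH_of, sharpTot_of, sharp_itr, hq_pull, tK_tof, Category.assoc]
    rfl
  exact DFunLike.congr_fun key x

variable {K' : T} [MonObj K'] [IsCommMonObj K']

theorem tK_tmap (f : K ⟶ K') [IsMonHom f] {X : T} (x : (RSys K S).Tot X) :
    tK K' X (((SeqMonoid.Hom.const f).msys S).tmap X x) = tK K X x ≫ f ▷ S.PS := by
  have key : (tK (S := S) K' X).comp (((SeqMonoid.Hom.const f).msys S).tmap X) =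
      (Preadditive.rightComp X (f ▷ S.PS)).comp (tK K X) := by
    refine MSys.tot_ext fun k b => ?_
    rw [AddMonoidHom.comp_apply, AddMonoidHom.comp_apply, MSys.Hom.tmap_of, tK_tof, hq_hmap,
      Category.assoc, ← whisker_exchange]
    exact ((congrArg (· ≫ f ▷ S.PS) (tK_tof k b)).trans (Category.assoc _ _ _)).symm
  exact DFunLike.congr_fun key x

end tK

/-! ### Products and scalars -/

section prod

variable {K : T} [MonObj K]

/-- products of homogeneous classes -/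
theorem in_tensor_mul {X Y : T} {k l q : ℤ} (h : k + l = q) (f : X ⟶ K ⊗ S.S k)
    (g : Y ⟶ K ⊗ S.S l) :
    ((f ≫ K ◁ S.inPS k) ⊗ₘ (g ≫ K ◁ S.inPS l)) ≫ μ[K ⊗ S.PS] =
      ((f ⊗ₘ g) ≫ tensorμ K (S.S k) K (S.S l) ≫ (μ[K] ⊗ₘ (S.mu k l q h).hom)) ≫
        K ◁ S.inPS q := by
  rw [tensorObj.mul_def, ← tensorHom_comp_tensorHom, Category.assoc, Category.assoc,
    Category.assoc, ← id_tensorHom, ← id_tensorHom, tensorμ_natural_assoc,
    tensorHom_comp_tensorHom, in_mul S k l q h, id_tensorHom_id, Category.id_comp,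
    ← id_tensorHom, tensorHom_comp_tensorHom, Category.comp_id]

theorem smul_self_eq {P W : T} [MonObj P] (y : W ⟶ P) (x : 𝟙_ T ⟶ P) :
    y ≫ (ModStr.self P).smul x = (λ_ W).inv ≫ (x ⊗ₘ y) ≫ μ[P] := by
  rw [ModStr.smul, ModStr.self, leftUnitor_inv_naturality_assoc, whisker_exchange_assoc,
    MonoidalCategory.tensorHom_def, Category.assoc]

theorem tensorμ_unit_right (A B D : T) : tensorμ A B (𝟙_ T) D ≫ ((ρ_ A).hom ▷ (B ⊗ D)) =
    ((A ⊗ B) ◁ (λ_ D).hom) ≫ (α_ A B D).hom := by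
  unfold tensorμ
  rw [braiding_tensorUnit_right]
  monoidal

theorem unit_mu_aux {i : ℤ} {k q : ℤ} (h : i + k = q) :
    (λ_ (S.S q)).inv ≫ ((S.unitIso i).hom ▷ S.S q) ≫ (α_ _ _ _).hom ≫
      (S.S i ◁ (S.mu (-i) q k (by omega)).hom) = (S.mu i k q h).inv := by
  refine IsFr.unique (F := S.fr q) (G := (S.fr i).tensor (S.fr k)) (by omega) ?_
    (IsFr.inv' (by omega) (S.isFr_mu i k q h))
  refine IsFr.comp (by omega) (by omega) (IsFr.inv' (by omega) (isFr_leftUnitor (S.fr q)))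
    (IsFr.comp (by omega) (by omega) (IsFr.whiskerRight (by omega) (S.isFr_unitIso i))
      (IsFr.comp (by omega) (by omega) (isFr_associator _ _ _)
        (IsFr.whiskerLeft (by omega) (S.isFr_mu _ _ _ _))))

theorem unit_smul_sharp {i : ℕ} {k q : ℤ} (h : (i : ℤ) + k = q) (g : S.S (i : ℤ) ⟶ K) :
    (S.inPS q ≫ FM.unit K S.PS) ≫ (ModStr.self (K ⊗ S.PS)).smul (sharp g) =
      (S.mu i k q h).inv ≫ (g ⊗ₘ S.inPS k) := by
  have h1 : S.inPS q ≫ FM.unit K S.PS = (λ_ (S.S q)).inv ≫ (η[K] ⊗ₘ S.inPS q) := by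
    rw [FM.unit, leftUnitor_inv_naturality_assoc, tensorHom_def']
  have h2 : (g ⊗ₘ η[K]) ≫ μ[K] = (ρ_ (S.S (i : ℤ))).hom ≫ g := by
    rw [MonoidalCategory.tensorHom_def, Category.assoc, MonObj.mul_one, rightUnitor_naturality]
  rw [smul_self_eq, h1, sharp_eq_unitIso, tensorObj.mul_def, ← tensorHom_comp_tensorHom,
    Category.assoc, tensorμ_natural_assoc, tensorHom_comp_tensorHom, h2,
    in_mul S _ _ k (by omega : -(i : ℤ) + q = k), ← unit_mu_aux h]
  simp only [Category.assoc]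
  congr 1
  have h3 : ((ρ_ (S.S (i : ℤ))).hom ≫ g ⊗ₘ (S.mu (-(i : ℤ)) q k (by omega)).hom ≫ S.inPS k) =
      ((ρ_ (S.S (i : ℤ))).hom ▷ _) ≫ (S.S (i : ℤ) ◁ (S.mu (-(i : ℤ)) q k (by omega)).hom) ≫
        (g ⊗ₘ S.inPS k) := by
    rw [← tensorHom_comp_tensorHom, MonoidalCategory.tensorHom_def, Category.assoc]
  rw [h3, reassoc_of% (tensorμ_unit_right (S.S (i : ℤ)) (S.S (-(i : ℤ))) (S.S q)),
    MonoidalCategory.tensorHom_def (S.unitIso (i : ℤ)).hom, Category.assoc,
    ← MonoidalCategory.whiskerLeft_comp_assoc, Iso.inv_hom_id,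
    MonoidalCategory.whiskerLeft_id, Category.id_comp]

/-- multiplication by a homogeneous scalar -/
theorem in_smul_sharp [IsCommMonObj K] {i : ℕ} {k q : ℤ} (h : (i : ℤ) + k = q)
    (g : S.S (i : ℤ) ⟶ K) :
    (K ◁ S.inPS q) ≫ (ModStr.self (K ⊗ S.PS)).smul (sharp g) =
      FM.bind ((S.mu i k q h).inv ≫ (g ▷ S.S k)) ≫ (K ◁ S.inPS k) := by
  rw [FM.bind_whiskerLeft, Category.assoc, ← MonoidalCategory.tensorHom_def,
    ← unit_smul_sharp h g, bind_smul, FM.bind_comp_unit]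

end prod

/-! ### Spaces -/

section tU

variable (K : T) [MonObj K] [IsCommMonObj K]

/-- The total comparison for a space. -/
def tU (X : FCat) : (thK e K).U X.obj →+ (F.S.obj X ⟶ K ⊗ S.PS) :=
  (tK K (F.S.obj X)).comp (uev X.property)

variable {K}

theorem tU_map {X Y : FCat} (f : X ⟶ Y) (y : (thK e K).U Y.obj) :
    tU e K X ((thK e K).map f.hom y) = F.S.map f ≫ tU e K Y y :=
  (congrArg (tK K (F.S.obj X)) (uev_umap X.property Y.property f.hom y)).trans (tK_tpull _ _)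

theorem tU_cross {X Y : FCat} (x : (thK e K).U X.obj) (y : (thK e K).U Y.obj) :
    tU e K (X ⊗ Y) ((thK e K).cross x y) =
      δ F.S X Y ≫ (tU e K X x ⊗ₘ tU e K Y y) ≫ μ[K ⊗ S.PS] := by
  refine (congrArg (tK K (F.S.obj (X ⊗ Y)))
    (uev_ucross X.property Y.property (X ⊗ Y).property x y)).trans ?_
  refine (tK_tpull _ _).trans ?_
  exact congrArg (δ F.S X Y ≫ ·) (tK_tcross _ _)

theorem tU_mul (X : FCat) (x y : (thK e K).U X.obj) (hX : (thK e K).Good X.obj) :
    tU e K X (x * y) = F.S.map (FCat.hom (X := X) (Y := X ⊗ X) (Q.diag X.obj)) ≫ δ F.S X X ≫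
      (tU e K X x ⊗ₘ tU e K X y) ≫ μ[K ⊗ S.PS] := by
  rw [Q.MultTheory.mul_eq, ← tU_cross]
  exact tU_map e (FCat.hom (X := X) (Y := X ⊗ X) (Q.diag X.obj)) _

theorem tU_smul (X : FCat) (a : (thK e K).A) (x : (thK e K).U X.obj) :
    tU e K X (a • x) =
      tU e K X x ≫ (ModStr.self (K ⊗ S.PS)).smul (sharpTot S K (coefK e K a)) := by
  have h1 : tU e K X (a • x) = F.S.map (λ_ X).inv ≫ δ F.S (𝟙_ FCat) X ≫
      (tU e K (𝟙_ FCat) ((thK e K).ofA a) ⊗ₘ tU e K X x) ≫ μ[K ⊗ S.PS] := by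
    rw [Q.MultTheory.smul_def, ← tU_cross]
    exact tU_map e (λ_ X).inv _
  have h2 : ε F.S ≫ tU e K (𝟙_ FCat) ((thK e K).ofA a) = sharpTot S K (coefK e K a) :=
    tK_eq_sharpTot (eps F) _
  have h3 : F.S.map (λ_ X).inv ≫ δ F.S (𝟙_ FCat) X =
      (λ_ (F.S.obj X)).inv ≫ (ε F.S ▷ F.S.obj X) := by
    rw [Functor.OplaxMonoidal.left_unitality, Category.assoc, Category.assoc,
      ← comp_whiskerRight, Functor.Monoidal.η_ε, id_whiskerRight, Category.comp_id]
  rw [h1, reassoc_of% h3, ← h2, ModStr.smul, ModStr.self, tensorHom_def',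
    comp_whiskerRight, Category.assoc, Category.assoc, leftUnitor_inv_naturality_assoc,
    whisker_exchange_assoc (ε F.S)]

variable {K' : T} [MonObj K'] [IsCommMonObj K']

theorem tU_one (X : FCat) [hX : (thK e K).Good X.obj] [CompactSpace X.obj] :
    tU e K X (1 : (thK e K).U X.obj) =
      F.S.map (FCat.hom (X := X) (Y := 𝟙_ FCat) (Q.cmap (Q.toPt X.obj))) ≫
        Functor.OplaxMonoidal.η F.S ≫ η[K ⊗ S.PS] := by
  have h1 : tU e K X (1 : (thK e K).U X.obj) =
      F.S.map (FCat.hom (X := X) (Y := 𝟙_ FCat) (Q.cmap (Q.toPt X.obj))) ≫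
        tU e K (𝟙_ FCat) (thK e K).one :=
    tU_map e (FCat.hom (X := X) (Y := 𝟙_ FCat) (Q.cmap (Q.toPt X.obj))) _
  have h2 : tU e K (𝟙_ FCat) (thK e K).one = Functor.OplaxMonoidal.η F.S ≫ η[K ⊗ S.PS] := by
    exact (tK_tpull (K := K) (S := S) (Functor.OplaxMonoidal.η F.S) _).trans
      (congrArg (Functor.OplaxMonoidal.η F.S ≫ ·) tK_tone)
  rw [h1, h2]

theorem tU_push (f : K ⟶ K') [IsMonHom f] (X : FCat) (x : (thK e K).U X.obj) :
    tU e K' X ((thKHom e f).app X.obj x) = tU e K X x ≫ f ▷ S.PS :=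
  (congrArg (tK K' (F.S.obj X)) (uev_uhom _ X.property x)).trans (tK_tmap f _)

end tU

end Vale.Agent.P251.M
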