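import Vale.Agent.P251.M.BMInst

/-!
# P251, part M: the basis of the homology of `MU`, in an object

Let `B : BMData D` and let `X` be a ring object of `D` with maps `κ a : M a ⟶ X`, such that
`colim Hom(W, M a) ⟶ Hom(W, X)` is bijective. The monomials in the classes `b_i : S i ⟶ X`,
`i ≥ 1`, are a basis of `Hom(W, X)`.
-/

open CategoryTheory MonoidalCategory Limits
open scoped DirectSum

universe v u

noncomputable section

namespace Vale.Agent.P251.M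

open CH

set_option linter.unusedSectionVars false
set_option linter.dupNamespace false

section mon

variable {D : Type u} [Category.{v} D] [MonoidalCategory D] [SymmetricCategory D] (A : SphD D)
  {X : D} (oneX : 𝟙_ D ⟶ X) (mX : X ⊗ X ⟶ X) (b : ∀ i : ℕ, A.S ((i : ℕ) : ℤ) ⟶ X)

/-- the product of the `b i`, `i ∈ l` -/
def SphD.mon : ∀ l : List ℕ, A.S ((l.sum : ℕ) : ℤ) ⟶ X
  | [] => A.e0.inv ≫ oneX
  | i :: l => (A.mu ((i : ℕ) : ℤ) ((l.sum : ℕ) : ℤ) (((i :: l).sum : ℕ) : ℤ) (by simp)).inv ≫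
      (b i ⊗ₘ SphD.mon l) ≫ mX

/-- the product of the `b i`, `i ∈ l`, with a flexible index -/
def SphD.monD (l : List ℕ) {d : ℤ} (hd : d = ((l.sum : ℕ) : ℤ)) : A.S d ⟶ X :=
  hd ▸ A.mon oneX mX b l

theorem SphD.monD_nil (hd : (0 : ℤ) = ((([] : List ℕ).sum : ℕ) : ℤ)) :
    A.monD oneX mX b [] hd = A.e0.inv ≫ oneX := rfl

theorem SphD.monD_cons (i : ℕ) (l : List ℕ) {d e : ℤ} (hd : d = (((i :: l).sum : ℕ) : ℤ))
    (he : e = ((l.sum : ℕ) : ℤ)) (h2 : ((i : ℕ) : ℤ) + e = d) :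
    A.monD oneX mX b (i :: l) hd =
      (A.mu _ _ _ h2).inv ≫ (b i ⊗ₘ A.monD oneX mX b l he) ≫ mX := by
  subst hd he
  rfl

/-- the monomial of a partition -/
def SphD.monP (μ : MonoP) : A.S μ.d ⟶ X := A.monD oneX mX b μ.l μ.hd

end mon

namespace BMData

variable {D : Type u} [Category.{v} D] [Preadditive D] [MonoidalCategory D]
    [SymmetricCategory D] [MonoidalPreadditive D] (B : BMData D)

variable {X : D} (κ : ∀ N, B.M.obj N ⟶ X)
  (hκ : ∀ {N N' : ℕ} (h : N ≤ N'), B.M.map (homOfLE h) ≫ κ N' = κ N)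

/-- evaluation in `X` -/
def toX (W : D) : CH W B.M →+ (W ⟶ X) :=
  CH.lift (fun N => Preadditive.rightComp W (κ N)) (fun N N' h x => by
    change (x ≫ B.M.map (homOfLE h)) ≫ κ N' = x ≫ κ N
    rw [Category.assoc, hκ])

@[simp] theorem toX_cls {W : D} (N : ℕ) (x : W ⟶ B.M.obj N) :
    B.toX κ hκ W (cls N x) = x ≫ κ N := rfl

theorem toX_pre {W W' : D} (f : W' ⟶ W) (x : CH W B.M) :
    B.toX κ hκ W' (pre f x) = f ≫ B.toX κ hκ W x := by
  obtain ⟨N, x, rfl⟩ := exists_cls x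
  rw [pre_cls, toX_cls, toX_cls, Category.assoc]

variable (oneX : 𝟙_ D ⟶ X) (hone : B.one ≫ κ 0 = oneX) (mX : X ⊗ X ⟶ X)
  (hmX : ∀ {m n p : ℕ} (h : m + n = p), (κ m ⊗ₘ κ n) ≫ mX = B.Mmu h ≫ κ p)

include hmX in
theorem toX_mulM {W V : D} (x : CH W B.M) (y : CH V B.M) :
    B.toX κ hκ _ (B.mulM x y) = (B.toX κ hκ W x ⊗ₘ B.toX κ hκ V y) ≫ mX := by
  obtain ⟨N, x, rfl⟩ := exists_cls x
  obtain ⟨M, y, rfl⟩ := exists_cls y
  rw [B.mulM_cls rfl, toX_cls, toX_cls, toX_cls, ← tensorHom_comp_tensorHom, Category.assoc,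
    Category.assoc, hmX rfl]

variable {B} (b : B.toBUData.Beta)

/-- the classes `b i` in `X` -/
def bX (i : ℕ) : B.S ((i : ℕ) : ℤ) ⟶ X := B.toX κ hκ _ (bcl b i)

include hone in
theorem bX_zero : bX κ hκ b 0 = B.e0.inv ≫ oneX := by
  have e1 : bcl b 0 = pre B.e0N.inv (B.Om 1 B.ptc) := by
    rw [bcl, b.β_zero, B.Om_pre]
  have e2 : B.Om 1 B.ptc = cls 0 B.one := by
    rw [← BUData.jj_pt0, B.Om_jj, B.Om_cls (a := 0) le_rfl (Nat.zero_le _), B.w_pt0]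
  rw [bX, e1, e2, toX_pre, toX_cls, hone]
  rfl

include hone hmX in
theorem toX_Bl_aux (l : List ℕ) : ∀ (d : ℤ) (hs : l.Pairwise (· ≤ ·)) (hpos : ∀ j ∈ l, 0 < j)
    (hd : d = ((l.sum : ℕ) : ℤ)), B.toX κ hκ _ (Bl b ⟨l, d, hs, hpos, hd⟩) =
      B.monD oneX mX (bX κ hκ b) l hd := by
  induction l with
  | nil =>
    intro d hs hpos hd
    obtain rfl : d = 0 := by simpa using hd
    have e1 : Bl b ⟨[], 0, hs, hpos, hd⟩ = pre B.e0.inv (cls 0 B.one) := Bl_nil b hd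
    rw [e1, toX_pre, toX_cls, hone]
    rfl
  | cons i l ih =>
    intro d hs hpos hd
    have hs' : l.Pairwise (· ≤ ·) := (List.pairwise_cons.1 hs).2
    have hpos' : ∀ j ∈ l, 0 < j := fun j hj => hpos j (List.mem_cons_of_mem i hj)
    have h2 : ((i : ℕ) : ℤ) + ((l.sum : ℕ) : ℤ) = d := by rw [hd]; simp
    rw [Bl_cons b i l d _ hs hpos hd hs' hpos' rfl h2, toX_pre, B.toX_mulM κ hκ mX hmX,
      ih _ hs' hpos' rfl, B.monD_cons oneX mX (bX κ hκ b) i l hd rfl h2]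
    rfl

include hone hmX in
theorem toX_Bl (μ : MonoP) : B.toX κ hκ _ (Bl b μ) = B.monP oneX mX (bX κ hκ b) μ :=
  toX_Bl_aux κ hκ oneX hone mX hmX b μ.l μ.d μ.sorted μ.pos μ.hd

/-- the total map -/
def totX (A : SphD D) {X : D} (W : D) (w : ∀ μ : MonoP, A.S μ.d ⟶ X) :
    (⨁ μ : MonoP, (W ⟶ A.S μ.d)) →+ (W ⟶ X) :=
  DirectSum.toAddMonoid fun μ => Preadditive.rightComp W (w μ)

include hone hmX in
theorem totX_eq (W : D) (u : ⨁ μ : MonoP, (W ⟶ B.S μ.d)) :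
    totX B.toSphD W (B.monP oneX mX (bX κ hκ b)) u = B.toX κ hκ W (totM b W u) := by
  induction u using DirectSum.induction_on with
  | zero => simp
  | of μ x =>
    rw [totM_of, toX_pre, toX_Bl κ hκ oneX hone mX hmX b]
    simp [totX, Preadditive.rightComp]
  | add u v hu hv => rw [map_add, map_add, map_add, hu, hv]

variable (A : D) (L : ℤ) (hneg : ∀ (n : ℕ) (k : ℤ), k < L → ∀ x : CH (A ⊗ B.S k) (B.g n), x = 0)
  (hneg' : ∀ (n : ℕ) (k : ℤ), k < L → ∀ x : CH ((A ⊗ B.R1) ⊗ B.S k) (B.g n), x = 0)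
  (hM : ∀ (d : ℤ), 0 ≤ d → ∀ k < L, ∀ x : A ⊗ B.S k ⟶ B.S d, x = 0)

include hone hmX hneg hneg' hM in
/-- The monomials in the `b_i` are a basis of `Hom(A ⊗ S k, X)`. -/
theorem totX_bijective (k : ℤ) (hX : Function.Bijective (B.toX κ hκ (A ⊗ B.S k))) :
    Function.Bijective (totX B.toSphD (A ⊗ B.S k) (B.monP oneX mX (bX κ hκ b))) := by
  have h1 : (totX B.toSphD (A ⊗ B.S k) (B.monP oneX mX (bX κ hκ b)) : _ → _) =
      B.toX κ hκ (A ⊗ B.S k) ∘ totM b (A ⊗ B.S k) := by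
    funext u
    exact totX_eq κ hκ oneX hone mX hmX b _ u
  rw [h1]
  exact hX.comp ⟨totM_injective b A L hneg hneg' hM k, totM_surjective b A L hneg k⟩

end BMData

end Vale.Agent.P251.M
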