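import Vale.Agent.P251.M.BUThm

/-!
# P251, part M: the basis theorem for the homology of `BU(n)`
-/

open CategoryTheory MonoidalCategory Limits
open scoped DirectSum

universe v u

noncomputable section

namespace Vale.Agent.P251.M

open CH

set_option linter.unusedSectionVars false

namespace BUData

variable {D : Type u} [Category.{v} D] [Preadditive D] [MonoidalCategory D]
    [SymmetricCategory D] [MonoidalPreadditive D] (B : BUData D)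

/-- the isomorphism `A ⊗ S k ≅ (A ⊗ S k') ⊗ S n`, `k' + n = k` -/
def kap (A : D) (k' : ℤ) (n : ℤ) (k : ℤ) (h : k' + n = k) : A ⊗ B.S k ≅ (A ⊗ B.S k') ⊗ B.S n :=
  whiskerLeftIso A (B.mu k' n k h).symm ≪≫ (α_ A (B.S k') (B.S n)).symm

theorem pre_bijective {W W' : D} {X : ℕ ⥤ D} (f : W' ⟶ W) [IsIso f] :
    Function.Bijective (pre (X := X) f) := by
  constructor
  · intro a b h
    have := congrArg (pre (inv f)) h
    rwa [← pre_comp, ← pre_comp, IsIso.inv_hom_id, pre_id, pre_id] at this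
  · intro b
    exact ⟨pre (inv f) b, by rw [← pre_comp, IsIso.hom_inv_id, pre_id]⟩

/-- suspension of homology classes -/
def dsp (A : D) (X : ℕ ⥤ D) (k' : ℤ) (n : ℤ) (k : ℤ) (h : k' + n = k) :
    CH (A ⊗ B.S k') X ≃+ CH (A ⊗ B.S k) (X ⋙ tensorRight (B.S n)) :=
  AddEquiv.ofBijective ((pre (B.kap A k' n k h).hom).comp (tens (B.S n))) (by
    have := isEquivalence_tensorRight (B.S n)
    exact (pre_bijective (B.kap A k' n k h).hom).comp (tens_bijective (B.S n)))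

theorem dsp_apply (A : D) (X : ℕ ⥤ D) (k' : ℤ) (n : ℤ) (k : ℤ) (h : k' + n = k)
    (y : CH (A ⊗ B.S k') X) :
    B.dsp A X k' n k h y = pre (B.kap A k' n k h).hom (tens (B.S n) y) := rfl

/-- suspension of morphisms of spheres -/
def sdp (A : D) (k' : ℤ) (n : ℤ) (k : ℤ) (h : k' + n = k) (d d' : ℤ) (h' : d + n = d') :
    (A ⊗ B.S k' ⟶ B.S d) ≃+ (A ⊗ B.S k ⟶ B.S d') :=
  AddEquiv.ofBijective (AddMonoidHom.mk'
    (fun y => (B.kap A k' n k h).hom ≫ (y ▷ B.S n) ≫ (B.mu d n d' h').hom) (fun y y' => by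
      rw [MonoidalPreadditive.add_whiskerRight, Preadditive.add_comp, Preadditive.comp_add])) (by
    have := isEquivalence_tensorRight (B.S n)
    constructor
    · intro y y' e
      have e' : (B.kap A k' n k h).hom ≫ (y ▷ B.S n) ≫ (B.mu d n d' h').hom =
        (B.kap A k' n k h).hom ≫ (y' ▷ B.S n) ≫ (B.mu d n d' h').hom := e
      rw [cancel_epi, cancel_mono] at e'
      exact (tensorRight (B.S n)).map_injective e'
    · intro x
      obtain ⟨y, hy⟩ := (tensorRight (B.S n)).map_surjective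
        (X := A ⊗ B.S k') (Y := B.S d) ((B.kap A k' n k h).inv ≫ x ≫ (B.mu d n d' h').inv)
      refine ⟨y, ?_⟩
      have hy' : y ▷ B.S n = (B.kap A k' n k h).inv ≫ x ≫ (B.mu d n d' h').inv := hy
      change (B.kap A k' n k h).hom ≫ (y ▷ B.S n) ≫ (B.mu d n d' h').hom = x
      rw [hy']
      simp)

theorem sdp_apply (A : D) (k' : ℤ) (n : ℤ) (k : ℤ) (h : k' + n = k) (d d' : ℤ) (h' : d + n = d')
    (y : A ⊗ B.S k' ⟶ B.S d) : B.sdp A k' n k h d d' h' y =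
      (B.kap A k' n k h).hom ≫ (y ▷ B.S n) ≫ (B.mu d n d' h').hom := rfl

theorem sdp_mu_inv (A : D) (k' : ℤ) (n : ℤ) (k : ℤ) (h : k' + n = k) (d d' : ℤ)
    (h' : d + n = d') (y : A ⊗ B.S k' ⟶ B.S d) : B.sdp A k' n k h d d' h' y ≫
      (B.mu d n d' h').inv = (B.kap A k' n k h).hom ≫ (y ▷ B.S n) := by
  rw [sdp_apply]
  simp

variable {B} (b : B.Beta) (A : D)

/-- the free generators -/
def Beta.e (n : ℕ) (μ : Mono n) (k : ℤ) : (A ⊗ B.S k ⟶ B.S μ.d) →+ CH (A ⊗ B.S k) (B.g n) :=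
  preL _ (b.bl μ.l μ.len μ.hd)

theorem Beta.e_apply (n : ℕ) (μ : Mono n) (k : ℤ) (x : A ⊗ B.S k ⟶ B.S μ.d) :
    b.e A n μ k x = pre x (b.bl μ.l μ.len μ.hd) := rfl

variable (B) in
/-- the cap product with the Euler class, desuspended -/
def Phi (n : ℕ) (k : ℤ) : CH (A ⊗ B.S k) (B.g (n + 1)) →+
    CH (A ⊗ B.S (k - ((n + 1 : ℕ) : ℤ))) (B.g (n + 1)) :=
  (B.dsp A (B.g (n + 1)) (k - ((n + 1 : ℕ) : ℤ)) ((n + 1 : ℕ) : ℤ) k
    (by ring)).symm.toAddMonoidHom.comp (B.PhiT (n + 1))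

theorem Phi_eq_iff (n : ℕ) (k : ℤ) (x : CH (A ⊗ B.S k) (B.g (n + 1)))
    (y : CH (A ⊗ B.S (k - ((n + 1 : ℕ) : ℤ))) (B.g (n + 1))) :
    B.Phi A n k x = y ↔ B.PhiT (n + 1) x =
      pre (B.kap A (k - ((n + 1 : ℕ) : ℤ)) ((n + 1 : ℕ) : ℤ) k (by ring)).hom
        (tens (B.S ((n + 1 : ℕ) : ℤ)) y) := by
  rw [← dsp_apply]
  constructor
  · rintro rfl
    exact ((B.dsp A (B.g (n + 1)) (k - ((n + 1 : ℕ) : ℤ)) ((n + 1 : ℕ) : ℤ) k
      (by ring)).apply_symm_apply _).symm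
  · intro h
    change (B.dsp A (B.g (n + 1)) (k - ((n + 1 : ℕ) : ℤ)) ((n + 1 : ℕ) : ℤ) k
      (by ring)).symm (B.PhiT (n + 1) x) = y
    rw [h, AddEquiv.symm_apply_apply]

theorem Phi_eq_zero_iff (n : ℕ) (k : ℤ) (x : CH (A ⊗ B.S k) (B.g (n + 1))) :
    B.Phi A n k x = 0 ↔ B.PhiT (n + 1) x = 0 := by
  rw [Phi_eq_iff, map_zero, map_zero]

theorem Beta.e_cons0 (n : ℕ) (μ : Mono n) (k : ℤ) (x : A ⊗ B.S k ⟶ B.S μ.d) :
    b.e A (n + 1) μ.cons0 k x = B.jj n (b.e A n μ k x) := by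
  rw [b.e_apply A n μ k x, jj_pre, ← b.bl_cons0 μ.l μ.len μ.hd μ.cons0.len μ.cons0.hd]
  rfl

theorem Beta.e_shift (n : ℕ) (μ : Mono (n + 1)) (k : ℤ)
    (y : A ⊗ B.S (k - ((n + 1 : ℕ) : ℤ)) ⟶ B.S μ.d) :
    B.Phi A n k (b.e A (n + 1) μ.shift k
      (B.sdp A (k - ((n + 1 : ℕ) : ℤ)) ((n + 1 : ℕ) : ℤ) k (by ring) μ.d μ.shift.d rfl y)) =
      b.e A (n + 1) μ (k - ((n + 1 : ℕ) : ℤ)) y := by
  rw [Phi_eq_iff, b.e_apply, b.e_apply, PhiT_pre]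
  have h := b.bl_shift μ.l μ.len μ.hd μ.shift.len μ.shift.hd (rfl : μ.d + ((n + 1 : ℕ) : ℤ) = μ.shift.d)
  have h' : B.PhiT (n + 1) (b.bl μ.shift.l μ.shift.len μ.shift.hd) =
    pre (B.mu μ.d ((n + 1 : ℕ) : ℤ) μ.shift.d rfl).inv (tens (B.S ((n + 1 : ℕ) : ℤ))
      (b.bl μ.l μ.len μ.hd)) := h
  rw [h', ← pre_comp, tens_pre, ← pre_comp]
  exact congrArg (fun f => pre f _) (B.sdp_mu_inv A _ _ k _ μ.d μ.shift.d rfl y)

theorem Beta.e_nil_bijective (k : ℤ) : Function.Bijective (b.e A 0 Mono.nil k) := by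
  have h : ∀ x : A ⊗ B.S k ⟶ B.S Mono.nil.d, b.e A 0 Mono.nil k x =
      pre (x ≫ (show B.S Mono.nil.d ⟶ 𝟙_ D from B.e0N.inv)) (cls 0 (B.pt0 0).hom) := by
    intro x
    rw [pre_comp]
    rfl
  have h' : (fun x => b.e A 0 Mono.nil k x) = (fun y : A ⊗ B.S k ⟶ 𝟙_ D =>
    (pre y (cls 0 (B.pt0 0).hom) : CH (A ⊗ B.S k) (B.g 0))) ∘
      (fun x : A ⊗ B.S k ⟶ B.S Mono.nil.d => x ≫ (show B.S Mono.nil.d ⟶ 𝟙_ D from B.e0N.inv)) := by
    funext x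
    exact h x
  change Function.Bijective (fun x => b.e A 0 Mono.nil k x)
  rw [h']
  refine (bij_pt0 _).comp ⟨fun x y e => ?_, fun y => ⟨y ≫ (show 𝟙_ D ⟶ B.S Mono.nil.d from
    B.e0N.hom), ?_⟩⟩
  · exact (cancel_mono (B.e0N.inv)).1 e
  · change (y ≫ B.e0N.hom) ≫ B.e0N.inv = y
    rw [Category.assoc, Iso.hom_inv_id, Category.comp_id]

section

variable (L : ℤ) (hneg : ∀ (n : ℕ) (k : ℤ), k < L → ∀ x : CH (A ⊗ B.S k) (B.g n), x = 0)

theorem delta_pos (n : ℕ) : (0 : ℤ) < ((n + 1 : ℕ) : ℤ) := by positivity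

include hneg in
theorem Beta.surjective (k : ℤ) (n : ℕ) : Function.Surjective
    (DirectSum.toAddMonoid (β := fun μ : Mono n => (A ⊗ B.S k ⟶ B.S μ.d))
      fun μ => b.e A n μ k) :=
  basisTot_surjective (I := Mono) (δ := fun n => ((n + 1 : ℕ) : ℤ)) (fun n => delta_pos n)
    (M := fun n μ k => (A ⊗ B.S k ⟶ B.S μ.d)) (G := fun n k => CH (A ⊗ B.S k) (B.g n))
    (fun n μ => μ.cons0) (fun n μ => μ.shift) (b.e A) (fun n k => B.jj n) (B.Phi A)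
    (fun n μ k => AddEquiv.refl _)
    (fun n μ k => (B.sdp A (k - ((n + 1 : ℕ) : ℤ)) ((n + 1 : ℕ) : ℤ) k (by ring) μ.d μ.shift.d
      rfl).symm)
    (fun n μ k x => b.e_cons0 A n μ k x)
    (fun n μ k x => by
      have := b.e_shift A n μ k ((B.sdp A (k - ((n + 1 : ℕ) : ℤ)) ((n + 1 : ℕ) : ℤ) k (by ring)
        μ.d μ.shift.d rfl).symm x)
      rwa [AddEquiv.apply_symm_apply] at this)
    Mono.nil L (b.e_nil_bijective A) hneg
    (fun n k g hg => B.exists_jj n g ((Phi_eq_zero_iff A n k g).1 hg)) k n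

include b hneg in
theorem Beta.PhiT_surjective (n : ℕ) (k : ℤ)
    (y : CH (A ⊗ B.S k) (B.g (n + 1) ⋙ tensorRight (B.S ((n + 1 : ℕ) : ℤ)))) :
    ∃ x, B.PhiT (n + 1) x = y := by
  obtain ⟨y, rfl⟩ := (B.dsp A (B.g (n + 1)) (k - ((n + 1 : ℕ) : ℤ)) ((n + 1 : ℕ) : ℤ) k
    (by ring)).surjective y
  have := basisΦ_surjective (I := Mono) (δ := fun n => ((n + 1 : ℕ) : ℤ)) (fun n => delta_pos n)
    (M := fun n μ k => (A ⊗ B.S k ⟶ B.S μ.d)) (G := fun n k => CH (A ⊗ B.S k) (B.g n))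
    (fun n μ => μ.cons0) (fun n μ => μ.shift) (b.e A) (fun n k => B.jj n) (B.Phi A)
    (fun n μ k => AddEquiv.refl _)
    (fun n μ k => (B.sdp A (k - ((n + 1 : ℕ) : ℤ)) ((n + 1 : ℕ) : ℤ) k (by ring) μ.d μ.shift.d
      rfl).symm)
    (fun n μ k x => b.e_cons0 A n μ k x)
    (fun n μ k x => by
      have := b.e_shift A n μ k ((B.sdp A (k - ((n + 1 : ℕ) : ℤ)) ((n + 1 : ℕ) : ℤ) k (by ring)
        μ.d μ.shift.d rfl).symm x)
      rwa [AddEquiv.apply_symm_apply] at this)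
    Mono.nil L (b.e_nil_bijective A) hneg
    (fun n k g hg => B.exists_jj n g ((Phi_eq_zero_iff A n k g).1 hg)) n k
  obtain ⟨x, hx⟩ := this y
  exact ⟨x, (Phi_eq_iff A n k x y).1 hx⟩

variable (hneg' : ∀ (n : ℕ) (k : ℤ), k < L → ∀ x : CH ((A ⊗ B.R1) ⊗ B.S k) (B.g n), x = 0)
  (hM : ∀ (d : ℤ), 0 ≤ d → ∀ k < L, ∀ x : A ⊗ B.S k ⟶ B.S d, x = 0)

variable (B) in
/-- swapping the line to the front -/
def swapR (k : ℤ) : (A ⊗ B.S k) ⊗ B.R1 ≅ (A ⊗ B.R1) ⊗ B.S k :=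
  α_ A (B.S k) B.R1 ≪≫ whiskerLeftIso A (β_ (B.S k) B.R1) ≪≫ (α_ A B.R1 (B.S k)).symm

include b hneg' in
theorem Beta.jj_injective (n : ℕ) (k : ℤ) (x : CH (A ⊗ B.S k) (B.g n)) (hx : B.jj n x = 0) :
    x = 0 := by
  refine B.eq_zero_of_jj n (fun y => ?_) x hx
  obtain ⟨x', hx'⟩ := b.PhiT_surjective (A ⊗ B.R1) L hneg' n k (pre (B.swapR A k).inv y)
  refine ⟨pre (B.swapR A k).hom x', ?_⟩
  rw [PhiT_pre, hx', ← pre_comp, Iso.hom_inv_id, pre_id]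

include hneg hneg' hM in
/-- The monomials in the `β_i` are linearly independent. -/
theorem Beta.injective (k : ℤ) (n : ℕ) : Function.Injective
    (DirectSum.toAddMonoid (β := fun μ : Mono n => (A ⊗ B.S k ⟶ B.S μ.d))
      fun μ => b.e A n μ k) :=
  basisTot_injective (I := Mono) (δ := fun n => ((n + 1 : ℕ) : ℤ)) (fun n => delta_pos n)
    (M := fun n μ k => (A ⊗ B.S k ⟶ B.S μ.d)) (G := fun n k => CH (A ⊗ B.S k) (B.g n))
    (fun n μ => μ.cons0) (fun n μ => μ.shift) (b.e A) (fun n k => B.jj n) (B.Phi A)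
    (fun n μ k => AddEquiv.refl _)
    (fun n μ k => (B.sdp A (k - ((n + 1 : ℕ) : ℤ)) ((n + 1 : ℕ) : ℤ) k (by ring) μ.d μ.shift.d
      rfl).symm)
    Mono.dichotomy
    (fun n μ k x => b.e_cons0 A n μ k x)
    (fun n μ k x => by
      have := b.e_shift A n μ k ((B.sdp A (k - ((n + 1 : ℕ) : ℤ)) ((n + 1 : ℕ) : ℤ) k (by ring)
        μ.d μ.shift.d rfl).symm x)
      rwa [AddEquiv.apply_symm_apply] at this)
    Mono.nil Mono.eq_nil L (b.e_nil_bijective A) hneg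
    (fun n k h => (Phi_eq_zero_iff A n k _).2 (B.PhiT_jj n h))
    (fun n k h hh => b.jj_injective A L hneg' n k h hh)
    (fun n μ k hk x => hM μ.d μ.d_nonneg k hk x) k n

end

end BUData

end Vale.Agent.P251.M
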