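import Mathlib.Algebra.Colimit.DirectLimit
import Mathlib.CategoryTheory.Monoidal.Preadditive
import Mathlib.CategoryTheory.Category.Preorder

/-!
# P251, part M: morphisms into sequences

For a sequence `X : ℕ ⥤ D` in a preadditive category and an object `W` the group
`CH W X = colim_N Hom(W, X N)`.
-/

open CategoryTheory MonoidalCategory Limits

universe v u

noncomputable section

namespace Vale.Agent.P251.M

variable {D : Type u} [Category.{v} D] [Preadditive D]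

/-- The transition maps. -/
def chTrans (W : D) (X : ℕ ⥤ D) (i j : ℕ) (h : i ≤ j) : (W ⟶ X.obj i) →+ (W ⟶ X.obj j) :=
  Preadditive.rightComp W (X.map (homOfLE h))

@[simp] theorem chTrans_apply (W : D) (X : ℕ ⥤ D) (i j : ℕ) (h : i ≤ j) (x : W ⟶ X.obj i) :
    chTrans W X i j h x = x ≫ X.map (homOfLE h) := rfl

instance (W : D) (X : ℕ ⥤ D) : DirectedSystem (fun n => (W ⟶ X.obj n)) (chTrans W X · · ·) where
  map_self i x := by
    simp
  map_map _ _ _ h h' x := by
    rw [chTrans_apply, chTrans_apply, chTrans_apply, Category.assoc, ← X.map_comp]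
    rfl

/-- `colim_N Hom(W, X N)` -/
abbrev CH (W : D) (X : ℕ ⥤ D) : Type v := DirectLimit (fun n => (W ⟶ X.obj n)) (chTrans W X)

namespace CH

/-- Direct limits of abelian groups over `ℕ`: the lift as an additive homomorphism. -/
def liftAux {G : ℕ → Type*} [∀ i, AddCommGroup (G i)] (f : ∀ i j, i ≤ j → G i →+ G j)
    [DirectedSystem G (f · · ·)] {A : Type*} [AddCommGroup A] (g : ∀ i, G i →+ A)
    (hg : ∀ i j h x, g i x = g j (f i j h x)) : DirectLimit G f →+ A where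
  toFun := DirectLimit.lift f (fun i x => g i x) hg
  map_zero' := by
    rw [DirectLimit.zero_def 0, DirectLimit.lift_def]
    exact map_zero _
  map_add' := by
    refine DirectLimit.induction₂ _ ?_
    intro i x y
    rw [DirectLimit.add_def, DirectLimit.lift_def, DirectLimit.lift_def, DirectLimit.lift_def]
    exact map_add _ _ _

/-- The class of a morphism to the `n`-th stage. -/
def cls {W : D} {X : ℕ ⥤ D} (n : ℕ) : (W ⟶ X.obj n) →+ CH W X where
  toFun x := (⟦⟨n, x⟩⟧ : DirectLimit (fun n => (W ⟶ X.obj n)) (chTrans W X))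
  map_zero' := (DirectLimit.zero_def n).symm
  map_add' x y := (DirectLimit.add_def (f := chTrans W X) n x y).symm

theorem cls_map {W : D} {X : ℕ ⥤ D} {m n : ℕ} (h : m ≤ n) (x : W ⟶ X.obj m) :
    cls n (x ≫ X.map (homOfLE h)) = (cls m x : CH W X) :=
  DirectLimit.mk_apply (F := fun n => (W ⟶ X.obj n)) (f := chTrans W X) m n x h

theorem exists_cls {W : D} {X : ℕ ⥤ D} (a : CH W X) : ∃ (n : ℕ) (x : W ⟶ X.obj n), a = cls n x :=
  DirectLimit.exists_eq_mk (chTrans W X) a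

theorem exists_cls_ge {W : D} {X : ℕ ⥤ D} (a : CH W X) (m : ℕ) :
    ∃ (n : ℕ) (_ : m ≤ n) (x : W ⟶ X.obj n), a = cls n x := by
  obtain ⟨n, x, rfl⟩ := exists_cls a
  exact ⟨max m n, le_max_left _ _, x ≫ X.map (homOfLE (le_max_right m n)), (cls_map _ _).symm⟩

theorem exists_cls₂ {W W' : D} {X X' : ℕ ⥤ D} (a : CH W X) (b : CH W' X') :
    ∃ (n : ℕ) (x : W ⟶ X.obj n) (y : W' ⟶ X'.obj n), a = cls n x ∧ b = cls n y := by
  obtain ⟨m, x, rfl⟩ := exists_cls a
  obtain ⟨n, y, rfl⟩ := exists_cls b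
  exact ⟨max m n, x ≫ X.map (homOfLE (le_max_left m n)), y ≫ X'.map (homOfLE (le_max_right m n)),
    (cls_map _ _).symm, (cls_map _ _).symm⟩

theorem cls_eq_iff {W : D} {X : ℕ ⥤ D} {m n : ℕ} (x : W ⟶ X.obj m) (y : W ⟶ X.obj n) :
    (cls m x : CH W X) = cls n y ↔ ∃ (p : ℕ) (h : m ≤ p) (h' : n ≤ p),
      x ≫ X.map (homOfLE h) = y ≫ X.map (homOfLE h') :=
  Quotient.eq (r := DirectLimit.setoid (chTrans W X))

theorem cls_eq_zero_iff {W : D} {X : ℕ ⥤ D} {m : ℕ} (x : W ⟶ X.obj m) :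
    (cls m x : CH W X) = 0 ↔ ∃ (p : ℕ) (h : m ≤ p), x ≫ X.map (homOfLE h) = 0 := by
  rw [← map_zero (cls (W := W) (X := X) m), cls_eq_iff]
  constructor
  · rintro ⟨p, h, h', e⟩
    exact ⟨p, h, by rw [e, zero_comp]⟩
  · rintro ⟨p, h, e⟩
    exact ⟨p, h, h, by rw [e, zero_comp]⟩

/-- Lifting a compatible family. -/
def lift {W : D} {X : ℕ ⥤ D} {A : Type*} [AddCommGroup A] (g : ∀ n, (W ⟶ X.obj n) →+ A)
    (hg : ∀ (m n : ℕ) (h : m ≤ n) (x : W ⟶ X.obj m), g n (x ≫ X.map (homOfLE h)) = g m x) :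
    CH W X →+ A :=
  liftAux (chTrans W X) g (fun i j h x => (hg i j h x).symm)

@[simp] theorem lift_cls {W : D} {X : ℕ ⥤ D} {A : Type*} [AddCommGroup A]
    (g : ∀ n, (W ⟶ X.obj n) →+ A)
    (hg : ∀ (m n : ℕ) (h : m ≤ n) (x : W ⟶ X.obj m), g n (x ≫ X.map (homOfLE h)) = g m x)
    (n : ℕ) (x : W ⟶ X.obj n) : lift g hg (cls n x) = g n x := rfl

/-- precomposition with a morphism -/
def pre {W W' : D} {X : ℕ ⥤ D} (f : W' ⟶ W) : CH W X →+ CH W' X :=
  lift (fun n => (cls n).comp (Preadditive.leftComp _ f)) (fun m n h x => by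
    change cls n (f ≫ x ≫ X.map (homOfLE h)) = cls m (f ≫ x)
    rw [← Category.assoc, cls_map])

@[simp] theorem pre_cls {W W' : D} {X : ℕ ⥤ D} (f : W' ⟶ W) (n : ℕ) (x : W ⟶ X.obj n) :
    pre f (cls n x : CH W X) = cls n (f ≫ x) := rfl

theorem pre_id {W : D} {X : ℕ ⥤ D} (a : CH W X) : pre (𝟙 W) a = a := by
  obtain ⟨n, x, rfl⟩ := exists_cls a
  rw [pre_cls, Category.id_comp]

theorem pre_comp {W W' W'' : D} {X : ℕ ⥤ D} (f : W' ⟶ W) (g : W'' ⟶ W') (a : CH W X) :
    pre (g ≫ f) a = pre g (pre f a) := by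
  obtain ⟨n, x, rfl⟩ := exists_cls a
  rw [pre_cls, pre_cls, pre_cls, Category.assoc]

theorem pre_add {W W' : D} {X : ℕ ⥤ D} (f g : W' ⟶ W) (a : CH W X) :
    pre (f + g) a = pre f a + pre g a := by
  obtain ⟨n, x, rfl⟩ := exists_cls a
  rw [pre_cls, pre_cls, pre_cls, Preadditive.add_comp, map_add]

theorem pre_zero {W W' : D} {X : ℕ ⥤ D} (a : CH W X) : pre (0 : W' ⟶ W) a = 0 := by
  obtain ⟨n, x, rfl⟩ := exists_cls a
  rw [pre_cls, zero_comp, map_zero]

/-- `f ↦ pre f a` as a homomorphism -/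
def preL (W' : D) {W : D} {X : ℕ ⥤ D} (a : CH W X) : (W' ⟶ W) →+ CH W' X where
  toFun f := pre f a
  map_zero' := pre_zero a
  map_add' f g := pre_add f g a

@[simp] theorem preL_apply (W' : D) {W : D} {X : ℕ ⥤ D} (a : CH W X) (f : W' ⟶ W) :
    preL W' a f = pre f a := rfl

/-- postcomposition with a natural transformation -/
def map {W : D} {X Y : ℕ ⥤ D} (φ : X ⟶ Y) : CH W X →+ CH W Y :=
  lift (fun n => (cls n).comp (Preadditive.rightComp _ (φ.app n))) (fun m n h x => by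
    change cls n ((x ≫ X.map (homOfLE h)) ≫ φ.app n) = cls m (x ≫ φ.app m)
    rw [Category.assoc, φ.naturality, ← Category.assoc, cls_map])

@[simp] theorem map_cls {W : D} {X Y : ℕ ⥤ D} (φ : X ⟶ Y) (n : ℕ) (x : W ⟶ X.obj n) :
    map φ (cls n x : CH W X) = cls n (x ≫ φ.app n) := rfl

theorem map_id {W : D} {X : ℕ ⥤ D} (a : CH W X) : map (𝟙 X) a = a := by
  obtain ⟨n, x, rfl⟩ := exists_cls a
  simp

theorem map_comp {W : D} {X Y Z : ℕ ⥤ D} (φ : X ⟶ Y) (ψ : Y ⟶ Z) (a : CH W X) :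
    map (φ ≫ ψ) a = map ψ (map φ a) := by
  obtain ⟨n, x, rfl⟩ := exists_cls a
  simp

theorem map_zero' {W : D} {X Y : ℕ ⥤ D} (a : CH W X) : map (0 : X ⟶ Y) a = 0 := by
  obtain ⟨n, x, rfl⟩ := exists_cls a
  simp

theorem map_pre {W W' : D} {X Y : ℕ ⥤ D} (φ : X ⟶ Y) (f : W' ⟶ W) (a : CH W X) :
    map φ (pre f a) = pre f (map φ a) := by
  obtain ⟨n, x, rfl⟩ := exists_cls a
  simp

theorem map_bijective {W : D} {X Y : ℕ ⥤ D} (φ : X ⟶ Y) [IsIso φ] :
    Function.Bijective (map (W := W) φ) := by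
  constructor
  · intro a b h
    have := congrArg (map (inv φ)) h
    rwa [← map_comp, ← map_comp, IsIso.hom_inv_id, map_id, map_id] at this
  · intro b
    exact ⟨map (inv φ) b, by rw [← map_comp, IsIso.inv_hom_id, map_id]⟩

section tensor

variable [MonoidalCategory D] [MonoidalPreadditive D]

/-- tensoring with an object on the right -/
def tens {W : D} {X : ℕ ⥤ D} (V : D) : CH W X →+ CH (W ⊗ V) (X ⋙ tensorRight V) :=
  lift (fun n => (cls (X := X ⋙ tensorRight V) n).comp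
    (AddMonoidHom.mk' (fun x => x ▷ V) fun x y => by
      rw [MonoidalPreadditive.add_whiskerRight])) (fun m n h x => by
    change cls (W := W ⊗ V) (X := X ⋙ tensorRight V) n ((x ≫ X.map (homOfLE h)) ▷ V) =
      cls (W := W ⊗ V) (X := X ⋙ tensorRight V) m (x ▷ V)
    rw [comp_whiskerRight]
    exact cls_map (X := X ⋙ tensorRight V) h (x ▷ V))

@[simp] theorem tens_cls {W : D} {X : ℕ ⥤ D} (V : D) (n : ℕ) (x : W ⟶ X.obj n) :
    tens V (cls n x : CH W X) = cls (X := X ⋙ tensorRight V) n (x ▷ V) := rfl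

theorem tens_pre {W W' : D} {X : ℕ ⥤ D} (V : D) (f : W' ⟶ W) (a : CH W X) :
    tens V (pre f a) = pre (f ▷ V) (tens V a) := by
  obtain ⟨n, x, rfl⟩ := exists_cls a
  rw [pre_cls, tens_cls, tens_cls, pre_cls, comp_whiskerRight]

theorem tens_bijective {W : D} {X : ℕ ⥤ D} (V : D) [(tensorRight V).IsEquivalence] :
    Function.Bijective (tens (W := W) (X := X) V) := by
  have hmap : ∀ {A B : D} (x : A ⟶ B), (tensorRight V).map x = x ▷ V := fun x => rfl
  constructor
  · rw [injective_iff_map_eq_zero]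
    intro a ha
    obtain ⟨n, x, rfl⟩ := exists_cls a
    rw [tens_cls, cls_eq_zero_iff] at ha
    obtain ⟨p, h, e⟩ := ha
    rw [cls_eq_zero_iff]
    refine ⟨p, h, (tensorRight V).map_injective ?_⟩
    rw [hmap, hmap, comp_whiskerRight, MonoidalPreadditive.zero_whiskerRight]
    exact e
  · intro b
    obtain ⟨n, y, rfl⟩ := exists_cls b
    obtain ⟨x, hx⟩ := (tensorRight V).map_surjective
      (show (tensorRight V).obj W ⟶ (tensorRight V).obj (X.obj n) from y)
    refine ⟨cls n x, ?_⟩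
    rw [tens_cls]
    exact congrArg _ hx

end tensor

end CH

end Vale.Agent.P251.M
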