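import Vale.Agent.P251.M.BUBasis

/-!
# P251, part M: from the homology of `BU(n)` to the homology of `MU`

`BMData D` extends `BUData D` by a multiplicative sequence `M` (the sequence of desuspended Thom
spaces) and maps `w : g n N ⟶ M a` (the inverse of the Thom isomorphism followed by the canonical
maps). The monomials in the classes `b_i`, `i ≥ 1`, are a basis of `colim_a Hom(W, M a)`.
-/

open CategoryTheory MonoidalCategory Limits
open scoped DirectSum

universe v u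

noncomputable section

namespace Vale.Agent.P251.M

open CH

set_option linter.unusedSectionVars false
set_option linter.dupNamespace false

/-- `BUData` together with a multiplicative sequence `M` and maps `g n N ⟶ M a`. -/
structure BMData (D : Type u) [Category.{v} D] [Preadditive D] [MonoidalCategory D]
    [SymmetricCategory D] [MonoidalPreadditive D] extends BUData D where
  /-- the sequence -/
  M : ℕ ⥤ D
  /-- the unit -/
  one : 𝟙_ D ⟶ M.obj 0
  /-- the product -/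
  Mmu {m n p : ℕ} (h : m + n = p) : M.obj m ⊗ M.obj n ⟶ M.obj p
  Mmu_map {m n p m' n' p' : ℕ} (h : m + n = p) (h' : m' + n' = p') (hm : m ≤ m') (hn : n ≤ n')
    (hp : p ≤ p') : (M.map (homOfLE hm) ⊗ₘ M.map (homOfLE hn)) ≫ Mmu h' =
      Mmu h ≫ M.map (homOfLE hp)
  one_mul (n : ℕ) : (one ▷ M.obj n) ≫ Mmu (Nat.zero_add n) = (λ_ (M.obj n)).hom
  /-- the comparison maps -/
  w {n N a : ℕ} (h : n ≤ a) (h' : N ≤ a + n) : (g n).obj N ⟶ M.obj a
  w_map {n N a b : ℕ} (h : n ≤ a) (h' : N ≤ a + n) (hab : a ≤ b) (h1 : n ≤ b) (h1' : N ≤ b + n) :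
    w h h' ≫ M.map (homOfLE hab) = w h1 h1'
  g_w {n N N' a : ℕ} (hN : N ≤ N') (h : n ≤ a) (h' : N' ≤ a + n) (h1' : N ≤ a + n) :
    (g n).map (homOfLE hN) ≫ w h h' = w h h1'
  w_mul {n m k N N' K a b c : ℕ} (hk : n + m = k) (hK : N + N' ≤ K) (hc : a + b = c)
    (h1 : n ≤ a) (h1' : N ≤ a + n) (h2 : m ≤ b) (h2' : N' ≤ b + m) (h3 : k ≤ c)
    (h3' : K ≤ c + k) : (w h1 h1' ⊗ₘ w h2 h2') ≫ Mmu hc = gmu hk hK ≫ w h3 h3'
  w_iso (a : ℕ) : IsIso (w (le_refl a) (le_refl (a + a)))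
  w_pt0 (h : 0 ≤ 0) (h' : 0 ≤ 0 + 0) : (pt0 0).hom ≫ w h h' = one
  w_pt1 (h : 1 ≤ 1) (h' : 1 ≤ 1 + 1) : pt1 ≫ w h h' = one ≫ M.map (homOfLE (Nat.zero_le 1))

namespace BMData

variable {D : Type u} [Category.{v} D] [Preadditive D] [MonoidalCategory D]
    [SymmetricCategory D] [MonoidalPreadditive D] (B : BMData D)

/-- multiplication by the base point does not change the class in `MU` -/
theorem jj_w {n N c : ℕ} (h : n ≤ c) (h' : N ≤ c + n) (h1 : n + 1 ≤ c) (h1' : N + 1 ≤ c + (n + 1))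
    (h2 : N + 1 ≤ c + n) :
    (B.a n N ≫ (B.p (n + 1)).app (N + 1)) ≫ B.w h1 h1' = B.w h h' := by
  obtain ⟨c, rfl⟩ : ∃ c', c = 1 + c' := ⟨c - 1, by omega⟩
  rw [B.a_p, Category.assoc, Category.assoc,
    ← B.w_mul (Nat.add_comm 1 n) (Nat.add_comm 1 N).le rfl le_rfl (by omega)
      (by omega : n ≤ c) (by omega : N ≤ c + n) h1 h1', ← tensorHom_id,
    tensorHom_comp_tensorHom_assoc, Category.id_comp, B.w_pt1]
  have e1 := B.Mmu_map (Nat.zero_add c) (rfl : 1 + c = 1 + c) (Nat.zero_le 1) le_rfl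
    (by omega : c ≤ 1 + c)
  have e2 : (B.one ≫ B.M.map (homOfLE (Nat.zero_le 1))) ⊗ₘ
      B.w (by omega : n ≤ c) (by omega : N ≤ c + n) =
      (B.one ⊗ₘ B.w (by omega : n ≤ c) (by omega : N ≤ c + n)) ≫
        (B.M.map (homOfLE (Nat.zero_le 1)) ⊗ₘ B.M.map (homOfLE (le_refl c))) := by
    rw [tensorHom_comp_tensorHom,
      show B.M.map (homOfLE (le_refl c)) = 𝟙 _ from B.M.map_id c, Category.comp_id]
  rw [e2, Category.assoc, e1, tensorHom_def'_assoc, reassoc_of% (B.one_mul c),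
    leftUnitor_naturality_assoc, Iso.inv_hom_id_assoc, B.w_map]

/-- the map `E_*(BU(n)) ⟶ E_*(MU)` -/
def Om {W : D} (n : ℕ) : CH W (B.g n) →+ CH W B.M :=
  CH.lift (fun N => (cls (n + N)).comp (Preadditive.rightComp W
    (B.w (by omega : n ≤ n + N) (by omega : N ≤ n + N + n)))) (fun N N' h x => by
      change cls (n + N') ((x ≫ (B.g n).map (homOfLE h)) ≫ B.w _ _) = cls (n + N) (x ≫ B.w _ _)
      rw [Category.assoc, B.g_w h _ _ (by omega), ← cls_map (by omega : n + N ≤ n + N'),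
        Category.assoc, B.w_map])

theorem Om_cls {W : D} {n N a : ℕ} (h : n ≤ a) (h' : N ≤ a + n) (x : W ⟶ (B.g n).obj N) :
    B.Om n (cls N x) = cls a (x ≫ B.w h h') := by
  change cls (n + N) (x ≫ B.w _ _) = _
  rw [← cls_map (by omega : n + N ≤ a + N), ← cls_map (by omega : a ≤ a + N), Category.assoc,
    Category.assoc, B.w_map, B.w_map] <;> omega

theorem Om_pre {W W' : D} {n : ℕ} (f : W' ⟶ W) (x : CH W (B.g n)) :
    B.Om n (pre f x) = pre f (B.Om n x) := by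
  obtain ⟨N, x, rfl⟩ := exists_cls x
  rw [pre_cls, B.Om_cls (a := n + N) (by omega) (by omega),
    B.Om_cls (a := n + N) (by omega) (by omega), pre_cls, Category.assoc]

theorem Om_jj {W : D} {n : ℕ} (x : CH W (B.g n)) : B.Om (n + 1) (B.jj n x) = B.Om n x := by
  obtain ⟨N, x, rfl⟩ := exists_cls x
  rw [B.jj_cls, B.Om_cls (a := n + N + 1) (by omega) (by omega),
    B.Om_cls (a := n + N + 1) (by omega) (by omega), Category.assoc, B.jj_w] <;> omega

/-- the product of `E_*(MU)`, auxiliary form -/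
def mulMAux {W V : D} (N : ℕ) (x : W ⟶ B.M.obj N) : CH V B.M →+ CH (W ⊗ V) B.M :=
  CH.lift (fun M => AddMonoidHom.mk' (fun y => cls (N + M) ((x ⊗ₘ y) ≫ B.Mmu rfl))
    (fun y y' => by
      rw [show x ⊗ₘ (y + y') = (x ⊗ₘ y) + (x ⊗ₘ y') by simp [tensorHom_def],
        Preadditive.add_comp, map_add]))
    (fun M M' hM y => by
      simp only [AddMonoidHom.mk'_apply]
      have e : (x ⊗ₘ (y ≫ B.M.map (homOfLE hM))) ≫ B.Mmu rfl =
          ((x ⊗ₘ y) ≫ B.Mmu rfl) ≫ B.M.map (homOfLE (Nat.add_le_add_left hM N)) := by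
        rw [Category.assoc, ← B.Mmu_map rfl rfl le_rfl hM (Nat.add_le_add_left hM N),
          ← Category.assoc, tensorHom_comp_tensorHom,
          show B.M.map (homOfLE (le_refl N)) = 𝟙 _ from B.M.map_id N, Category.comp_id]
      rw [e, cls_map])

@[simp] theorem mulMAux_cls {W V : D} (N : ℕ) (x : W ⟶ B.M.obj N) (M : ℕ) (y : V ⟶ B.M.obj M) :
    B.mulMAux N x (cls M y) = cls (N + M) ((x ⊗ₘ y) ≫ B.Mmu rfl) := rfl

/-- the product of `E_*(MU)` -/
def mulM {W V : D} : CH W B.M →+ CH V B.M →+ CH (W ⊗ V) B.M :=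
  CH.lift (fun N => AddMonoidHom.mk' (fun x => B.mulMAux N x)
    (fun x x' => by
      ext b
      obtain ⟨M, y, rfl⟩ := exists_cls b
      rw [AddMonoidHom.add_apply, mulMAux_cls, mulMAux_cls, mulMAux_cls,
        show (x + x') ⊗ₘ y = (x ⊗ₘ y) + (x' ⊗ₘ y) by simp [tensorHom_def],
        Preadditive.add_comp, map_add]))
    (fun N N' hN x => by
      ext b
      obtain ⟨M, y, rfl⟩ := exists_cls b
      simp only [AddMonoidHom.mk'_apply, mulMAux_cls]
      have e : ((x ≫ B.M.map (homOfLE hN)) ⊗ₘ y) ≫ B.Mmu rfl =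
          ((x ⊗ₘ y) ≫ B.Mmu rfl) ≫ B.M.map (homOfLE (Nat.add_le_add_right hN M)) := by
        rw [Category.assoc, ← B.Mmu_map rfl rfl hN le_rfl (Nat.add_le_add_right hN M),
          ← Category.assoc, tensorHom_comp_tensorHom,
          show B.M.map (homOfLE (le_refl M)) = 𝟙 _ from B.M.map_id M, Category.comp_id]
      rw [e, cls_map])

theorem mulM_cls {W V : D} {N M K : ℕ} (h : N + M = K) (x : W ⟶ B.M.obj N) (y : V ⟶ B.M.obj M) :
    B.mulM (cls N x) (cls M y) = cls K ((x ⊗ₘ y) ≫ B.Mmu h) := by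
  subst h
  rfl

theorem mulM_pre {W V W' V' : D} (f : W' ⟶ W) (g : V' ⟶ V) (x : CH W B.M) (y : CH V B.M) :
    B.mulM (pre f x) (pre g y) = pre (f ⊗ₘ g) (B.mulM x y) := by
  obtain ⟨N, x, rfl⟩ := exists_cls x
  obtain ⟨M, y, rfl⟩ := exists_cls y
  rw [pre_cls, pre_cls, B.mulM_cls rfl, B.mulM_cls rfl, pre_cls, ← tensorHom_comp_tensorHom,
    Category.assoc]

theorem Om_mul {W V : D} {n m k : ℕ} (h : n + m = k) (x : CH W (B.g n)) (y : CH V (B.g m)) :
    B.Om k (B.mul h x y) = B.mulM (B.Om n x) (B.Om m y) := by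
  obtain ⟨N, x, rfl⟩ := exists_cls x
  obtain ⟨M, y, rfl⟩ := exists_cls y
  rw [B.mul_cls h le_rfl, B.Om_cls (a := (n + N) + (m + M)) (by omega) (by omega),
    B.Om_cls (a := n + N) (by omega) (by omega), B.Om_cls (a := m + M) (by omega) (by omega),
    B.mulM_cls rfl, Category.assoc, ← B.w_mul h le_rfl rfl, tensorHom_comp_tensorHom_assoc]

theorem Om_surj {W : D} (y : CH W B.M) : ∃ (n : ℕ) (x : CH W (B.g n)), B.Om n x = y := by
  obtain ⟨a, y, rfl⟩ := exists_cls y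
  have := B.w_iso a
  refine ⟨a, cls (a + a) (y ≫ inv (B.w (le_refl a) (le_refl (a + a)))), ?_⟩
  rw [B.Om_cls (le_refl a) (le_refl (a + a)), Category.assoc, IsIso.inv_hom_id, Category.comp_id]

/-- the iterated multiplication by the base point -/
theorem eq_zero_of_stage {W : D} (hj : ∀ (n : ℕ) (x : CH W (B.g n)), B.jj n x = 0 → x = 0)
    (c : ℕ) : ∀ (r n N : ℕ) (x : W ⟶ (B.g n).obj N) (_ : n + r = c) (h : n ≤ c)
    (h' : N ≤ c + n) (_ : N + 1 ≤ c + n), x ≫ B.w h h' = 0 → (cls N x : CH W (B.g n)) = 0 := by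
  intro r
  induction r with
  | zero =>
    intro n N x hr h h' h1 e
    obtain rfl : n = c := hr
    have := B.w_iso n
    rw [← B.g_w h' le_rfl le_rfl h', ← Category.assoc] at e
    have e' := (cancel_mono (B.w (le_refl n) (le_refl (n + n)))).1 (e.trans zero_comp.symm)
    rw [cls_eq_zero_iff]
    exact ⟨n + n, h', e'⟩
  | succ r ih =>
    intro n N x hr h h' h1 e
    apply hj n
    rw [B.jj_cls]
    refine ih (n + 1) (N + 1) _ (by omega) (by omega) (by omega) (by omega) ?_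
    rw [Category.assoc, B.jj_w h h' (by omega) (by omega) h1, e]

theorem Om_inj {W : D} (hj : ∀ (n : ℕ) (x : CH W (B.g n)), B.jj n x = 0 → x = 0) {n : ℕ}
    (x : CH W (B.g n)) (hx : B.Om n x = 0) : x = 0 := by
  obtain ⟨N, x, rfl⟩ := exists_cls x
  rw [B.Om_cls (a := n + N) (by omega) (by omega), cls_eq_zero_iff] at hx
  obtain ⟨p, hp, e⟩ := hx
  have e' : x ≫ B.w (by omega : n ≤ p + 1) (by omega : N ≤ p + 1 + n) = 0 := by
    rw [← B.w_map (by omega : n ≤ p) (by omega : N ≤ p + n) (Nat.le_succ p), ← Category.assoc,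
      ← B.w_map (by omega : n ≤ n + N) (by omega : N ≤ n + N + n) hp, ← Category.assoc, e,
      zero_comp]
  exact B.eq_zero_of_stage hj (p + 1) (p + 1 - n) n N x (by omega) (by omega) (by omega)
    (by omega) e'

/-! ### The basis -/

variable {B} (b : B.toBUData.Beta)

variable (B) in
theorem Om_congr {l l' : List ℕ} (h : l = l') {d : ℤ} (hd : d = ((l.sum : ℕ) : ℤ))
    (hd' : d = ((l'.sum : ℕ) : ℤ)) : B.Om l.length (b.bl l rfl hd) =
      B.Om l'.length (b.bl l' rfl hd') := by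
  subst h
  rfl

/-- the monomial in the classes `b_i` -/
def Bl (μ : MonoP) : CH (B.S μ.d) B.M := B.Om μ.l.length (b.bl μ.l rfl μ.hd)

theorem Om_bl_aux (l : List ℕ) : ∀ {n : ℕ} {d : ℤ} (_ : l.Pairwise (· ≤ ·)) (hn : l.length = n)
    (hd : d = ((l.sum : ℕ) : ℤ))
    (hd' : d = (((l.filter (fun i => decide (0 < i))).sum : ℕ) : ℤ)),
    B.Om n (b.bl l hn hd) = B.Om (l.filter (fun i => decide (0 < i))).length
      (b.bl (l.filter (fun i => decide (0 < i))) rfl hd') := by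
  induction l with
  | nil =>
    intro n d _ hn hd hd'
    subst hn
    rfl
  | cons i l ih =>
    intro n d hs hn hd hd'
    rcases Nat.eq_zero_or_pos i with rfl | hi
    · obtain ⟨n, rfl⟩ : ∃ n', n = n' + 1 := ⟨l.length, by rw [← hn]; rfl⟩
      have hn' : l.length = n := by simpa using hn
      have hd2 : d = ((l.sum : ℕ) : ℤ) := by rw [hd]; simp
      rw [b.bl_cons0 l hn' hd2 hn hd, B.Om_jj,
        ih (List.pairwise_cons.1 hs).2 hn' hd2 (by rw [Mono.sum_filter_pos]; exact hd2)]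
      exact B.Om_congr b (by simp) _ _
    · have h : (i :: l).filter (fun i => decide (0 < i)) = i :: l := by
        apply List.filter_eq_self.2
        intro j hj
        rcases List.mem_cons.1 hj with rfl | hj
        · simpa using hi
        · simpa using lt_of_lt_of_le hi ((List.pairwise_cons.1 hs).1 j hj)
      subst hn
      exact (B.Om_congr b h hd' hd).symm

theorem Om_bl {n : ℕ} (ν : Mono n) : B.Om n (b.bl ν.l ν.len ν.hd) = Bl b ν.strip :=
  Om_bl_aux b ν.l ν.sorted ν.len ν.hd _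

/-- the total map -/
def totM (W : D) : (⨁ μ : MonoP, (W ⟶ B.S μ.d)) →+ CH W B.M :=
  DirectSum.toAddMonoid fun μ => preL W (Bl b μ)

theorem totM_of (W : D) (μ : MonoP) (x : W ⟶ B.S μ.d) :
    totM b W (DirectSum.of (fun μ : MonoP => (W ⟶ B.S μ.d)) μ x) = pre x (Bl b μ) := by
  simp [totM]

/-- the inclusion of the monomials of length `n` -/
def extM (B : BMData D) (W : D) (n : ℕ) :
    (⨁ ν : Mono n, (W ⟶ B.S ν.d)) →+ (⨁ μ : MonoP, (W ⟶ B.S μ.d)) :=
  DirectSum.toAddMonoid fun ν =>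
    (DirectSum.of (fun μ : MonoP => (W ⟶ B.S μ.d)) ν.strip : (W ⟶ B.S ν.d) →+ _)

theorem extM_of (W : D) (n : ℕ) (ν : Mono n) (x : W ⟶ B.S ν.d) :
    extM B W n (DirectSum.of (fun ν : Mono n => (W ⟶ B.S ν.d)) ν x) =
      DirectSum.of (fun μ : MonoP => (W ⟶ B.S μ.d)) ν.strip x :=
  DirectSum.toAddMonoid_of _ _ _

theorem totM_extM (A : D) (k : ℤ) (n : ℕ) (u : ⨁ ν : Mono n, (A ⊗ B.S k ⟶ B.S ν.d)) :
    totM b (A ⊗ B.S k) (extM B _ n u) = B.Om n (DirectSum.toAddMonoid (fun ν => b.e A n ν k) u) := by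
  induction u using DirectSum.induction_on with
  | zero => simp
  | of ν x =>
    rw [extM_of, DirectSum.toAddMonoid_of, b.e_apply, B.Om_pre, Om_bl]
    exact totM_of b _ ν.strip x
  | add u v hu hv => rw [map_add, map_add, hu, hv, map_add, map_add]

theorem exists_extM (W : D) (u : ⨁ μ : MonoP, (W ⟶ B.S μ.d)) :
    ∃ n₀ : ℕ, ∀ n, n₀ ≤ n → ∃ v, extM B W n v = u := by
  induction u using DirectSum.induction_on with
  | zero => exact ⟨0, fun n _ => ⟨0, map_zero _⟩⟩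
  | of μ x =>
    refine ⟨μ.l.length, fun n hn => ?_⟩
    obtain ⟨ν, rfl⟩ := Mono.exists_strip μ n hn
    exact ⟨DirectSum.of (fun ν : Mono n => (W ⟶ B.S ν.d)) ν x, extM_of W n ν x⟩
  | add u v hu hv =>
    obtain ⟨n, hn⟩ := hu
    obtain ⟨m, hm⟩ := hv
    refine ⟨max n m, fun k hk => ?_⟩
    obtain ⟨u', rfl⟩ := hn k (le_trans (le_max_left _ _) hk)
    obtain ⟨v', rfl⟩ := hm k (le_trans (le_max_right _ _) hk)
    exact ⟨u' + v', map_add _ _ _⟩

/-- the classes `b_i` -/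
def bcl (i : ℕ) : CH (B.S ((i : ℕ) : ℤ)) B.M := B.Om 1 (b.β i)

theorem Om_bl_cons (i : ℕ) (l : List ℕ) {n m : ℕ} {d e : ℤ} (hn : (i :: l).length = n)
    (hd : d = (((i :: l).sum : ℕ) : ℤ)) (hm : l.length = m) (he : e = ((l.sum : ℕ) : ℤ))
    (h2 : ((i : ℕ) : ℤ) + e = d) :
    B.Om n (b.bl (i :: l) hn hd) =
      pre (B.mu _ _ _ h2).inv (B.mulM (bcl b i) (B.Om m (b.bl l hm he))) := by
  have h1 : 1 + m = n := by rw [← hn, ← hm, List.length_cons]; omega
  rw [b.bl_cons i l hn hd hm he h1 h2, B.Om_pre, B.Om_mul]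
  rfl

theorem Bl_nil (h : (0 : ℤ) = (((([] : List ℕ).sum) : ℕ) : ℤ)) :
    Bl b ⟨[], 0, List.Pairwise.nil, by simp, h⟩ = pre B.e0.inv (cls 0 B.one) := by
  have h1 : Bl b ⟨[], 0, List.Pairwise.nil, by simp, h⟩ =
    B.Om 0 (pre B.e0N.inv (cls 0 (B.pt0 0).hom)) := rfl
  rw [h1, B.Om_pre, B.Om_cls (a := 0) le_rfl (Nat.zero_le _), B.w_pt0]
  rfl

theorem Bl_cons (i : ℕ) (l : List ℕ) (d e : ℤ) (hs : (i :: l).Pairwise (· ≤ ·))
    (hpos : ∀ j ∈ i :: l, 0 < j) (hd : d = (((i :: l).sum : ℕ) : ℤ))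
    (hs' : l.Pairwise (· ≤ ·)) (hpos' : ∀ j ∈ l, 0 < j) (he : e = ((l.sum : ℕ) : ℤ))
    (h2 : ((i : ℕ) : ℤ) + e = d) :
    Bl b ⟨i :: l, d, hs, hpos, hd⟩ =
      pre (B.mu _ _ _ h2).inv (B.mulM (bcl b i) (Bl b ⟨l, e, hs', hpos', he⟩)) :=
  Om_bl_cons b i l rfl hd rfl he h2

variable (A : D) (L : ℤ) (hneg : ∀ (n : ℕ) (k : ℤ), k < L → ∀ x : CH (A ⊗ B.S k) (B.g n), x = 0)
  (hneg' : ∀ (n : ℕ) (k : ℤ), k < L → ∀ x : CH ((A ⊗ B.R1) ⊗ B.S k) (B.g n), x = 0)
  (hM : ∀ (d : ℤ), 0 ≤ d → ∀ k < L, ∀ x : A ⊗ B.S k ⟶ B.S d, x = 0)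

include hneg in
/-- The monomials in the `b_i` generate. -/
theorem totM_surjective (k : ℤ) : Function.Surjective (totM b (A ⊗ B.S k)) := by
  intro y
  obtain ⟨n, x, rfl⟩ := B.Om_surj y
  obtain ⟨u, rfl⟩ := b.surjective A L hneg k n x
  exact ⟨extM B _ n u, totM_extM b A k n u⟩

include hneg hneg' hM in
/-- The monomials in the `b_i` are linearly independent. -/
theorem totM_injective (k : ℤ) : Function.Injective (totM b (A ⊗ B.S k)) := by
  rw [injective_iff_map_eq_zero]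
  intro u hu
  obtain ⟨n, hn⟩ := exists_extM (B := B) (A ⊗ B.S k) u
  obtain ⟨v, rfl⟩ := hn n le_rfl
  rw [totM_extM] at hu
  have h1 := B.Om_inj (fun n x hx => b.jj_injective A L hneg' n k x hx) _ hu
  have h2 := b.injective A L hneg hneg' hM k n (h1.trans (map_zero _).symm)
  rw [h2, map_zero]

end BMData

end Vale.Agent.P251.M
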