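import Vale.Agent.P251.M.BUInst
import Vale.Agent.P251.M.MUBasis
import Vale.Agent.P251.M.SpaceCells

/-!
# P251, part M4a: connectivity: the monomials are a basis over every sphere

* `conn_space`: `R ⊗ S X` is connective for every finite cell space `X` if `R` is;
* `ConnData B`: the connectivity of `B : BUData (FM R)`; `connData_buData`;
* `ConnData.totM_bijective`: the monomials in the `b_i` are a basis of `π_j (R ⊗ MU)` over `R`.
-/

set_option linter.unusedSectionVars false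
set_option linter.style.haveILetI false

open CategoryTheory MonoidalCategory Limits Pretriangulated
open scoped DirectSum

universe v u

noncomputable section

namespace Vale.Agent.P251.M

open G G.LC I Vale.Agent.P251.T CH

variable {T : Type u} [Category.{v} T] [Preadditive T] [HasZeroObject T]
    [HasShift T ℤ] [∀ n : ℤ, (shiftFunctor T n).Additive] [Pretriangulated T]
    [MonoidalCategory T] [SymmetricCategory T] [TensorTriangulated T]

theorem conn_tensor_sphere {R : T} (hR : Conn (0 : ℤ) R) {Y : T} (n : ℤ)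
    (e : Nonempty (Y ≅ (𝟙_ T)⟦n⟧)) : Conn n (R ⊗ Y) := by
  obtain ⟨e⟩ := e
  exact (hR.shift n n (by ring)).of_iso
    ((tensorUnitShiftIso R n).symm ≪≫ whiskerLeftIso R e.symm)

/-- `R ⊗ S X` is connective for every finite cell space `X`, if `R` is connective. -/
theorem conn_space (S : SpaceFunctor T) {R : T} (hR : Conn (0 : ℤ) R) {X : LC} (h : FC X) :
    Conn (0 : ℤ) (R ⊗ S.S.obj (⟨X, h⟩ : FCat)) := by
  induction h with
  | empty =>
    refine Conn.zero ?_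
    have hz : IsZero (S.S.obj (⟨LC.of Empty, FC.empty⟩ : FCat)) :=
      S.isZero (inferInstanceAs (IsEmpty Empty))
    exact (tensorLeft R).map_isZero hz
  | sph n =>
    exact (conn_tensor_sphere hR (n : ℤ) ⟨sphIso S n⟩).mono (by positivity)
  | @hequiv X Y hX hXY ih =>
    obtain ⟨f, g, h1, h2⟩ := hXY
    have hi : IsIso (S.S.map (FCat.hom f : (⟨X, hX⟩ : FCat) ⟶ ⟨Y, hX.hequiv ⟨f, g, h1, h2⟩⟩)) :=
      isIso_of_isHEquiv S _ ⟨g, h1, h2⟩
    exact ih.of_iso (whiskerLeftIso R (asIso (S.S.map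
      (FCat.hom f : (⟨X, hX⟩ : FCat) ⟶ ⟨Y, hX.hequiv ⟨f, g, h1, h2⟩⟩))))
  | @ext A B i hi hA hC ihA ihC =>
    obtain ⟨h, D⟩ := exists_cofTriangle S (FCat.hom i : (⟨A, hA⟩ : FCat) ⟶ ⟨B, hA.ext hi hC⟩) hi
    exact Conn.ext _ (TensorTriangulated.distinguished R _ D) ihA ihC

variable {R : T} [MonObj R] [IsCommMonObj R]

/-- Morphisms of free modules from a sphere. -/
theorem fm_eq_zero {W Y : FM R} {m n : ℤ} (hm : m < n) (e : Nonempty (W.obj ≅ (𝟙_ T)⟦m⟧))
    (hY : Conn n (R ⊗ Y.obj)) (x : W ⟶ Y) : x = 0 := by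
  obtain ⟨e⟩ := e
  apply FM.hom_ext
  have h1 := hY m hm (e.inv ≫ FM.Hom.hom x)
  rw [FM.zero_hom]
  exact (cancel_epi e.inv).1 (h1.trans comp_zero.symm)

/-- The connectivity data. -/
structure ConnData (B : BUData (FM R)) : Prop where
  conn : Conn (0 : ℤ) R
  g (n N : ℕ) : Conn (0 : ℤ) (R ⊗ ((B.g n).obj N).obj)
  sph (k : ℤ) : Nonempty ((B.S k).obj ≅ (𝟙_ T)⟦(2 * k : ℤ)⟧)
  line : Nonempty (B.R1.obj ≅ (𝟙_ T)⟦(1 : ℤ)⟧)

theorem nonempty_sphere_tensor {X Y : T} {m n p : ℤ} (h : m + n = p)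
    (hX : Nonempty (X ≅ (𝟙_ T)⟦m⟧)) (hY : Nonempty (Y ≅ (𝟙_ T)⟦n⟧)) :
    Nonempty (X ⊗ Y ≅ (𝟙_ T)⟦p⟧) := by
  obtain ⟨a⟩ := hX
  obtain ⟨b⟩ := hY
  exact ⟨(a ⊗ᵢ b) ≪≫ tensorUnitShiftIso _ n ≪≫ ((shiftFunctorAdd' T m n p h).app _).symm⟩

namespace ConnData

variable {B : BUData (FM R)} (hB : ConnData B) {A : FM R} {j : ℤ}
  (hA : Nonempty (A.obj ≅ (𝟙_ T)⟦j⟧))

include hB

include hA in
theorem sphere_tensor (k : ℤ) : Nonempty ((A ⊗ B.S k).obj ≅ (𝟙_ T)⟦(j + 2 * k : ℤ)⟧) :=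
  nonempty_sphere_tensor rfl hA (hB.sph k)

include hA in
theorem sphere_line : Nonempty ((A ⊗ B.R1).obj ≅ (𝟙_ T)⟦(j + 1 : ℤ)⟧) :=
  nonempty_sphere_tensor rfl hA hB.line

theorem ch_eq_zero {W : FM R} {m : ℤ} (hm : m < 0) (hW : Nonempty (W.obj ≅ (𝟙_ T)⟦m⟧)) (n : ℕ)
    (x : CH W (B.g n)) : x = 0 := by
  obtain ⟨N, x, rfl⟩ := exists_cls x
  rw [fm_eq_zero hm hW (hB.g n N) x, map_zero]

include hA in
theorem neg {L : ℤ} (hL : 2 * L ≤ -j) (n : ℕ) (k : ℤ) (hk : k < L)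
    (x : CH (A ⊗ B.S k) (B.g n)) : x = 0 :=
  hB.ch_eq_zero (by omega) (hB.sphere_tensor hA k) n x

include hA in
theorem neg' {L : ℤ} (hL : 2 * L ≤ -j) (n : ℕ) (k : ℤ) (hk : k < L)
    (x : CH ((A ⊗ B.R1) ⊗ B.S k) (B.g n)) : x = 0 :=
  hB.ch_eq_zero (by omega) (hB.sphere_tensor (hB.sphere_line hA) k) n x

include hA in
theorem negM {L : ℤ} (hL : 2 * L ≤ -j) (d : ℤ) (hd : 0 ≤ d) (k : ℤ) (hk : k < L)
    (x : A ⊗ B.S k ⟶ B.S d) : x = 0 :=
  fm_eq_zero (n := 2 * d) (by omega) (hB.sphere_tensor hA k)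
    (conn_tensor_sphere hB.conn (2 * d) (hB.sph d)) x

end ConnData

theorem connData_buData (S : SpaceFunctor T) (hR : Conn (0 : ℤ) R) {t : ThomStr (FR S R)}
    {A : SphD (FM R)} (c : SphCompat t A)
    (hA : ∀ k : ℤ, Nonempty ((A.S k).obj ≅ (𝟙_ T)⟦(2 * k : ℤ)⟧)) :
    ConnData (buData S R c) where
  conn := hR
  g n N := conn_space S hR (isFC_gr n (Fin N)).out
  sph := hA
  line := ⟨S.line⟩

/-! ### The basis -/

section basis

variable {B : BMData (FM R)} (hB : ConnData B.toBUData) (b : B.toBUData.Beta)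

theorem BMData.totM_pre {W W' : FM R} (f : W' ⟶ W) (u : ⨁ μ : MonoP, (W ⟶ B.S μ.d)) :
    BMData.totM b W' (DirectSum.map (fun μ : MonoP =>
      (Preadditive.leftComp (B.S μ.d) f : (W ⟶ B.S μ.d) →+ (W' ⟶ B.S μ.d))) u) =
      pre f (BMData.totM b W u) := by
  induction u using DirectSum.induction_on with
  | zero => simp
  | of μ x =>
    rw [DirectSum.map_of, BMData.totM_of, BMData.totM_of, ← pre_comp]
    rfl
  | add u v hu hv => rw [map_add, map_add, hu, hv, map_add, map_add]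

theorem BMData.totM_bijective_of_iso {W W' : FM R} (e : W' ≅ W)
    (h : Function.Bijective (BMData.totM b W)) : Function.Bijective (BMData.totM b W') := by
  have h1 : ∀ u, BMData.totM b W' (DirectSum.map (fun μ : MonoP =>
      (Preadditive.leftComp (B.S μ.d) e.hom : (W ⟶ B.S μ.d) →+ (W' ⟶ B.S μ.d))) u) =
      pre e.hom (BMData.totM b W u) := fun u => BMData.totM_pre b e.hom u
  have h2 : ∀ u, BMData.totM b W (DirectSum.map (fun μ : MonoP =>
      (Preadditive.leftComp (B.S μ.d) e.inv : (W' ⟶ B.S μ.d) →+ (W ⟶ B.S μ.d))) u) =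
      pre e.inv (BMData.totM b W' u) := fun u => BMData.totM_pre b e.inv u
  have h3 : ∀ u : ⨁ μ : MonoP, (W' ⟶ B.S μ.d), DirectSum.map (fun μ : MonoP =>
      (Preadditive.leftComp (B.S μ.d) e.hom : (W ⟶ B.S μ.d) →+ (W' ⟶ B.S μ.d)))
      (DirectSum.map (fun μ : MonoP =>
      (Preadditive.leftComp (B.S μ.d) e.inv : (W' ⟶ B.S μ.d) →+ (W ⟶ B.S μ.d))) u) = u := by
    intro u
    refine DFinsupp.ext fun μ => ?_
    rw [DirectSum.map_apply, DirectSum.map_apply]
    exact e.hom_inv_id_assoc _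
  constructor
  · rw [injective_iff_map_eq_zero]
    intro u hu
    have h4 := h2 u
    rw [hu, map_zero, ← map_zero (BMData.totM b W)] at h4
    have h5 := h.1 h4
    rw [← h3 u, h5, map_zero]
  · intro y
    obtain ⟨u, hu⟩ := h.2 (pre e.inv y)
    refine ⟨_, (h1 u).trans ?_⟩
    rw [hu, ← pre_comp, Iso.hom_inv_id, pre_id]

include hB in
/-- The monomials in the `b_i` are a basis of the homology of `MU`. -/
theorem ConnData.totM_bijective {A : FM R} {j : ℤ} (hA : Nonempty (A.obj ≅ (𝟙_ T)⟦j⟧)) :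
    Function.Bijective (BMData.totM b A) := by
  have hL : 2 * (-(|j| : ℤ)) ≤ -j := by
    have := neg_abs_le j
    have := le_abs_self j
    have := abs_nonneg j
    omega
  refine BMData.totM_bijective_of_iso b (W := A ⊗ B.S 0)
    ((ρ_ A).symm ≪≫ whiskerLeftIso A B.e0) ⟨?_, ?_⟩
  · exact BMData.totM_injective b A (-(|j|)) (fun n k hk x => hB.neg hA hL n k hk x)
      (fun n k hk x => hB.neg' hA hL n k hk x) (fun d hd k hk x => hB.negM hA hL d hd k hk x) 0
  · exact BMData.totM_surjective b A (-(|j|)) (fun n k hk x => hB.neg hA hL n k hk x) 0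

include hB in
/-- The monomials in the `b_i` are a basis of `π_j (R ⊗ MU)` over `π_* R`. -/
theorem ConnData.totM_bijective_shift (j : ℤ) :
    Function.Bijective (BMData.totM b (FM.of ((𝟙_ T)⟦j⟧) : FM R)) :=
  hB.totM_bijective b ⟨Iso.refl _⟩

end basis

end Vale.Agent.P251.M
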