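import Vale.Agent.P251.M.BTInst
import Vale.Agent.P251.M.BUConn

/-!
# P251, part M4a: the monomial basis of the `K`-homology of `MU` for connective `K`
-/

open CategoryTheory MonoidalCategory Limits Pretriangulated
open Vale.Agent.P251.G Vale.Agent.P251.G.LC Vale.Agent.P251.I Vale.Agent.P251.T

universe v u

noncomputable section

namespace Vale.Agent.P251.M

variable {T : Type u} [Category.{v} T] [Preadditive T] [HasZeroObject T]
    [HasShift T ℤ] [∀ n : ℤ, (shiftFunctor T n).Additive] [Pretriangulated T]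
    [MonoidalCategory T] [SymmetricCategory T] [TensorTriangulated T]
variable {S : SpaceFunctor T} {E : EvenSpheres T} {e : S.S.obj CCF ≅ E.L}
  {K : T} [MonObj K] [IsCommMonObj K] (C : ThomSys.Cls (thomSys S E e) K)

theorem connDataK (hK : Conn (0 : ℤ) K)
    (sph : ∀ k : ℤ, Nonempty (E.S k ≅ (𝟙_ T)⟦(2 * k : ℤ)⟧)) :
    ConnData (bmDataK C).toBUData :=
  connData_buData S hK (compatK C) sph

/-- The monomials in the `b_i` are a basis of the `K`-homology of `MU`, `K` connective. -/
theorem totM_bijectiveK (hK : Conn (0 : ℤ) K)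
    (sph : ∀ k : ℤ, Nonempty (E.S k ≅ (𝟙_ T)⟦(2 * k : ℤ)⟧)) (b : (bmDataK C).toBUData.Beta)
    (j : ℤ) : Function.Bijective (BMData.totM b (FM.of ((𝟙_ T)⟦j⟧) : FM K)) :=
  (connDataK C hK sph).totM_bijective_shift b j

end Vale.Agent.P251.M
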