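import Mathlib.Algebra.DirectSum.Module
import Mathlib.Data.List.Sort
import Mathlib.Tactic

/-!
# P251, part M: the purely algebraic core of the computation of `E_*(BU(n))`

`G n k` is the group of `E`-homology of `BU(n)` in degree `k`, `M n μ k` the group of homotopy of
`E ⊗ S^{|μ|}` for a monomial `μ` of degree `n` in `β_0, β_1, ...`, `j` is multiplication by `β_0`
and `Φ` the cap product with the Euler class (zero section followed by the Thom isomorphism).
-/

open DirectSum

namespace Vale.Agent.P251.M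

universe v w

section

variable {I : ℕ → Type} [∀ n, DecidableEq (I n)] {δ : ℕ → ℤ} (hδ : ∀ n, 0 < δ n)
  {M : ∀ n : ℕ, I n → ℤ → Type v} [∀ n μ k, AddCommGroup (M n μ k)]
  {G : ℕ → ℤ → Type w} [∀ n k, AddCommGroup (G n k)]
  (a0 : ∀ n, I n → I (n + 1)) (sh : ∀ n, I (n + 1) → I (n + 1))
  (e : ∀ (n : ℕ) (μ : I n) (k : ℤ), M n μ k →+ G n k)
  (j : ∀ (n : ℕ) (k : ℤ), G n k →+ G (n + 1) k)
  (Φ : ∀ (n : ℕ) (k : ℤ), G (n + 1) k →+ G (n + 1) (k - δ n))
  (a : ∀ (n : ℕ) (μ : I n) (k : ℤ), M n μ k ≃+ M (n + 1) (a0 n μ) k)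
  (s : ∀ (n : ℕ) (μ : I (n + 1)) (k : ℤ), M (n + 1) (sh n μ) k ≃+ M (n + 1) μ (k - δ n))

/-- The total map from the free module on the monomials. -/
noncomputable def basisTot (n : ℕ) (k : ℤ) : (⨁ μ : I n, M n μ k) →+ G n k :=
  DirectSum.toAddMonoid fun μ => e n μ k

@[simp] theorem basisTot_of (n : ℕ) (k : ℤ) (μ : I n) (x : M n μ k) :
    basisTot e n k (DirectSum.of (fun μ => M n μ k) μ x) = e n μ k x := by
  simp [basisTot]

/-- Multiplication of monomials by `β_0`. -/
noncomputable def basisZ (n : ℕ) (k : ℤ) :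
    (⨁ μ : I n, M n μ k) →+ (⨁ μ : I (n + 1), M (n + 1) μ k) :=
  DirectSum.toAddMonoid fun μ =>
    (DirectSum.of (fun μ => M (n + 1) μ k) (a0 n μ)).comp (a n μ k).toAddMonoidHom

/-- The shift `β_i ↦ β_{i+1}` on monomials. -/
noncomputable def basisS (n : ℕ) (k : ℤ) :
    (⨁ μ : I (n + 1), M (n + 1) μ (k - δ n)) →+ (⨁ μ : I (n + 1), M (n + 1) μ k) :=
  DirectSum.toAddMonoid fun μ =>
    (DirectSum.of (fun μ => M (n + 1) μ k) (sh n μ)).comp (s n μ k).symm.toAddMonoidHom

variable (hdich : ∀ (n : ℕ) (ν : I (n + 1)), (∃ μ : I n, ν = a0 n μ) ∨ ∃ μ : I (n + 1), ν = sh n μ)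

include hdich in
theorem basisZS_surj (n : ℕ) (k : ℤ) (u : ⨁ μ : I (n + 1), M (n + 1) μ k) :
    ∃ w z, u = basisZ a0 a n k w + basisS sh s n k z := by
  induction u using DirectSum.induction_on with
  | zero => exact ⟨0, 0, by simp⟩
  | of ν x =>
    rcases hdich n ν with ⟨μ, rfl⟩ | ⟨μ, rfl⟩
    · refine ⟨DirectSum.of (fun μ => M n μ k) μ ((a n μ k).symm x), 0, ?_⟩
      simp [basisZ]
    · refine ⟨0, DirectSum.of (fun μ => M (n + 1) μ (k - δ n)) μ (s n μ k x), ?_⟩
      simp [basisS]
  | add u v hu hv =>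
    obtain ⟨w, z, h⟩ := hu
    obtain ⟨w', z', h'⟩ := hv
    exact ⟨w + w', z + z', by rw [h, h', map_add, map_add]; abel⟩

variable (hja : ∀ (n : ℕ) (μ : I n) (k : ℤ) (x : M n μ k),
    e (n + 1) (a0 n μ) k (a n μ k x) = j n k (e n μ k x))
  (hΦs : ∀ (n : ℕ) (μ : I (n + 1)) (k : ℤ) (x : M (n + 1) (sh n μ) k),
    Φ n k (e (n + 1) (sh n μ) k x) = e (n + 1) μ _ (s n μ k x))

include hja in
theorem basisTot_Z (n : ℕ) (k : ℤ) (w : ⨁ μ : I n, M n μ k) :
    basisTot e (n + 1) k (basisZ a0 a n k w) = j n k (basisTot e n k w) := by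
  induction w using DirectSum.induction_on with
  | zero => simp
  | of μ x => simp [basisZ, hja]
  | add u v hu hv => rw [map_add, map_add, hu, hv, map_add, map_add]

include hΦs in
theorem basisTot_S (n : ℕ) (k : ℤ) (z : ⨁ μ : I (n + 1), M (n + 1) μ (k - δ n)) :
    Φ n k (basisTot e (n + 1) k (basisS sh s n k z)) = basisTot e (n + 1) (k - δ n) z := by
  induction z using DirectSum.induction_on with
  | zero => simp
  | of μ x => simp [basisS, hΦs]
  | add u v hu hv => rw [map_add, map_add, map_add, hu, hv, map_add]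

variable (i0 : I 0) (hi0 : ∀ i : I 0, i = i0) (L : ℤ)
  (h0 : ∀ (k : ℤ), Function.Bijective (e 0 i0 k))
  (hneg : ∀ (n : ℕ) (k : ℤ), k < L → ∀ g : G n k, g = 0)
  (hex : ∀ (n : ℕ) (k : ℤ) (g : G (n + 1) k), Φ n k g = 0 → ∃ h, j n k h = g)

include h0 hja hΦs hneg hex hδ in
/-- The monomials generate. -/
theorem basisTot_surjective (k : ℤ) (n : ℕ) : Function.Surjective (basisTot e n k) := by
  have main : ∀ (N : ℕ) (k : ℤ), k < L + N → ∀ n, Function.Surjective (basisTot e n k) := by
    intro N
    induction N with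
    | zero =>
      intro k hk n g
      refine ⟨0, ?_⟩
      rw [map_zero]
      exact (hneg n k (by simpa using hk) g).symm
    | succ N ih =>
      intro k hk n
      induction n with
      | zero =>
        intro g
        obtain ⟨x, hx⟩ := (h0 k).2 g
        exact ⟨DirectSum.of (fun μ => M 0 μ k) i0 x, by rw [basisTot_of, hx]⟩
      | succ n ihn =>
        intro g
        have hk' : k - δ n < L + N := by have := hδ n; push_cast at hk ⊢; omega
        obtain ⟨z, hz⟩ := ih _ hk' (n + 1) (Φ n k g)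
        have hz' : Φ n k (g - basisTot e (n + 1) k (basisS sh s n k z)) = 0 := by
          rw [map_sub, basisTot_S sh e Φ s hΦs, hz, sub_self]
        obtain ⟨h, hh⟩ := hex n k _ hz'
        obtain ⟨w, rfl⟩ := ihn h
        refine ⟨basisZ a0 a n k w + basisS sh s n k z, ?_⟩
        rw [map_add, basisTot_Z a0 e j a hja, hh]
        abel
  exact main ((k - L).toNat + 1) k (by push_cast; omega) n

include h0 hja hΦs hneg hex hδ in
/-- `Φ` is surjective. -/
theorem basisΦ_surjective (n : ℕ) (k : ℤ) : Function.Surjective (Φ n k) := by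
  intro g
  obtain ⟨z, rfl⟩ := basisTot_surjective hδ a0 sh e j Φ a s hja hΦs i0 L h0 hneg hex _ _ g
  exact ⟨_, basisTot_S sh e Φ s hΦs n k z⟩

variable (hΦj : ∀ (n : ℕ) (k : ℤ) (h : G n k), Φ n k (j n k h) = 0)
  (hinj : ∀ (n : ℕ) (k : ℤ) (h : G n k), j n k h = 0 → h = 0)
  (hMneg : ∀ (n : ℕ) (μ : I n) (k : ℤ), k < L → ∀ x : M n μ k, x = 0)

include hdich hi0 h0 hja hΦs hneg hΦj hinj hMneg hδ in
/-- The monomials are linearly independent. -/
theorem basisTot_injective (k : ℤ) (n : ℕ) : Function.Injective (basisTot e n k) := by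
  have main : ∀ (N : ℕ) (k : ℤ), k < L + N → ∀ n (u : ⨁ μ : I n, M n μ k),
      basisTot e n k u = 0 → u = 0 := by
    intro N
    induction N with
    | zero =>
      intro k hk n u _
      have hk' : k < L := by simpa using hk
      induction u using DirectSum.induction_on with
      | zero => rfl
      | of μ x => rw [hMneg n μ k hk' x, map_zero]
      | add u v hu hv =>
        have h1 : u = 0 := hu (hneg n k hk' _)
        have h2 : v = 0 := hv (hneg n k hk' _)
        rw [h1, h2, add_zero]
    | succ N ih =>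
      intro k hk n
      induction n with
      | zero =>
        intro u hu
        have hu' : ∃ x, u = DirectSum.of (fun μ => M 0 μ k) i0 x := by
          clear hu
          induction u using DirectSum.induction_on with
          | zero => exact ⟨0, by simp⟩
          | of μ x =>
            obtain rfl : μ = i0 := hi0 μ
            exact ⟨x, rfl⟩
          | add u v hu hv =>
            obtain ⟨x, rfl⟩ := hu
            obtain ⟨y, rfl⟩ := hv
            exact ⟨x + y, by rw [map_add]⟩
        obtain ⟨x, rfl⟩ := hu'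
        rw [basisTot_of] at hu
        have : x = 0 := (h0 k).1 (by rw [hu, map_zero])
        rw [this, map_zero]
      | succ n ihn =>
        intro u hu
        obtain ⟨w, z, rfl⟩ := basisZS_surj a0 sh a s hdich n k u
        have hk' : k - δ n < L + N := by have := hδ n; push_cast at hk ⊢; omega
        have hz : z = 0 := by
          apply ih _ hk' (n + 1)
          have := congrArg (Φ n k) hu
          rw [map_add, map_add, basisTot_Z a0 e j a hja, hΦj, basisTot_S sh e Φ s hΦs, zero_add,
            map_zero] at this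
          exact this
        subst hz
        rw [map_zero, add_zero, basisTot_Z a0 e j a hja] at hu
        have := hinj n k _ hu
        rw [ihn w this, map_zero, map_zero, add_zero]
  intro u v huv
  have := main ((k - L).toNat + 1) k (by push_cast; omega) n (u - v) (by rw [map_sub, huv, sub_self])
  exact sub_eq_zero.mp this

end

end Vale.Agent.P251.M
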