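import Mathlib.Data.List.Sort
import Mathlib.Tactic

/-!
# P251, part M: monomials in `β_0, β_1, ...` as sorted lists with a recorded degree
-/

namespace Vale.Agent.P251.M

/-- Monomials `β_{i_1} ... β_{i_n}`, `i_1 ≤ ... ≤ i_n`, with their degree `d = i_1 + ... + i_n`
(as an integer). -/
@[ext] structure Mono (n : ℕ) where
  /-- the sorted list of indices -/
  l : List ℕ
  /-- the degree -/
  d : ℤ
  len : l.length = n
  sorted : l.Pairwise (· ≤ ·)
  hd : d = (l.sum : ℤ)

namespace Mono

theorem ext' {n : ℕ} {μ ν : Mono n} (h : μ.l = ν.l) : μ = ν := by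
  ext1
  · exact h
  · rw [μ.hd, ν.hd, h]

instance (n : ℕ) : DecidableEq (Mono n) := fun μ ν =>
  decidable_of_iff (μ.l = ν.l) ⟨ext', fun h => by rw [h]⟩

/-- the empty monomial -/
@[simps] def nil : Mono 0 := ⟨[], 0, rfl, List.Pairwise.nil, rfl⟩

theorem eq_nil (μ : Mono 0) : μ = nil := by
  apply ext'
  exact List.eq_nil_of_length_eq_zero μ.len

/-- multiplication by `β_0` -/
@[simps] def cons0 {n : ℕ} (μ : Mono n) : Mono (n + 1) :=
  ⟨0 :: μ.l, μ.d, by simp [μ.len], by simp [List.pairwise_cons, μ.sorted], by simp [μ.hd]⟩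

/-- the shift `β_i ↦ β_{i+1}` -/
@[simps] def shift {n : ℕ} (μ : Mono n) : Mono n :=
  ⟨μ.l.map (· + 1), μ.d + n, by simp [μ.len], by
    rw [List.pairwise_map]
    exact μ.sorted.imp fun h => by omega, by
    rw [μ.hd, List.sum_map_add]
    simp [μ.len]⟩

theorem d_nonneg {n : ℕ} (μ : Mono n) : 0 ≤ μ.d := by
  rw [μ.hd]; positivity

theorem dichotomy (n : ℕ) (ν : Mono (n + 1)) :
    (∃ μ : Mono n, ν = μ.cons0) ∨ ∃ μ : Mono (n + 1), ν = μ.shift := by
  obtain ⟨l, d, len, sorted, hd⟩ := ν
  cases l with
  | nil => simp at len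
  | cons i l =>
    rcases Nat.eq_zero_or_pos i with rfl | hi
    · left
      refine ⟨⟨l, d, by simpa using len, (List.pairwise_cons.1 sorted).2, by simpa using hd⟩, ?_⟩
      apply ext'
      rfl
    · right
      have hpos : ∀ x ∈ i :: l, 1 ≤ x := by
        intro x hx
        rcases List.mem_cons.1 hx with rfl | hx
        · exact hi
        · exact le_trans hi ((List.pairwise_cons.1 sorted).1 x hx)
      have hmap : ((i :: l).map (· - 1)).map (· + 1) = i :: l := by
        rw [List.map_map]
        have : ∀ x ∈ i :: l, ((fun x => x + 1) ∘ (fun x => x - 1)) x = id x := by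
          intro x hx
          have := hpos x hx
          simp only [Function.comp_apply, id]
          omega
        rw [List.map_congr_left this, List.map_id]
      refine ⟨⟨(i :: l).map (· - 1), ((((i :: l).map (· - 1)).sum : ℕ) : ℤ), by simpa using len,
        ?_, rfl⟩, ?_⟩
      · rw [List.pairwise_map]
        exact sorted.imp fun h => by omega
      · apply ext'
        exact hmap.symm

end Mono

/-- Monomials in `b_1, b_2, ...`: sorted lists of positive integers with their degree. -/
@[ext] structure MonoP where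
  /-- the sorted list of indices -/
  l : List ℕ
  /-- the degree -/
  d : ℤ
  sorted : l.Pairwise (· ≤ ·)
  pos : ∀ i ∈ l, 0 < i
  hd : d = (l.sum : ℤ)

namespace MonoP

theorem ext' {μ ν : MonoP} (h : μ.l = ν.l) : μ = ν := by
  ext1
  · exact h
  · rw [μ.hd, ν.hd, h]

instance : DecidableEq MonoP := fun μ ν =>
  decidable_of_iff (μ.l = ν.l) ⟨ext', fun h => by rw [h]⟩

theorem d_nonneg (μ : MonoP) : 0 ≤ μ.d := by
  rw [μ.hd]; positivity

end MonoP

namespace Mono

theorem sum_filter_pos (l : List ℕ) : (l.filter (fun i => decide (0 < i))).sum = l.sum := by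
  induction l with
  | nil => rfl
  | cons i l ih =>
    rcases Nat.eq_zero_or_pos i with rfl | hi
    · simp [ih]
    · rw [List.filter_cons_of_pos (by simpa using hi), List.sum_cons, List.sum_cons, ih]

/-- remove the factors `β_0` -/
@[simps] def strip {n : ℕ} (μ : Mono n) : MonoP :=
  ⟨μ.l.filter (fun i => decide (0 < i)), μ.d, μ.sorted.filter _, by
    intro i hi
    simpa using (List.mem_filter.1 hi).2, by rw [μ.hd, sum_filter_pos]⟩

theorem strip_cons0 {n : ℕ} (μ : Mono n) : μ.cons0.strip = μ.strip := by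
  apply MonoP.ext'
  simp

theorem exists_strip (μ : MonoP) (n : ℕ) (h : μ.l.length ≤ n) : ∃ ν : Mono n, ν.strip = μ := by
  refine ⟨⟨List.replicate (n - μ.l.length) 0 ++ μ.l, μ.d, by simp [h], ?_, ?_⟩, ?_⟩
  · rw [List.pairwise_append]
    refine ⟨?_, μ.sorted, ?_⟩
    · rw [List.pairwise_replicate]; right; exact le_rfl
    · intro a ha b _
      rw [List.eq_of_mem_replicate ha]
      exact Nat.zero_le _
  · rw [μ.hd]; simp
  · apply MonoP.ext'
    change (List.replicate (n - μ.l.length) 0 ++ μ.l).filter (fun i => decide (0 < i)) = μ.l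
    rw [List.filter_append, List.filter_eq_self (l := μ.l).2
      (fun i hi => by simpa using μ.pos i hi), List.filter_eq_nil_iff.2
      (fun i hi => by simp [List.eq_of_mem_replicate hi]), List.nil_append]

end Mono

end Vale.Agent.P251.M
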