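import Vale.Agent.P251.M.BUColim
import Vale.Agent.P251.M.BasisAlg
import Vale.Agent.P251.M.Mono
import Vale.Agent.P251.M.Even

/-!
# P251, part M: the abstract data for the computation of `E_*(BU(n))`

`SphD D`: a coherent family of invertible objects `S n`, `n : ℤ`.
`BUData D`: Grassmannians `g n N`, Thom spaces `th n N`, sphere bundles `s n N` with their
structure maps, the Gysin sequences and the Thom isomorphisms, in a preadditive symmetric monoidal
category `D` (for example the category of free `E`-modules).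
-/

open CategoryTheory MonoidalCategory Limits

universe v u

noncomputable section

namespace Vale.Agent.P251.M

/-- Coherent spheres in a symmetric monoidal category. -/
structure SphD (D : Type u) [Category.{v} D] [MonoidalCategory D] [SymmetricCategory D] where
  /-- the spheres -/
  S : ℤ → D
  /-- the products of spheres -/
  mu (m n p : ℤ) (h : m + n = p) : S m ⊗ S n ≅ S p
  /-- the unit -/
  e0 : 𝟙_ D ≅ S 0
  e0_mu (n : ℤ) (h : 0 + n = n) : e0.hom ▷ S n ≫ (mu 0 n n h).hom = (λ_ (S n)).hom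
  mu_e0 (n : ℤ) (h : n + 0 = n) : S n ◁ e0.hom ≫ (mu n 0 n h).hom = (ρ_ (S n)).hom
  mu4 {a b c d ab cd ac bd t : ℤ} (h1 : a + b = ab) (h2 : c + d = cd) (h3 : a + c = ac)
    (h4 : b + d = bd) (h5 : ab + cd = t) (h6 : ac + bd = t) :
    ((mu a b ab h1).hom ⊗ₘ (mu c d cd h2).hom) ≫ (mu ab cd t h5).hom =
      tensorμ (S a) (S b) (S c) (S d) ≫ ((mu a c ac h3).hom ⊗ₘ (mu b d bd h4).hom) ≫
        (mu ac bd t h6).hom

namespace SphD

/-- The spheres of `EvenSpheres`. -/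
def ofEven {D : Type u} [Category.{v} D] [MonoidalCategory D] [SymmetricCategory D]
    (E : EvenSpheres D) : SphD D where
  S := E.S
  mu := E.mu
  e0 := E.zero
  e0_mu := E.zero_mu'
  mu_e0 := E.mu_zero'
  mu4 {a b c d ab cd ac bd t} h1 h2 h3 h4 h5 h6 := by
    refine IsFr.unique (F := ((E.fr a).tensor (E.fr b)).tensor ((E.fr c).tensor (E.fr d)))
      (G := E.fr t) (by omega) ?_ ?_
    · exact IsFr.comp (by omega) (by omega) (IsFr.tensor (by omega) (by omega)
        (E.isFr_mu a b ab h1) (E.isFr_mu c d cd h2)) (E.isFr_mu ab cd t h5)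
    · refine IsFr.comp (G := ((E.fr a).tensor (E.fr c)).tensor ((E.fr b).tensor (E.fr d)))
        (by omega) (by omega) ?_
        (IsFr.comp (by omega) (by omega) (IsFr.tensor (by omega) (by omega)
          (E.isFr_mu a c ac h3) (E.isFr_mu b d bd h4)) (E.isFr_mu ac bd t h6))
      have e1 := isFr_associator (E.fr a) (E.fr b) ((E.fr c).tensor (E.fr d))
      have e2 : IsFr ((E.fr a).tensor ((E.fr b).tensor ((E.fr c).tensor (E.fr d))))
          ((E.fr a).tensor (((E.fr b).tensor (E.fr c)).tensor (E.fr d)))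
          (E.S a ◁ (α_ (E.S b) (E.S c) (E.S d)).inv) :=
        IsFr.whiskerLeft (by omega) (IsFr.inv' (by omega) (isFr_associator _ _ _))
      have e3 : IsFr ((E.fr a).tensor (((E.fr b).tensor (E.fr c)).tensor (E.fr d)))
          ((E.fr a).tensor (((E.fr c).tensor (E.fr b)).tensor (E.fr d)))
          (E.S a ◁ (β_ (E.S b) (E.S c)).hom ▷ E.S d) :=
        IsFr.whiskerLeft (by omega) (IsFr.whiskerRight (by omega) (E.symFr b c))
      have e4 : IsFr ((E.fr a).tensor (((E.fr c).tensor (E.fr b)).tensor (E.fr d)))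
          ((E.fr a).tensor ((E.fr c).tensor ((E.fr b).tensor (E.fr d))))
          (E.S a ◁ (α_ (E.S c) (E.S b) (E.S d)).hom) :=
        IsFr.whiskerLeft (by omega) (isFr_associator _ _ _)
      have e5 := IsFr.inv' (by omega) (isFr_associator (E.fr a) (E.fr c)
        ((E.fr b).tensor (E.fr d)))
      exact IsFr.comp (by omega) (by omega) e1 (IsFr.comp (by omega) (by omega) e2
        (IsFr.comp (by omega) (by omega) e3 (IsFr.comp (by omega) (by omega) e4 e5)))

universe v' u'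

open Functor.LaxMonoidal in
/-- Pushing forward along a braided monoidal functor. -/
def push {D : Type u} [Category.{v} D] [MonoidalCategory D] [SymmetricCategory D]
    {D' : Type u'} [Category.{v'} D'] [MonoidalCategory D'] [SymmetricCategory D']
    (A : SphD D) (F : D ⥤ D') [F.Braided] : SphD D' where
  S n := F.obj (A.S n)
  mu m n p h := Functor.Monoidal.μIso F _ _ ≪≫ F.mapIso (A.mu m n p h)
  e0 := Functor.Monoidal.εIso F ≪≫ F.mapIso A.e0
  e0_mu n h := by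
    simp only [Iso.trans_hom, Functor.Monoidal.εIso_hom, Functor.mapIso_hom,
      Functor.Monoidal.μIso_hom, comp_whiskerRight, Category.assoc]
    rw [μ_natural_left_assoc, ← F.map_comp, A.e0_mu, ← left_unitality]
  mu_e0 n h := by
    simp only [Iso.trans_hom, Functor.Monoidal.εIso_hom, Functor.mapIso_hom,
      Functor.Monoidal.μIso_hom, MonoidalCategory.whiskerLeft_comp, Category.assoc]
    rw [μ_natural_right_assoc, ← F.map_comp, A.mu_e0, ← right_unitality]
  mu4 {a b c d ab cd ac bd t} h1 h2 h3 h4 h5 h6 := by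
    simp only [Iso.trans_hom, Functor.mapIso_hom, Functor.Monoidal.μIso_hom,
      ← tensorHom_comp_tensorHom, Category.assoc]
    rw [μ_natural_assoc, μ_natural_assoc, ← F.map_comp, ← F.map_comp,
      A.mu4 h1 h2 h3 h4 h5 h6, F.map_comp]
    rw [MonoidalCategory.tensorμ_comp_μ_tensorHom_μ_comp_μ_assoc]

variable {D : Type u} [Category.{v} D] [MonoidalCategory D] [SymmetricCategory D] (A : SphD D)

theorem mu4_inv {a b c d ab cd ac bd t : ℤ} (h1 : a + b = ab) (h2 : c + d = cd) (h3 : a + c = ac)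
    (h4 : b + d = bd) (h5 : ab + cd = t) (h6 : ac + bd = t) :
    (A.mu ab cd t h5).inv ≫ ((A.mu a b ab h1).inv ⊗ₘ (A.mu c d cd h2).inv) ≫
      tensorμ (A.S a) (A.S b) (A.S c) (A.S d) =
    (A.mu ac bd t h6).inv ≫ ((A.mu a c ac h3).inv ⊗ₘ (A.mu b d bd h4).inv) := by
  have h := A.mu4 h1 h2 h3 h4 h5 h6
  rw [← cancel_epi (A.mu ab cd t h5).hom, Iso.hom_inv_id_assoc,
    ← cancel_epi ((A.mu a b ab h1).hom ⊗ₘ (A.mu c d cd h2).hom),
    tensorHom_comp_tensorHom_assoc, Iso.hom_inv_id, Iso.hom_inv_id, id_tensorHom_id,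
    Category.id_comp, reassoc_of% h, Iso.hom_inv_id_assoc, tensorHom_comp_tensorHom,
    Iso.hom_inv_id, Iso.hom_inv_id, id_tensorHom_id, Category.comp_id]

instance (n : ℤ) : IsInv (A.S n) :=
  IsInv.of_inverse (L' := A.S (-n)) (A.mu n (-n) 0 (by ring) ≪≫ A.e0.symm)

end SphD

/-- `- ⊗ R` is an equivalence if `R ⊗ -` is. -/
theorem isEquivalence_tensorRight {D : Type u} [Category.{v} D] [MonoidalCategory D]
    [SymmetricCategory D] (R : D) [IsInv R] : (tensorRight R).IsEquivalence :=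
  Functor.isEquivalence_of_iso (NatIso.ofComponents (fun X => β_ R X) : tensorLeft R ≅ tensorRight R)

/-- The data for the computation of the homology of `BU(n)`. -/
structure BUData (D : Type u) [Category.{v} D] [Preadditive D] [MonoidalCategory D]
    [SymmetricCategory D] [MonoidalPreadditive D] extends SphD D where
  /-- Grassmannians -/
  g : ℕ → ℕ ⥤ D
  /-- Thom spaces -/
  th : ℕ → ℕ ⥤ D
  /-- sphere bundles -/
  s : ℕ → ℕ ⥤ D
  /-- the zero section -/
  z (n : ℕ) : g n ⟶ th n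
  /-- the projection of the sphere bundle -/
  p (n : ℕ) : s n ⟶ g n
  /-- the line -/
  R1 : D
  inv_R1 : IsInv R1
  /-- the connecting map -/
  c (n : ℕ) : th n ⟶ s n ⋙ tensorRight R1
  p_z (n : ℕ) : p n ≫ z n = 0
  z_c (n : ℕ) : z n ≫ c n = 0
  c_p (n N : ℕ) : (c n).app N ≫ ((p n).app N ▷ R1) = 0
  ex_g {W : D} (n N : ℕ) (x : W ⟶ (g n).obj N) : x ≫ (z n).app N = 0 → ∃ y, y ≫ (p n).app N = x
  ex_th {W : D} (n N : ℕ) (x : W ⟶ (th n).obj N) : x ≫ (c n).app N = 0 → ∃ y, y ≫ (z n).app N = x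
  ex_s {W : D} (n N : ℕ) (x : W ⟶ (s n).obj N ⊗ R1) : x ≫ ((p n).app N ▷ R1) = 0 →
    ∃ y, y ≫ (c n).app N = x
  /-- the Thom isomorphism -/
  θ (n : ℕ) : th n ≅ g n ⋙ tensorRight (S n)
  /-- direct sum -/
  gmu {n m k : ℕ} (h : n + m = k) {N M K : ℕ} (hK : N + M ≤ K) :
    (g n).obj N ⊗ (g m).obj M ⟶ (g k).obj K
  gmu_map {n m k : ℕ} (h : n + m = k) {N M K N' M' K' : ℕ} (hK : N + M ≤ K) (hK' : N' + M' ≤ K')
    (hN : N ≤ N') (hM : M ≤ M') (hKK : K ≤ K') :
    ((g n).map (homOfLE hN) ⊗ₘ (g m).map (homOfLE hM)) ≫ gmu h hK' =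
      gmu h hK ≫ (g k).map (homOfLE hKK)
  /-- the Euler class is multiplicative -/
  zz_mu {n m k : ℕ} (h : n + m = k) (h' : (n : ℤ) + m = k) {N M K : ℕ} (hK : N + M ≤ K) :
    (((z n).app N ≫ (θ n).hom.app N) ⊗ₘ ((z m).app M ≫ (θ m).hom.app M)) ≫
      tensorμ ((g n).obj N) (S n) ((g m).obj M) (S m) ≫ (gmu h hK ⊗ₘ (mu n m k h').hom) =
      gmu h hK ≫ (z k).app K ≫ (θ k).hom.app K
  zz0 (N : ℕ) : (z 0).app N ≫ (θ 0).hom.app N =
    (ρ_ ((g 0).obj N)).inv ≫ (g 0).obj N ◁ (show 𝟙_ D ⟶ S ((0 : ℕ) : ℤ) from e0.hom)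
  /-- the Grassmannian of `0`-planes is a point -/
  pt0 (N : ℕ) : 𝟙_ D ≅ (g 0).obj N
  pt0_map {N M : ℕ} (h : N ≤ M) : (pt0 N).hom ≫ (g 0).map (homOfLE h) = (pt0 M).hom
  /-- the base point of projective space -/
  pt1 : 𝟙_ D ⟶ (g 1).obj 1
  /-- the augmentation of projective space -/
  aug (N : ℕ) : (g 1).obj N ⟶ 𝟙_ D
  aug_map {N M : ℕ} (h : N ≤ M) : (g 1).map (homOfLE h) ≫ aug M = aug N
  pt1_aug : pt1 ≫ aug 1 = 𝟙 _
  gmu_pt0 {n : ℕ} {N M K : ℕ} (hK : N + M ≤ K) (hK' : N ≤ K) :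
    ((g n).obj N ◁ (pt0 M).hom) ≫ gmu (Nat.add_zero n) hK =
      (ρ_ ((g n).obj N)).hom ≫ (g n).map (homOfLE hK')
  /-- the map `P ↦ (1 ⊕ P, e)` -/
  a (n N : ℕ) : (g n).obj N ⟶ (s (n + 1)).obj (N + 1)
  /-- the map `(P, v) ↦ P - v v^*` -/
  b (n : ℕ) : s (n + 1) ⟶ g n
  a_b (n N : ℕ) : a n N ≫ (b n).app (N + 1) = (g n).map (homOfLE (Nat.le_succ N))
  b_a (n N : ℕ) : (b n).app N ≫ a n N = (s (n + 1)).map (homOfLE (Nat.le_succ N))
  a_p (n N : ℕ) : a n N ≫ (p (n + 1)).app (N + 1) =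
    (λ_ _).inv ≫ (pt1 ▷ _) ≫ gmu (Nat.add_comm 1 n) (Nat.add_comm 1 N).le
  p_aug (N : ℕ) : (p 1).app N ≫ aug N ≫ (pt0 N).hom = (b 0).app N

end Vale.Agent.P251.M
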