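import Vale.Agent.P251.M.ThomIso
import Vale.Agent.P251.G.CellInst

/-!
# Finite cell spaces: instances of `IsFC`
-/

namespace Vale.Agent.P251.M

open G G.LC G.Cell

instance isFC_of_hasChain {Y : Type} [TopologicalSpace Y] [CompactSpace Y] [T2Space Y]
    [HasChain Y] : IsFC (LC.of Y) := ⟨fc_of_hasChain Y⟩

instance isFC_tot {Y : Type} [TopologicalSpace Y] [CompactSpace Y] [T2Space Y] [HasChain Y]
    {ι : Type} [Fintype ι] (V : Bun Y ι) : IsFC V.tot := ⟨fc_tot V⟩

instance isFC_th (n : ℕ) (I : Type) [Fintype I] : IsFC (LC.of (Th n I)) := ⟨fc_th n I⟩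

end Vale.Agent.P251.M
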