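import Vale.Agent.P251.M.ThomMul
import Vale.Agent.P251.M.ThomT
import Vale.Agent.P251.M.FCInst
import Vale.Agent.P251.M.ThFCInst
import Vale.Agent.P251.G.GrSphJ
import Vale.Agent.P251.G.CellTh

/-!
# P251, part M: Grassmannians, Thom spaces and sphere bundles in a symmetric monoidal category

`F : FCat ⥤ D` braided and homotopy invariant.

* instances `IsFC` for `Gr n I`, `Th n I`, `GS n I`;
* `mp_eq`: homotopic maps have the same image;
* `gj`, `tj`, `sj` (for `|I| ≤ |J|`): the maps induced by any isometry `ℂ^I → ℂ^J`;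
* `gF n`, `thF n`, `sF n : ℕ ⥤ D` with values `ob F (Gr n (Fin N))`, ...;
* `zF n : gF n ⟶ thF n` the zero section.
-/

set_option linter.unusedSectionVars false
set_option linter.style.haveILetI false

open CategoryTheory MonoidalCategory Filter Topology OnePoint Matrix

universe v u

noncomputable section

namespace Vale.Agent.P251.M

open G G.LC I

/-! ### Instances -/

instance isFC_gr (n : ℕ) (I : Type) [Fintype I] : IsFC (LC.of (Gr n I)) :=
  ⟨(Cell.cells_gr n I).fc⟩

instance isFC_gs (n : ℕ) (I : Type) [Fintype I] : IsFC (LC.of (GS n I)) := by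
  classical
  exact ⟨(Cell.cells_of_compact (Cell.chain_Sph (taut n I) (taut_isRank n I)
    (Cell.chain_gr n I))).fc⟩

theorem isGrMap_gmap {n : ℕ} {I J : Type} [Fintype I] [Fintype J] [DecidableEq I] [DecidableEq J]
    (u : Matrix J I ℂ) (hu : uᴴ * u = 1) : IsGrMap (n := n) u (GS.gmap u hu) :=
  fun _ => ⟨_, rfl, rfl⟩

theorem isGrSum_gsum {n m k : ℕ} {I J : Type} [Fintype I] [Fintype J] (h : n + m = k) :
    IsGrSum (I := I) (J := J) (GS.gsum h) := fun _ _ => ⟨_, rfl, rfl⟩

theorem zeroHom_eq_z {n : ℕ} {I : Type} [Fintype I] :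
    Gr.zeroHom (n := n) (J := I) = GS.z n I := by
  apply LC.hom_ext
  intro x
  rfl

instance isFC_RR : IsFC RR := ⟨fcRR⟩

section

variable {D : Type u} [Category.{v} D] [MonoidalCategory D] [SymmetricCategory D]
variable (F : FCat ⥤ D) [F.Braided] [HInv F]
variable {n m k : ℕ} {I J K L : Type} [Fintype I] [Fintype J] [Fintype K] [Fintype L]
  [DecidableEq I] [DecidableEq J] [DecidableEq K] [DecidableEq L]

theorem mp_eq {X Y : LC} [IsFC X] [IsFC Y] {f g : X ⟶ Y} (h : Homotopic f g) :
    mp F f = mp F g :=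
  HInv.map_eq (X := ⟨X, IsFC.out⟩) (Y := ⟨Y, IsFC.out⟩) (FCat.hom f) (FCat.hom g) h

/-! ### Grassmannians -/

/-- the map of Grassmannians induced by any isometry -/
def gj (n : ℕ) (h : Fintype.card I ≤ Fintype.card J) : ob F (GrO n I) ⟶ ob F (GrO n J) :=
  mp F (GS.gmap (chosenIsom h) (chosenIsom_spec h))

theorem mp_gmap (u : Matrix J I ℂ) (hu : uᴴ * u = 1) (h : Fintype.card I ≤ Fintype.card J) :
    mp F (GS.gmap (n := n) u hu) = gj F n h :=
  mp_eq F (GS.gmap_homotopic_gmap _ _ _ _)

@[simp] theorem gj_refl (h : Fintype.card I ≤ Fintype.card I) :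
    gj F n h = 𝟙 (ob F (GrO n I)) := by
  rw [← mp_gmap F 1 isom_one, GS.gmap_one, mp_id]

@[reassoc (attr := simp)]
theorem gj_gj (h : Fintype.card I ≤ Fintype.card J) (h' : Fintype.card J ≤ Fintype.card K) :
    gj F n h ≫ gj F n h' = gj F n (h.trans h') := by
  rw [gj, gj, ← mp_comp, GS.gmap_comp, mp_gmap]

/-- the Grassmannians as a sequence -/
def gF (n : ℕ) : ℕ ⥤ D where
  obj N := ob F (GrO n (Fin N))
  map f := gj F n (by simpa using leOfHom f)
  map_id N := gj_refl F _
  map_comp f g := (gj_gj F _ _).symm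

@[simp] theorem gF_obj (n N : ℕ) : (gF F n).obj N = ob F (GrO n (Fin N)) := rfl

theorem gF_map {n N M : ℕ} (h : N ≤ M) :
    (gF F n).map (homOfLE h) = gj F n (by simpa using h) := rfl

/-! ### Thom spaces -/

/-- the map of Thom spaces induced by any isometry -/
def tj (n : ℕ) (h : Fintype.card I ≤ Fintype.card J) : ob F (ThO n I) ⟶ ob F (ThO n J) :=
  mp F (Th.map (chosenIsom h) (chosenIsom_spec h))

theorem mp_tmap (u : Matrix J I ℂ) (hu : uᴴ * u = 1) (h : Fintype.card I ≤ Fintype.card J) :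
    mp F (Th.map (n := n) u hu) = tj F n h :=
  mp_eq F (Th.map_homotopic_map _ _ _ _)

@[simp] theorem tj_refl (h : Fintype.card I ≤ Fintype.card I) :
    tj F n h = 𝟙 (ob F (ThO n I)) := by
  rw [← mp_tmap F 1 isom_one, Th.map_one, mp_id]

@[reassoc (attr := simp)]
theorem tj_tj (h : Fintype.card I ≤ Fintype.card J) (h' : Fintype.card J ≤ Fintype.card K) :
    tj F n h ≫ tj F n h' = tj F n (h.trans h') := by
  rw [tj, tj, ← mp_comp, Th.map_comp, mp_tmap]

/-- `tj` is the map `TO.j` of `M/ThomT` -/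
theorem tj_eq_TO (h : Fintype.card I ≤ Fintype.card J) : tj F n h = TO.j F n h :=
  TO.map_eq_j F (chosenIsom h) (chosenIsom_spec h) h

/-- the Thom spaces as a sequence -/
def thF (n : ℕ) : ℕ ⥤ D where
  obj N := ob F (ThO n (Fin N))
  map f := tj F n (by simpa using leOfHom f)
  map_id N := tj_refl F _
  map_comp f g := (tj_tj F _ _).symm

@[simp] theorem thF_obj (n N : ℕ) : (thF F n).obj N = ob F (ThO n (Fin N)) := rfl

theorem thF_map {n N M : ℕ} (h : N ≤ M) :
    (thF F n).map (homOfLE h) = tj F n (by simpa using h) := rfl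

/-! ### Sphere bundles -/

/-- the map of sphere bundles induced by any isometry -/
def sj (n : ℕ) (h : Fintype.card I ≤ Fintype.card J) :
    ob F (LC.of (GS n I)) ⟶ ob F (LC.of (GS n J)) :=
  mp F (GS.map (chosenIsom h) (chosenIsom_spec h))

theorem mp_smap (u : Matrix J I ℂ) (hu : uᴴ * u = 1) (h : Fintype.card I ≤ Fintype.card J) :
    mp F (GS.map (n := n) u hu) = sj F n h :=
  mp_eq F (GS.map_homotopic_map _ _ _ _)

@[simp] theorem sj_refl (h : Fintype.card I ≤ Fintype.card I) :
    sj F n h = 𝟙 (ob F (LC.of (GS n I))) := by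
  rw [← mp_smap F 1 isom_one, GS.map_one, mp_id]

@[reassoc (attr := simp)]
theorem sj_sj (h : Fintype.card I ≤ Fintype.card J) (h' : Fintype.card J ≤ Fintype.card K) :
    sj F n h ≫ sj F n h' = sj F n (h.trans h') := by
  rw [sj, sj, ← mp_comp, GS.map_comp, mp_smap]

/-- the sphere bundles as a sequence -/
def sF (n : ℕ) : ℕ ⥤ D where
  obj N := ob F (LC.of (GS n (Fin N)))
  map f := sj F n (by simpa using leOfHom f)
  map_id N := sj_refl F _
  map_comp f g := (sj_sj F _ _).symm

@[simp] theorem sF_obj (n N : ℕ) : (sF F n).obj N = ob F (LC.of (GS n (Fin N))) := rfl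

theorem sF_map {n N M : ℕ} (h : N ≤ M) :
    (sF F n).map (homOfLE h) = sj F n (by simpa using h) := rfl

/-! ### The zero section -/

/-- the zero section -/
def zr (n : ℕ) (I : Type) [Fintype I] : ob F (GrO n I) ⟶ ob F (ThO n I) :=
  mp F (GS.z n I)

@[reassoc]
theorem zr_tj (h : Fintype.card I ≤ Fintype.card J) :
    zr F n I ≫ tj F n h = gj F n h ≫ zr F n J := by
  rw [zr, zr, tj, gj, ← mp_comp, ← mp_comp, GS.z_map]

/-- the zero section as a natural transformation -/
def zF (n : ℕ) : gF F n ⟶ thF F n where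
  app N := zr F n (Fin N)
  naturality _ _ _ := (zr_tj F _).symm

end

end Vale.Agent.P251.M
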