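import Vale.Agent.P251.M.BUFun

/-!
# P251, part M4a: sphere bundles of the tautological bundles in a symmetric monoidal category

`F : FCat ⥤ D` braided and homotopy invariant.

* `pF n : sF F n ⟶ gF F n` the projection, `cF n : thF F n ⟶ sF F n ⋙ (- ⊗ F ℝ)` the connecting map;
* `al : F (Gr n I) ⟶ F (GS (n+1) K)`, `be : F (GS (n+1) I) ⟶ F (Gr n I)`, `bF n : sF (n+1) ⟶ gF n`;
* `pt0`, `pt1`, `aug` : the point `Gr 0 I`, the base point of `Gr 1 I`, the augmentation.
-/

set_option linter.unusedSectionVars false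
set_option linter.style.haveILetI false

open CategoryTheory MonoidalCategory Filter Topology OnePoint Matrix

universe v u

noncomputable section

namespace Vale.Agent.P251.G.GS

open LC

/-- the augmentation of the sphere bundle of a line bundle -/
theorem p_gaug_gunit {k : ℕ} (h : 0 + 1 = k) (I : Type) [Fintype I] :
    p k I ≫ gaug k I ≫ gunit I = beta h I := by
  apply LC.hom_ext
  intro s
  rw [app_comp, app_comp, app_p_coe]
  show ((gzeroPt I : Gr 0 I) : OnePoint (Gr 0 I)) = (betaFun h s : Gr 0 I)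
  congr 1
  apply Gr.ext
  exact (eq_zero_of_isProj (betaFun h s).isProj).symm

end Vale.Agent.P251.G.GS

namespace Vale.Agent.P251.M

open G G.LC I

variable {D : Type u} [Category.{v} D] [MonoidalCategory D] [SymmetricCategory D]
variable (F : FCat ⥤ D) [F.Braided] [HInv F]
variable {n m k : ℕ} {I J K L : Type} [Fintype I] [Fintype J] [Fintype K] [Fintype L]
  [DecidableEq I] [DecidableEq J] [DecidableEq K] [DecidableEq L]

/-! ### The projection and the connecting map -/

/-- the projection of the sphere bundle -/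
def pr (n : ℕ) (I : Type) [Fintype I] : ob F (LC.of (GS n I)) ⟶ ob F (GrO n I) :=
  mp F (GS.p n I)

@[reassoc]
theorem sj_pr (h : Fintype.card I ≤ Fintype.card J) :
    sj F n h ≫ pr F n J = pr F n I ≫ gj F n h := by
  rw [pr, pr, sj, gj, ← mp_comp, ← mp_comp, GS.map_p]

/-- the projection of the sphere bundle as a natural transformation -/
def pF (n : ℕ) : sF F n ⟶ gF F n where
  app N := pr F n (Fin N)
  naturality _ _ _ := sj_pr F _

@[simp] theorem pF_app (n N : ℕ) : (pF F n).app N = pr F n (Fin N) := rfl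

/-- the connecting map of the sphere bundle -/
def cr (n : ℕ) (I : Type) [Fintype I] :
    ob F (ThO n I) ⟶ ob F (LC.of (GS n I)) ⊗ ob F RR :=
  mp F (GS.c n I) ≫ (tn F (LC.of (GS n I)) RR).inv

@[reassoc]
theorem tj_cr (h : Fintype.card I ≤ Fintype.card J) :
    tj F n h ≫ cr F n J = cr F n I ≫ (sj F n h ▷ ob F RR) := by
  rw [cr, cr, tj, sj, ← mp_comp_assoc, GS.map_c, mp_comp_assoc, tn_inv_natural_left,
    Category.assoc]

/-- the connecting map as a natural transformation -/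
def cF (n : ℕ) : thF F n ⟶ sF F n ⋙ tensorRight (ob F RR) where
  app N := cr F n (Fin N)
  naturality _ _ _ := tj_cr F _

@[simp] theorem cF_app (n N : ℕ) : (cF F n).app N = cr F n (Fin N) := rfl

/-! ### The maps `α` and `β` -/

/-- `P ↦ (1 ⊕ P, e)` -/
def al (h : n + 1 = k) (hc : Fintype.card I + 1 ≤ Fintype.card K) :
    ob F (GrO n I) ⟶ ob F (LC.of (GS k K)) :=
  mp F (GS.alpha h I) ≫ sj F k (by simpa [add_comm] using hc)

/-- `(P, v) ↦ P - v vᴴ` -/
def be (h : n + 1 = k) (I : Type) [Fintype I] : ob F (LC.of (GS k I)) ⟶ ob F (GrO n I) :=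
  mp F (GS.beta h I)

@[reassoc]
theorem sj_be (h : n + 1 = k) (hI : Fintype.card I ≤ Fintype.card J) :
    sj F k hI ≫ be F h J = be F h I ≫ gj F n hI := by
  rw [be, be, sj, gj, ← mp_comp, ← mp_comp, GS.map_beta]

/-- `β` as a natural transformation -/
def bF (n : ℕ) : sF F (n + 1) ⟶ gF F n where
  app N := be F rfl (Fin N)
  naturality _ _ _ := sj_be F rfl _

@[simp] theorem bF_app (n N : ℕ) : (bF F n).app N = be F rfl (Fin N) := rfl

@[reassoc]
theorem al_be (h : n + 1 = k) (hc : Fintype.card I + 1 ≤ Fintype.card K) :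
    al F h hc ≫ be F h K = gj F n (by omega) := by
  rw [al, Category.assoc, sj_be, be, ← mp_comp_assoc, GS.alpha_beta,
    mp_gmap F _ _ (by simp : Fintype.card I ≤ Fintype.card (Unit ⊕ I)), gj_gj]

@[reassoc]
theorem be_al (h : n + 1 = k) (hc : Fintype.card I + 1 ≤ Fintype.card K) :
    be F h I ≫ al F h hc = sj F k (by omega) := by
  rw [al, be, ← mp_comp_assoc, ← mp_eq F (GS.beta_alpha (I := I) h),
    mp_smap F _ _ (by simp : Fintype.card I ≤ Fintype.card (Unit ⊕ I)), sj_sj]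

/-! ### Points and augmentations -/

/-- `Gr 0 I` is a point -/
def pt0 (I : Type) [Fintype I] : 𝟙_ D ≅ ob F (GrO 0 I) :=
  un F ≪≫ mpIso F (⟨GS.gunit I, GS.gaug 0 I, GS.gunit_gaug I, GS.gaug_gunit I⟩ :
    𝟙_ LC ≅ LC.of (Gr 0 I))

theorem pt0_hom (I : Type) [Fintype I] :
    (pt0 F I).hom = (un F).hom ≫ mp F (GS.gunit I : 𝟙_ LC ⟶ GrO 0 I) := rfl

@[reassoc]
theorem pt0_gj (h : Fintype.card I ≤ Fintype.card J) :
    (pt0 F I).hom ≫ gj F 0 h = (pt0 F J).hom := by
  rw [pt0_hom, pt0_hom, gj, Category.assoc, ← mp_comp, GS.gunit_gmap]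

/-- the base point of projective space -/
def pt1 (h : 1 ≤ Fintype.card I) : 𝟙_ D ⟶ ob F (GrO 1 I) :=
  (un F).hom ≫ mp F GS.pt1 ≫ gj F 1 (by simpa using h)

@[reassoc]
theorem pt1_gj (h : 1 ≤ Fintype.card I) (h' : Fintype.card I ≤ Fintype.card J) :
    pt1 F h ≫ gj F 1 h' = pt1 F (h.trans h') := by
  rw [pt1, pt1, Category.assoc, Category.assoc, gj_gj]

/-- the augmentation -/
def aug (n : ℕ) (I : Type) [Fintype I] : ob F (GrO n I) ⟶ 𝟙_ D :=
  mp F (GS.gaug n I : GrO n I ⟶ 𝟙_ LC) ≫ (un F).inv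

@[reassoc]
theorem gj_aug (h : Fintype.card I ≤ Fintype.card J) :
    gj F n h ≫ aug F n J = aug F n I := by
  rw [aug, aug, gj, ← mp_comp_assoc, GS.gmap_gaug]

@[reassoc]
theorem pt0_aug (I : Type) [Fintype I] [DecidableEq I] :
    (pt0 F I).hom ≫ aug F 0 I = 𝟙 _ := by
  rw [pt0_hom, aug, Category.assoc, ← mp_comp_assoc, GS.gunit_gaug, mp_id, Category.id_comp,
    Iso.hom_inv_id]

@[reassoc]
theorem pt1_aug (h : 1 ≤ Fintype.card I) : pt1 F h ≫ aug F 1 I = 𝟙 _ := by
  have h1 : GS.pt1 ≫ GS.gaug 1 Unit = 𝟙 _ := by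
    apply LC.hom_ext; rintro ⟨⟩
    rfl
  rw [pt1, Category.assoc, Category.assoc, gj_aug, aug, ← mp_comp_assoc, h1, mp_id,
    Category.id_comp, Iso.hom_inv_id]

/-- on the sphere bundle of a line bundle the augmentation is `β` -/
@[reassoc]
theorem pr_aug (h : 0 + 1 = k) (I : Type) [Fintype I] [DecidableEq I] :
    pr F k I ≫ aug F k I ≫ (pt0 F I).hom = be F h I := by
  rw [pt0_hom, aug, pr, be, Category.assoc, Iso.inv_hom_id_assoc, ← mp_comp, ← mp_comp,
    GS.p_gaug_gunit h]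

end Vale.Agent.P251.M
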