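import Vale.Agent.P251.M.Kleisli
import Vale.Agent.P251.M.BUSph
import Vale.Agent.P251.M.Even
import Vale.Agent.P251.I.CofTriangle

/-!
# P251, part M4a: cofibre sequences of spaces and free modules: the Gysin sequence

For a suspension spectrum functor `S : SpaceFunctor T` and a commutative monoid `R` of `T`, put
`FR S R := S.S ⋙ FM.free R : FCat ⥤ FM R`.  A cofibre sequence `A ⟶ B ⟶ C ⟶ A ⊗ ℝ` of finite cell
spaces gives exact sequences of morphisms in `FM R`.  The example we need is the polar square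
`GS n I ⟶ Gr n I ⟶ Th n I ⟶ GS n I ⊗ ℝ`.
-/

open CategoryTheory MonoidalCategory Limits Pretriangulated Topology Matrix
open Functor.LaxMonoidal Functor.OplaxMonoidal Functor.Monoidal

universe v u

set_option linter.unusedSectionVars false

noncomputable section

namespace Vale.Agent.P251.M

open G G.LC I Vale.Agent.P251.T

/-! ### Cofibre sequences in `LC` -/

/-- `A ⟶ B ⟶ C ⟶ A ⊗ ℝ` is the sequence of a mapping cone. -/
structure IsCofSeq {A B C : LC} (f : A ⟶ B) (j : B ⟶ C) (d : C ⟶ A ⊗ RR) : Prop where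
  /-- the pushout square -/
  sq : ∃ k : A ⊗ HH ⟶ C, IsPushout (inclH A) f k j ∧ k ≫ d = A ◁ openPart
  /-- the composite is zero -/
  zero : j ≫ d = 0

theorem IsCofSeq.of_iso₃ {A B C C' : LC} {f : A ⟶ B} {j : B ⟶ C} {d : C ⟶ A ⊗ RR}
    (h : IsCofSeq f j d) (e : C ≅ C') : IsCofSeq f (j ≫ e.hom) (e.inv ≫ d) := by
  obtain ⟨⟨k, hk, hk'⟩, h0⟩ := h
  refine ⟨⟨k ≫ e.hom, ?_, ?_⟩, ?_⟩
  · exact IsPushout.of_iso hk (Iso.refl _) (Iso.refl _) (Iso.refl _) e (by simp) (by simp)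
      (by simp) (by simp)
  · rw [Category.assoc, Iso.hom_inv_id_assoc, hk']
  · rw [Category.assoc, Iso.hom_inv_id_assoc, h0]

/-- The Gysin sequence of a bundle. -/
theorem isCofSeq_polar {X ι : Type} [TopologicalSpace X] [LocallyCompactSpace X] [T2Space X]
    [Fintype ι] (V : Bun X ι) : IsCofSeq V.sphHom V.zeroHom V.polarConn :=
  ⟨⟨V.polarHom, V.isPushout_polar, V.polarHom_conn⟩, V.zeroHom_conn⟩

/-- The Gysin sequence of the tautological bundle. -/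
theorem isCofSeq_gs (n : ℕ) (I : Type) [Fintype I] : IsCofSeq (GS.p n I) (GS.z n I) (GS.c n I) :=
  (isCofSeq_polar (taut n I)).of_iso₃ (GS.toTh n I)

/-! ### Free modules on spaces -/

variable {T : Type u} [Category.{v} T] [Preadditive T] [HasZeroObject T]
    [HasShift T ℤ] [∀ n : ℤ, (shiftFunctor T n).Additive] [Pretriangulated T]
    [MonoidalCategory T] [SymmetricCategory T] [TensorTriangulated T] (S : SpaceFunctor T)
    (R : T) [MonObj R] [IsCommMonObj R]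

/-- the free module on a finite cell space -/
abbrev FR : FCat ⥤ FM R := S.S ⋙ FM.free R

instance hinv_FR : HInv (FR S R) where
  map_eq f g h := congrArg (FM.free R).map (S.map_eq f g h)

/-- `𝟙⟦1⟧` is invertible -/
def shiftInv (T : Type u) [Category.{v} T] [Preadditive T] [HasZeroObject T]
    [HasShift T ℤ] [∀ n : ℤ, (shiftFunctor T n).Additive] [Pretriangulated T]
    [MonoidalCategory T] [SymmetricCategory T] [TensorTriangulated T] :
    (𝟙_ T)⟦(1 : ℤ)⟧ ⊗ (𝟙_ T)⟦(-1 : ℤ)⟧ ≅ 𝟙_ T :=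
  (β_ _ _) ≪≫ TensorTriangulated.e _ ≪≫ (shiftFunctorCompIsoId T (-1 : ℤ) 1 (by norm_num)).app _

instance isInv_RR : IsInv (ob (FR S R) RR) :=
  IsInv.of_inverse (L' := (FM.free R).obj ((𝟙_ T)⟦(-1 : ℤ)⟧))
    ((FM.free R).mapIso (whiskerRightIso S.line ((𝟙_ T)⟦(-1 : ℤ)⟧) ≪≫ shiftInv T))

theorem free_comp_zero {X Y Z : T} {f : X ⟶ Y} {g : Y ⟶ Z} (h : f ≫ g = 0) :
    (FM.free R).map f ≫ (FM.free R).map g = 0 := by
  rw [← Functor.map_comp, h, Functor.map_zero]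

theorem free_exact {Y Z V : T} (g : Y ⟶ Z) (k : Z ⟶ V)
    (hex : ∀ {W : T} (x : W ⟶ R ⊗ Z), x ≫ R ◁ k = 0 → ∃ y : W ⟶ R ⊗ Y, x = y ≫ R ◁ g)
    {W : FM R} (x : W ⟶ (FM.free R).obj Z) (hx : x ≫ (FM.free R).map k = 0) :
    ∃ y : W ⟶ (FM.free R).obj Y, y ≫ (FM.free R).map g = x := by
  have h1 : FM.Hom.hom x ≫ R ◁ k = 0 :=
    (FM.comp_free_map_hom x k).symm.trans (congrArg FM.Hom.hom hx)
  obtain ⟨y, hy⟩ := hex (FM.Hom.hom x) h1
  exact ⟨⟨y⟩, FM.hom_ext ((FM.comp_free_map_hom _ g).trans hy.symm)⟩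

section exact

variable {A B C : LC} [hA : IsFC A] [hB : IsFC B] [hC : IsFC C]

/-- `mp` for the free module functor -/
theorem mp_FR (f : A ⟶ B) : mp (FR S R) f = (FM.free R).map (mp S.S f) := rfl

theorem tn_FR : tn (FR S R) A B = (FM.free R).mapIso (tn S.S A B) :=
  Iso.ext (Category.id_comp _)

theorem tn_FR_inv : (tn (FR S R) A B).inv = (FM.free R).map (tn S.S A B).inv :=
  congrArg Iso.inv (tn_FR S R)

variable {f : A ⟶ B} {j : B ⟶ C} {d : C ⟶ A ⊗ RR} (h : IsCofSeq f j d)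

namespace IsCofSeq

/-- the connecting map in `T` -/
def conn (A : LC) [IsFC A] {C : LC} [IsFC C] (d : C ⟶ A ⊗ RR) :
    ob S.S C ⟶ (ob S.S A)⟦(1 : ℤ)⟧ :=
  mp S.S d ≫ (tn S.S A RR).inv ≫ (ob S.S A ◁ S.line.hom) ≫ (TensorTriangulated.e (ob S.S A)).hom

include h in
theorem distinguished :
    Triangle.mk (mp S.S f) (mp S.S j) (conn S A d) ∈ distTriang T := by
  obtain ⟨⟨k, hk, hk'⟩, h0⟩ := h
  exact S.cone (X := ⟨A, hA.out⟩) (Y := ⟨B, hB.out⟩) (C := ⟨C, hC.out⟩) (FCat.hom f)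
    (FCat.hom j) k hk (FCat.hom d) h0 hk'

/-- the triangle tensored with `R` -/
def tri (f : A ⟶ B) (j : B ⟶ C) (d : C ⟶ A ⊗ RR) : Triangle T :=
  Triangle.mk (R ◁ mp S.S f) (R ◁ mp S.S j)
    ((R ◁ conn S A d) ≫ (R ◁ (TensorTriangulated.e (ob S.S A)).inv) ≫
      (α_ R (ob S.S A) ((𝟙_ T)⟦(1 : ℤ)⟧)).inv ≫ (TensorTriangulated.e (R ⊗ ob S.S A)).hom)

include h in
theorem tri_distinguished : tri S R f j d ∈ distTriang T :=
  TensorTriangulated.distinguished R _ (h.distinguished S)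

/-- the identification of the suspension -/
def susp (A : LC) [IsFC A] : R ⊗ (ob S.S A ⊗ ob S.S RR) ≅ (R ⊗ ob S.S A)⟦(1 : ℤ)⟧ :=
  (α_ _ _ _).symm ≪≫ whiskerLeftIso (R ⊗ ob S.S A) S.line ≪≫ TensorTriangulated.e _

theorem susp_naturality (f : A ⟶ B) :
    R ◁ (mp S.S f ▷ ob S.S RR) ≫ (susp S R B).hom =
      (susp S R A).hom ≫ (R ◁ mp S.S f)⟦(1 : ℤ)⟧' := by
  simp only [susp, Iso.trans_hom, Iso.symm_hom, whiskerLeftIso_hom, Category.assoc]
  rw [← TensorTriangulated.e_naturality, whisker_exchange_assoc,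
    associator_inv_naturality_middle_assoc]

theorem tri_mor₃ : (tri S R f j d).mor₃ =
    R ◁ (mp S.S d ≫ (tn S.S A RR).inv) ≫ (susp S R A).hom := by
  change (R ◁ conn S A d) ≫ _ = _
  simp only [conn, susp, Iso.trans_hom, Iso.symm_hom, whiskerLeftIso_hom, Category.assoc,
    MonoidalCategory.whiskerLeft_comp, whiskerLeft_hom_inv_assoc]
  rw [associator_inv_naturality_right_assoc]

theorem comp_mor₃ {W : T} (x : W ⟶ R ⊗ ob S.S C) :
    x ≫ (tri S R f j d).mor₃ =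
      (x ≫ R ◁ (mp S.S d ≫ (tn S.S A RR).inv)) ≫ (susp S R A).hom :=
  (congrArg (x ≫ ·) (tri_mor₃ S R)).trans (Category.assoc _ _ _).symm

variable (A) in
/-- the connecting map in `FM R` -/
def δ {C : LC} [IsFC C] (d : C ⟶ A ⊗ RR) :
    ob (FR S R) C ⟶ ob (FR S R) A ⊗ ob (FR S R) RR :=
  mp (FR S R) d ≫ (tn (FR S R) A RR).inv

theorem δ_eq (d : C ⟶ A ⊗ RR) :
    δ S R A d = (FM.free R).map (mp S.S d ≫ (tn S.S A RR).inv) :=
  (congrArg (mp (FR S R) d ≫ ·) (tn_FR_inv S R)).trans ((FM.free R).map_comp _ _).symm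

theorem whisker_FR (f : A ⟶ B) : (mp (FR S R) f ▷ ob (FR S R) RR :
    ob (FR S R) A ⊗ ob (FR S R) RR ⟶ _) = (FM.free R).map (mp S.S f ▷ ob S.S RR) :=
  FM.free_whiskerRight _ _

include h in
theorem comp₁ : mp (FR S R) f ≫ mp (FR S R) j = 0 := by
  have h1 : mp S.S f ≫ mp S.S j = 0 := comp_distTriang_mor_zero₁₂ _ (h.distinguished S)
  exact free_comp_zero R h1

include h in
theorem comp₂ : mp (FR S R) j ≫ δ S R A d = 0 := by
  have h1 : mp S.S j ≫ mp S.S d = 0 := by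
    rw [← mp_comp, h.zero]
    exact S.map_zero _ rfl
  have h2 : mp S.S j ≫ (mp S.S d ≫ (tn S.S A RR).inv) = 0 := by
    rw [reassoc_of% h1, zero_comp]
  rw [δ_eq]
  exact free_comp_zero R h2

include h in
theorem comp₃ : δ S R A d ≫ (mp (FR S R) f ▷ ob (FR S R) RR) = 0 := by
  have h1 : conn S A d ≫ (mp S.S f)⟦(1 : ℤ)⟧' = 0 :=
    comp_distTriang_mor_zero₃₁ _ (h.distinguished S)
  have h2 : (mp S.S d ≫ (tn S.S A RR).inv) ≫ mp S.S f ▷ ob S.S RR = 0 := by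
    rw [← cancel_mono (ob S.S B ◁ S.line.hom), ← cancel_mono (TensorTriangulated.e (ob S.S B)).hom,
      zero_comp, zero_comp, ← h1, conn]
    simp only [Category.assoc]
    rw [← TensorTriangulated.e_naturality, whisker_exchange_assoc]
  rw [δ_eq, whisker_FR]
  exact free_comp_zero R h2

include h in
theorem exact₁ {W : FM R} (x : W ⟶ ob (FR S R) B) (hx : x ≫ mp (FR S R) j = 0) :
    ∃ y : W ⟶ ob (FR S R) A, y ≫ mp (FR S R) f = x :=
  free_exact R (mp S.S f) (mp S.S j)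
    (fun x hx => Triangle.coyoneda_exact₂ _ (h.tri_distinguished S R) x hx) x hx

include h in
theorem exact₂ {W : FM R} (x : W ⟶ ob (FR S R) C) (hx : x ≫ δ S R A d = 0) :
    ∃ y : W ⟶ ob (FR S R) B, y ≫ mp (FR S R) j = x := by
  rw [δ_eq] at hx
  refine free_exact R (mp S.S j) (mp S.S d ≫ (tn S.S A RR).inv) (fun x hx => ?_) x hx
  exact Triangle.coyoneda_exact₃ _ (h.tri_distinguished S R) x
    ((comp_mor₃ S R x).trans ((congrArg (· ≫ (susp S R A).hom) hx).trans zero_comp))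

include h in
theorem exact₃ {W : FM R} (x : W ⟶ ob (FR S R) A ⊗ ob (FR S R) RR)
    (hx : x ≫ (mp (FR S R) f ▷ ob (FR S R) RR) = 0) :
    ∃ y : W ⟶ ob (FR S R) C, y ≫ δ S R A d = x := by
  rw [whisker_FR] at hx
  rw [δ_eq]
  refine free_exact R (mp S.S d ≫ (tn S.S A RR).inv) (mp S.S f ▷ ob S.S RR) (fun x hx => ?_) x hx
  have h2 : (x ≫ (susp S R A).hom) ≫ (tri S R f j d).mor₁⟦(1 : ℤ)⟧' = 0 := by
    change (x ≫ (susp S R A).hom) ≫ (R ◁ mp S.S f)⟦(1 : ℤ)⟧' = 0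
    rw [Category.assoc, ← susp_naturality, reassoc_of% hx, zero_comp]
  obtain ⟨y, hy⟩ := Triangle.coyoneda_exact₁ _ (h.tri_distinguished S R) _ h2
  exact ⟨y, (cancel_mono (susp S R A).hom).1 (hy.trans (comp_mor₃ S R y))⟩

end IsCofSeq

end exact

/-! ### The Gysin sequence of the tautological bundle over free modules -/

section gs

variable (n : ℕ) (I : Type) [Fintype I]

theorem pr_zr : pr (FR S R) n I ≫ zr (FR S R) n I = 0 := (isCofSeq_gs n I).comp₁ S R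

theorem zr_cr : zr (FR S R) n I ≫ cr (FR S R) n I = 0 := (isCofSeq_gs n I).comp₂ S R

theorem cr_pr : cr (FR S R) n I ≫ (pr (FR S R) n I ▷ ob (FR S R) RR) = 0 :=
  (isCofSeq_gs n I).comp₃ S R

variable {n I} {W : FM R}

theorem exact_g (x : W ⟶ ob (FR S R) (GrO n I)) (hx : x ≫ zr (FR S R) n I = 0) :
    ∃ y, y ≫ pr (FR S R) n I = x := (isCofSeq_gs n I).exact₁ S R x hx

theorem exact_th (x : W ⟶ ob (FR S R) (ThO n I)) (hx : x ≫ cr (FR S R) n I = 0) :
    ∃ y, y ≫ zr (FR S R) n I = x := (isCofSeq_gs n I).exact₂ S R x hx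

theorem exact_s (x : W ⟶ ob (FR S R) (LC.of (GS n I)) ⊗ ob (FR S R) RR)
    (hx : x ≫ (pr (FR S R) n I ▷ ob (FR S R) RR) = 0) :
    ∃ y, y ≫ cr (FR S R) n I = x := (isCofSeq_gs n I).exact₃ S R x hx

end gs

end Vale.Agent.P251.M
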