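import Vale.Agent.P251.M.BUFun

/-!
# P251, part M: the Thom isomorphism for the sequences of Grassmannians

For `t : ThomStr F`:
* `isIso_sl_of_isEmpty`, `isIso_Theta'`: the Thom map is always an isomorphism (also for `|I| < n`);
* `θF n : thF F n ≅ gF F n ⋙ tensorRight (t.S n)`;
* `gmu`: the direct sum, `zz n N = z ≫ θ` the Euler map: `zz_gmu`, `zz0`.
-/

set_option linter.unusedSectionVars false
set_option linter.style.haveILetI false

open CategoryTheory MonoidalCategory Filter Topology OnePoint Matrix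

universe v u

noncomputable section

namespace Vale.Agent.P251.M

open G G.LC I

variable {D : Type u} [Category.{v} D] [MonoidalCategory D] [SymmetricCategory D]

/-! ### Empty spaces -/

theorem isIso_of_isEmpty {X Y : LC} (hX : IsEmpty X) (hY : IsEmpty Y) (f : X ⟶ Y) : IsIso f := by
  refine ⟨⟨0, ?_, ?_⟩⟩
  · apply LC.hom_ext
    intro x
    exact (hX.false x).elim
  · apply LC.hom_ext
    intro x
    exact (hY.false x).elim

namespace ThomStr

variable {F : FCat ⥤ D} [F.Braided] (t : ThomStr F)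
variable {X Y Z W : LC} [IsFC X] [IsFC Y] [IsFC Z] [IsFC W]
variable {I J K L : Type} [Fintype I] [Fintype J] [Fintype K] [Fintype L] {n m k : ℕ}

theorem isIso_ob_whiskerLeft_mp (hZ : IsEmpty Z) (f : X ⟶ Y) : IsIso (ob F Z ◁ mp F f) := by
  have h1 : ob F Z ◁ mp F f = (tn F Z X).hom ≫ mp F (Z ◁ f) ≫ (tn F Z Y).inv := by
    rw [← tn_natural_right_assoc, Iso.hom_inv_id, Category.comp_id]
  have h2 : IsIso (Z ◁ f) := by
    exact isIso_of_isEmpty (X := Z ⊗ X) (Y := Z ⊗ Y) ⟨fun x : Z × X => hZ.false x.1⟩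
      ⟨fun x : Z × Y => hZ.false x.1⟩ _
  rw [h1]
  infer_instance

theorem isIso_ob_whiskerLeft_th (hZ : IsEmpty Z) (n : ℕ) (I : Type) [Fintype I] :
    IsIso (ob F Z ◁ t.th n I) := by
  classical
  have h1 : IsIso (ob F Z ◁ t.th n (Fin n)) := by
    have h2 := t.th_lin (Fintype.card_fin n)
    have h3 : IsIso (ob F Z ◁ (mp F (Th.incl' (Fintype.card_fin n)) ≫ t.th n (Fin n))) :=
      inferInstance
    rw [whiskerLeft_comp] at h3
    have h4 := isIso_ob_whiskerLeft_mp (F := F) hZ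
      (Th.incl' (Fintype.card_fin n) : LC.of (Fin n → ℂ) ⟶ ThO n (Fin n))
    exact (isIso_comp_left_iff _ _).mp h3
  have h5 : IsIso (ob F Z ◁ t.th n (I ⊕ Fin n)) := by
    have h6 := t.th_map n (injMat (Sum.inr : Fin n → I ⊕ Fin n)) (injMat_isom Sum.inr_injective)
    rw [← h6, whiskerLeft_comp] at h1
    have h7 := isIso_ob_whiskerLeft_mp (F := F) hZ
      (Th.map (n := n) (injMat (Sum.inr : Fin n → I ⊕ Fin n)) (injMat_isom Sum.inr_injective))
    exact (isIso_comp_left_iff _ _).mp h1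
  have h6 := t.th_map n (injMat (Sum.inl : I → I ⊕ Fin n)) (injMat_isom Sum.inl_injective)
  have h7 := isIso_ob_whiskerLeft_mp (F := F) hZ
      (Th.map (n := n) (injMat (Sum.inl : I → I ⊕ Fin n)) (injMat_isom Sum.inl_injective))
  rw [← h6, whiskerLeft_comp]
  infer_instance

/-- The Thom isomorphism, without the assumption `n ≤ |I|`. -/
theorem isIso_Theta' (V : Bun Z I) [IsFC V.tot] (hV : V.IsRank n) : IsIso (t.Theta V hV) := by
  by_cases hZ : IsEmpty Z
  · have h1 : IsIso (thomMor V hV) := by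
      exact isIso_of_isEmpty (X := V.tot) (Y := Z ⊗ ThO n I) ⟨fun x : V.E => hZ.false (Bun.base x)⟩
        ⟨fun x : Z × Th n I => hZ.false x.1⟩ _
    have h2 := t.isIso_ob_whiskerLeft_th hZ n I
    rw [Theta, sl]
    infer_instance
  · rw [not_isEmpty_iff] at hZ
    obtain ⟨z⟩ := hZ
    classical
    exact t.isIso_Theta V hV (V.isProj hV z).le_card

theorem isIso_TT' (n : ℕ) (I : Type) [Fintype I] : IsIso (t.TT n I) := by
  have h1 := t.isIso_Theta' (Z := GrO n I) (taut n I) (taut_isRank n I)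
  rw [t.Theta_taut] at h1
  exact (isIso_comp_left_iff _ _).mp h1

end ThomStr

/-! ### The sequences -/

section gmu

variable (F : FCat ⥤ D) [F.Braided] [HInv F]
variable {n m k : ℕ} {I J K I' J' K' : Type} [Fintype I] [Fintype J] [Fintype K] [Fintype I']
  [Fintype J'] [Fintype K'] [DecidableEq I] [DecidableEq J] [DecidableEq K] [DecidableEq I']
  [DecidableEq J'] [DecidableEq K']

/-- The direct sum of Grassmannians. -/
def gmu (h : n + m = k) (hc : Fintype.card I + Fintype.card J ≤ Fintype.card K) :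
    ob F (GrO n I) ⊗ ob F (GrO m J) ⟶ ob F (GrO k K) :=
  (tn F (GrO n I) (GrO m J)).hom ≫ mp F (GS.gsum h) ≫ gj F k (Thh.card_sum_le hc)

/-- Naturality of the direct sum. -/
@[reassoc]
theorem gmu_naturality (h : n + m = k) (hI : Fintype.card I ≤ Fintype.card I')
    (hJ : Fintype.card J ≤ Fintype.card J') (hK : Fintype.card K ≤ Fintype.card K')
    (hc : Fintype.card I + Fintype.card J ≤ Fintype.card K)
    (hc' : Fintype.card I' + Fintype.card J' ≤ Fintype.card K') :
    (gj F n hI ⊗ₘ gj F m hJ) ≫ gmu F h hc' = gmu F h hc ≫ gj F k hK := by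
  rw [gmu, gmu, gj, gj, tn_natural_assoc, ← mp_comp_assoc, GS.gsum_naturality, mp_comp_assoc,
    mp_gmap F _ _ (Thh.card_sum_le_sum hI hJ)]
  simp only [Category.assoc]
  rw [gj_gj, gj_gj]

@[reassoc]
theorem gmu_gj {L : Type} [Fintype L] [DecidableEq L] (h : n + m = k)
    (hc : Fintype.card I + Fintype.card J ≤ Fintype.card K)
    (hL : Fintype.card K ≤ Fintype.card L) :
    gmu F h hc ≫ gj F k hL = gmu F h (hc.trans hL) := by
  rw [gmu, gmu, Category.assoc, Category.assoc, gj_gj]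

end gmu

namespace ThomStr

variable {F : FCat ⥤ D} [F.Braided] [HInv F] (t : ThomStr F)
variable {n m k : ℕ} {I J K : Type} [Fintype I] [Fintype J] [Fintype K]
  [DecidableEq I] [DecidableEq J] [DecidableEq K]

@[reassoc]
theorem tj_TT (h : Fintype.card I ≤ Fintype.card J) :
    tj F n h ≫ t.TT n J = t.TT n I ≫ (gj F n h ▷ t.S n) :=
  t.TT_map (chosenIsom h) (chosenIsom_spec h) _ (isGrMap_gmap _ _)

/-- The Thom isomorphism of the sequences. -/
def θF (n : ℕ) : thF F n ≅ gF F n ⋙ tensorRight (t.S n) :=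
  NatIso.ofComponents (fun N =>
    haveI := t.isIso_TT' n (Fin N)
    (asIso (t.TT n (Fin N)) : ob F (ThO n (Fin N)) ≅ ob F (GrO n (Fin N)) ⊗ t.S n))
    (fun f => t.tj_TT (by simpa using leOfHom f))

theorem θF_app (n N : ℕ) : (t.θF n).hom.app N = t.TT n (Fin N) := rfl

/-- The Euler map of the tautological bundle. -/
def zz (n : ℕ) (I : Type) [Fintype I] : ob F (GrO n I) ⟶ ob F (GrO n I) ⊗ t.S n :=
  zr F n I ≫ t.TT n I

theorem zz_eq_EE : t.zz n I = t.EE n I := by rw [zz, EE, zr, zeroHom_eq_z]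

theorem zF_θF (n N : ℕ) : (zF F n).app N ≫ (t.θF n).hom.app N = t.zz n (Fin N) := rfl

/-- The Euler map is natural. -/
@[reassoc]
theorem gj_zz (h : Fintype.card I ≤ Fintype.card J) :
    gj F n h ≫ t.zz n J = t.zz n I ≫ (gj F n h ▷ t.S n) := by
  rw [zz, ← zr_tj_assoc, t.tj_TT, zz, Category.assoc]

/-- The Euler map is multiplicative. -/
theorem zz_gmu (h : n + m = k) (hc : Fintype.card I + Fintype.card J ≤ Fintype.card K) :
    (t.zz n I ⊗ₘ t.zz m J) ≫ tensorμ (ob F (GrO n I)) (t.S n) (ob F (GrO m J)) (t.S m) ≫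
        (gmu F h hc ⊗ₘ (t.mu h).hom) = gmu F h hc ≫ t.zz k K := by
  have e1 : gmu F h hc ≫ t.zz k K =
      (zr F n I ⊗ₘ zr F m J) ≫ ((tn F (ThO n I) (ThO m J)).hom ≫ mp F (Th.sum h) ≫
        t.TT k (I ⊕ J)) ≫ (gj F k (Thh.card_sum_le hc) ▷ t.S k) := by
    rw [gmu, Category.assoc, Category.assoc, t.gj_zz, zz, Category.assoc]
    have e2 : (tn F (GrO n I) (GrO m J)).hom ≫ mp F (GS.gsum h) ≫ zr F k (I ⊕ J) =
        (zr F n I ⊗ₘ zr F m J) ≫ (tn F (ThO n I) (ThO m J)).hom ≫ mp F (Th.sum h) := by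
      rw [zr, zr, zr, ← mp_comp, ← GS.z_sum, tn_natural_assoc, mp_comp]
    rw [reassoc_of% e2]
    simp only [Category.assoc]
  have e3 := t.TT_sum (I := I) (J := J) h (GS.gsum h) (isGrSum_gsum h)
  rw [e1, e3, zz, zz, ← tensorHom_comp_tensorHom]
  simp only [Category.assoc]
  rw [← tensorHom_id (gj F k _) (t.S k), tensorHom_comp_tensorHom, Category.comp_id, gmu,
    Category.assoc]

/-- The Euler map of the zero bundle. -/
theorem zz0 : t.zz 0 I = (ρ_ (ob F (GrO 0 I))).inv ≫ ob F (GrO 0 I) ◁ t.S0 := by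
  have h1 : GS.z 0 I ≫ Th.delta = (ρ_ (GrO 0 I)).inv ≫ (GrO 0 I ◁ Th.unit I) := by
    rw [Iso.eq_inv_comp]
    apply tensor_ext
    rintro x ⟨⟩
    have h2 : Gr.zero x = Th.zeroPt I := by
      apply Th.ext
      · exact GS.eq_zero_of_isProj x.isProj
      · rfl
    rw [app_comp, app_rightUnitor_smash, app_whiskerLeft_smash, app_comp]
    change smash (x : OnePoint (Gr 0 I)) ((Gr.zero x : Th 0 I) : OnePoint (Th 0 I)) =
      smash (x : OnePoint (Gr 0 I)) ((Th.zeroPt I : Th 0 I) : OnePoint (Th 0 I))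
    rw [h2]
  have h3 : mp F (ρ_ (GrO 0 I)).inv ≫ (tn F (GrO 0 I) (𝟙_ LC)).inv =
      (ρ_ (ob F (GrO 0 I))).inv ≫ (ob F (GrO 0 I) ◁ (un F).hom) := by
    rw [← cancel_epi (ρ_ (ob F (GrO 0 I))).hom, Iso.hom_inv_id_assoc,
      ← tn_rightUnitor F (X := GrO 0 I)]
    simp only [Category.assoc]
    rw [← mp_comp_assoc, Iso.hom_inv_id, mp_id, Category.id_comp, Iso.hom_inv_id, Category.comp_id]
  rw [zz, zr, TT, ← t.sl_comp, h1, sl, mp_comp, Category.assoc, tn_inv_natural_right_assoc,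
    reassoc_of% h3, ← whiskerLeft_comp, ← whiskerLeft_comp, t.un_unit_th]

end ThomStr

end Vale.Agent.P251.M
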