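import Vale.Agent.P251.M.BUData
import Vale.Agent.P251.M.BUTheta
import Vale.Agent.P251.M.BUGysin

/-!
# P251, part M4a: the instance of `BUData` over free modules

* `SphCompat t A`: the spheres of the Thom structure `t : ThomStr F` are those of `A : SphD D`;
* `buData S R t A c : BUData (FM R)` for `t : ThomStr (FR S R)`.
-/

set_option linter.unusedSectionVars false
set_option linter.style.haveILetI false

open CategoryTheory MonoidalCategory Limits Pretriangulated Matrix

universe v u

noncomputable section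

namespace Vale.Agent.P251.M

open G G.LC I Vale.Agent.P251.T

section general

variable {D : Type u} [Category.{v} D] [MonoidalCategory D] [SymmetricCategory D]
variable (F : FCat ⥤ D) [F.Braided] [HInv F]
variable {n m k : ℕ} {I J K L : Type} [Fintype I] [Fintype J] [Fintype K] [Fintype L]
  [DecidableEq I] [DecidableEq J] [DecidableEq K] [DecidableEq L]

/-- the unit of the direct sum -/
theorem pt0_gmu (h : n + 0 = n) (hc : Fintype.card I + Fintype.card J ≤ Fintype.card K) :
    (ob F (GrO n I) ◁ (pt0 F J).hom) ≫ gmu F h hc =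
      (ρ_ (ob F (GrO n I))).hom ≫ gj F n (by omega) := by
  rw [pt0_hom, gmu, whiskerLeft_comp, Category.assoc, tn_natural_right_assoc,
    ← mp_comp_assoc, GS.gsum_gunit, mp_comp_assoc, tn_rightUnitor_assoc,
    mp_gmap F _ _ (by simp : Fintype.card I ≤ Fintype.card (I ⊕ J)), gj_gj]

/-- `α` followed by the projection -/
theorem al_pr (h : n + 1 = k) (h' : 1 + n = k) (hc : Fintype.card I + 1 ≤ Fintype.card K)
    (hJ : 1 ≤ Fintype.card J) (hc' : Fintype.card J + Fintype.card I ≤ Fintype.card K) :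
    al F h hc ≫ pr F k K = (λ_ (ob F (GrO n I))).inv ≫ (pt1 F hJ ▷ ob F (GrO n I)) ≫
      gmu F h' hc' := by
  have e1 : (pt1 F hJ ▷ ob F (GrO n I)) ≫ gmu F h' hc' =
      (((un F).hom ≫ mp F GS.pt1) ▷ ob F (GrO n I)) ≫
        gmu F h' (I := Unit) (by simpa [add_comm] using hc) := by
    have e2 := gmu_naturality F (n := 1) (m := n) h' (I := Unit) (J := I) (K := K) (I' := J)
      (J' := I) (K' := K) (by simpa using hJ) le_rfl le_rfl (by simpa [add_comm] using hc) hc'
    rw [gj_refl, gj_refl, Category.comp_id, tensorHom_id] at e2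
    rw [pt1, ← Category.assoc, comp_whiskerRight, Category.assoc, e2]
  have e3 : mp F (λ_ (GrO n I)).inv =
      (λ_ (ob F (GrO n I))).inv ≫ ((un F).hom ▷ ob F (GrO n I)) ≫
        (tn F (𝟙_ LC) (GrO n I)).hom := by
    rw [← cancel_mono (mp F (λ_ (GrO n I)).hom), ← mp_comp, Iso.inv_hom_id, mp_id,
      Category.assoc, Category.assoc, tn_leftUnitor, Iso.inv_hom_id]
  rw [e1, al, Category.assoc, sj_pr, pr, ← mp_comp_assoc, GS.alpha_p h h', mp_comp, mp_comp, e3,
    gmu, comp_whiskerRight]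
  simp only [Category.assoc]
  rw [tn_natural_left_assoc]

end general

/-- The spheres of a Thom structure are given by coherent spheres. -/
structure SphCompat {D : Type u} [Category.{v} D] [MonoidalCategory D] [SymmetricCategory D]
    {F : FCat ⥤ D} [F.Braided] (t : ThomStr F) (A : SphD D) where
  /-- the isomorphisms -/
  e (n : ℕ) : t.S n ≅ A.S n
  e_mu {n m k : ℕ} (h : n + m = k) (h' : (n : ℤ) + m = k) :
    ((e n).hom ⊗ₘ (e m).hom) ≫ (A.mu n m k h').hom = (t.mu h).hom ≫ (e k).hom

namespace SphCompat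

variable {D : Type u} [Category.{v} D] [MonoidalCategory D] [SymmetricCategory D]
    {F : FCat ⥤ D} [F.Braided] {t : ThomStr F} {A : SphD D} (c : SphCompat t A)

theorem e_zero : t.S0 ≫ (c.e 0).hom = A.e0.hom := by
  have h1 := A.e0_mu 0 rfl
  have h2 : A.e0.hom ≫ (c.e 0).inv = t.S0 := by
    refine t.eq_S0 _ rfl ?_
    have h3 := c.e_mu (n := 0) (m := 0) (k := 0) rfl rfl
    rw [← cancel_mono (c.e 0).hom, Category.assoc, ← h3, tensorHom_comp_tensorHom_assoc,
      Category.assoc, Iso.inv_hom_id, Category.comp_id, Category.assoc, Category.assoc,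
      Iso.inv_hom_id, Category.comp_id, tensorHom_def', Category.assoc]
    rw [← leftUnitor_naturality]
    congr 1
  rw [← h2, Category.assoc, Iso.inv_hom_id, Category.comp_id]

/-- the Thom isomorphism with the spheres of `A` -/
def θ [HInv F] (n : ℕ) : thF F n ≅ gF F n ⋙ tensorRight (A.S n) :=
  t.θF n ≪≫ Functor.isoWhiskerLeft (gF F n) ((curriedTensor D).flip.mapIso (c.e n))

/-- the Euler map with the spheres of `A` -/
def zA [HInv F] (n : ℕ) (I : Type) [Fintype I] : ob F (GrO n I) ⟶ ob F (GrO n I) ⊗ A.S n :=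
  t.zz n I ≫ (ob F (GrO n I) ◁ (c.e n).hom)

theorem z_θ [HInv F] (n N : ℕ) : (zF F n).app N ≫ (c.θ n).hom.app N = c.zA n (Fin N) :=
  (Category.assoc _ _ _).symm

theorem zA_gmu [HInv F] {n m k : ℕ} (h : n + m = k) (h' : (n : ℤ) + m = k) {I J K : Type}
    [Fintype I] [Fintype J] [Fintype K] [DecidableEq I] [DecidableEq J] [DecidableEq K]
    (hc : Fintype.card I + Fintype.card J ≤ Fintype.card K) :
    (c.zA n I ⊗ₘ c.zA m J) ≫ tensorμ (ob F (GrO n I)) (A.S n) (ob F (GrO m J)) (A.S m) ≫
        (gmu F h hc ⊗ₘ (A.mu n m k h').hom) =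
      gmu F h hc ≫ c.zA k K := by
  have e1 : (ob F (GrO n I) ◁ (c.e n).hom ⊗ₘ ob F (GrO m J) ◁ (c.e m).hom) ≫
      tensorμ (ob F (GrO n I)) (A.S n) (ob F (GrO m J)) (A.S m) =
      tensorμ (ob F (GrO n I)) (t.S n) (ob F (GrO m J)) (t.S m) ≫
        ((ob F (GrO n I) ⊗ ob F (GrO m J)) ◁ ((c.e n).hom ⊗ₘ (c.e m).hom)) := by
    rw [← id_tensorHom, ← id_tensorHom, tensorμ_natural, id_tensorHom_id, id_tensorHom]
  have e2 := congrArg (· ≫ (ob F (GrO k K) ◁ (c.e k).hom)) (t.zz_gmu (I := I) (J := J) (K := K) h hc)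
  simp only [Category.assoc] at e2
  rw [zA, zA, zA, ← tensorHom_comp_tensorHom, Category.assoc, reassoc_of% e1,
    whiskerLeft_comp_tensorHom, c.e_mu h h', ← e2, tensorHom_comp_whiskerLeft]

theorem zA0 [HInv F] (I : Type) [Fintype I] [DecidableEq I] :
    c.zA 0 I = (ρ_ (ob F (GrO 0 I))).inv ≫ ob F (GrO 0 I) ◁ A.e0.hom := by
  rw [zA, t.zz0, Category.assoc, ← whiskerLeft_comp, c.e_zero]

end SphCompat

/-! ### The instance -/

variable {T : Type u} [Category.{v} T] [Preadditive T] [HasZeroObject T]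
    [HasShift T ℤ] [∀ n : ℤ, (shiftFunctor T n).Additive] [Pretriangulated T]
    [MonoidalCategory T] [SymmetricCategory T] [TensorTriangulated T] (S : SpaceFunctor T)
    (R : T) [MonObj R] [IsCommMonObj R]

/-- The data for the computation of the `R`-homology of `BU(n)`. -/
def buData {t : ThomStr (FR S R)} {A : SphD (FM R)} (c : SphCompat t A) : BUData (FM R) where
  toSphD := A
  g := gF (FR S R)
  th := thF (FR S R)
  s := sF (FR S R)
  z := zF (FR S R)
  p := pF (FR S R)
  R1 := ob (FR S R) RR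
  inv_R1 := isInv_RR S R
  c := cF (FR S R)
  p_z n := by
    apply NatTrans.ext
    funext N
    exact pr_zr S R n (Fin N)
  z_c n := by
    apply NatTrans.ext
    funext N
    exact zr_cr S R n (Fin N)
  c_p n N := cr_pr S R n (Fin N)
  ex_g n N x hx := exact_g S R x hx
  ex_th n N x hx := exact_th S R x hx
  ex_s n N x hx := exact_s S R x hx
  θ := c.θ
  gmu {n m k} h {N M K} hK := gmu (FR S R) h (by simpa using hK)
  gmu_map {n m k} h {N M K N' M' K'} hK hK' hN hM hKK :=
    gmu_naturality (FR S R) h (by simpa using hN) (by simpa using hM) (by simpa using hKK)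
      (by simpa using hK) (by simpa using hK')
  zz_mu {n m k} h h' {N M K} hK := by
    rw [c.z_θ, c.z_θ, c.z_θ]
    exact c.zA_gmu h h' _
  zz0 N := (c.z_θ 0 N).trans (c.zA0 (Fin N))
  pt0 N := pt0 (FR S R) (Fin N)
  pt0_map {N M} h := pt0_gj (FR S R) _
  pt1 := pt1 (FR S R) (I := Fin 1) (by simp)
  aug N := aug (FR S R) 1 (Fin N)
  aug_map {N M} h := gj_aug (FR S R) _
  pt1_aug := pt1_aug (FR S R) _
  gmu_pt0 {n N M K} hK hK' := pt0_gmu (FR S R) _ _
  a n N := al (FR S R) rfl (by simp)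
  b := bF (FR S R)
  a_b n N := al_be (FR S R) rfl _
  b_a n N := be_al (FR S R) rfl _
  a_p n N := al_pr (FR S R) rfl _ _ _ _
  p_aug N := pr_aug (FR S R) rfl (Fin N)

end Vale.Agent.P251.M
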