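import Vale.Agent.P251.M.BUData
import Mathlib.CategoryTheory.Monoidal.CoherenceLemmas

/-!
# P251, part M: the homology of `BU(n)` from the abstract data
-/

open CategoryTheory MonoidalCategory Limits

universe v u

noncomputable section

namespace Vale.Agent.P251.M

open CH

namespace BUData

variable {D : Type u} [Category.{v} D] [Preadditive D] [MonoidalCategory D]
    [SymmetricCategory D] [MonoidalPreadditive D] (B : BUData D)

/-- zero section followed by the Thom isomorphism -/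
def zz (n : ℕ) : B.g n ⟶ B.g n ⋙ tensorRight (B.S n) := B.z n ≫ (B.θ n).hom

theorem zz_app (n N : ℕ) : (B.zz n).app N = (B.z n).app N ≫ (B.θ n).hom.app N := rfl

/-- the cap product with the Euler class -/
def PhiT {W : D} (n : ℕ) : CH W (B.g n) →+ CH W (B.g n ⋙ tensorRight (B.S n)) := CH.map (B.zz n)

theorem PhiT_cls {W : D} (n N : ℕ) (x : W ⟶ (B.g n).obj N) :
    B.PhiT n (cls N x) = cls N (x ≫ (B.zz n).app N) := rfl

theorem PhiT_pre {W W' : D} (n : ℕ) (f : W' ⟶ W) (x : CH W (B.g n)) :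
    B.PhiT n (pre f x) = pre f (B.PhiT n x) := map_pre _ _ _

/-! ### Products -/

/-- the product, auxiliary form -/
def mulAux {W V : D} {n m k : ℕ} (h : n + m = k) (N : ℕ) (x : W ⟶ (B.g n).obj N) :
    CH V (B.g m) →+ CH (W ⊗ V) (B.g k) :=
  CH.lift (fun M => AddMonoidHom.mk' (fun y => cls (N + M) ((x ⊗ₘ y) ≫ B.gmu h le_rfl))
    (fun y y' => by
      rw [show x ⊗ₘ (y + y') = (x ⊗ₘ y) + (x ⊗ₘ y') by simp [tensorHom_def],
        Preadditive.add_comp, map_add]))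
    (fun M M' hM y => by
      simp only [AddMonoidHom.mk'_apply]
      have e : (x ⊗ₘ (y ≫ (B.g m).map (homOfLE hM))) ≫ B.gmu h le_rfl =
          ((x ⊗ₘ y) ≫ B.gmu h le_rfl) ≫ (B.g k).map (homOfLE (Nat.add_le_add_left hM N)) := by
        rw [Category.assoc, ← B.gmu_map h le_rfl le_rfl le_rfl hM (Nat.add_le_add_left hM N),
          ← Category.assoc, tensorHom_comp_tensorHom,
          show (B.g n).map (homOfLE (le_refl N)) = 𝟙 _ from (B.g n).map_id N, Category.comp_id]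
      rw [e, cls_map])

@[simp] theorem mulAux_cls {W V : D} {n m k : ℕ} (h : n + m = k) (N : ℕ)
    (x : W ⟶ (B.g n).obj N) (M : ℕ) (y : V ⟶ (B.g m).obj M) :
    B.mulAux h N x (cls M y) = cls (N + M) ((x ⊗ₘ y) ≫ B.gmu h le_rfl) := rfl

/-- the product `E_*(BU(n)) ⊗ E_*(BU(m)) ⟶ E_*(BU(k))`, `n + m = k` -/
def mul {W V : D} {n m k : ℕ} (h : n + m = k) :
    CH W (B.g n) →+ CH V (B.g m) →+ CH (W ⊗ V) (B.g k) :=
  CH.lift (fun N => AddMonoidHom.mk' (fun x => B.mulAux h N x)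
    (fun x x' => by
      ext b
      obtain ⟨M, y, rfl⟩ := exists_cls b
      rw [AddMonoidHom.add_apply, mulAux_cls, mulAux_cls, mulAux_cls,
        show (x + x') ⊗ₘ y = (x ⊗ₘ y) + (x' ⊗ₘ y) by simp [tensorHom_def],
        Preadditive.add_comp, map_add]))
    (fun N N' hN x => by
      ext b
      obtain ⟨M, y, rfl⟩ := exists_cls b
      simp only [AddMonoidHom.mk'_apply, mulAux_cls]
      have e : ((x ≫ (B.g n).map (homOfLE hN)) ⊗ₘ y) ≫ B.gmu h le_rfl =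
          ((x ⊗ₘ y) ≫ B.gmu h le_rfl) ≫ (B.g k).map (homOfLE (Nat.add_le_add_right hN M)) := by
        rw [Category.assoc, ← B.gmu_map h le_rfl le_rfl hN le_rfl (Nat.add_le_add_right hN M),
          ← Category.assoc, tensorHom_comp_tensorHom,
          show (B.g m).map (homOfLE (le_refl M)) = 𝟙 _ from (B.g m).map_id M, Category.comp_id]
      rw [e, cls_map])

theorem gmu_eq {n m k : ℕ} (h : n + m = k) {N M K K' : ℕ} (hK : N + M ≤ K) (hK' : K ≤ K') :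
    B.gmu h hK ≫ (B.g k).map (homOfLE hK') =
      (B.gmu h (hK.trans hK') : (B.g n).obj N ⊗ (B.g m).obj M ⟶ _) := by
  rw [← B.gmu_map h hK (hK.trans hK') le_rfl le_rfl hK']
  rw [show (B.g n).map (homOfLE (le_refl N)) = 𝟙 _ from (B.g n).map_id N,
    show (B.g m).map (homOfLE (le_refl M)) = 𝟙 _ from (B.g m).map_id M, id_tensorHom_id,
    Category.id_comp]

theorem mul_cls {W V : D} {n m k : ℕ} (h : n + m = k) {N M K : ℕ} (hK : N + M ≤ K)
    (x : W ⟶ (B.g n).obj N) (y : V ⟶ (B.g m).obj M) :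
    B.mul h (cls N x) (cls M y) = cls K ((x ⊗ₘ y) ≫ B.gmu h hK) := by
  have e : (x ⊗ₘ y) ≫ B.gmu h hK = ((x ⊗ₘ y) ≫ B.gmu h le_rfl) ≫ (B.g k).map (homOfLE hK) := by
    rw [Category.assoc, gmu_eq]
  rw [e, cls_map]
  rfl

theorem mul_pre {W V W' V' : D} {n m k : ℕ} (h : n + m = k) (f : W' ⟶ W) (g : V' ⟶ V)
    (x : CH W (B.g n)) (y : CH V (B.g m)) :
    B.mul h (pre f x) (pre g y) = pre (f ⊗ₘ g) (B.mul h x y) := by
  obtain ⟨N, x, rfl⟩ := exists_cls x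
  obtain ⟨M, y, rfl⟩ := exists_cls y
  rw [pre_cls, pre_cls, B.mul_cls h le_rfl, B.mul_cls h le_rfl, pre_cls,
    ← tensorHom_comp_tensorHom, Category.assoc]

theorem mul_pre_left {W V W' : D} {n m k : ℕ} (h : n + m = k) (f : W' ⟶ W)
    (x : CH W (B.g n)) (y : CH V (B.g m)) :
    B.mul h (pre f x) y = pre (f ▷ V) (B.mul h x y) := by
  have := B.mul_pre h f (𝟙 V) x y
  rwa [pre_id, tensorHom_id] at this

theorem mul_pre_right {W V V' : D} {n m k : ℕ} (h : n + m = k) (g : V' ⟶ V)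
    (x : CH W (B.g n)) (y : CH V (B.g m)) :
    B.mul h x (pre g y) = pre (W ◁ g) (B.mul h x y) := by
  have := B.mul_pre h (𝟙 W) g x y
  rwa [pre_id, id_tensorHom] at this

/-- The Euler class is multiplicative. -/
theorem PhiT_mul {W V W' V' : D} {n m k : ℕ} (h : n + m = k) (h' : (n : ℤ) + m = k)
    (f : W ⟶ W' ⊗ B.S n) (g : V ⟶ V' ⊗ B.S m) (x : CH W (B.g n)) (y : CH V (B.g m))
    (x' : CH W' (B.g n)) (y' : CH V' (B.g m)) (hx : B.PhiT n x = pre f (tens (B.S n) x'))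
    (hy : B.PhiT m y = pre g (tens (B.S m) y')) :
    B.PhiT k (B.mul h x y) = pre ((f ⊗ₘ g) ≫ tensorμ W' (B.S n) V' (B.S m) ≫
      ((W' ⊗ V') ◁ (B.mu n m k h').hom)) (tens (B.S k) (B.mul h x' y')) := by
  -- representatives at a common stage
  obtain ⟨N, x, x', rfl, rfl⟩ := exists_cls₂ x x'
  obtain ⟨M, y, y', rfl, rfl⟩ := exists_cls₂ y y'
  rw [PhiT_cls, tens_cls, pre_cls, cls_eq_iff] at hx hy
  obtain ⟨N', hN, hN', ex⟩ := hx
  obtain ⟨M', hM, hM', ey⟩ := hy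
  have ex' : (x ≫ (B.g n).map (homOfLE hN)) ≫ (B.zz n).app N' =
      f ≫ (x' ≫ (B.g n).map (homOfLE hN)) ▷ B.S n := by
    rw [Category.assoc, (B.zz n).naturality, ← Category.assoc, ex, comp_whiskerRight,
      Category.assoc]
    rfl
  have ey' : (y ≫ (B.g m).map (homOfLE hM)) ≫ (B.zz m).app M' =
      g ≫ (y' ≫ (B.g m).map (homOfLE hM)) ▷ B.S m := by
    rw [Category.assoc, (B.zz m).naturality, ← Category.assoc, ey, comp_whiskerRight,
      Category.assoc]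
    rfl
  rw [← cls_map hN x, ← cls_map hN x', ← cls_map hM y, ← cls_map hM y']
  generalize x ≫ (B.g n).map (homOfLE hN) = x at ex' ⊢
  generalize x' ≫ (B.g n).map (homOfLE hN) = x' at ex' ⊢
  generalize y ≫ (B.g m).map (homOfLE hM) = y at ey' ⊢
  generalize y' ≫ (B.g m).map (homOfLE hM) = y' at ey' ⊢
  rw [B.mul_cls h le_rfl, B.mul_cls h le_rfl, PhiT_cls, tens_cls, pre_cls]
  refine congrArg _ ?_
  rw [zz_app] at ex' ey' ⊢
  rw [Category.assoc, ← B.zz_mu h h', tensorHom_comp_tensorHom_assoc, ex', ey',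
    ← tensorHom_comp_tensorHom]
  simp only [Category.assoc]
  rw [← tensorHom_id x', ← tensorHom_id y', tensorμ_natural_assoc, id_tensorHom_id,
    tensorHom_comp_tensorHom, Category.id_comp,
    tensorHom_def' ((x' ⊗ₘ y') ≫ B.gmu h le_rfl) (B.mu n m k h').hom]

/-! ### Exactness -/

/-- multiplication by the base point of projective space -/
def jj {W : D} (n : ℕ) : CH W (B.g n) →+ CH W (B.g (n + 1)) :=
  (pre (λ_ W).inv).comp (B.mul (Nat.add_comm 1 n) (cls 1 B.pt1))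

theorem jj_def {W : D} (n : ℕ) (x : CH W (B.g n)) :
    B.jj n x = pre (λ_ W).inv (B.mul (Nat.add_comm 1 n) (cls 1 B.pt1) x) := rfl

theorem jj_cls {W : D} (n N : ℕ) (x : W ⟶ (B.g n).obj N) :
    B.jj n (cls N x) = cls (N + 1) (x ≫ B.a n N ≫ (B.p (n + 1)).app (N + 1)) := by
  rw [jj_def, B.mul_cls _ (Nat.add_comm 1 N).le, pre_cls, B.a_p, tensorHom_def', Category.assoc,
    leftUnitor_inv_naturality_assoc]

theorem jj_pre {W W' : D} (n : ℕ) (f : W' ⟶ W) (x : CH W (B.g n)) :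
    B.jj n (pre f x) = pre f (B.jj n x) := by
  rw [jj_def, jj_def, mul_pre_right, ← pre_comp, ← pre_comp, leftUnitor_inv_naturality]

theorem PhiT_jj {W : D} (n : ℕ) (x : CH W (B.g n)) : B.PhiT (n + 1) (B.jj n x) = 0 := by
  obtain ⟨N, x, rfl⟩ := exists_cls x
  have h : (B.p (n + 1)).app (N + 1) ≫ (B.z (n + 1)).app (N + 1) = 0 := by
    rw [← NatTrans.comp_app, B.p_z, zero_app]
  rw [jj_cls, PhiT_cls, zz_app, Category.assoc, Category.assoc, reassoc_of% h, zero_comp,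
    comp_zero, comp_zero, map_zero]

theorem exists_jj {W : D} (n : ℕ) (x : CH W (B.g (n + 1))) (hx : B.PhiT (n + 1) x = 0) :
    ∃ y, B.jj n y = x := by
  obtain ⟨N, x, rfl⟩ := exists_cls x
  rw [PhiT_cls, cls_eq_zero_iff] at hx
  obtain ⟨M, hM, e⟩ := hx
  rw [Category.assoc, ← (B.zz (n + 1)).naturality, ← Category.assoc, zz_app,
    ← Category.assoc] at e
  have e' := (cancel_mono ((B.θ (n + 1)).hom.app M)).1 (e.trans zero_comp.symm)
  obtain ⟨y, hy⟩ := B.ex_g (n + 1) M _ e'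
  refine ⟨cls M (y ≫ (B.b n).app M), ?_⟩
  rw [jj_cls, Category.assoc, reassoc_of% (B.b_a n M), (B.p (n + 1)).naturality,
    reassoc_of% hy, ← Category.assoc, cls_map, cls_map]

/-- Exactness at `CH W (B.g n)`. -/
theorem eq_zero_of_jj {W : D} (n : ℕ)
    (hs : ∀ y : CH (W ⊗ B.R1) (B.g (n + 1) ⋙ tensorRight (B.S ((n + 1 : ℕ) : ℤ))),
      ∃ x, B.PhiT (n + 1) x = y)
    (x : CH W (B.g n)) (hx : B.jj n x = 0) : x = 0 := by
  obtain ⟨N, x, rfl⟩ := exists_cls x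
  rw [jj_cls, cls_eq_zero_iff] at hx
  obtain ⟨M, hM, e⟩ := hx
  obtain ⟨u, hu⟩ : ∃ u, u = x ≫ B.a n N ≫ (B.s (n + 1)).map (homOfLE hM) := ⟨_, rfl⟩
  have hup : u ≫ (B.p (n + 1)).app M = 0 := by
    rw [hu, Category.assoc, Category.assoc, (B.p (n + 1)).naturality, ← e]
    simp only [Category.assoc]
  obtain ⟨y, hy⟩ := B.ex_s (n + 1) M (u ▷ B.R1) (by
    rw [← comp_whiskerRight, hup, MonoidalPreadditive.zero_whiskerRight])
  obtain ⟨X, hX⟩ := hs (cls M (y ≫ (B.θ (n + 1)).hom.app M))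
  obtain ⟨M', x', rfl⟩ := exists_cls X
  rw [PhiT_cls, cls_eq_iff] at hX
  obtain ⟨P, hP', hP, e2⟩ := hX
  rw [Category.assoc, ← (B.zz (n + 1)).naturality, Category.assoc,
    ← (B.θ (n + 1)).hom.naturality, ← Category.assoc, ← Category.assoc, zz_app,
    ← Category.assoc] at e2
  have e3 := (cancel_mono ((B.θ (n + 1)).hom.app P)).1 e2
  have e4 : y ≫ (B.th (n + 1)).map (homOfLE hP) ≫ (B.c (n + 1)).app P = 0 := by
    have hzc : (B.z (n + 1)).app P ≫ (B.c (n + 1)).app P = 0 := by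
      rw [← NatTrans.comp_app, B.z_c, zero_app]
    rw [← Category.assoc, ← e3, Category.assoc, hzc, comp_zero]
  rw [(B.c (n + 1)).naturality, ← Category.assoc, hy] at e4
  have := B.inv_R1
  have := isEquivalence_tensorRight B.R1
  have e5 : u ≫ (B.s (n + 1)).map (homOfLE hP) = 0 := by
    apply (tensorRight B.R1).map_injective
    change (u ≫ (B.s (n + 1)).map (homOfLE hP)) ▷ B.R1 = 0 ▷ B.R1
    rw [comp_whiskerRight, MonoidalPreadditive.zero_whiskerRight]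
    exact e4
  rw [cls_eq_zero_iff]
  refine ⟨P, (Nat.le_succ N).trans (hM.trans hP), ?_⟩
  have e6 : (B.g n).map (homOfLE ((Nat.le_succ N).trans (hM.trans hP))) =
      B.a n N ≫ (B.s (n + 1)).map (homOfLE hM) ≫ (B.s (n + 1)).map (homOfLE hP) ≫
        (B.b n).app P := by
    rw [(B.b n).naturality, (B.b n).naturality_assoc, reassoc_of% (B.a_b n N), ← Functor.map_comp,
      ← Functor.map_comp]
    rfl
  rw [e6, ← Category.assoc, ← Category.assoc, ← Category.assoc, Category.assoc x, ← hu, e5,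
    zero_comp]

/-- `Φ` is surjective for `n = 1`. -/
theorem PhiT_one_surjective {W : D} (y : CH W (B.g 1 ⋙ tensorRight (B.S ((1 : ℕ) : ℤ)))) :
    ∃ x, B.PhiT 1 x = y := by
  obtain ⟨N, y, rfl⟩ := exists_cls y
  obtain ⟨y', hy'⟩ : ∃ y', y' = y ≫ (B.θ 1).inv.app N := ⟨_, rfl⟩
  have h0 : y' ≫ (B.c 1).app N ≫ ((B.b 0).app N ▷ B.R1) = 0 := by
    rw [← B.p_aug, comp_whiskerRight, reassoc_of% (B.c_p 1 N), zero_comp, comp_zero]
  have h1 : (y' ≫ (B.th 1).map (homOfLE (Nat.le_succ N))) ≫ (B.c 1).app (N + 1) = 0 := by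
    rw [Category.assoc, (B.c 1).naturality]
    change y' ≫ (B.c 1).app N ≫ ((B.s 1).map (homOfLE (Nat.le_succ N)) ▷ B.R1) = 0
    rw [← B.b_a 0 N, comp_whiskerRight, reassoc_of% h0, zero_comp]
  obtain ⟨x, hx⟩ := B.ex_th 1 (N + 1) _ h1
  refine ⟨cls (N + 1) x, ?_⟩
  rw [PhiT_cls, zz_app, reassoc_of% hx, (B.θ 1).hom.naturality, hy', Category.assoc,
    ← NatTrans.comp_app_assoc, Iso.inv_hom_id, NatTrans.id_app, Category.id_comp, cls_map]

/-! ### The classes `β_i` -/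

/-- the augmentation -/
def augC (W : D) : CH W (B.g 1) →+ (W ⟶ 𝟙_ D) :=
  CH.lift (fun N => Preadditive.rightComp W (B.aug N)) (fun N M h x => by
    change (x ≫ (B.g 1).map (homOfLE h)) ≫ B.aug M = x ≫ B.aug N
    rw [Category.assoc, B.aug_map])

@[simp] theorem augC_cls {W : D} (N : ℕ) (x : W ⟶ (B.g 1).obj N) :
    B.augC W (cls N x) = x ≫ B.aug N := rfl

theorem augC_pre {W W' : D} (f : W' ⟶ W) (x : CH W (B.g 1)) :
    B.augC W' (pre f x) = f ≫ B.augC W x := by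
  obtain ⟨N, x, rfl⟩ := exists_cls x
  rw [pre_cls, augC_cls, augC_cls, Category.assoc]

theorem mul_pt0 {W : D} {n : ℕ} (x : CH W (B.g n)) :
    B.mul (Nat.add_zero n) x (cls 0 (B.pt0 0).hom) = pre (ρ_ W).hom x := by
  obtain ⟨N, x, rfl⟩ := exists_cls x
  rw [B.mul_cls (Nat.add_zero n) le_rfl, pre_cls, tensorHom_def, Category.assoc,
    B.gmu_pt0 le_rfl (Nat.le_add_right N 0)]
  rw [rightUnitor_naturality_assoc, ← Category.assoc, cls_map]

/-- the class of the base point of projective space -/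
def ptc : CH (𝟙_ D) (B.g 1) := cls 1 B.pt1

theorem augC_ptc : B.augC _ B.ptc = 𝟙 _ := B.pt1_aug

theorem jj_pt0 : B.jj 0 (cls 0 (B.pt0 0).hom) = B.ptc := by
  rw [jj_def]
  have h := B.mul_pt0 B.ptc
  have h2 : B.mul (Nat.add_comm 1 0) (cls 1 B.pt1) (cls 0 (B.pt0 0).hom) =
    pre (ρ_ (𝟙_ D)).hom B.ptc := h
  rw [h2]
  have h3 : pre (λ_ (𝟙_ D)).inv (pre (ρ_ (𝟙_ D)).hom B.ptc) = B.ptc := by
    rw [← pre_comp, ← MonoidalCategory.unitors_equal, Iso.inv_hom_id, pre_id]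
  exact h3

theorem PhiT_ptc : B.PhiT 1 B.ptc = 0 := by
  rw [← jj_pt0]
  exact B.PhiT_jj 0 _

/-- the unit isomorphism with a natural number index -/
def _root_.Vale.Agent.P251.M.SphD.e0N {D : Type u} [Category.{v} D] [MonoidalCategory D]
    [SymmetricCategory D] (B : SphD D) : 𝟙_ D ≅ B.S ((0 : ℕ) : ℤ) := B.e0

theorem zz0' (N : ℕ) : (B.zz 0).app N = (ρ_ ((B.g 0).obj N)).inv ≫ (B.g 0).obj N ◁ B.e0N.hom :=
  B.zz0 N

theorem e0N_mu {d : ℤ} (h : ((0 : ℕ) : ℤ) + d = d) :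
    (B.mu _ _ _ h).inv ≫ B.e0N.inv ▷ B.S d = (λ_ (B.S d)).inv := by
  have h2 : B.e0N.hom ▷ B.S d ≫ (B.mu _ _ _ h).hom = (λ_ _).hom := B.e0_mu d h
  rw [Iso.inv_comp_eq, ← cancel_epi (B.e0N.hom ▷ B.S d), ← comp_whiskerRight,
    Iso.hom_inv_id, id_whiskerRight, reassoc_of% h2, Iso.hom_inv_id]

theorem PhiT_bl_nil (h : ((0 : ℕ) : ℤ) + ((0 : ℕ) : ℤ) = ((0 : ℕ) : ℤ)) :
    B.PhiT 0 (pre B.e0N.inv (cls 0 (B.pt0 0).hom)) =
      pre (B.mu _ _ _ h).inv (tens (B.S ((0 : ℕ) : ℤ)) (pre B.e0N.inv (cls 0 (B.pt0 0).hom))) := by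
  rw [PhiT_pre, PhiT_cls, pre_cls, pre_cls, tens_cls, pre_cls]
  refine congrArg _ ?_
  rw [zz0', comp_whiskerRight, reassoc_of% (B.e0N_mu h), rightUnitor_inv_naturality_assoc,
    ← whisker_exchange, ← MonoidalCategory.unitors_inv_equal, ← leftUnitor_inv_naturality_assoc,
    Iso.inv_hom_id_assoc]

/-- The classes `β_i` of projective space. -/
structure Beta where
  /-- the classes -/
  β (i : ℕ) : CH (B.S ((i : ℕ) : ℤ)) (B.g 1)
  β_zero : β 0 = pre B.e0N.inv B.ptc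
  β_succ (i : ℕ) (h : ((i : ℕ) : ℤ) + ((1 : ℕ) : ℤ) = ((i + 1 : ℕ) : ℤ)) :
    B.PhiT 1 (β (i + 1)) = pre (B.mu _ _ _ h).inv (tens (B.S ((1 : ℕ) : ℤ)) (β i))
  β_aug (i : ℕ) : B.augC _ (β (i + 1)) = 0

theorem exists_lift {W : D} (y : CH W (B.g 1 ⋙ tensorRight (B.S ((1 : ℕ) : ℤ)))) :
    ∃ x : CH W (B.g 1), B.PhiT 1 x = y ∧ B.augC _ x = 0 := by
  obtain ⟨x, hx⟩ := B.PhiT_one_surjective y
  refine ⟨x - pre (B.augC _ x) B.ptc, ?_, ?_⟩
  · rw [map_sub, PhiT_pre, PhiT_ptc, map_zero, sub_zero, hx]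
  · rw [map_sub, augC_pre, augC_ptc, Category.comp_id, sub_self]

/-- existence of the `β_i` -/
theorem exists_beta : Nonempty B.Beta := by
  have key : ∀ (i : ℕ) (x : CH (B.S ((i : ℕ) : ℤ)) (B.g 1)),
      ∃ x' : CH (B.S ((i + 1 : ℕ) : ℤ)) (B.g 1), B.PhiT 1 x' =
        pre (B.mu _ _ _ (by push_cast; rfl : ((i : ℕ) : ℤ) + ((1 : ℕ) : ℤ) =
          ((i + 1 : ℕ) : ℤ))).inv (tens (B.S ((1 : ℕ) : ℤ)) x) ∧ B.augC _ x' = 0 :=
    fun i x => B.exists_lift _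
  choose f hf hf' using key
  let β : ∀ i : ℕ, CH (B.S ((i : ℕ) : ℤ)) (B.g 1) := fun i =>
    Nat.rec (pre B.e0N.inv B.ptc) f i
  exact ⟨⟨β, rfl, fun i h => hf i (β i), fun i => hf' i (β i)⟩⟩

/-- Uniqueness of lifts. -/
theorem eq_zero_of_PhiT_aug {W : D} (x : CH W (B.g 1)) (h1 : B.PhiT 1 x = 0)
    (h2 : B.augC _ x = 0) : x = 0 := by
  obtain ⟨y, rfl⟩ : ∃ y : CH W (B.g 0), B.jj 0 y = x := B.exists_jj 0 x h1
  obtain ⟨N, y, rfl⟩ := exists_cls y
  have hy : (cls N y : CH W (B.g 0)) = pre (y ≫ (B.pt0 N).inv) (cls 0 (B.pt0 0).hom) := by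
    rw [pre_cls, ← cls_map (Nat.zero_le N) ((y ≫ (B.pt0 N).inv) ≫ (B.pt0 0).hom), Category.assoc,
      Category.assoc, B.pt0_map, Iso.inv_hom_id, Category.comp_id]
  rw [hy, jj_pre, jj_pt0] at h2 ⊢
  rw [augC_pre, augC_ptc, Category.comp_id] at h2
  rw [h2, pre_zero]

/-! ### Monomials -/

variable {B} (b : B.Beta)

/-- the products of the `β_i` -/
def Beta.bl0 : ∀ l : List ℕ, CH (B.S ((l.sum : ℕ) : ℤ)) (B.g l.length)
  | [] => pre B.e0N.inv (cls 0 (B.pt0 0).hom)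
  | i :: l => pre (B.mu ((i : ℕ) : ℤ) ((l.sum : ℕ) : ℤ) (((i :: l).sum : ℕ) : ℤ)
      (by simp)).inv (B.mul (by rw [List.length_cons]; omega) (b.β i) (Beta.bl0 l))

/-- the products of the `β_i` with flexible indices -/
def Beta.bl (l : List ℕ) {n : ℕ} {d : ℤ} (hn : l.length = n) (hd : d = ((l.sum : ℕ) : ℤ)) :
    CH (B.S d) (B.g n) := hd ▸ hn ▸ b.bl0 l

theorem Beta.bl_nil : b.bl [] (rfl : [].length = 0) (rfl : ((0 : ℕ) : ℤ) = ((([] : List ℕ).sum : ℕ) : ℤ)) =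
    pre B.e0N.inv (cls 0 (B.pt0 0).hom) := rfl

theorem Beta.bl_cons (i : ℕ) (l : List ℕ) {n m : ℕ} {d e : ℤ} (hn : (i :: l).length = n)
    (hd : d = (((i :: l).sum : ℕ) : ℤ)) (hm : l.length = m) (he : e = ((l.sum : ℕ) : ℤ))
    (h1 : 1 + m = n) (h2 : ((i : ℕ) : ℤ) + e = d) :
    b.bl (i :: l) hn hd = pre (B.mu _ _ _ h2).inv (B.mul h1 (b.β i) (b.bl l hm he)) := by
  subst hn hd hm he
  rfl

theorem Beta.bl_cons0 (l : List ℕ) {n : ℕ} {d : ℤ} (hn : l.length = n)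
    (hd : d = ((l.sum : ℕ) : ℤ)) (hn' : (0 :: l).length = n + 1)
    (hd' : d = (((0 :: l).sum : ℕ) : ℤ)) :
    b.bl (0 :: l) hn' hd' = B.jj n (b.bl l hn hd) := by
  have h2 : ((0 : ℕ) : ℤ) + d = d := by simp
  rw [b.bl_cons 0 l hn' hd' hn hd (Nat.add_comm 1 n) h2, b.β_zero, mul_pre_left, ← pre_comp,
    B.e0N_mu h2]
  rfl

theorem bij_pt0 (W : D) : Function.Bijective fun y : W ⟶ 𝟙_ D =>
    (pre y (cls 0 (B.pt0 0).hom) : CH W (B.g 0)) := by
  constructor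
  · intro y y' e
    have e' : (pre y (cls 0 (B.pt0 0).hom) : CH W (B.g 0)) = pre y' (cls 0 (B.pt0 0).hom) := e
    rw [pre_cls, pre_cls, cls_eq_iff] at e'
    obtain ⟨M, h, h', e2⟩ := e'
    rw [Category.assoc, Category.assoc, B.pt0_map, cancel_mono] at e2
    exact e2
  · intro x
    obtain ⟨N, x, rfl⟩ := exists_cls x
    refine ⟨x ≫ (B.pt0 N).inv, ?_⟩
    change pre (x ≫ (B.pt0 N).inv) (cls 0 (B.pt0 0).hom) = _
    rw [pre_cls, ← cls_map (Nat.zero_le N) ((x ≫ (B.pt0 N).inv) ≫ (B.pt0 0).hom), Category.assoc,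
      Category.assoc, B.pt0_map, Iso.inv_hom_id, Category.comp_id]

theorem Beta.bl_shift (l : List ℕ) : ∀ {n : ℕ} {d d' : ℤ} (hn : l.length = n)
    (hd : d = ((l.sum : ℕ) : ℤ)) (hn' : (l.map (· + 1)).length = n)
    (hd' : d' = (((l.map (· + 1)).sum : ℕ) : ℤ)) (h : d + (n : ℤ) = d'),
    B.PhiT n (b.bl (l.map (· + 1)) hn' hd') =
      pre (B.mu _ _ _ h).inv (tens (B.S ((n : ℕ) : ℤ)) (b.bl l hn hd)) := by
  induction l with
  | nil =>
    intro n d d' hn hd hn' hd' h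
    subst hn hd hd'
    exact B.PhiT_bl_nil h
  | cons i l ih =>
    intro n d d' hn hd hn' hd' h
    have hm1 : (l.map (· + 1)).length = l.length := by simp
    have h1 : 1 + l.length = n := by rw [← hn, List.length_cons]; omega
    have hs : (l.map (· + 1)).sum = l.sum + l.length := by
      rw [List.sum_map_add]; simp
    have he' : ((l.sum : ℕ) : ℤ) + ((l.length : ℕ) : ℤ) = (((l.map (· + 1)).sum : ℕ) : ℤ) := by
      rw [hs]; push_cast; rfl
    have h2 : ((i : ℕ) : ℤ) + ((l.sum : ℕ) : ℤ) = d := by rw [hd, List.sum_cons]; push_cast; rfl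
    have hi : ((i : ℕ) : ℤ) + ((1 : ℕ) : ℤ) = ((i + 1 : ℕ) : ℤ) := by push_cast; rfl
    have h1' : ((1 : ℕ) : ℤ) + ((l.length : ℕ) : ℤ) = (n : ℤ) := by rw [← h1]; push_cast; rfl
    have h2' : ((i + 1 : ℕ) : ℤ) + (((l.map (· + 1)).sum : ℕ) : ℤ) = d' := by
      rw [hs, ← h, ← h2, ← h1]; push_cast; ring
    have e1 : b.bl (List.map (· + 1) (i :: l)) hn' hd' =
        pre (B.mu _ _ _ h2').inv (B.mul h1 (b.β (i + 1)) (b.bl (l.map (· + 1)) hm1 rfl)) :=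
      b.bl_cons (i + 1) (l.map (· + 1)) hn' hd' hm1 rfl h1 h2'
    rw [e1, b.bl_cons i l hn hd rfl rfl h1 h2, PhiT_pre,
      B.PhiT_mul h1 h1' _ _ _ _ _ _ (b.β_succ i hi) (ih rfl rfl hm1 rfl he'), ← pre_comp, tens_pre,
      ← pre_comp]
    refine congrArg (fun f => pre f _) ?_
    have h3 := B.mu4_inv hi he' h2 h1' h2' h
    rw [reassoc_of% h3, ← tensorHom_id, ← id_tensorHom, tensorHom_comp_tensorHom,
      Iso.inv_hom_id, Category.comp_id]

end BUData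

end Vale.Agent.P251.M
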