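import Vale.Agent.P251.M.StrictAlg

/-!
# P251, part M4b: chains of laws in any universe and evaluation of `Cob Laz n`

`LChain n B` : a law and strict series `g 0 = 1, g 1, …, g n` over `B` (any universe); evaluation
`LChain.ev c : Cob Laz n →+* B`, compatible with the cosimplicial structure `Cob.map`.
The chain of a family of coordinates of a projective system.
-/

open MvPowerSeries Vale.Agent.P251.Q Vale.Agent.P251.F Vale.Agent.P217

universe u v u' v' w w'

namespace Vale.Agent.P251.M

/-- A chain `F_0 → F_1 → … → F_n` of laws and strict isomorphisms over `B`, in homogeneous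
coordinates: `F_i = g i • F_0`. -/
@[ext] structure LChain (n : ℕ) (B : Type u) [CommRing B] where
  /-- the law `F_0` -/
  law : Law B
  /-- the isomorphisms `F_0 → F_i` -/
  g : Fin (n + 1) → InvSeries B
  strict : ∀ i, g i ∈ Vale.Agent.P251.F.strict B
  zero : g 0 = 1

namespace LChain

variable {B : Type u} {C : Type v} {D : Type w} [CommRing B] [CommRing C] [CommRing D]
  {n m l : ℕ}

/-- base change of chains -/
noncomputable def map (φ : B →+* C) (c : LChain n B) : LChain n C where
  law := c.law.map φ
  g i := InvSeries.map φ (c.g i)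
  strict i := map_mem_strict φ (c.strict i)
  zero := by rw [c.zero, map_one]

@[simp] theorem map_law (φ : B →+* C) (c : LChain n B) : (c.map φ).law = c.law.map φ := rfl
@[simp] theorem map_g (φ : B →+* C) (c : LChain n B) (i : Fin (n + 1)) :
    (c.map φ).g i = InvSeries.map φ (c.g i) := rfl

theorem map_map (φ : B →+* C) (ψ : C →+* D) (c : LChain n B) :
    (c.map φ).map ψ = c.map (ψ.comp φ) := by
  ext1
  · rw [map_law, map_law, Law.map_map, map_law]
  · funext i
    rw [map_g, map_g, InvSeries.map_map, map_g]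

/-- The restriction of a chain along a map `[m] → [n]` of index sets. -/
noncomputable def res (α : Fin (m + 1) → Fin (n + 1)) (c : LChain n B) : LChain m B where
  law := c.g (α 0) • c.law
  g i := c.g (α i) * (c.g (α 0))⁻¹
  strict _ := mul_mem (c.strict _) (inv_mem (c.strict _))
  zero := mul_inv_cancel _

@[simp] theorem res_law (α : Fin (m + 1) → Fin (n + 1)) (c : LChain n B) :
    (c.res α).law = c.g (α 0) • c.law := rfl
@[simp] theorem res_g (α : Fin (m + 1) → Fin (n + 1)) (c : LChain n B) (i : Fin (m + 1)) :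
    (c.res α).g i = c.g (α i) * (c.g (α 0))⁻¹ := rfl

theorem map_res (φ : B →+* C) (α : Fin (m + 1) → Fin (n + 1)) (c : LChain n B) :
    (c.res α).map φ = (c.map φ).res α := by
  ext1
  · rw [map_law, res_law, InvSeries.map_smul]
    rfl
  · funext i
    rw [map_g, res_g, res_g, map_mul, map_inv]
    rfl

/-- the law at the `i`-th vertex -/
noncomputable def vertex (c : LChain n B) (i : Fin (n + 1)) : Law B := c.g i • c.law

/-- Evaluation of functions on a chain. -/
noncomputable def ev (c : LChain n B) : Cob Laz n →+* B :=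
  MvPolynomial.eval₂Hom (Laz.lift c.law) fun im => (c.g im.1.succ).c (im.2 + 1)

@[simp] theorem ev_C (c : LChain n B) (a : Laz) : ev c (MvPolynomial.C a) = Laz.lift c.law a := by
  simp [ev]

@[simp] theorem ev_X (c : LChain n B) (im : Fin n × ℕ) :
    ev c (MvPolynomial.X im) = (c.g im.1.succ).c (im.2 + 1) := by
  simp [ev]

theorem map_ev (φ : B →+* C) (c : LChain n B) (x : Cob Laz n) : φ (ev c x) = ev (c.map φ) x := by
  have : φ.comp (ev c) = ev (c.map φ) := by
    refine MvPolynomial.ringHom_ext (fun a => ?_) (fun im => ?_)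
    · rw [RingHom.comp_apply, ev_C, ev_C, map_law, Laz.map_lift]
    · simp
  rw [← this, RingHom.comp_apply]

/-- A chain over a ring in the lowest universe. -/
noncomputable def ofChain {B : Type} [CommRing B] (c : Chain Laz n B) : LChain n B where
  law := Laz.univ.map c.pt
  g := c.g
  strict := c.strict
  zero := c.zero

theorem ev_ofChain {B : Type} [CommRing B] (c : Chain Laz n B) (x : Cob Laz n) :
    ev (ofChain c) x = Cob.ev c x := by
  have : ev (ofChain c) = Cob.ev c := by
    refine MvPolynomial.ringHom_ext (fun a => ?_) (fun im => ?_)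
    · rw [ev_C, Cob.ev_C]
      exact congrFun (congrArg DFunLike.coe (Laz.lift_map_univ c.pt)) a
    · rw [ev_X, Cob.ev_X]
      rfl
  rw [this]

theorem ofChain_res {B : Type} [CommRing B] (α : Fin (m + 1) → Fin (n + 1)) (c : Chain Laz n B) :
    ofChain (c.res α) = (ofChain c).res α := by
  ext1
  · change Laz.univ.map (LawRing.act (c.g (α 0)) c.pt) = c.g (α 0) • Laz.univ.map c.pt
    rw [Laz.act_eq, Laz.univ_map_lift]
  · rfl

/-- The universal chain. -/
theorem univ_map_ev (c : LChain n B) : (ofChain (Cob.univ Laz n)).map (ev c) = c := by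
  ext1
  · rw [map_law]
    change (Laz.univ.map (MvPolynomial.C : Laz →+* Cob Laz n)).map (ev c) = c.law
    rw [Law.map_map]
    have : (ev c).comp (MvPolynomial.C : Laz →+* Cob Laz n) = Laz.lift c.law := by
      ext a
      exact ev_C c a
    rw [this, Laz.univ_map_lift]
  · funext i
    rw [map_g]
    change InvSeries.map (ev c) ((Cob.univ Laz n).g i) = c.g i
    refine Fin.cases ?_ (fun i => ?_) i
    · rw [Cob.univ_g_zero, map_one, c.zero]
    · rw [Cob.univ_g_succ, map_strictMk]
      simp only [ev_X]
      exact strictMk_c (c.strict _)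

/-- Evaluation is compatible with the cosimplicial structure. -/
theorem ev_map_res (α : Fin (m + 1) → Fin (n + 1)) (c : LChain n B) (x : Cob Laz m) :
    ev c (Cob.map α x) = ev (c.res α) x := by
  have h1 : Cob.map α x = ev ((ofChain (Cob.univ Laz n)).res α) x := by
    rw [← ofChain_res, ev_ofChain]
    rfl
  rw [h1, map_ev, map_res, univ_map_ev]

end LChain

namespace CPSys.Coord

variable {A : Type u} [CommRing A] {P : CPSys.{u, v} A} {n m : ℕ}

/-- The chain of a family of coordinates which agree on `ℂP^1`. -/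
noncomputable def chain (c : Fin (n + 1) → P.Coord) (h : ∀ i j, (c i).z 1 = (c j).z 1) :
    LChain n A where
  law := (c 0).law
  g i := cmp (c 0) (c i) (h i 0)
  strict _ := cmp_mem_strict _ _ _
  zero := cmp_self (c 0)

theorem chain_vertex (c : Fin (n + 1) → P.Coord) (h : ∀ i j, (c i).z 1 = (c j).z 1)
    (i : Fin (n + 1)) : (chain c h).vertex i = (c i).law :=
  cmp_smul _ _ (h i 0)

theorem chain_res (c : Fin (n + 1) → P.Coord) (h : ∀ i j, (c i).z 1 = (c j).z 1)
    (α : Fin (m + 1) → Fin (n + 1)) :
    (chain c h).res α = chain (fun i => c (α i)) (fun i j => h (α i) (α j)) := by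
  ext1
  · exact cmp_smul _ _ (h (α 0) 0)
  · funext i
    change cmp (c 0) (c (α i)) (h _ _) * (cmp (c 0) (c (α 0)) (h _ _))⁻¹ =
      cmp (c (α 0)) (c (α i)) (h _ _)
    rw [← cmp_mul (c 0) (c (α 0)) (c (α i)) (h _ _) (h _ _) (h _ _), mul_inv_cancel_right]

variable {A' : Type u'} [CommRing A'] {P' : CPSys.{u', v'} A'} {φ : A →+* A'}

theorem chain_map (f : Hom P P' φ) (c : Fin (n + 1) → P.Coord)
    (h : ∀ i j, (c i).z 1 = (c j).z 1) (d : Fin (n + 1) → P'.Coord)
    (h' : ∀ i j, (d i).z 1 = (d j).z 1)
    (hc : ∀ i k, f.f k ((c i).z k) = (d i).z k)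
    (hs : ∀ k, f.f2 k (P.s k ((c 0).z (P.N k))) = P'.s k ((d 0).z (P'.N k))) :
    (chain c h).map φ = chain d h' := by
  ext1
  · exact law_map f (c 0) (d 0) (hc 0) hs
  · funext i
    exact cmp_map f _ _ _ _ (hc 0) (hc i) (h i 0) (h' i 0)

end CPSys.Coord

end Vale.Agent.P251.M
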