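import Vale.Agent.P251.M.CobIso
import Vale.Agent.P251.Q.Aug

/-!
# P251, part M: the coaction on the homotopy of `MU`

* `hgr E B k` : the homogeneous part of (cohomological) degree `k` of `HRing E B`;
* `isConnGr_hgr` : `HRing E B` is a connected graded ring with `π_0 = ℤ`;
* `CobEv.psi_bijective` : `π_* (R ⊗ R) = (π_* R)[b_0, b_1, …]`;
* `CobEv.exists_coaction` : the ring homomorphism `π_* R → (π_* R)[b]` given by the second unit.
-/

open CategoryTheory MonoidalCategory MonObj Limits Pretriangulated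

universe v u

namespace Vale.Agent.P251.M

open Vale.Agent.P251.S Vale.Agent.P251.T Vale.Agent.P251.F Vale.Agent.P251.Q EvenSpheres
open MvPolynomial (monomial)

set_option linter.unusedSectionVars false

section hgr

variable {T : Type u} [Category.{v} T] [Preadditive T] [MonoidalCategory T] [SymmetricCategory T]
  [MonoidalPreadditive T] (E : EvenSpheres T) (B : T)

/-- The part of cohomological degree `k` of the homotopy ring. -/
noncomputable def hgr (k : ℤ) : AddSubgroup (HRing E B) := (DirectSum.of (E.Gr B) (-k)).range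

variable {E B}

theorem of_mem_hgr {k n : ℤ} (h : -k = n) (a : E.S n ⟶ B) : HRing.of E B n a ∈ hgr E B k := by
  subst h
  exact ⟨a, rfl⟩

theorem exists_of_mem_hgr {k n : ℤ} (h : -k = n) {x : HRing E B} (hx : x ∈ hgr E B k) :
    ∃ a : E.S n ⟶ B, x = HRing.of E B n a := by
  subst h
  obtain ⟨a, rfl⟩ := hx
  exact ⟨a, rfl⟩

theorem isMulGr_hgr [MonObj B] [IsCommMonObj B] : IsMulGr (hgr E B) where
  one_mem := by
    rw [← of_one]
    exact of_mem_hgr (by simp) _
  mul_mem i j c c' hc hc' := by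
    obtain ⟨a, rfl⟩ := exists_of_mem_hgr rfl hc
    obtain ⟨b, rfl⟩ := exists_of_mem_hgr rfl hc'
    rw [of_mul_of (p := -(i + j)) (by ring)]
    exact of_mem_hgr rfl _

theorem hgr_total (x : HRing E B) : x ∈ ⨆ i, hgr E B i := by
  induction x using DirectSum.induction_on with
  | zero => exact zero_mem _
  | of n a => exact (le_iSup (hgr E B) (-n)) (of_mem_hgr (neg_neg n) a)
  | add x y hx hy => exact add_mem hx hy

theorem of_apply_same (n : ℤ) (a : E.S n ⟶ B) : (HRing.of E B n a) n = a :=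
  DirectSum.of_eq_same (β := E.Gr B) _ _

theorem of_apply_ne {m n : ℤ} (h : m ≠ n) (a : E.S m ⟶ B) : (HRing.of E B m a) n = 0 :=
  DirectSum.of_eq_of_ne (β := E.Gr B) _ _ _ (fun h' => h h'.symm)

/-- The evaluation of the component of degree `k`. -/
def hcomp (E : EvenSpheres T) (B : T) (n : ℤ) : HRing E B →+ (E.S n ⟶ B) where
  toFun x := x n
  map_zero' := rfl
  map_add' _ _ := rfl

theorem hcomp_of_mem_ne {k n : ℤ} (h : -k ≠ n) {x : HRing E B} (hx : x ∈ hgr E B k) :
    hcomp E B n x = 0 := by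
  obtain ⟨a, rfl⟩ := hx
  exact DirectSum.of_eq_of_ne _ _ _ (fun h' => h h'.symm)

theorem hgr_indep : iSupIndep (hgr E B) := by
  intro k
  rw [disjoint_iff]
  rw [eq_bot_iff]
  rintro x ⟨hx, hx'⟩
  have h1 : hcomp E B (-k) x = 0 := by
    have h2 : (⨆ (j) (_ : j ≠ k), hgr E B j) ≤ (hcomp E B (-k)).ker := by
      refine iSup₂_le fun j hj y hy => ?_
      exact hcomp_of_mem_ne (fun h => hj (neg_injective h)) hy
    exact h2 hx'
  obtain ⟨a, rfl⟩ := hx
  have h3 : hcomp E B (-k) (DirectSum.of (E.Gr B) (-k) a) = a := DirectSum.of_eq_same _ _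
  rw [h3] at h1
  rw [h1, map_zero]
  exact zero_mem _

/-- The homotopy ring is connected with `π_0 = ℤ`. -/
theorem isConnGr_hgr [MonObj B] [IsCommMonObj B] (hneg : ∀ n : ℤ, n < 0 → ∀ a : E.S n ⟶ B, a = 0)
    (h0 : ∀ a : E.S 0 ⟶ B, ∃ m : ℤ, a = m • (E.zero.inv ≫ η[B]))
    (hinj : ∀ m : ℤ, m • (E.zero.inv ≫ η[B]) = 0 → m = 0) : IsConnGr (hgr E B) where
  toIsMulGr := isMulGr_hgr
  total := hgr_total
  indep := hgr_indep
  pos k hk x hx := by
    obtain ⟨a, rfl⟩ := exists_of_mem_hgr rfl hx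
    rw [hneg _ (by omega) a]
    exact map_zero _
  deg_zero x hx := by
    obtain ⟨a, rfl⟩ := exists_of_mem_hgr (n := 0) (by simp) hx
    obtain ⟨m, rfl⟩ := h0 a
    refine ⟨m, ?_⟩
    have h1 : HRing.of E B 0 (m • (E.zero.inv ≫ η[B])) = m • (1 : HRing E B) :=
      map_zsmul (DirectSum.of (E.Gr B) 0) m _
    rw [h1, zsmul_one]
  inj m hm := by
    apply hinj
    have h1 : HRing.of E B 0 (m • (E.zero.inv ≫ η[B])) = m • (1 : HRing E B) :=
      map_zsmul (DirectSum.of (E.Gr B) 0) m _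
    apply DirectSum.of_injective (β := E.Gr B) 0
    rw [map_zero]
    refine h1.trans ?_
    rw [zsmul_one]
    exact hm

end hgr

variable {T : Type u} [Category.{v} T] [Preadditive T] [HasZeroObject T]
    [HasShift T ℤ] [∀ n : ℤ, (shiftFunctor T n).Additive] [Pretriangulated T] [IsTriangulated T]
    [MonoidalCategory T] [SymmetricCategory T] [TensorTriangulated T] [MonoidalClosed T]
    [HasCoproducts.{0} T] [HasProducts.{0} T] [StableCat T]

namespace CobEv

variable {E : EvenSpheres T} {R : T} [MonObj R] [IsCommMonObj R] (D : CobEv E R)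

lemma v0_one : v0 R 1 = inlM (Am R 1) R := by
  rw [v0_succ, v0_zero, Category.id_comp]

/-- `(π_* R)[b] → π_* (R ⊗ R)` -/
noncomputable def psi : MvPolynomial ℕ (HRing E (Am R 1)) →+* HRing E (Am R 2) :=
  MvPolynomial.eval₂Hom (HRing.map (E := E) (v0 R 1))
    (fun m => D.ev 1 (MvPolynomial.X ((0 : Fin 1), m)))

@[simp] theorem psi_C (a : HRing E (Am R 1)) :
    D.psi (MvPolynomial.C a) = HRing.map (E := E) (v0 R 1) a := by
  unfold psi
  rw [MvPolynomial.eval₂Hom_C]

@[simp] theorem psi_X (m : ℕ) : D.psi (MvPolynomial.X m) =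
    D.ev 1 (MvPolynomial.X ((0 : Fin 1), m)) := by
  unfold psi
  rw [MvPolynomial.eval₂Hom_X']

theorem psi_monomial (d : ℕ →₀ ℕ) (a : HRing E (Am R 1)) : D.psi (monomial d a) =
    HRing.map (E := E) (v0 R 1) a * D.ev 1 (monomial (Cob.last 0 d) 1) := by
  rw [MvPolynomial.monomial_eq, _root_.map_mul, psi_C, Finsupp.prod, _root_.map_prod]
  congr 1
  rw [MvPolynomial.monomial_eq, MvPolynomial.C_1, _root_.one_mul, Cob.last,
    Finsupp.prod_mapDomain_index_inj Cob.last_inj, Finsupp.prod, _root_.map_prod]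
  refine Finset.prod_congr rfl fun m _ => ?_
  rw [_root_.map_pow, _root_.map_pow, psi_X]
  rfl

theorem psi_monomial_of (d : ℕ →₀ ℕ) {n m : ℤ} (h : (D.basis 0).k d + m = n)
    (x : E.S m ⟶ Am R 1) : D.psi (monomial d (HRing.of E (Am R 1) m x)) =
      HRing.of E (Am R 2) n (gmul h ((D.basis 0).w d) (x ≫ v0 R 1)) := by
  rw [psi_monomial, HRing.map_of, ← of_mul_of h, mul_comm]
  congr 1
  exact (D.basis_w 0 d).symm

theorem psi_monomial_apply (d : ℕ →₀ ℕ) (n : ℤ) (a : HRing E (Am R 1)) :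
    D.psi (monomial d a) n =
      gmul (add_sub_cancel ((D.basis 0).k d) n) ((D.basis 0).w d)
        (a (n - (D.basis 0).k d) ≫ v0 R 1) := by
  have hadd : ∀ a b : HRing E (Am R 1), D.psi (monomial d (a + b)) n =
      D.psi (monomial d a) n + D.psi (monomial d b) n := by
    intro a b
    rw [_root_.map_add, _root_.map_add]
    rfl
  have hadd' : ∀ a b : HRing E (Am R 1), (a + b) (n - (D.basis 0).k d) =
      a (n - (D.basis 0).k d) + b (n - (D.basis 0).k d) := fun a b => rfl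
  induction a using DirectSum.induction_on with
  | zero =>
    have h1 : (0 : HRing E (Am R 1)) (n - (D.basis 0).k d) = 0 := rfl
    rw [_root_.map_zero, _root_.map_zero, h1, zero_comp, gmul_zero_right]
    rfl
  | add a b ha hb =>
    rw [hadd, hadd', ha, hb, Preadditive.add_comp, gmul_add_right]
  | of m x =>
    by_cases hm : m = n - (D.basis 0).k d
    · subst hm
      have h1 := D.psi_monomial_of d (add_sub_cancel ((D.basis 0).k d) n) x
      have h2 := congrArg (fun z : HRing E (Am R 2) => z n) h1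
      refine h2.trans ?_
      change (HRing.of E (Am R 2) n _) n = gmul _ _ ((HRing.of E (Am R 1) _ x) _ ≫ _)
      rw [of_apply_same, of_apply_same]
    · have h1 := D.psi_monomial_of d (n := (D.basis 0).k d + m) rfl x
      have h2 := congrArg (fun z : HRing E (Am R 2) => z n) h1
      refine h2.trans ?_
      change _ = gmul _ _ ((HRing.of E (Am R 1) m x) _ ≫ _)
      rw [of_apply_ne hm, zero_comp, gmul_zero_right]
      exact of_apply_ne (fun h => hm (by omega)) _

theorem exists_sum (n : ℤ) (hS : IsSphere (E.S n)) (f : E.S n ⟶ Am R 2) :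
    ∃ (t : Finset (ℕ →₀ ℕ)) (x : ∀ d, E.S (n - (D.basis 0).k d) ⟶ Am R 1),
      f = ∑ d ∈ t, gmul (add_sub_cancel ((D.basis 0).k d) n) ((D.basis 0).w d) (x d ≫ v0 R 1) := by
  obtain ⟨t, x, hx⟩ := (D.basis 0).exists_expansion (𝟙_ T) n hS (f ≫ (ρ_ _).inv)
  refine ⟨t, fun d => x d ≫ (ρ_ _).hom, ?_⟩
  have key : ∀ {m k : ℤ} (h : k + m = n) (w : E.S k ⟶ Am R 2) (y : E.S m ⟶ Am R 1 ⊗ 𝟙_ T),
      gact (𝟙_ T) h w (y ≫ (inlM (Am R 1) R ▷ 𝟙_ T)) =
        gmul h w ((y ≫ (ρ_ _).hom) ≫ v0 R 1) ≫ (ρ_ _).inv := by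
    intro m k h w y
    have h1 : y ≫ (inlM (Am R 1) R ▷ 𝟙_ T) =
        ((y ≫ (ρ_ _).hom) ≫ v0 R 1) ≫ rmap (Am R 2) (𝟙 (𝟙_ T)) := by
      rw [v0_one, rmap, MonoidalCategory.whiskerLeft_id, Category.comp_id, Category.assoc,
        Category.assoc]
      have h2 := rightUnitor_naturality (inlM (Am R 1) R)
      rw [← reassoc_of% h2, Iso.hom_inv_id, Category.comp_id]
    rw [h1, gact_rmap, rmap, MonoidalCategory.whiskerLeft_id, Category.comp_id]
  rw [← cancel_mono (ρ_ _).inv, hx, Preadditive.sum_comp]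
  exact Finset.sum_congr rfl fun d _ => key _ _ _

theorem eq_zero_of_sum (n : ℤ) (t : Finset (ℕ →₀ ℕ))
    (x : ∀ d, E.S (n - (D.basis 0).k d) ⟶ Am R 1)
    (h : ∑ d ∈ t, gmul (add_sub_cancel ((D.basis 0).k d) n) ((D.basis 0).w d)
      (x d ≫ v0 R 1) = 0) : ∀ d ∈ t, x d = 0 := by
  intro d hd
  have key : ∀ {m k : ℤ} (h : k + m = n) (w : E.S k ⟶ Am R 2) (y : E.S m ⟶ Am R 1),
      gact (𝟙_ T) h w ((y ≫ (ρ_ _).inv) ≫ (inlM (Am R 1) R ▷ 𝟙_ T)) =
        gmul h w (y ≫ v0 R 1) ≫ (ρ_ _).inv := by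
    intro m k h w y
    have h1 : (y ≫ (ρ_ _).inv) ≫ (inlM (Am R 1) R ▷ 𝟙_ T) =
        (y ≫ v0 R 1) ≫ rmap (Am R 2) (𝟙 (𝟙_ T)) := by
      rw [v0_one, rmap, MonoidalCategory.whiskerLeft_id, Category.comp_id, Category.assoc,
        Category.assoc, rightUnitor_inv_naturality]
    rw [h1, gact_rmap, rmap, MonoidalCategory.whiskerLeft_id, Category.comp_id]
  have h1 := (D.basis 0).expansion_unique (𝟙_ T) n t (fun d => x d ≫ (ρ_ _).inv) (by
    rw [Finset.sum_congr rfl fun d _ => key (add_sub_cancel ((D.basis 0).k d) n)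
      ((D.basis 0).w d) (x d), ← Preadditive.sum_comp, h, zero_comp]) d hd
  rw [← cancel_mono (ρ_ _).inv, h1, zero_comp]

theorem psi_injective : Function.Injective D.psi := by
  rw [injective_iff_map_eq_zero]
  intro P hP
  have h1 : ∀ n : ℤ, ∀ d ∈ P.support, (P.coeff d) (n - (D.basis 0).k d) = 0 := by
    intro n
    apply D.eq_zero_of_sum n P.support
    have h2 : hcomp E (Am R 2) n (D.psi P) = 0 := by rw [hP, _root_.map_zero]
    rw [P.as_sum, _root_.map_sum, _root_.map_sum] at h2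
    rw [← h2]
    exact Finset.sum_congr rfl fun d _ => (D.psi_monomial_apply d n _).symm
  refine MvPolynomial.ext _ _ fun d => ?_
  by_cases hd : d ∈ P.support
  · rw [MvPolynomial.coeff_zero]
    refine DFinsupp.ext fun m => ?_
    have h3 := h1 (m + (D.basis 0).k d) d hd
    rw [add_sub_cancel_right] at h3
    exact h3
  · rw [MvPolynomial.notMem_support_iff.1 hd, MvPolynomial.coeff_zero]

theorem psi_surjective (hS : ∀ n, IsSphere (E.S n)) : Function.Surjective D.psi := by
  intro y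
  induction y using DirectSum.induction_on with
  | zero => exact ⟨0, _root_.map_zero _⟩
  | add y y' hy hy' =>
    obtain ⟨x, rfl⟩ := hy
    obtain ⟨x', rfl⟩ := hy'
    exact ⟨x + x', _root_.map_add _ _ _⟩
  | of n f =>
    obtain ⟨t, x, rfl⟩ := D.exists_sum n (hS n) f
    refine ⟨∑ d ∈ t, monomial d (HRing.of E (Am R 1) _ (x d)), ?_⟩
    rw [_root_.map_sum]
    have h1 := _root_.map_sum (DirectSum.of (E.Gr (Am R 2)) n) (fun d =>
      gmul (add_sub_cancel ((D.basis 0).k d) n) ((D.basis 0).w d) (x d ≫ v0 R 1)) t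
    refine Eq.trans ?_ h1.symm
    exact Finset.sum_congr rfl fun d _ => D.psi_monomial_of d (add_sub_cancel _ n) (x d)

/-! ### The law and the coaction -/

/-- The law over `π_* R`. -/
noncomputable def law : Law (HRing E (Am R 1)) := Laz.univ.map ((D.ev 0).comp MvPolynomial.C)

theorem lift_law (c : Laz) : Laz.lift D.law c = D.ev 0 (MvPolynomial.C c) := by
  unfold law
  rw [Laz.lift_map_univ]
  rfl

theorem homPS_law : HomPS (hgr E (Am R 1)) 1 D.law.ps := by
  intro d
  unfold law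
  rw [Law.map_ps, MvPowerSeries.coeff_map]
  have h1 := homPS_univ d
  rw [mem_lazDeg] at h1
  obtain ⟨a, ha⟩ := D.ev_wt 0 _ _ h1
  rw [RingHom.comp_apply, ha]
  exact of_mem_hgr rfl a

theorem univ_map_vertex' {n : ℕ} (i : Fin (n + 1)) :
    Laz.univ.map ((Cob.map (N := Laz) (fun _ : Fin (0 + 1) => i)).comp MvPolynomial.C) =
      (Cob.univ Laz n).g i • Laz.univ.map MvPolynomial.C := by
  have h : (Cob.map (N := Laz) (fun _ : Fin (0 + 1) => i)).comp MvPolynomial.C =
      ((Cob.univ Laz n).res (fun _ : Fin (0 + 1) => i)).pt := by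
    ext1 a
    exact Cob.ev_C _ _
  rw [h, Chain.res_pt, Laz.act_eq, Laz.univ_map_lift, Cob.univ_pt]

/-- The laws of the two vertices. -/
theorem law_vertex (i : Fin 2) :
    D.law.map (HRing.map (E := E) (Am.map R (fun _ : Fin 1 => i))) =
      InvSeries.map (D.ev 1) ((Cob.univ Laz 1).g i) •
        (Laz.univ.map (MvPolynomial.C : Laz →+* Cob Laz 1)).map (D.ev 1) := by
  have h1 : (HRing.map (E := E) (Am.map R (fun _ : Fin 1 => i))).comp
      ((D.ev 0).comp MvPolynomial.C) =
      (D.ev 1).comp ((Cob.map (N := Laz) (fun _ : Fin (0 + 1) => i)).comp MvPolynomial.C) := by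
    ext1 a
    exact D.ev_map 0 1 (fun _ => i) (MvPolynomial.C a)
  unfold law
  rw [Law.map_map, h1, ← Law.map_map, univ_map_vertex', InvSeries.map_smul]

variable (hS : ∀ n, IsSphere (E.S n))

/-- The coaction `π_* R → (π_* R)[b]`. -/
noncomputable def rho : HRing E (Am R 1) →+* MvPolynomial ℕ (HRing E (Am R 1)) :=
  (RingEquiv.ofBijective D.psi ⟨D.psi_injective, D.psi_surjective hS⟩).symm.toRingHom.comp
    (HRing.map (E := E) (Am.map R (fun _ : Fin 1 => (1 : Fin 2))))

theorem psi_rho (x : HRing E (Am R 1)) :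
    D.psi (D.rho hS x) = HRing.map (E := E) (Am.map R (fun _ : Fin 1 => (1 : Fin 2))) x :=
  (RingEquiv.ofBijective D.psi ⟨D.psi_injective, D.psi_surjective hS⟩).apply_symm_apply _

theorem law_map_inj {A B : Type*} [CommRing A] [CommRing B] {φ : A →+* B}
    (hφ : Function.Injective φ) {F G : Law A} (h : F.map φ = G.map φ) : F = G := by
  apply Law.ext_ps
  ext d
  apply hφ
  rw [← MvPowerSeries.coeff_map, ← MvPowerSeries.coeff_map, ← Law.map_ps, ← Law.map_ps, h]

theorem law_rho : D.law.map (D.rho hS) =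
    strictMk (MvPolynomial.X : ℕ → MvPolynomial ℕ (HRing E (Am R 1))) •
      D.law.map MvPolynomial.C := by
  apply law_map_inj D.psi_injective
  have h1 : D.psi.comp (D.rho hS) =
      HRing.map (E := E) (Am.map R (fun _ : Fin 1 => (1 : Fin 2))) :=
    RingHom.ext (D.psi_rho hS)
  have h2 : D.psi.comp MvPolynomial.C =
      HRing.map (E := E) (Am.map R (fun _ : Fin 1 => (0 : Fin 2))) :=
    RingHom.ext D.psi_C
  rw [InvSeries.map_smul, map_strictMk, Law.map_map, h1, Law.map_map, h2, law_vertex, law_vertex]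
  have h3 : (Cob.univ Laz 1).g 0 = 1 := Cob.univ_g_zero
  have h4 : (Cob.univ Laz 1).g 1 = strictMk fun m => MvPolynomial.X ((0 : Fin 1), m) :=
    Cob.univ_g_succ (0 : Fin 1)
  rw [h3, h4, _root_.map_one, one_smul, map_strictMk]
  congr 2
  funext m
  exact (D.psi_X m).symm

theorem isBHom_rho (w : ℤ) (x : HRing E (Am R 1)) (hx : x ∈ hgr E (Am R 1) (-w)) :
    IsBHom (hgr E (Am R 1)) w (D.rho hS x) := by
  obtain ⟨a, rfl⟩ := exists_of_mem_hgr (neg_neg w) hx
  obtain ⟨t, y, hy⟩ := D.exists_sum w (hS w) (a ≫ Am.map R (fun _ : Fin 1 => (1 : Fin 2)))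
  have h1 : D.rho hS (HRing.of E (Am R 1) w a) =
      ∑ d ∈ t, monomial d (HRing.of E (Am R 1) _ (y d)) := by
    apply D.psi_injective
    rw [psi_rho, HRing.map_of, hy, _root_.map_sum]
    have h1 := _root_.map_sum (DirectSum.of (E.Gr (Am R 2)) w) (fun d =>
      gmul (add_sub_cancel ((D.basis 0).k d) w) ((D.basis 0).w d) (y d ≫ v0 R 1)) t
    refine h1.trans ?_
    exact Finset.sum_congr rfl fun d _ => (D.psi_monomial_of d (add_sub_cancel _ w) (y d)).symm
  intro d
  rw [h1, MvPolynomial.coeff_sum]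
  refine sum_mem fun d' _ => ?_
  rw [MvPolynomial.coeff_monomial]
  split_ifs with h
  · subst h
    refine of_mem_hgr ?_ _
    rw [neg_neg, D.basis_k]
    congr 1
    rw [Cob.degU, Finsupp.weight_apply, Finsupp.sum, Finsupp.sum, Nat.cast_sum]
    refine Finset.sum_congr rfl fun m _ => ?_
    push_cast
    simp
  · exact zero_mem _

end CobEv

end Vale.Agent.P251.M
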