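import Vale.Agent.P251.M.GBasis
import Vale.Agent.P251.M.CobDec

/-!
# P251, part M (M4c): the homotopy of `R^{⊗ (s+1)} ⊗ C`

`CobEv` : the characteristic homomorphisms `ev s : Cob Laz s → π_{2*} R^{⊗ (s+1)}` together with
the basis theorem `R^{⊗ (s+1)} ⊗ R = ∐ R^{⊗ (s+1)} ⊗ S(|u|)`. From the case `s = 0` we derive
for all `s`: the odd homotopy of `R^{⊗ (s+1)} ⊗ S/p` vanishes, `Cob Laz s / p` is the even one.
-/

open CategoryTheory MonoidalCategory MonObj Limits Pretriangulated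

universe v u

namespace Vale.Agent.P251.M

open Vale.Agent.P251.S Vale.Agent.P251.T Vale.Agent.P251.F EvenSpheres
open MvPolynomial (monomial)

set_option linter.unusedSectionVars false

variable {T : Type u} [Category.{v} T] [Preadditive T] [HasZeroObject T]
    [HasShift T ℤ] [∀ n : ℤ, (shiftFunctor T n).Additive] [Pretriangulated T] [IsTriangulated T]
    [MonoidalCategory T] [SymmetricCategory T] [TensorTriangulated T] [MonoidalClosed T]
    [HasCoproducts.{0} T] [HasProducts.{0} T] [StableCat T]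

/-- The characteristic homomorphisms with the basis theorem. -/
structure CobEv (E : EvenSpheres T) (R : T) [MonObj R] [IsCommMonObj R] where
  /-- the characteristic homomorphisms -/
  ev (s : ℕ) : Cob Laz s →+* HRing E (Am R (s + 1))
  ev_wt (s : ℕ) (w : ℤ) (z : Cob Laz s) (hz : Cob.IsWt w z) :
    ∃ a : E.S w ⟶ Am R (s + 1), ev s z = HRing.of E (Am R (s + 1)) w a
  ev_map (m n : ℕ) (α : Fin (m + 1) → Fin (n + 1)) (z : Cob Laz m) :
    HRing.map (E := E) (Am.map R α) (ev m z) = ev n (Cob.map α z)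
  /-- the basis of `R^{⊗ (s+2)}` over `R^{⊗ (s+1)}` -/
  basis (s : ℕ) : GBasis E (inlM (Am R (s + 1)) R) (ℕ →₀ ℕ)
  basis_k (s : ℕ) (u : ℕ →₀ ℕ) : (basis s).k u = Cob.degU u
  basis_w (s : ℕ) (u : ℕ →₀ ℕ) : HRing.of E (Am R (s + 2)) ((basis s).k u) ((basis s).w u) =
    ev (s + 1) (monomial (Cob.last s u) 1)

section Rho

variable {E : EvenSpheres T}

/-- The map `π_n F ⟶ π_n (F ⊗ C)` induced by `i : 𝟙 ⟶ C`. -/
def rmap (F : T) {C : T} (i : 𝟙_ T ⟶ C) : F ⟶ F ⊗ C := (ρ_ F).inv ≫ (F ◁ i)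

lemma rmap_nat {F B C : T} (i : 𝟙_ T ⟶ C) (v : F ⟶ B) :
    rmap F i ≫ (v ▷ C) = v ≫ rmap B i := by
  unfold rmap
  rw [Category.assoc, whisker_exchange, rightUnitor_inv_naturality_assoc]

lemma gact_rmap {B C : T} [MonObj B] (i : 𝟙_ T ⟶ C) {k m n : ℤ} (h : k + m = n)
    (w : E.S k ⟶ B) (y : E.S m ⟶ B) :
    gact C h w (y ≫ rmap B i) = gmul h w y ≫ rmap B i := by
  unfold gact gsmul gmul
  rw [ext_comp_right, Category.assoc, Category.assoc]
  congr 1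
  change (B ◁ ((ρ_ B).inv ≫ (B ◁ i))) ≫ (α_ B B C).inv ≫ (μ[B] ▷ C) =
    μ[B] ≫ (ρ_ B).inv ≫ (B ◁ i)
  rw [rightUnitor_inv_naturality_assoc, ← whisker_exchange, whiskerLeft_comp, Category.assoc,
    associator_inv_naturality_right_assoc]
  monoidal

end Rho

/-- The basis consisting of the unit. -/
noncomputable def GBasis.one (E : EvenSpheres T) (F : T) [MonObj F] (J : Type) [Unique J] :
    GBasis E (𝟙 F) J where
  k _ := 0
  w _ := E.zero.inv ≫ η[F]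
  isIso := by
    have h1 : (𝟙 F ⊗ₘ (E.zero.inv ≫ η[F])) ≫ μ[F] = (F ◁ E.zero.inv) ≫ (ρ_ F).hom := by
      rw [id_tensorHom, whiskerLeft_comp, Category.assoc, MonObj.mul_one]
    have h2 : IsIso ((𝟙 F ⊗ₘ (E.zero.inv ≫ η[F])) ≫ μ[F]) := by
      rw [h1]
      infer_instance
    refine ⟨⟨inv ((𝟙 F ⊗ₘ (E.zero.inv ≫ η[F])) ≫ μ[F]) ≫
      Sigma.ι (fun _ : J => F ⊗ E.S 0) default, ?_, ?_⟩⟩
    · refine Sigma.hom_ext _ _ fun j => ?_
      rw [Sigma.ι_desc_assoc, IsIso.hom_inv_id_assoc, Category.comp_id,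
        Subsingleton.elim default j]
    · rw [Category.assoc, Sigma.ι_desc, IsIso.inv_hom_id]

namespace CobEv

variable {E : EvenSpheres T} {R : T} [MonObj R] [IsCommMonObj R] (D : CobEv E R)

/-- The first vertex `R = R^{⊗ 1} ⟶ R^{⊗ (s+1)}`. -/
abbrev v0 (R : T) [MonObj R] [IsCommMonObj R] (s : ℕ) : Am R 1 ⟶ Am R (s + 1) :=
  Am.map R (fun _ : Fin 1 => (0 : Fin (s + 1)))

lemma v0_zero : v0 R 0 = 𝟙 _ := by
  have h : (fun _ : Fin 1 => (0 : Fin 1)) = id := by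
    funext i
    exact (Subsingleton.elim _ _)
  unfold v0
  rw [h, Am.map_id]

lemma v0_succ (s : ℕ) : v0 R (s + 1) = v0 R s ≫ inlM (Am R (s + 1)) R := by
  rw [← Am.map_castSucc, ← Am.map_comp]
  rfl

/-- **The basis theorem for `R^{⊗ (s+1)}` over the first factor.** -/
theorem exists_basis (s : ℕ) : ∃ b : GBasis E (v0 R s) (Fin s × ℕ →₀ ℕ),
    (∀ a, b.k a = Cob.degM a) ∧
      ∀ a, HRing.of E (Am R (s + 1)) (b.k a) (b.w a) = D.ev s (monomial a 1) := by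
  induction s with
  | zero =>
    rw [v0_zero]
    have hz : ∀ a : Fin 0 × ℕ →₀ ℕ, a = 0 := fun a => Subsingleton.elim _ _
    refine ⟨GBasis.one E (Am R 1) _, fun a => ?_, fun a => ?_⟩
    · rw [hz a]
      simp [GBasis.one, Cob.degM]
    · rw [hz a]
      have h1 : (monomial (0 : Fin 0 × ℕ →₀ ℕ) (1 : Laz)) = 1 := rfl
      rw [h1, map_one]
      exact of_one
  | succ s ih =>
    obtain ⟨b, hk, hw⟩ := ih
    rw [v0_succ]
    refine ⟨(b.trans (D.basis s)).reindex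
      (Equiv.ofBijective _ (Cob.bijective_last_incl (s := s))).symm, ?_, ?_⟩
    · intro a
      obtain ⟨⟨u, c⟩, rfl⟩ := (Cob.bijective_last_incl (s := s)).2 a
      have h1 : (Equiv.ofBijective _ (Cob.bijective_last_incl (s := s))).symm
          ((fun uc : (ℕ →₀ ℕ) × (Fin s × ℕ →₀ ℕ) => Cob.last s uc.1 + Cob.incl uc.2) (u, c)) =
            (u, c) :=
        (Equiv.ofBijective _ (Cob.bijective_last_incl (s := s))).symm_apply_apply (u, c)
      change b.k ((Equiv.ofBijective _ (Cob.bijective_last_incl (s := s))).symm _).2 +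
        (D.basis s).k ((Equiv.ofBijective _ (Cob.bijective_last_incl (s := s))).symm _).1 = _
      rw [h1]
      dsimp only
      rw [hk, D.basis_k, Cob.degM_add, Cob.degM_last, Cob.degM_incl, add_comm]
    · intro a
      obtain ⟨⟨u, c⟩, rfl⟩ := (Cob.bijective_last_incl (s := s)).2 a
      have h1 : (Equiv.ofBijective _ (Cob.bijective_last_incl (s := s))).symm
          ((fun uc : (ℕ →₀ ℕ) × (Fin s × ℕ →₀ ℕ) => Cob.last s uc.1 + Cob.incl uc.2) (u, c)) =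
            (u, c) :=
        (Equiv.ofBijective _ (Cob.bijective_last_incl (s := s))).symm_apply_apply (u, c)
      have h2 : ∀ uc : (ℕ →₀ ℕ) × (Fin s × ℕ →₀ ℕ), uc = (u, c) →
          HRing.of E (Am R (s + 2)) ((b.trans (D.basis s)).k uc) ((b.trans (D.basis s)).w uc) =
            D.ev (s + 1) (monomial (Cob.last s u + Cob.incl c) 1) := by
        rintro uc rfl
        change HRing.of E (Am R (s + 2)) (b.k c + (D.basis s).k u)
          (gmul rfl (b.w c ≫ inlM (Am R (s + 1)) R) ((D.basis s).w u)) = _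
        rw [← of_mul_of rfl, D.basis_w, Cob.monomial_last_incl, map_mul, mul_comm, ← D.ev_map,
          ← hw, HRing.map_of, Am.map_castSucc]
      exact h2 _ h1

include D in
/-- Vanishing of the odd homotopy of `R^{⊗ (s+1)} ⊗ C`, from the case `s = 0`. -/
theorem odd (i : E.L ≅ (𝟙_ T)⟦(1 : ℤ)⟧ ⊗ (𝟙_ T)⟦(1 : ℤ)⟧) (C : T)
    (h0 : ∀ (k : ℤ) (f : (𝟙_ T)⟦2 * k + 1⟧ ⟶ Am R 1 ⊗ C), f = 0) (s : ℕ) (k : ℤ)
    (f : (𝟙_ T)⟦2 * k + 1⟧ ⟶ Am R (s + 1) ⊗ C) : f = 0 := by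
  obtain ⟨b, -, -⟩ := D.exists_basis s
  exact b.odd i C h0 k f

/-- A sum of products of the basis elements with elements of the first factor. -/
lemma sum_aux {s : ℕ} (b : GBasis E (v0 R s) (Fin s × ℕ →₀ ℕ))
    (hw : ∀ a, HRing.of E (Am R (s + 1)) (b.k a) (b.w a) = D.ev s (monomial a 1)) (w : ℤ)
    (t : Finset (Fin s × ℕ →₀ ℕ)) (y : ∀ _ : Fin s × ℕ →₀ ℕ, Cob Laz 0)
    (a : ∀ c, E.S (w - b.k c) ⟶ Am R 1)
    (h : ∀ c ∈ t, D.ev 0 (y c) = HRing.of E (Am R 1) (w - b.k c) (a c)) :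
    D.ev s (∑ c ∈ t, monomial c 1 * Cob.map (fun _ : Fin 1 => (0 : Fin (s + 1))) (y c)) =
      HRing.of E (Am R (s + 1)) w
        (∑ c ∈ t, gmul (add_sub_cancel (b.k c) w) (b.w c) (a c ≫ v0 R s)) := by
  rw [_root_.map_sum]
  have h1 : HRing.of E (Am R (s + 1)) w
        (∑ c ∈ t, gmul (add_sub_cancel (b.k c) w) (b.w c) (a c ≫ v0 R s)) =
      ∑ c ∈ t, HRing.of E (Am R (s + 1)) w
        (gmul (add_sub_cancel (b.k c) w) (b.w c) (a c ≫ v0 R s)) :=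
    _root_.map_sum (DirectSum.of (E.Gr (Am R (s + 1))) w) _ _
  rw [h1]
  refine Finset.sum_congr rfl fun c hc => ?_
  rw [_root_.map_mul, ← hw, ← D.ev_map, h c hc, HRing.map_of, of_mul_of]

/-- `Cob Laz s → π_{2w} (R^{⊗ (s+1)} ⊗ C)` is onto, from the case `s = 0`. -/
theorem surj (hS : ∀ n : ℤ, IsSphere (E.S n)) {C : T} (i : 𝟙_ T ⟶ C)
    (h0 : ∀ (w : ℤ) (f : E.S w ⟶ Am R 1 ⊗ C),
      ∃ (z : Cob Laz 0) (a : E.S w ⟶ Am R 1), Cob.IsWt w z ∧
        D.ev 0 z = HRing.of E (Am R 1) w a ∧ f = a ≫ (ρ_ (Am R 1)).inv ≫ (Am R 1 ◁ i))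
    (s : ℕ) (w : ℤ) (f : E.S w ⟶ Am R (s + 1) ⊗ C) :
    ∃ (z : Cob Laz s) (a : E.S w ⟶ Am R (s + 1)), Cob.IsWt w z ∧
      D.ev s z = HRing.of E (Am R (s + 1)) w a ∧
      f = a ≫ (ρ_ (Am R (s + 1))).inv ≫ (Am R (s + 1) ◁ i) := by
  obtain ⟨b, hk, hw⟩ := D.exists_basis s
  obtain ⟨t, x, rfl⟩ := b.exists_expansion C w (hS w) f
  choose y a hy ha hx using fun c => h0 (w - b.k c) (x c)
  refine ⟨∑ c ∈ t, monomial c 1 * Cob.map (fun _ : Fin 1 => (0 : Fin (s + 1))) (y c),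
    ∑ c ∈ t, gmul (add_sub_cancel (b.k c) w) (b.w c) (a c ≫ v0 R s), ?_, ?_, ?_⟩
  · refine Cob.isWt_sum _ _ fun c _ => ?_
    have h1 := (Cob.isWt_monomial (N := Laz) c).mul
      ((hy c).map (fun _ : Fin 1 => (0 : Fin (s + 1))))
    rwa [hk, add_sub_cancel] at h1
  · exact D.sum_aux b hw w t y a fun c _ => ha c
  · rw [Preadditive.sum_comp]
    refine Finset.sum_congr rfl fun c _ => ?_
    change _ = gmul _ _ _ ≫ rmap (Am R (s + 1)) i
    rw [← gact_rmap, hx c]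
    change gact C _ _ ((a c ≫ rmap (Am R 1) i) ≫ v0 R s ▷ C) = _
    rw [Category.assoc, rmap_nat, Category.assoc]

/-- The kernel of `Cob Laz s → π_{2w} (R^{⊗ (s+1)} ⊗ C)`, from the case `s = 0`. -/
theorem ker {C : T} (i : 𝟙_ T ⟶ C) (p : ℤ)
    (h0 : ∀ (w : ℤ) (z : Cob Laz 0), Cob.IsWt w z → ∀ a : E.S w ⟶ Am R 1,
      D.ev 0 z = HRing.of E (Am R 1) w a → a ≫ (ρ_ (Am R 1)).inv ≫ (Am R 1 ◁ i) = 0 →
      ∃ y : Cob Laz 0, Cob.IsWt w y ∧ z = p • y)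
    (s : ℕ) (w : ℤ) (z : Cob Laz s) (hz : Cob.IsWt w z) (a : E.S w ⟶ Am R (s + 1))
    (ha : D.ev s z = HRing.of E (Am R (s + 1)) w a)
    (h : a ≫ (ρ_ (Am R (s + 1))).inv ≫ (Am R (s + 1) ◁ i) = 0) :
    ∃ y : Cob Laz s, Cob.IsWt w y ∧ z = p • y := by
  classical
  obtain ⟨b, hk, hw⟩ := D.exists_basis s
  have hz1 := Cob.sum_monomial_of_isWt hz
  have hy : ∀ c : Fin s × ℕ →₀ ℕ, Cob.IsWt (w - b.k c)
      (Cob.proj (w - Cob.degM c) (MvPolynomial.C (MvPolynomial.coeff c z) : Cob Laz 0)) := by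
    intro c
    rw [hk]
    exact Cob.isWt_proj _ _
  choose x hx using fun c => D.ev_wt 0 _ _ (hy c)
  have h1 := D.sum_aux b hw w z.support _ x fun c _ => hx c
  rw [← hz1, ha] at h1
  have h2 : a = ∑ c ∈ z.support, gmul (add_sub_cancel (b.k c) w) (b.w c) (x c ≫ v0 R s) :=
    DirectSum.of_injective (β := E.Gr (Am R (s + 1))) w h1
  have h3 : ∑ c ∈ z.support, gact C (add_sub_cancel (b.k c) w) (b.w c)
      ((x c ≫ rmap (Am R 1) i) ≫ v0 R s ▷ C) = 0 := by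
    rw [← h, h2, Preadditive.sum_comp]
    refine Finset.sum_congr rfl fun c _ => ?_
    change _ = gmul _ _ _ ≫ rmap (Am R (s + 1)) i
    rw [← gact_rmap, Category.assoc, rmap_nat, Category.assoc]
  have h4 := b.expansion_unique C w z.support _ h3
  have h5 : ∀ c : Fin s × ℕ →₀ ℕ, ∃ y : Cob Laz 0, c ∈ z.support → Cob.IsWt (w - b.k c) y ∧
      Cob.proj (w - Cob.degM c) (MvPolynomial.C (MvPolynomial.coeff c z) : Cob Laz 0) =
        p • y := by
    intro c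
    by_cases hc : c ∈ z.support
    · obtain ⟨y, hy1, hy2⟩ := h0 _ _ (hy c) (x c) (hx c) (h4 c hc)
      exact ⟨y, fun _ => ⟨hy1, hy2⟩⟩
    · exact ⟨0, fun h => absurd h hc⟩
  choose y hy' using h5
  refine ⟨∑ c ∈ z.support, monomial c 1 *
    Cob.map (fun _ : Fin 1 => (0 : Fin (s + 1))) (y c), ?_, ?_⟩
  · refine Cob.isWt_sum _ _ fun c hc => ?_
    have h1 := (Cob.isWt_monomial (N := Laz) c).mul
      ((hy' c hc).1.map (fun _ : Fin 1 => (0 : Fin (s + 1))))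
    rwa [hk, add_sub_cancel] at h1
  · conv_lhs => rw [hz1]
    rw [Finset.smul_sum]
    refine Finset.sum_congr rfl fun c hc => ?_
    rw [(hy' c hc).2, map_zsmul, mul_smul_comm]

end CobEv

end Vale.Agent.P251.M
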