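import Vale.Agent.P251.M.PS

/-!
# P251, part M1: the periodicity monoid `PS = ∐ S^{2n}`

This material is in `M/PS.lean`; the identification of `Hom(𝟙, R ⊗ PS)` with the homotopy ring is in
`M/EvenPer.lean`.
-/
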