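import Vale.Agent.P251.M.KBasis
import Vale.Agent.P251.I.M2

/-!
# P251, part M: the basis of `K ⊗ MU` over `K`

For `D : MUData T` with the basis theorem and a morphism of commutative monoids `u : MU ⟶ K`:
`K ⊗ MU` has the graded basis of the monomials `b^a` over `K`.
-/

open CategoryTheory MonoidalCategory MonObj Limits Pretriangulated

universe v u

namespace Vale.Agent.P251.I

open Vale.Agent.P251.S Vale.Agent.P251.T Vale.Agent.P251.M Vale.Agent.P251.F EvenSpheres

set_option linter.unusedSectionVars false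

variable {T : Type u} [Category.{v} T] [Preadditive T] [HasZeroObject T]
    [HasShift T ℤ] [∀ n : ℤ, (shiftFunctor T n).Additive] [Pretriangulated T] [IsTriangulated T]
    [MonoidalCategory T] [SymmetricCategory T] [TensorTriangulated T] [MonoidalClosed T]
    [HasCoproducts.{0} T] [HasProducts.{0} T] [StableCat T]

namespace MUData

variable (D : MUData T) {K : T} [MonObj K] (k : D.R ⟶ K) [IsMonHom k]

/-- The morphism `Am R 2 ⟶ K ⊗ R` defined by `k : R ⟶ K`. -/
noncomputable def toKR : Am D.R 2 ⟶ K ⊗ D.R := (amOne D.R ≫ k) ▷ D.R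

instance : IsMonHom (D.toKR k) := inferInstanceAs (IsMonHom ((amOne D.R ≫ k) ▷ D.R))

theorem v_zero_toKR : Am.v D.R (0 : Fin 2) ≫ D.toKR k = k ≫ inlM K D.R := by
  have h : Am.v D.R (0 : Fin 2) = Am.v D.R (0 : Fin 1) ≫ inlM (Am D.R 1) D.R :=
    Am.v_castSucc D.R (0 : Fin 1)
  rw [h, Category.assoc, toKR, inlM_whiskerRight, Category.assoc, ← Category.assoc, v_amOne,
    Category.id_comp]

theorem v_one_toKR : Am.v D.R (1 : Fin 2) ≫ D.toKR k = inrM K D.R := by
  have h : Am.v D.R (1 : Fin 2) = inrM (Am D.R 1) D.R := Am.v_last D.R 1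
  rw [h, toKR, inrM_whiskerRight]

/-- **The basis of `K ⊗ MU`.** -/
theorem exists_basis_of {F : SpaceFunctor T} {e : F.S.obj CCF ≅ (stdEven T).L}
    (h : MUUniv e D) : ∃ b : GBasis (stdEven T) (inlM K D.R) (ℕ →₀ ℕ),
      (∀ a, b.k a = Cob.degU a) ∧
      ∀ a, HRing.of (stdEven T) (K ⊗ D.R) (b.k a) (b.w a) =
        HRing.map (E := stdEven T) (D.toKR k)
          (D.ev 1 (MvPolynomial.monomial (Cob.last 0 a) 1)) := by
  obtain ⟨b, hk, hw⟩ := h.basis
  refine ⟨b.push (amOne D.R ≫ k), fun a => hk a, fun a => ?_⟩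
  rw [← hw a]
  exact b.of_push_w (amOne D.R ≫ k) a

end MUData

end Vale.Agent.P251.I
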