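import Vale.Agent.P251.M.MSys
import Mathlib.Algebra.DirectSum.Internal
import Mathlib.Algebra.DirectSum.Module
import Mathlib.Tactic

/-!
# P251, part M: the total cohomology group of a multiplicative system

`M.Tot X = ⨁ k, M.H k X` with pull backs and exterior products.
-/

open CategoryTheory MonoidalCategory Limits Pretriangulated

universe v u

noncomputable section

namespace Vale.Agent.P251.M

/-- A criterion for internal direct sums. -/
theorem isInternal_of_bijective {ι : Type*} [DecidableEq ι] {G : Type*} [AddCommGroup G]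
    {H : ι → Type*} [∀ i, AddCommGroup (H i)] (B : ι → AddSubgroup G) (φ : DirectSum ι H →+ G)
    (hφ : Function.Bijective φ) (hB : ∀ i, B i = (φ.comp (DirectSum.of H i)).range) :
    DirectSum.IsInternal B := by
  have hm : ∀ i (x : H i), φ (DirectSum.of H i x) ∈ B i := fun i x => by rw [hB]; exact ⟨x, rfl⟩
  let r : ∀ i, H i →+ B i := fun i =>
    { toFun := fun x => ⟨φ (DirectSum.of H i x), hm i x⟩
      map_zero' := Subtype.ext (map_zero (φ.comp (DirectSum.of H i)))
      map_add' := fun a b => Subtype.ext (map_add (φ.comp (DirectSum.of H i)) a b) }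
  have hr : ∀ i, Function.Surjective (r i) := by
    rintro i ⟨a, ha⟩
    have ha' := ha
    rw [hB] at ha'
    obtain ⟨b, rfl⟩ := ha'
    exact ⟨b, rfl⟩
  have h : (DirectSum.coeAddMonoidHom B).comp (DirectSum.map r) = φ := by
    refine DirectSum.addHom_ext (fun k a => ?_)
    rw [AddMonoidHom.comp_apply, DirectSum.map_of, DirectSum.coeAddMonoidHom_of]
    rfl
  have h2 : Function.Surjective (DirectSum.map r) := (DirectSum.map_surjective _).mpr hr
  constructor
  · intro a b hab
    obtain ⟨a, rfl⟩ := h2 a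
    obtain ⟨b, rfl⟩ := h2 b
    have ha := DFunLike.congr_fun h a
    have hb := DFunLike.congr_fun h b
    rw [AddMonoidHom.comp_apply] at ha hb
    rw [hφ.1 (ha.symm.trans (hab.trans hb))]
  · intro a
    obtain ⟨b, rfl⟩ := hφ.2 a
    exact ⟨_, DFunLike.congr_fun h b⟩

namespace MSys

variable {T : Type u} [Category.{v} T] [Preadditive T] [MonoidalCategory T] [SymmetricCategory T]
  (M : MSys T)

/-- The total cohomology group. -/
abbrev Tot (X : T) : Type v := DirectSum ℤ (fun k => M.H k X)

/-- The inclusion of the homogeneous part of degree `k`. -/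
abbrev tof (X : T) (k : ℤ) : M.H k X →+ M.Tot X := DirectSum.of (fun k => M.H k X) k

/-- Total pull back. -/
def tpull {X Y : T} (f : X ⟶ Y) : M.Tot Y →+ M.Tot X :=
  DirectSum.map (fun k => M.pull k f)

variable {M}

@[simp] theorem tpull_of {X Y : T} (f : X ⟶ Y) (k : ℤ) (a : M.H k Y) :
    M.tpull f (M.tof Y k a) = M.tof X k (M.pull k f a) :=
  DirectSum.map_of _ _ _

@[simp] theorem tpull_apply {X Y : T} (f : X ⟶ Y) (k : ℤ) (a : M.Tot Y) :
    M.tpull f a k = M.pull k f (a k) :=
  DirectSum.map_apply _ _ _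

theorem tot_ext {X : T} {A : Type*} [AddCommMonoid A] {f g : M.Tot X →+ A}
    (h : ∀ k a, f (M.tof X k a) = g (M.tof X k a)) : f = g :=
  DirectSum.addHom_ext h

theorem tpull_id {X : T} (a : M.Tot X) : M.tpull (𝟙 X) a = a := by
  have : M.tpull (𝟙 X) = AddMonoidHom.id _ := tot_ext (fun k a => by
    rw [tpull_of, pull_id]; rfl)
  rw [this]; rfl

theorem tpull_comp {X Y Z : T} (f : X ⟶ Y) (g : Y ⟶ Z) (a : M.Tot Z) :
    M.tpull (f ≫ g) a = M.tpull f (M.tpull g a) := by
  have : M.tpull (f ≫ g) = (M.tpull f).comp (M.tpull g) := tot_ext (fun k a => by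
    rw [AddMonoidHom.comp_apply, tpull_of, tpull_of, tpull_of, pull_comp])
  rw [this]; rfl

theorem tcross_induction {X Y : T} {A : Type*} [AddCommMonoid A] {f g : M.Tot X →+ M.Tot Y →+ A}
    (h : ∀ k a l b, f (M.tof X k a) (M.tof Y l b) = g (M.tof X k a) (M.tof Y l b)) :
    ∀ x y, f x y = g x y := by
  have : f = g := by
    refine tot_ext (fun k a => ?_)
    exact tot_ext (fun l b => h k a l b)
  intro x y; rw [this]

theorem tpull_bijective {X Y : T} (f : X ⟶ Y) [IsIso f] : Function.Bijective (M.tpull f) := by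
  constructor
  · intro a b h
    have := congrArg (M.tpull (inv f)) h
    rwa [← tpull_comp, ← tpull_comp, IsIso.inv_hom_id, tpull_id, tpull_id] at this
  · intro a
    exact ⟨M.tpull (inv f) a, by rw [← tpull_comp, IsIso.hom_inv_id, tpull_id]⟩

section cross

variable [MonoidalPreadditive T]

variable (M) in
/-- Total exterior product. -/
def tcross {X Y : T} : M.Tot X →+ M.Tot Y →+ M.Tot (X ⊗ Y) :=
  DirectSum.toAddMonoid (fun k => AddMonoidHom.flip (DirectSum.toAddMonoid (fun l =>
    AddMonoidHom.flip ((AddMonoidHom.compHom (M.tof (X ⊗ Y) (k + l))).comp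
      (M.xprod (rfl : k + l = k + l))))))

theorem tcross_of_of {X Y : T} (k l : ℤ) (a : M.H k X) (b : M.H l Y) :
    M.tcross (M.tof X k a) (M.tof Y l b) = M.tof (X ⊗ Y) (k + l) (M.xprod rfl a b) := by
  unfold tcross
  rw [DirectSum.toAddMonoid_of]
  simp [AddMonoidHom.flip_apply]

theorem tcross_eq {X Y : T} {k l q : ℤ} (h : k + l = q) (a : M.H k X) (b : M.H l Y) :
    M.tcross (M.tof X k a) (M.tof Y l b) = M.tof (X ⊗ Y) q (M.xprod h a b) := by
  subst h; exact tcross_of_of _ _ _ _

theorem tcross_tpull {X Y X' Y' : T} (f : X ⟶ X') (g : Y ⟶ Y') (a : M.Tot X') (b : M.Tot Y') :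
    M.tcross (M.tpull f a) (M.tpull g b) = M.tpull (f ⊗ₘ g) (M.tcross a b) := by
  refine tcross_induction (f := (AddMonoidHom.compl₂ (M.tcross.comp (M.tpull f)) (M.tpull g)))
    (g := (AddMonoidHom.compr₂ M.tcross (M.tpull (f ⊗ₘ g)))) ?_ a b
  intro k a l b
  simp only [AddMonoidHom.compl₂_apply, AddMonoidHom.comp_apply, AddMonoidHom.compr₂_apply]
  rw [tpull_of, tpull_of, tcross_of_of, tcross_of_of, tpull_of, xprod_pull]

theorem tcross_tpull_left {X Y X' : T} (f : X ⟶ X') (a : M.Tot X') (b : M.Tot Y) :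
    M.tcross (M.tpull f a) b = M.tpull (f ▷ Y) (M.tcross a b) := by
  have h := tcross_tpull f (𝟙 Y) a b
  rwa [tpull_id, tensorHom_id] at h

theorem tcross_tpull_right {X Y Y' : T} (g : Y ⟶ Y') (a : M.Tot X) (b : M.Tot Y') :
    M.tcross a (M.tpull g b) = M.tpull (X ◁ g) (M.tcross a b) := by
  have h := tcross_tpull (𝟙 X) g a b
  rwa [tpull_id, id_tensorHom] at h

theorem tcross_comm {X Y : T} (a : M.Tot X) (b : M.Tot Y) :
    M.tpull (β_ X Y).hom (M.tcross b a) = M.tcross a b := by
  refine tcross_induction (f := (AddMonoidHom.compr₂ M.tcross.flip (M.tpull (β_ X Y).hom)))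
    (g := M.tcross) ?_ a b
  intro k a l b
  simp only [AddMonoidHom.compr₂_apply, AddMonoidHom.flip_apply]
  rw [tcross_eq (add_comm l k), tcross_of_of, tpull_of, xprod_comm rfl]

theorem tcross_assoc {X Y Z : T} (a : M.Tot X) (b : M.Tot Y) (c : M.Tot Z) :
    M.tpull (α_ X Y Z).hom (M.tcross a (M.tcross b c)) = M.tcross (M.tcross a b) c := by
  induction a using DirectSum.induction_on with
  | zero => simp
  | add a a' h h' => simp only [map_add, AddMonoidHom.add_apply, h, h']
  | of k a =>
    induction b using DirectSum.induction_on with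
    | zero => simp
    | add b b' h h' => simp only [map_add, AddMonoidHom.add_apply, h, h']
    | of l b =>
      induction c using DirectSum.induction_on with
      | zero => simp
      | add c c' h h' => simp only [map_add, h, h']
      | of q c =>
        change M.tpull (α_ X Y Z).hom (M.tcross (M.tof X k a) (M.tcross (M.tof Y l b) (M.tof Z q c)))
          = M.tcross (M.tcross (M.tof X k a) (M.tof Y l b)) (M.tof Z q c)
        rw [tcross_of_of l q b c, tcross_eq (add_assoc k l q).symm, tpull_of,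
          tcross_of_of k l a b, tcross_of_of (k + l) q, xprod_assoc rfl rfl]

variable (M) in
/-- The total unit class. -/
def tone : M.Tot (𝟙_ T) := M.tof (𝟙_ T) 0 M.unit

theorem tone_cross {X : T} (a : M.Tot X) : M.tcross M.tone a = M.tpull (λ_ X).hom a := by
  have : M.tcross M.tone = M.tpull (λ_ X).hom := tot_ext (fun k a => by
    rw [tone, tcross_eq (zero_add k), unit_xprod, tpull_of])
  rw [this]

theorem tcross_susp_bijective {L : T} {s : L ⟶ M.obj 0 1} (hs : M.IsSusp s) {X : T} :
    Function.Bijective (fun a : M.Tot X => M.tcross a (M.tof L 1 (cls 0 s))) := by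
  have key : ∀ (a : M.Tot X) (k : ℤ), (M.tcross a (M.tof L 1 (cls 0 s))) (k + 1) =
      M.xprod rfl (a k) (cls 0 s) := by
    intro a k
    induction a using DirectSum.induction_on with
    | zero => simp
    | add a a' h h' => simp only [map_add, AddMonoidHom.add_apply, DirectSum.add_apply, h, h']
    | of l a =>
      rw [tcross_of_of]
      by_cases h : l = k
      · subst h
        rw [DirectSum.of_eq_same, DirectSum.of_eq_same]
      · rw [DirectSum.of_eq_of_ne _ _ _ (fun h' => h (by omega)),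
          DirectSum.of_eq_of_ne _ _ _ (fun h' => h h'.symm), map_zero, AddMonoidHom.zero_apply]
  constructor
  · intro a b h
    apply DFinsupp.ext
    intro k
    apply (hs.bijective (X := X) (rfl : k + 1 = k + 1)).1
    change M.xprod rfl (a k) (cls 0 s) = M.xprod rfl (b k) (cls 0 s)
    rw [← key, ← key]
    exact congrArg (fun z : M.Tot (X ⊗ L) => z (k + 1)) h
  · intro b
    induction b using DirectSum.induction_on with
    | zero => exact ⟨0, by simp⟩
    | add b b' h h' =>
      obtain ⟨a, rfl⟩ := h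
      obtain ⟨a', rfl⟩ := h'
      exact ⟨a + a', by simp only [map_add, AddMonoidHom.add_apply]⟩
    | of q b =>
      obtain ⟨a, rfl⟩ := (hs.bijective (X := X) (k := q - 1) (q := q) (by ring)).2 b
      exact ⟨M.tof X (q - 1) a, tcross_eq _ _ _⟩

end cross

section exact

variable [HasZeroObject T] [HasShift T ℤ] [∀ n : ℤ, (shiftFunctor T n).Additive]
  [Pretriangulated T]

theorem texact₂ (Δ : Triangle T) (hΔ : Δ ∈ distTriang T) (a : M.Tot Δ.obj₂)
    (h : M.tpull Δ.mor₁ a = 0) : ∃ b : M.Tot Δ.obj₃, M.tpull Δ.mor₂ b = a := by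
  classical
  have h' : ∀ k, M.pull k Δ.mor₁ (a k) = 0 := by
    intro k
    rw [← tpull_apply, h, DirectSum.zero_apply]
  choose b hb using fun k => exact₂ Δ hΔ (a k) (h' k)
  refine ⟨DirectSum.mk _ (DFinsupp.support a) (fun k => b k), ?_⟩
  apply DFinsupp.ext
  intro k
  change (M.tpull Δ.mor₂ _) k = _
  rw [tpull_apply]
  by_cases hk : k ∈ DFinsupp.support a
  · rw [DirectSum.mk_apply_of_mem hk, hb]
  · rw [DirectSum.mk_apply_of_notMem hk, map_zero]
    exact (DFinsupp.notMem_support_iff.mp hk).symm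

end exact

/-- The homogeneous part of degree `k` of the total group. -/
def tdeg (M : MSys T) (X : T) (k : ℤ) : AddSubgroup (M.Tot X) := (M.tof X k).range

theorem mem_tdeg {X : T} {k : ℤ} {a : M.Tot X} : a ∈ M.tdeg X k ↔ ∃ b, M.tof X k b = a := Iff.rfl

theorem tof_mem_tdeg {X : T} {k : ℤ} (b : M.H k X) : M.tof X k b ∈ M.tdeg X k := ⟨b, rfl⟩

theorem tpull_mem_tdeg {X Y : T} (f : X ⟶ Y) {k : ℤ} {a : M.Tot Y} (h : a ∈ M.tdeg Y k) :
    M.tpull f a ∈ M.tdeg X k := by
  obtain ⟨b, rfl⟩ := h
  rw [tpull_of]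
  exact tof_mem_tdeg _

theorem tcross_mem_tdeg [MonoidalPreadditive T] {X Y : T} {k l : ℤ} {a : M.Tot X} {b : M.Tot Y}
    (h : a ∈ M.tdeg X k) (h' : b ∈ M.tdeg Y l) : M.tcross a b ∈ M.tdeg (X ⊗ Y) (k + l) := by
  obtain ⟨a, rfl⟩ := h
  obtain ⟨b, rfl⟩ := h'
  rw [tcross_of_of]
  exact tof_mem_tdeg _

theorem tdeg_internal (X : T) : DirectSum.IsInternal (M.tdeg X) :=
  isInternal_of_bijective (M.tdeg X) (AddMonoidHom.id _) Function.bijective_id (fun _ => rfl)

end MSys

end Vale.Agent.P251.M
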