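import Vale.Agent.P251.M.ThomTh

/-!
# P251, part M (ME): Thom classes of finite stage

`ThetaData M F s` : compatible maps `θ : F.S (Th n (Fin N)) ⟶ M.obj a n` for `n ≤ a`, `N ≤ a + n`;
`ThetaData.fam` : the multiplicative family of Thom classes which they define.
-/

open CategoryTheory MonoidalCategory Limits Pretriangulated
open Vale.Agent.P251.G Vale.Agent.P251.G.LC Vale.Agent.P251.I Vale.Agent.P251.T

universe v u

noncomputable section

namespace Vale.Agent.P251.M

variable {T : Type u} [Category.{v} T] [Preadditive T] [HasZeroObject T]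
    [HasShift T ℤ] [∀ n : ℤ, (shiftFunctor T n).Additive] [Pretriangulated T]
    [MonoidalCategory T] [SymmetricCategory T] [TensorTriangulated T]

/-- Thom classes of finite stage. -/
structure ThetaData [ThFC] (M : MSys T) (F : SpaceFunctor T)
    (s : F.S.obj CCF ⟶ M.obj 0 1) where
  /-- the classes -/
  θ {n N a : ℕ} (h : n ≤ a) (h' : N ≤ a + n) : TO F.S n (Fin N) ⟶ M.obj a n
  θ_map {n N a b : ℕ} (h : n ≤ a) (h' : N ≤ a + n) (hab : a ≤ b) (k : n ≤ b) (k' : N ≤ b + n) :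
    θ h h' ≫ M.map n hab = θ k k'
  θ_j {n N N' a : ℕ} (hN : N ≤ N') (h : n ≤ a) (h' : N ≤ a + n) (k' : N' ≤ a + n) :
    TO.j F.S (I := Fin N) (J := Fin N') n (by simpa using hN) ≫ θ h k' = θ h h'
  θ_mul {n m k N N' a b c : ℕ} (hk : n + m = k) (hc : a + b = c) (hn : n ≤ a)
    (hN : N ≤ a + n) (hm : m ≤ b) (hN' : N' ≤ b + m) (hk' : k ≤ c) (hK : N + N' ≤ c + k)
    (hkz : (n : ℤ) + m = k) :
    (θ hn hN ⊗ₘ θ hm hN') ≫ M.mul hc hkz =
      TO.mul F.S (I := Fin N) (J := Fin N') (K := Fin (N + N')) hk (by simp) ≫ θ hk' hK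
  θ_unit : TO.unit F.S (Fin 0) ≫ θ (n := 0) (N := 0) (a := 0) le_rfl le_rfl = M.one
  θ_line : F.S.map (FCat.hom (X := CCF) (Y := ThF 1 Unit) lineTh) ≫
    TO.j F.S (I := Unit) (J := Fin 1) 1 (by simp) ≫
      θ (n := 1) (N := 1) (a := 1) le_rfl (by norm_num) = s ≫ M.map 1 (Nat.zero_le 1)

namespace ThetaData

variable [ThFC] {M : MSys T} {F : SpaceFunctor T} {s : F.S.obj CCF ⟶ M.obj 0 1}
  (D : ThetaData M F s)

/-- the Thom class -/
def cl (n N : ℕ) : M.H n (TO F.S n (Fin N)) :=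
  MSys.cls (max n N) (D.θ (n := n) (N := N) (a := max n N) (le_max_left _ _)
    ((le_max_right n N).trans (Nat.le_add_right _ _)))

theorem cl_eq {n N a : ℕ} (h : n ≤ a) (h' : N ≤ a + n) : D.cl n N = MSys.cls a (D.θ h h') := by
  have k : max n N ≤ max n N + a := Nat.le_add_right _ _
  have k' : a ≤ max n N + a := Nat.le_add_left _ _
  rw [cl, ← MSys.cls_map k, ← MSys.cls_map k',
    D.θ_map _ _ k (h.trans k') (h'.trans (Nat.add_le_add_right k' n)),
    D.θ_map _ _ k' (h.trans k') (h'.trans (Nat.add_le_add_right k' n))]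

/-- The multiplicative family of Thom classes. -/
def fam : ThomFam M F s where
  w n N := D.cl n N
  w_j n {N N'} h := by
    have h1 : n ≤ n + N' := Nat.le_add_right _ _
    have h2 : N ≤ n + N' + n := by omega
    have h3 : N' ≤ n + N' + n := by omega
    rw [D.cl_eq h1 h3, D.cl_eq h1 h2, MSys.pull_cls, D.θ_j h h1 h2 h3]
  w_mul {n m k N N' K} h h' hk := by
    have h1 : n ≤ n + K := Nat.le_add_right _ _
    have h2 : N ≤ n + K + n := by omega
    have h3 : m ≤ m + K := Nat.le_add_right _ _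
    have h4 : N' ≤ m + K + m := by omega
    have h5 : k ≤ (n + K) + (m + K) := by omega
    have h6 : K ≤ (n + K) + (m + K) + k := by omega
    have h7 : N + N' ≤ (n + K) + (m + K) + k := by omega
    rw [D.cl_eq h5 h6, D.cl_eq h1 h2, D.cl_eq h3 h4, MSys.pull_cls, MSys.xprod_cls hk rfl,
      D.θ_mul h rfl h1 h2 h3 h4 h5 h7 hk, ← D.θ_j h' h5 h7 h6, TO.mul_j_assoc]
  w_unit := by
    have h1 : (0 : ℕ) ≤ 0 := le_rfl
    rw [D.cl_eq (n := 0) (N := 0) (a := 0) le_rfl le_rfl]
    exact (MSys.pull_cls _ _ _).trans (congrArg _ D.θ_unit)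
  w_one := by
    rw [D.cl_eq (n := 1) (N := 1) (a := 1) le_rfl (by norm_num)]
    refine (MSys.pull_cls _ _ _).trans ?_
    refine (congrArg _ ((Category.assoc _ _ _).trans D.θ_line)).trans ?_
    exact MSys.cls_map _ _

theorem fam_w (n N : ℕ) : D.fam.w n N = D.cl n N := rfl

theorem isoClasses (h : ∀ a : ℕ, IsIso (D.θ (n := a) (N := a + a) (a := a) le_rfl le_rfl)) :
    D.fam.IsoClasses := fun a => by
  have := h a
  exact ⟨a + a, asIso (D.θ (n := a) (N := a + a) (a := a) le_rfl le_rfl), D.cl_eq _ _⟩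

end ThetaData

end Vale.Agent.P251.M
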