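import Vale.Agent.P251.M.ThomTheta
import Vale.Agent.P251.M.ThetaFam

/-!
# P251, part M: the Thom system of a suspension spectrum functor

For a suspension spectrum functor `F`, even spheres `E` and `e : F.S ℂ ≅ E.L`:

* `thomSys F E e : ThomSys T`;
* `thetaData F E e` : the Thom classes of finite stage of the sequence `(thomSys F E e).MU`.
-/

open CategoryTheory MonoidalCategory Limits Pretriangulated
open Vale.Agent.P251.G Vale.Agent.P251.G.LC Vale.Agent.P251.I Vale.Agent.P251.T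

universe v u

set_option linter.unusedSectionVars false

noncomputable section

namespace Vale.Agent.P251.M

/-! ### Invertible comparison maps -/

section iso

variable {T : Type u} [Category.{v} T] [MonoidalCategory T] [SymmetricCategory T]

theorem CommSys.Fam.isIso_tr {J K : Type} [AddCommMonoid J] [AddCommMonoid K] {S : CommSys T J}
    {deg : K →+ J} (x : CommSys.Fam S deg) {k : K} (hk : k = 0) {m n : J} (h : deg k + m = n) :
    IsIso (x.tr k h) := by
  subst hk
  obtain rfl : m = n := by rw [← h, map_zero, zero_add]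
  rw [x.tr_zero]
  infer_instance

namespace ThomSys

variable (R : ThomSys T)

theorem j0_eq (y : ℕ × ℕ) : R.j0 y = (λ_ (R.t.X y)).inv := by
  change (λ_ (R.t.X y)).inv ≫ (𝟙 (𝟙_ T) ⊗ₘ 𝟙 (R.t.X y)) = _
  rw [id_tensorHom_id, Category.comp_id]

instance (y : ℕ × ℕ) : IsIso (R.j0 y) := by
  rw [R.j0_eq]
  exact (λ_ (R.t.X y)).isIso_inv

/-- the comparison map is an isomorphism for `(n, N) = (a, a + a)` -/
theorem isIso_θ {a N : ℕ} (hN : N = a + a) (h : a ≤ a) (h' : N ≤ a + a) :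
    IsIso (R.θ (n := a) (N := N) (a := a) h h') := by
  subst hN
  unfold θ
  have i1 : IsIso (R.uz.tr (m := (0, (a, a + a))) (a - a, a + a - (a + a)) (pt_tr h h')) :=
    R.uz.isIso_tr (by simp) _
  infer_instance

end ThomSys

end iso

/-! ### The instance -/

section inst

open CommSys

variable {T : Type u} [Category.{v} T] [MonoidalCategory T] [SymmetricCategory T]
variable [ThFC] (F : FCat ⥤ T) [HInv F] [F.LaxBraided]

/-- the elements `𝟙 ⟶ TO 0 (Fin l)` -/
def TO.zFam : Fam (TO.sys F) (AddMonoidHom.inr ℕ ℕ) :=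
  Fam.mk' (S := TO.sys F) (fun l => TO.unit F (Fin l)) rfl (by
    intro k l m h h'
    have h1 : Fintype.card (Fin k) + Fintype.card (Fin l) ≤ Fintype.card (Fin m) := by
      simpa using h.le
    have e := TO.unit_mul F (n := 0) (I := Fin k) (J := Fin l) (K := Fin m) (zero_add 0) h1
    change (λ_ (𝟙_ T)).inv ≫ (TO.unit F (Fin k) ⊗ₘ TO.unit F (Fin l)) ≫
      TO.mul F (zero_add 0) h1 = TO.unit F (Fin m)
    rw [tensorHom_def', Category.assoc, e, leftUnitor_naturality_assoc, Iso.inv_hom_id_assoc,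
      TO.unit_j])

theorem TO.zFam_e (l : ℕ) : (TO.zFam F).e l = TO.unit F (Fin l) := rfl

end inst

variable {T : Type u} [Category.{v} T] [Preadditive T] [HasZeroObject T]
    [HasShift T ℤ] [∀ n : ℤ, (shiftFunctor T n).Additive] [Pretriangulated T]
    [MonoidalCategory T] [SymmetricCategory T] [TensorTriangulated T]

variable [ThFC] (F : SpaceFunctor T) (E : EvenSpheres T) (e : F.S.obj CCF ≅ E.L)

/-- The map `S ℂ ⟶ S (Th 1 (Fin 1))`. -/
def lineTO : F.S.obj CCF ⟶ TO F.S 1 (Fin 1) :=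
  F.S.map (FCat.hom (X := CCF) (Y := ThF 1 Unit) lineTh) ≫
    TO.j F.S (I := Unit) (J := Fin 1) 1 (by simp)

/-- The Thom system of a suspension spectrum functor. -/
def thomSys : ThomSys T where
  t := TO.sys F.S
  z := TO.zFam F.S
  E := E
  ℓ := e.inv ≫ lineTO F

theorem thomSys_t_X (n N : ℕ) : (thomSys F E e).t.X (n, N) = TO F.S n (Fin N) := rfl

theorem thomSys_zt {n N N' l : ℕ} (h : l + N = N')
    (h' : Fintype.card (Fin N) ≤ Fintype.card (Fin N')) :
    (thomSys F E e).zt (n := n) l h = TO.j F.S n h' := by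
  have h1 : Fintype.card (Fin l) + Fintype.card (Fin N) ≤ Fintype.card (Fin N') := by
    simpa using h.le
  have e1 := TO.unit_mul F.S (n := n) (I := Fin l) (J := Fin N) (K := Fin N') (zero_add n) h1
  change (λ_ (TO F.S n (Fin N))).inv ≫ (TO.unit F.S (Fin l) ▷ TO F.S n (Fin N)) ≫
    TO.mul F.S (zero_add n) h1 = _
  rw [e1, Iso.inv_hom_id_assoc]

/-- The suspension class at stage `0`. -/
def suspS : F.S.obj CCF ⟶ (MSys.ofSeq (thomSys F E e).MU E).obj 0 1 :=
  (e.hom ≫ E.oneIso.inv) ≫ MSys.sig (thomSys F E e).MU E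

theorem MSys.IsSusp.comp_iso {M : MSys T} {L L' : T} {s : L ⟶ M.obj 0 1} (hs : M.IsSusp s)
    (i : L' ≅ L) : M.IsSusp (i.hom ≫ s) where
  bij X n k q hk := by
    have h := hs.bij X n k q hk
    have h1 : (fun x : X ⟶ M.obj n k =>
        ((x ⊗ₘ (i.hom ≫ s)) ≫ M.mul (Nat.add_zero n) hk : X ⊗ L' ⟶ M.obj n q)) =
        (fun y => (X ◁ i.hom) ≫ y) ∘ (fun x : X ⟶ M.obj n k =>
          ((x ⊗ₘ s) ≫ M.mul (Nat.add_zero n) hk : X ⊗ L ⟶ M.obj n q)) := by
      funext x
      change _ = (X ◁ i.hom) ≫ (x ⊗ₘ s) ≫ M.mul (Nat.add_zero n) hk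
      rw [← Category.assoc (X ◁ i.hom), ← id_tensorHom, tensorHom_comp_tensorHom,
        Category.id_comp]
    rw [h1]
    refine Function.Bijective.comp ⟨?_, ?_⟩ h
    · intro a b hab
      exact (cancel_epi (X ◁ i.hom)).mp hab
    · intro b
      exact ⟨(X ◁ i.inv) ≫ b, by
        change (X ◁ i.hom) ≫ (X ◁ i.inv) ≫ b = b
        rw [← Category.assoc, ← whiskerLeft_comp, Iso.hom_inv_id, whiskerLeft_id,
          Category.id_comp]⟩

section

omit [HasZeroObject T] [∀ n : ℤ, (shiftFunctor T n).Additive] [Pretriangulated T]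
  [TensorTriangulated T] [ThFC] [Preadditive T] [HasShift T ℤ]

theorem oneIso_inv_eq (E : EvenSpheres T) : E.oneIso.inv = (ρ_ E.L).inv := by
  refine IsFr.unique (F := Fr.self E.L) (G := E.fr 1) rfl (IsFr.inv' rfl E.isFr_oneIso) ?_
  have h := E.isFr_succ 0
  have h2 := isFr_rightUnitor (Fr.self E.L)
  have h3 : IsFr ((Fr.self E.L).tensor (E.fr 0)) (Fr.self E.L) (ρ_ E.L).hom := by
    have k := IsFr.whiskerLeft (F := Fr.self E.L) (by rfl) E.isFr_zero'
    have k2 := IsFr.comp (by simp) (by simp) k h2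
    have q : (E.L ◁ 𝟙 (𝟙_ T)) ≫ (ρ_ E.L).hom = (ρ_ E.L).hom := by
      rw [whiskerLeft_id, Category.id_comp]
    exact (congrArg (IsFr _ _) q).mp k2
  have h4 := IsFr.inv' (by simp) h3
  have h5 := IsFr.comp (by simp) (by simp) h4 h
  exact (congrArg (IsFr _ _) (Category.comp_id _)).mp h5

theorem ThomSys.unit_θ (R : ThomSys T) :
    R.t.one ≫ R.θ (n := 0) (N := 0) (a := 0) le_rfl le_rfl =
      (λ_ (𝟙_ T)).inv ≫ (R.MU.one ⊗ₘ R.E.z) := by
  have h : R.b 0 ≫ R.θ (n := 0) (N := 0) (a := 0) le_rfl le_rfl =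
    (λ_ (𝟙_ T)).inv ≫ (R.ua 0 ▷ 𝟙_ T) := R.b_θ (n := 0) (a := 0) le_rfl le_rfl
  have h2 : R.ua 0 = R.MU.one := by
    rw [← R.one_map 0]
    have : homOfLE (Nat.zero_le 0) = 𝟙 0 := rfl
    rw [this, R.MU.E.map_id, Category.comp_id]
  rw [h2, ← tensorHom_id] at h
  exact h

theorem ThomSys.ℓ_θ (R : ThomSys T) :
    R.ℓ ≫ R.θ (n := 1) (N := 1) (a := 1) le_rfl (by norm_num) =
      (ρ_ R.E.L).inv ≫ (λ_ (R.E.S 1)).inv ≫
        ((R.MU.one ≫ R.MU.E.map (homOfLE (Nat.zero_le 1))) ▷ R.E.S 1) := by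
  have h := R.b_θ (n := 1) (a := 1) le_rfl (by norm_num)
  rw [R.one_map 1, Iso.eq_inv_comp, ← Category.assoc, ← R.b_one]
  exact h

end

/-- The comparison maps, typed. -/
def thomθ {n N a : ℕ} (h : n ≤ a) (h' : N ≤ a + n) :
    TO F.S n (Fin N) ⟶ (thomSys F E e).MU.E.obj a ⊗ E.S n := (thomSys F E e).θ h h'

theorem lineTO_thomθ :
    lineTO F ≫ thomθ F E e (n := 1) (N := 1) (a := 1) le_rfl (by norm_num) =
      e.hom ≫ (ρ_ E.L).inv ≫ (λ_ (E.S 1)).inv ≫ (((thomSys F E e).MU.one ≫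
        (thomSys F E e).MU.E.map (homOfLE (Nat.zero_le 1))) ▷ E.S 1) := by
  have h1 : (e.inv ≫ lineTO F) ≫ thomθ F E e (n := 1) (N := 1) (a := 1) le_rfl
      (by norm_num) = (ρ_ E.L).inv ≫ (λ_ (E.S 1)).inv ≫ (((thomSys F E e).MU.one ≫
      (thomSys F E e).MU.E.map (homOfLE (Nat.zero_le 1))) ▷ E.S 1) := (thomSys F E e).ℓ_θ
  rw [Category.assoc, Iso.inv_comp_eq] at h1
  exact h1

/-- The Thom classes of finite stage of the sequence of `MU`. -/
def thetaData : ThetaData (MSys.ofSeq (thomSys F E e).MU E) F (suspS F E e) where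
  θ h h' := thomθ F E e h h'
  θ_map h h' hab _ _ := (thomSys F E e).θ_map h h' hab
  θ_j {n N N' a} hN h h' k' := by
    have h1 := (thomSys F E e).zt_θ (n := n) (N := N) (N' := N') (a := a) (l := N' - N) h k'
      (by omega)
    rw [thomSys_zt F E e _ (by simpa using hN)] at h1
    exact h1
  θ_mul {n m k N N' a b c} hk hc hn hN hm hN' hk' hK hkz := by
    exact (thomSys F E e).θ_mul hk rfl hc hkz hn hN hm hN' (by rw [← hk]; rfl)
  θ_unit := by
    exact (thomSys F E e).unit_θ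
  θ_line := by
    have h2 : suspS F E e ≫ (MSys.ofSeq (thomSys F E e).MU E).map 1 (Nat.zero_le 1) =
        e.hom ≫ (ρ_ E.L).inv ≫ (λ_ (E.S 1)).inv ≫ (((thomSys F E e).MU.one ≫
        (thomSys F E e).MU.E.map (homOfLE (Nat.zero_le 1))) ▷ E.S 1) := by
      change ((e.hom ≫ E.oneIso.inv) ≫ (λ_ (E.S 1)).inv ≫ ((thomSys F E e).MU.one ▷ E.S 1)) ≫
        ((thomSys F E e).MU.E.map (homOfLE (Nat.zero_le 1)) ▷ E.S 1) = _
      rw [oneIso_inv_eq, comp_whiskerRight]
      simp only [Category.assoc]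
      exact Category.assoc _ _ _
    rw [h2, ← lineTO_thomθ]
    exact (Category.assoc _ _ _).symm

theorem isIso_thomθ (a : ℕ) : IsIso (thomθ F E e (n := a) (N := a + a) (a := a) le_rfl le_rfl) :=
  (thomSys F E e).isIso_θ rfl _ _

/-- the multiplicative family of Thom classes of `MU` -/
def thomFam : ThomFam (MSys.ofSeq (thomSys F E e).MU E) F (suspS F E e) := (thetaData F E e).fam

theorem thomFam_isoClasses : (thomFam F E e).IsoClasses :=
  (thetaData F E e).isoClasses (isIso_thomθ F E e)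

theorem isSusp_suspS : (MSys.ofSeq (thomSys F E e).MU E).IsSusp (suspS F E e) :=
  (MSys.isSusp_sig (thomSys F E e).MU E).comp_iso (e ≪≫ E.oneIso.symm)

end Vale.Agent.P251.M
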