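import Vale.Agent.P251.M.MULim
import Vale.Agent.P251.M.ThomInst

/-!
# P251, part M: the transition maps of the sequence of `MU`

`isSus_stabN` : the transition map `MU n ⟶ MU (n+1)` is isomorphic, as an arrow, to the
desuspension `S^{-2(n+1)} ⊗ F.S (stabN n)` of the geometric stabilisation map
`stabN n : ℂ ⊗ Th n (Fin (n+n)) ⟶ Th (n+1) (Fin (n+1+(n+1)))`.
-/

open CategoryTheory MonoidalCategory Limits Pretriangulated Matrix
open Vale.Agent.P251.G Vale.Agent.P251.G.LC Vale.Agent.P251.I Vale.Agent.P251.T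
open Functor.OplaxMonoidal Functor.LaxMonoidal

universe v u

set_option linter.unusedSectionVars false

noncomputable section

namespace Vale.Agent.P251.M

section gen

variable {T : Type u} [Category.{v} T] [MonoidalCategory T] [SymmetricCategory T]

theorem CommSys.act_mul_congr {J : Type} [AddCommMonoid J] (S : CommSys T J) {A : T}
    {i j m c c' d : J} (x : 𝟙_ T ⟶ S.X i) (f : A ⟶ S.X j) (h : i + m = c) (h' : j + c = d)
    (k : i + m = c') (k' : j + c' = d) :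
    (A ◁ S.act x h) ≫ (f ▷ S.X c) ≫ S.mul h' = (A ◁ S.act x k) ≫ (f ▷ S.X c') ≫ S.mul k' := by
  subst h
  subst k
  rfl

theorem fT_aux {A L L' L'' B B' D : T} (r : A ⟶ L) (l : L ⟶ L') (j : L' ⟶ L'') (z : B ⟶ B')
    (m : L'' ⊗ B' ⟶ D) (m' : L' ⊗ B ⟶ D) (hm : (j ⊗ₘ z) ≫ m = m') :
    (A ◁ z) ≫ ((r ≫ l ≫ j) ▷ B') ≫ m = (r ▷ B) ≫ (l ▷ B) ≫ m' := by
  rw [← hm, whisker_exchange_assoc, MonoidalCategory.tensorHom_def, comp_whiskerRight, comp_whiskerRight]
  simp only [Category.assoc]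

end gen

section

variable {T : Type u} [Category.{v} T] [Preadditive T] [HasZeroObject T]
    [HasShift T ℤ] [∀ n : ℤ, (shiftFunctor T n).Additive] [Pretriangulated T]
    [MonoidalCategory T] [SymmetricCategory T] [TensorTriangulated T]

variable [ThFC] (F : SpaceFunctor T) (E : EvenSpheres T) (e : F.S.obj CCF ≅ E.L)

theorem card_stab (n : ℕ) : Fintype.card (Unit ⊕ Fin (n + n)) ≤
    Fintype.card (Fin (n + 1 + (n + 1))) := by
  simp
  omega

/-- the isometry of `stabN` -/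
def stabU (n : ℕ) : Matrix (Fin (n + 1 + (n + 1))) (Unit ⊕ Fin (n + n)) ℂ :=
  (TO.exists_isom (card_stab n)).choose

theorem stabU_isom (n : ℕ) : (stabU n)ᴴ * stabU n = 1 :=
  (TO.exists_isom (card_stab n)).choose_spec

/-- the geometric stabilisation map `ℂ ⊗ Th n (Fin (n+n)) ⟶ Th (n+1) (Fin (n+1+(n+1)))` -/
def stabN (n : ℕ) : CCF ⊗ ThF n (Fin (n + n)) ⟶ ThF (n + 1) (Fin (n + 1 + (n + 1))) :=
  stabF n (stabU n) (stabU_isom n)

/-- the comparison isomorphism -/
def stabIso (n : ℕ) : E.S ((1 : ℕ) : ℤ) ⊗ TO F.S n (Fin (n + n)) ≅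
    F.S.obj (CCF ⊗ ThF n (Fin (n + n))) :=
  whiskerRightIso (ρ_ E.L ≪≫ e.symm) (TO F.S n (Fin (n + n))) ≪≫
    Functor.Monoidal.μIso F.S CCF (ThF n (Fin (n + n)))

theorem fT_thomSys (n : ℕ) :
    (thomSys F E e).fT n = (stabIso F E e n).hom ≫ F.S.map (stabN n) := by
  have hcard : Fintype.card Unit + Fintype.card (Fin (n + n)) ≤
      Fintype.card (Fin (n + 1 + (n + 1))) := by
    simp
    omega
  -- normal form of the index
  have k : AddMonoidHom.inr ℕ ℕ 1 + (n, n + n) = (n, 1 + (n + n)) := by simp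
  have k' : ThomSys.dg 1 + (n, 1 + (n + n)) = (n + 1, n + 1 + (n + 1)) := by
    ext
    · simp [add_comm]
    · simp; omega
  have e1 := CommSys.act_mul_congr (thomSys F E e).t ((thomSys F E e).z.e 1)
    ((thomSys F E e).b 1) (m := (n, n + n)) (d := (n + 1, n + 1 + (n + 1))) rfl
    (show ThomSys.dg 1 + (AddMonoidHom.inr ℕ ℕ 1 + (n, n + n)) = (n + 1, n + 1 + (n + 1)) by
      rw [k, k']) k k'
  refine e1.trans ?_
  have e2 := thomSys_zt F E e (n := n) (N := n + n) (N' := 1 + (n + n)) (l := 1) rfl (by simp)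
  have e3 : (thomSys F E e).b 1 = (ρ_ E.L).hom ≫ (e.inv ≫ lineTO F) := (thomSys F E e).b_one
  have e4 : (TO.j F.S (I := Unit) (J := Fin 1) 1 (by simp) ⊗ₘ
      TO.j F.S (I := Fin (n + n)) (J := Fin (1 + (n + n))) n (by simp)) ≫
      TO.mul F.S (K := Fin (n + 1 + (n + 1))) (Nat.add_comm 1 n) (by simp; omega) =
      TO.mul F.S (I := Unit) (J := Fin (n + n)) (Nat.add_comm 1 n) hcard :=
    TO.j_mul F.S _ _ _ _
  have e5 := fT_aux ((ρ_ E.L).hom ≫ e.inv)
    (F.S.map (FCat.hom (X := CCF) (Y := ThF 1 Unit) lineTh)) _ _ _ _ e4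
  have e6 : (stabIso F E e n).hom ≫ F.S.map (stabN n) =
      (((ρ_ E.L).hom ≫ e.inv) ▷ TO F.S n (Fin (n + n))) ≫
        (F.S.map (FCat.hom (X := CCF) (Y := ThF 1 Unit) lineTh) ▷ TO F.S n (Fin (n + n))) ≫
        TO.mul F.S (Nat.add_comm 1 n) hcard := by
    rw [← map_stabF F.S n (stabU n) (stabU_isom n) hcard]
    exact Category.assoc _ _ _
  rw [e6, ← e5]
  have e7 : ((ρ_ E.L).hom ≫ e.inv) ≫
      F.S.map (FCat.hom (X := CCF) (Y := ThF 1 Unit) lineTh) ≫
        TO.j F.S (I := Unit) (J := Fin 1) 1 (by simp) = (thomSys F E e).b 1 := by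
    rw [e3]
    exact Category.assoc _ _ _
  rw [e7, ← e2]
  rfl

/-- the transition maps of the sequence of `MU` are desuspensions of `F.S (stabN n)` -/
theorem isSus_stabN (n : ℕ) : IsSus E
    ((thomSys F E e).MU.E.map (homOfLE (Nat.le_succ n))) (F.S.map (stabN n)) := by
  obtain ⟨m, a, b, hab⟩ := (thomSys F E e).isSus_MU n
  refine ⟨m, a ≪≫ whiskerLeftIso (E.S m) (stabIso F E e n), b, ?_⟩
  have h1 := (congrArg (fun w => E.S m ◁ w) (fT_thomSys F E e n)).trans
    (MonoidalCategory.whiskerLeft_comp (E.S m) (stabIso F E e n).hom (F.S.map (stabN n)))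
  exact hab.trans ((congrArg (fun w => a.hom ≫ w) h1).trans (Category.assoc _ _ _).symm)

end

end Vale.Agent.P251.M
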