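import Vale.Agent.P251.M.MURealK
import Vale.Agent.P251.M.MUBasisV
import Vale.Agent.P251.M.MUFinal

/-!
# P251, part M4a: the basis of `MU ⊗ MU`, from the identification of the classes

* `M.bAm b i` : the classes `b_i : S^{2i} ⟶ Am MU 1 ⊗ MU` of `b : Beta`;
* `M.Identified` : the coefficients of the strict isomorphism are the `b_i`;
* `M.muBasis` : `MUBasis M.V`.
-/

open CategoryTheory MonoidalCategory Limits Pretriangulated MonObj
open Vale.Agent.P251.G Vale.Agent.P251.G.LC Vale.Agent.P251.I Vale.Agent.P251.T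
open Vale.Agent.P251.S Vale.Agent.P251.F
open MvPolynomial (monomial X)

universe v u

set_option linter.unusedSectionVars false

noncomputable section

namespace Vale.Agent.P251.M

variable {T : Type u} [Category.{v} T] [Preadditive T] [HasZeroObject T]
    [HasShift T ℤ] [∀ n : ℤ, (shiftFunctor T n).Additive] [Pretriangulated T] [IsTriangulated T]
    [MonoidalCategory T] [SymmetricCategory T] [TensorTriangulated T] [MonoidalClosed T]
    [HasCoproducts.{0} T] [HasProducts.{0} T] [StableCat T]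

namespace MUMon

variable {F : SpaceFunctor T} {e : F.S.obj CCF ≅ (stdEven T).L}
variable (M : MUMon F (stdEven T) e)

/-- the classes `b_i` in `Am MU 1 ⊗ MU` -/
def bAm (b : (buDataK M.clsAm).Beta) (i : ℕ) :
    (sphFM (Am M.R 1) (stdEven T)).S ((i : ℕ) : ℤ) ⟶ (FM.free (Am M.R 1)).obj M.R :=
  BMReal.bb (M.realK M.clsAm) (b : (bmDataK M.clsAm).toBUData.Beta) i

/-- **The basis of `MU ⊗ MU`.** -/
def muBasis (b : (buDataK M.clsAm).Beta)
    (h : ∀ m : ℕ, M.V.ev 1 (X (Fin.last 0, m)) =
      HRing.of (stdEven T) (Am M.R 2) ((m + 1 : ℕ) : ℤ) (amb (M.bAm b) (m + 1))) :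
    MUBasis M.V :=
  muBasisOf M.V (M.bAm b) (M.totK_bijective M.clsAm (conn_am_one M.conn) b) h

end MUMon

/-- The second main output of part M, from the identification of the classes `b_i`. -/
theorem exists_muUniv_of (F : SpaceFunctor T) (e : F.S.obj CCF ≅ (stdEven T).L)
    (h : ∀ (M : MUMon F (stdEven T) e) (b : (buDataK M.clsAm).Beta) (m : ℕ),
      M.V.ev 1 (X (Fin.last 0, m)) =
        HRing.of (stdEven T) (Am M.R 2) ((m + 1 : ℕ) : ℤ) (amb (M.bAm b) (m + 1))) :
    ∃ D : MUData T, MUUniv e D :=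
  exists_muUniv F e fun M => by
    obtain ⟨b⟩ := MUMon.exists_betaK M.clsAm
    exact ⟨M.muBasis b (h M b)⟩

end Vale.Agent.P251.M
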