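import Vale.Agent.P251.M.MUSeq

/-!
# P251, part M: abstract Thom systems and the multiplicative sequence of `MU`

A `ThomSys T` is a commutative graded system `t` over `ℕ × ℕ` (`t (n, N) = Σ Th n (Fin N)`), with a
multiplicative family of elements `z l : 𝟙 ⟶ t (0, l)`, even spheres `E` and a map
`ℓ : E.L ⟶ t (1, 1)`.
-/

open CategoryTheory MonoidalCategory

universe v u

namespace Vale.Agent.P251.M

variable {T : Type u} [Category.{v} T] [MonoidalCategory T] [SymmetricCategory T]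

namespace CommSys

variable {J K K' : Type} [AddCommMonoid J] [AddCommMonoid K] [AddCommMonoid K']
  {S : CommSys T J}

/-- the unit as a morphism of systems -/
def unitHom (S : CommSys T J) : Hom (triv T K) (S.comap (0 : K →+ J)) where
  app _ := S.one
  app_one := Category.id_comp _
  app_mul _ := by
    have h := S.one_mul 0
    have e : (S.one ⊗ₘ S.one) ≫ S.mul (zero_add 0) = (λ_ (𝟙_ T)).hom ≫ S.one := by
      rw [tensorHom_def', Category.assoc, h, leftUnitor_naturality]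
    exact e.symm

/-- construction of multiplicative families -/
def Fam.mk' {deg : K →+ J} (e : ∀ k, 𝟙_ T ⟶ S.X (deg k))
    (e_zero : e 0 = S.one' (map_zero deg).symm)
    (e_add : ∀ (k l m : K) (_ : k + l = m) (h' : deg k + deg l = deg m),
      S.em (e k) (e l) h' = e m) : Fam S deg where
  app k := e k
  app_one := by
    dsimp only
    rw [Category.id_comp, e_zero]
  app_mul {k l m} h := by
    dsimp only
    rw [← e_add k l m h (by rw [← map_add, h])]
    unfold em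
    rw [Iso.hom_inv_id_assoc]

@[simp] theorem Fam.mk'_e {deg : K →+ J} (e : ∀ k, 𝟙_ T ⟶ S.X (deg k)) (h₁) (h₂) (k : K) :
    (Fam.mk' (S := S) e h₁ h₂).e k = e k := rfl

theorem em_em_em {a b c d ab cd ac bd r : J} (x : 𝟙_ T ⟶ S.X a) (y : 𝟙_ T ⟶ S.X b)
    (z : 𝟙_ T ⟶ S.X c) (w : 𝟙_ T ⟶ S.X d) (h₁ : a + b = ab) (h₂ : c + d = cd) (h₃ : ab + cd = r)
    (h₄ : a + c = ac) (h₅ : b + d = bd) (h₆ : ac + bd = r) :
    S.em (S.em x y h₁) (S.em z w h₂) h₃ = S.em (S.em x z h₄) (S.em y w h₅) h₆ := by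
  have k1 : b + cd = b + (c + d) := by rw [h₂]
  have k2 : a + (b + (c + d)) = r := by rw [← h₃, ← h₁, ← h₂]; abel
  have k3 : c + bd = b + (c + d) := by rw [← h₅]; abel
  have k4 : b + c + d = b + (c + d) := add_assoc _ _ _
  have k5 : c + b = b + c := add_comm _ _
  rw [S.em_assoc x y _ h₁ h₃ k1 k2, S.em_assoc x z _ h₄ h₆ k3 k2,
    ← S.em_assoc y z w rfl k4 h₂ k1, ← S.em_assoc z y w k5 k4 h₅ k3, S.em_comm y z rfl k5]

/-- restriction of a family -/
def Fam.comap {deg : K →+ J} (x : Fam S deg) (g : K' →+ K) : Fam S (deg.comp g) :=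
  Fam.mk' (fun k => x.e (g k)) (by
    have h1 : (0 : K) = g 0 := (map_zero g).symm
    have : ∀ {z : K} (h : 0 = z) (h' : 0 = deg z), x.e z = S.one' h' := by
      intro z h h'
      subst h
      exact x.e_zero
    exact this h1 _) (by
    intro k l m h h'
    exact x.e_add (by rw [← map_add, h]))

/-- product of two families -/
def Fam.prod {deg : K →+ J} {deg' : K' →+ J} (x : Fam S deg) (y : Fam S deg')
    (deg'' : K × K' →+ J) (hdeg : ∀ k, deg k.1 + deg' k.2 = deg'' k) : Fam S deg'' :=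
  Fam.mk' (fun k => S.em (x.e k.1) (y.e k.2) (hdeg k)) (by
    change S.em (x.e 0) (y.e 0) _ = _
    rw [x.e_zero, y.e_zero]
    exact S.one'_em_one' _ _ _ _) (by
    intro k l m h h'
    have h1 : k.1 + l.1 = m.1 := congrArg Prod.fst h
    have h2 : k.2 + l.2 = m.2 := congrArg Prod.snd h
    have h3 : deg k.1 + deg l.1 = deg m.1 := by rw [← map_add, h1]
    have h4 : deg' k.2 + deg' l.2 = deg' m.2 := by rw [← map_add, h2]
    rw [em_em_em (x.e k.1) (y.e k.2) (x.e l.1) (y.e l.2) (hdeg k) (hdeg l) h' h3 h4 (hdeg m),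
      x.e_add h1, y.e_add h2])

end CommSys

/-- An abstract Thom system. -/
structure ThomSys (T : Type u) [Category.{v} T] [MonoidalCategory T] [SymmetricCategory T] where
  /-- the objects `t (n, N) = Σ Th n (Fin N)` and their products -/
  t : CommSys T (ℕ × ℕ)
  /-- the elements `𝟙 ⟶ t (0, l)` -/
  z : CommSys.Fam t (AddMonoidHom.inr ℕ ℕ)
  /-- even spheres -/
  E : EvenSpheres T
  /-- the bottom cell of `t (1, 1)` -/
  ℓ : E.L ⟶ t.X (1, 1)

namespace ThomSys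

open CommSys

variable (R : ThomSys T)

/-- the system `S^{2d} ⊗ t (n, N)`, indexed by `(d, n, N)` -/
noncomputable def P : CommSys T (ℤ × (ℕ × ℕ)) :=
  (R.E.sys.comap (AddMonoidHom.fst ℤ (ℕ × ℕ))).tensor (R.t.comap (AddMonoidHom.snd ℤ (ℕ × ℕ)))

/-- `n ↦ (n, n)` -/
def dg : ℕ →+ ℕ × ℕ := (AddMonoidHom.id ℕ).prod (AddMonoidHom.id ℕ)

@[simp] theorem dg_apply (n : ℕ) : dg n = (n, n) := rfl

/-- the maps `S^{2n} ⟶ t (n, n)` -/
noncomputable def σ : Hom (R.E.sys.comap (Nat.castAddMonoidHom ℤ)) (R.t.comap dg) :=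
  R.E.homOf R.t dg R.ℓ

/-- the degree of the elements `u k` -/
def degU : ℕ →+ ℤ × (ℕ × ℕ) := (-Nat.castAddMonoidHom ℤ).prod dg

/-- the degree of the elements `z l` -/
def degZ : ℕ →+ ℤ × (ℕ × ℕ) := (0 : ℕ →+ ℤ).prod (AddMonoidHom.inr ℕ ℕ)

/-- the morphism defining the elements `u k : 𝟙 ⟶ S^{-2k} ⊗ t (k, k)` -/
noncomputable def uHom : Hom (triv T ℕ)
    (((R.E.sys.comap (-AddMonoidHom.id ℤ)).comap (Nat.castAddMonoidHom ℤ)).tensor
      (R.t.comap dg)) :=
  (((Hom.trivComap (T := T) (Nat.castAddMonoidHom ℤ)).comp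
    (R.E.dual.comap (Nat.castAddMonoidHom ℤ))).comp
      (Hom.tensorComap _ _ (Nat.castAddMonoidHom ℤ))).comp
    (Hom.tensor (Hom.id _) ((Hom.comapComp _ _ _).comp R.σ))

/-- the elements `u k : 𝟙 ⟶ S^{-2k} ⊗ t (k, k)` -/
noncomputable def uP : Fam R.P degU :=
  Fam.mk' (fun k => R.uHom.app k) (by
    have h := R.uHom.app_one
    rw [Category.id_comp] at h
    refine h.trans ?_
    have e1 : R.P.one' (map_zero degU).symm = (λ_ (𝟙_ T)).inv ≫
        ((R.E.sys.comap (AddMonoidHom.fst ℤ (ℕ × ℕ))).one' (map_zero degU).symm ⊗ₘ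
          (R.t.comap (AddMonoidHom.snd ℤ (ℕ × ℕ))).one' (map_zero degU).symm) :=
      tensor_one' _ _ _
    rw [e1, comap_one', comap_one']
    dsimp only
    rw [comap_one']
    rfl) (by
    intro k l m h h'
    have h1 := R.uHom.app_mul h
    exact (Iso.inv_comp_eq _).mpr h1.symm)

/-- the elements `z l : 𝟙 ⟶ S^0 ⊗ t (0, l)` -/
noncomputable def zP : Fam R.P degZ :=
  Fam.mk' (fun l => (λ_ (𝟙_ T)).inv ≫ (R.E.sys.one ⊗ₘ R.z.e l)) (by
    have e1 : R.P.one' (map_zero degZ).symm = (λ_ (𝟙_ T)).inv ≫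
        ((R.E.sys.comap (AddMonoidHom.fst ℤ (ℕ × ℕ))).one' (map_zero degZ).symm ⊗ₘ
          (R.t.comap (AddMonoidHom.snd ℤ (ℕ × ℕ))).one' (map_zero degZ).symm) :=
      tensor_one' _ _ _
    rw [e1, comap_one', comap_one', R.z.e_zero]
    rfl) (by
    intro k l m h h'
    have e1 := ext_em (R.E.sys.comap (AddMonoidHom.fst ℤ (ℕ × ℕ)))
      (R.t.comap (AddMonoidHom.snd ℤ (ℕ × ℕ))) (i := degZ k) (j := degZ l) (k := degZ m)
      R.E.sys.one (R.z.e k) R.E.sys.one (R.z.e l) h'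
    refine e1.trans ?_
    have e2 : R.t.em (R.z.e k) (R.z.e l) (congrArg Prod.snd h') = R.z.e m := R.z.e_add h
    have e3 : R.E.sys.em R.E.sys.one R.E.sys.one (zero_add 0) = R.E.sys.one :=
      R.E.sys.one_em _
    exact congrArg₂ (fun a b => (λ_ (𝟙_ T)).inv ≫ (a ⊗ₘ b)) e3 e2)

/-- the degree of the elements `u k * z l` -/
def degUZ : ℕ × ℕ →+ ℤ × (ℕ × ℕ) :=
  degU.comp (AddMonoidHom.fst ℕ ℕ) + degZ.comp (AddMonoidHom.snd ℕ ℕ)

/-- the elements `u k * z l` -/
noncomputable def uz : Fam R.P degUZ := Fam.prod R.uP R.zP degUZ (fun _ => rfl)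

/-- the multiplicative sequence of `MU`, with terms `S^{-2n} ⊗ t (n, n + n)` -/
noncomputable def MU : SeqMonoid T := R.uz.seq dg

/-- auxiliary form of `i0` -/
noncomputable def i0' : Hom R.t ((R.E.sys.comap (0 : ℕ × ℕ →+ ℤ)).tensor R.t) :=
  (Hom.leftUnitorInv R.t).comp (Hom.tensor (unitHom R.E.sys) (Hom.id _))

/-- `t (n, N) ⟶ S^0 ⊗ t (n, N)` -/
noncomputable def i0 : Hom R.t (R.P.comap (AddMonoidHom.inr ℤ (ℕ × ℕ))) where
  app y := R.i0'.app y
  app_one := by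
    refine R.i0'.app_one.trans ?_
    have e1 : R.P.one' (map_zero (AddMonoidHom.inr ℤ (ℕ × ℕ))).symm = (λ_ (𝟙_ T)).inv ≫
        ((R.E.sys.comap (AddMonoidHom.fst ℤ (ℕ × ℕ))).one'
          (map_zero (AddMonoidHom.inr ℤ (ℕ × ℕ))).symm ⊗ₘ
          (R.t.comap (AddMonoidHom.snd ℤ (ℕ × ℕ))).one'
            (map_zero (AddMonoidHom.inr ℤ (ℕ × ℕ))).symm) :=
      tensor_one' _ _ _
    refine Eq.trans ?_ e1.symm
    rw [comap_one', comap_one']
    rfl
  app_mul h := R.i0'.app_mul h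

end ThomSys

end Vale.Agent.P251.M
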