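import Vale.Agent.P251.M.MonSeq
import Vale.Agent.P251.M.ThomSys

/-!
# P251, part M: the transition maps of the sequence of `MU` are desuspensions

`ThomSys.isSus_MU` : the transition map `MU n ⟶ MU (n+1)` is isomorphic, as an arrow, to
`S^{-2(n+1)} ⊗ (L ⊗ t (n, 2n) ⟶ t (n+1, 2n+2))`.
-/

open CategoryTheory MonoidalCategory

universe v u

set_option linter.unusedSectionVars false

noncomputable section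

namespace Vale.Agent.P251.M

section general

variable {T : Type u} [Category.{v} T] [MonoidalCategory T] [SymmetricCategory T]

/-- `tensorμ` as an isomorphism -/
def tensorμI (X₁ X₂ Y₁ Y₂ : T) : (X₁ ⊗ X₂) ⊗ (Y₁ ⊗ Y₂) ≅ (X₁ ⊗ Y₁) ⊗ (X₂ ⊗ Y₂) :=
  ⟨tensorμ X₁ X₂ Y₁ Y₂, tensorδ X₁ X₂ Y₁ Y₂, tensorμ_tensorδ _ _ _ _, tensorδ_tensorμ _ _ _ _⟩

/-- the isomorphism `A₂ ⊗ B ≅ A₃ ⊗ (L ⊗ B)` -/
def susIso {A₁ L A₂ A₃ : T} (κ : 𝟙_ T ≅ A₁ ⊗ L) (mu : A₁ ⊗ A₂ ≅ A₃) (B : T) :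
    A₂ ⊗ B ≅ A₃ ⊗ (L ⊗ B) :=
  (λ_ _).symm ≪≫ whiskerRightIso κ _ ≪≫ tensorμI A₁ L A₂ B ≪≫ whiskerRightIso mu _

variable {A₁ L A₂ A₃ B₁ B₂ B₃ : T}

@[reassoc]
lemma susIso_natural (κ : 𝟙_ T ≅ A₁ ⊗ L) (mu : A₁ ⊗ A₂ ≅ A₃) {B B' : T} (b : B ⟶ B') :
    (A₂ ◁ b) ≫ (susIso κ mu B').hom = (susIso κ mu B).hom ≫ (A₃ ◁ (L ◁ b)) := by
  have h1 := tensorμ_natural_right A₁ L (𝟙 A₂) b
  rw [id_tensorHom, whiskerLeft_id, id_tensorHom] at h1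
  change (A₂ ◁ b) ≫ (λ_ _).inv ≫ (κ.hom ▷ _) ≫ tensorμ A₁ L A₂ B' ≫ (mu.hom ▷ _) =
    ((λ_ _).inv ≫ (κ.hom ▷ _) ≫ tensorμ A₁ L A₂ B ≫ (mu.hom ▷ _)) ≫ (A₃ ◁ (L ◁ b))
  rw [leftUnitor_inv_naturality_assoc, whisker_exchange_assoc, reassoc_of% h1,
    whisker_exchange]
  simp only [Category.assoc]

lemma act_u_aux (κ : 𝟙_ T ≅ A₁ ⊗ L) (l : L ⟶ B₁) (mu : A₁ ⊗ A₂ ≅ A₃) (mB : B₁ ⊗ B₂ ⟶ B₃) :
    (λ_ (A₂ ⊗ B₂)).inv ≫ ((κ.hom ≫ (A₁ ◁ l)) ▷ (A₂ ⊗ B₂)) ≫ tensorμ A₁ B₁ A₂ B₂ ≫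
      (mu.hom ⊗ₘ mB) = (susIso κ mu B₂).hom ≫ (A₃ ◁ ((l ▷ B₂) ≫ mB)) := by
  have h1 := tensorμ_natural_left (𝟙 A₁) l A₂ B₂
  rw [id_tensorHom, id_whiskerRight, id_tensorHom] at h1
  change _ = ((λ_ _).inv ≫ (κ.hom ▷ _) ≫ tensorμ A₁ L A₂ B₂ ≫ (mu.hom ▷ _)) ≫ _
  rw [comp_whiskerRight, Category.assoc, reassoc_of% h1, ← id_tensorHom,
    tensorHom_comp_tensorHom, Category.id_comp, tensorHom_def]
  simp only [Category.assoc]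

lemma act_z_aux (z : 𝟙_ T ⟶ B₁) (mA : 𝟙_ T ⊗ A₂ ⟶ A₃) (mB : B₁ ⊗ B₂ ⟶ B₃) :
    (λ_ (A₂ ⊗ B₂)).inv ≫ (((λ_ (𝟙_ T)).inv ≫ (𝟙 (𝟙_ T) ⊗ₘ z)) ▷ (A₂ ⊗ B₂)) ≫
      tensorμ (𝟙_ T) B₁ A₂ B₂ ≫ (mA ⊗ₘ mB) =
      ((λ_ A₂).inv ≫ mA) ⊗ₘ ((λ_ B₂).inv ≫ (z ▷ B₂) ≫ mB) := by
  have h1 := tensorμ_natural_left (𝟙 (𝟙_ T)) z A₂ B₂
  rw [id_whiskerRight] at h1
  have h2 : ((λ_ (𝟙_ T)).inv ▷ (A₂ ⊗ B₂)) ≫ tensorμ (𝟙_ T) (𝟙_ T) A₂ B₂ =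
      (λ_ (A₂ ⊗ B₂)).hom ≫ ((λ_ A₂).inv ⊗ₘ (λ_ B₂).inv) := by
    rw [tensor_left_unitality, Category.assoc, Category.assoc, tensorHom_comp_tensorHom,
      Iso.hom_inv_id, Iso.hom_inv_id, id_tensorHom_id, Category.comp_id]
  rw [comp_whiskerRight, Category.assoc, reassoc_of% h1, reassoc_of% h2, Iso.inv_hom_id_assoc,
    tensorHom_comp_tensorHom, tensorHom_comp_tensorHom, Category.id_comp]

lemma comp_aux {A₂' B B' B'' : T} (i : A₂ ⟶ A₂') (tz : B ⟶ B') (κ : 𝟙_ T ≅ A₁ ⊗ L)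
    (mu : A₁ ⊗ A₂' ≅ A₃) (g : L ⊗ B' ⟶ B'') :
    (i ⊗ₘ tz) ≫ (susIso κ mu B').hom ≫ (A₃ ◁ g) =
      ((i ▷ B) ≫ (susIso κ mu B).hom) ≫ (A₃ ◁ ((L ◁ tz) ≫ g)) := by
  rw [tensorHom_def, Category.assoc, susIso_natural_assoc, ← MonoidalCategory.whiskerLeft_comp,
    Category.assoc]

lemma uP_aux {A L B : T} (κ : 𝟙_ T ⟶ A ⊗ L) (l : L ⟶ B) :
    ((𝟙 (𝟙_ T) ≫ κ) ≫ 𝟙 (A ⊗ L)) ≫ (𝟙 A ⊗ₘ (𝟙 L ≫ l)) = κ ≫ (A ◁ l) := by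
  simp

end general

namespace ThomSys

open CommSys

variable {T : Type u} [Category.{v} T] [MonoidalCategory T] [SymmetricCategory T]
  (R : ThomSys T)

/-- the isomorphism `𝟙 ≅ S^{-2k} ⊗ S^{2k}` -/
def kap (k : ℕ) : 𝟙_ T ≅ R.E.S (-(k : ℤ)) ⊗ R.E.S k := (R.E.mu (-(k : ℤ)) k 0 (by ring)).symm

lemma uP_e_kap (k : ℕ) : R.uP.e k = (R.kap k).hom ≫ (R.E.S (-(k : ℤ)) ◁ R.σ.app k) :=
  uP_aux (R.kap k).hom (R.σ.app k)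

/-- multiplication by `u k` -/
lemma act_uP (k : ℕ) {c b : ℤ × (ℕ × ℕ)} (h : degU k + c = b) :
    R.P.act (R.uP.e k) h =
      (susIso (R.kap k) (R.E.mu (-(k : ℤ)) c.1 b.1 (congrArg Prod.fst h)) (R.t.X c.2)).hom ≫
        (R.E.S b.1 ◁ ((R.σ.app k ▷ R.t.X c.2) ≫ R.t.mul (congrArg Prod.snd h))) := by
  refine Eq.trans ?_ (act_u_aux (R.kap k) (R.σ.app k)
    (R.E.mu (-(k : ℤ)) c.1 b.1 (congrArg Prod.fst h)) (R.t.mul (congrArg Prod.snd h)))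
  exact congrArg (fun z => (λ_ (R.E.S c.1 ⊗ R.t.X c.2)).inv ≫ (z ▷ _) ≫
    tensorμ _ _ _ _ ≫ ((R.E.mu (-(k : ℤ)) c.1 b.1 (congrArg Prod.fst h)).hom ⊗ₘ
      (R.t.mul (congrArg Prod.snd h)))) (R.uP_e_kap k)

/-- multiplication by `z l` -/
lemma act_zP (l : ℕ) {c b : ℤ × (ℕ × ℕ)} (h : degZ l + c = b) :
    R.P.act (R.zP.e l) h =
      ((λ_ (R.E.S c.1)).inv ≫ (R.E.mu 0 c.1 b.1 (congrArg Prod.fst h)).hom) ⊗ₘ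
        R.t.act (R.z.e l) (congrArg Prod.snd h) :=
  act_z_aux (R.z.e l) (R.E.mu 0 c.1 b.1 (congrArg Prod.fst h)).hom
    (R.t.mul (congrArg Prod.snd h))

/-- The transition map before desuspension. -/
def fT (n : ℕ) : R.E.S ((1 : ℕ) : ℤ) ⊗ R.t.X (n, n + n) ⟶ R.t.X (n + 1, n + 1 + (n + 1)) :=
  (R.E.S ((1 : ℕ) : ℤ) ◁ R.t.act (R.z.e 1)
    (rfl : AddMonoidHom.inr ℕ ℕ 1 + (n, n + n) = AddMonoidHom.inr ℕ ℕ 1 + (n, n + n))) ≫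
    (R.σ.app 1 ▷ _) ≫
    R.t.mul (show dg 1 + (AddMonoidHom.inr ℕ ℕ 1 + (n, n + n)) = (n + 1, n + 1 + (n + 1)) by
      ext
      · simp [add_comm]
      · simp; omega)

/-- the transition map of `MU` is a desuspension of `fT` -/
theorem isSus_MU (n : ℕ) :
    IsSus R.E (R.MU.E.map (homOfLE (Nat.le_succ n))) (R.fT n) := by
  -- degrees
  have hc : degZ 1 + degUZ (dg n) = degZ 1 + degUZ (dg n) := rfl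
  have hb : degU 1 + (degZ 1 + degUZ (dg n)) = degUZ (dg (n + 1)) := by
    have : dg (n + 1) = dg 1 + dg n := by ext <;> simp [add_comm]
    rw [this, map_add, ← add_assoc]
    rfl
  have hd : degUZ (dg 1) + degUZ (dg n) = degUZ (dg (n + 1)) := by
    rw [← map_add, ← map_add, add_comm 1 n]
  have e1 : R.MU.E.map (homOfLE (Nat.le_succ n)) = R.uz.tr (dg 1) hd :=
    seq_map R.uz dg (Nat.le_succ n) 1 (add_comm 1 n) hd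
  have e2 : R.uz.tr (dg 1) hd = R.P.act (R.zP.e 1) hc ≫ R.P.act (R.uP.e 1) hb := by
    rw [R.P.act_act (R.zP.e 1) (R.uP.e 1) hc hb rfl hd]
    rfl
  let i : R.E.S (degUZ (dg n)).1 ≅ R.E.S (degZ 1 + degUZ (dg n)).1 :=
    (λ_ (R.E.S (degUZ (dg n)).1)).symm ≪≫
      R.E.mu 0 (degUZ (dg n)).1 (degZ 1 + degUZ (dg n)).1 rfl
  let sI := susIso (R.kap 1) (R.E.mu (-((1 : ℕ) : ℤ)) (degZ 1 + degUZ (dg n)).1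
          (degUZ (dg (n + 1))).1 (congrArg Prod.fst hb)) (R.t.X (degUZ (dg n)).2)
  have e3 : R.P.act (R.zP.e 1) hc ≫ R.P.act (R.uP.e 1) hb =
      (whiskerRightIso i (R.t.X (degUZ (dg n)).2) ≪≫ sI).hom ≫
        (R.E.S (degUZ (dg (n + 1))).1 ◁ ((R.E.S ((1 : ℕ) : ℤ) ◁ R.t.act (R.z.e 1) rfl) ≫
          (R.σ.app 1 ▷ _) ≫ R.t.mul (congrArg Prod.snd hb))) := by
    refine Eq.trans ?_ (comp_aux i.hom (R.t.act (R.z.e 1) (congrArg Prod.snd hc)) (R.kap 1)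
      (R.E.mu (-((1 : ℕ) : ℤ)) (degZ 1 + degUZ (dg n)).1
          (degUZ (dg (n + 1))).1 (congrArg Prod.fst hb)) ((R.σ.app 1 ▷ _) ≫
            R.t.mul (congrArg Prod.snd hb)))
    exact congrArg₂ (fun a b => a ≫ b) (R.act_zP 1 hc) (R.act_uP 1 hb)
  refine ⟨(degUZ (dg (n + 1))).1, whiskerRightIso i (R.t.X (degUZ (dg n)).2) ≪≫ sI,
    Iso.refl _, ?_⟩
  have e4 := e1.trans (e2.trans e3)
  exact (congrArg (fun z => z ≫ 𝟙 (R.P.X (degUZ (dg (n + 1))))) e4).trans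
    (Category.comp_id (obj := T) _)

end ThomSys

end Vale.Agent.P251.M
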