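import Vale.Agent.P251.M.OntoStab
import Vale.Agent.P251.M.MUSus

/-!
# P251, part M: the geometric transition maps of `MU`

`stabMap u hu : ℂ ⊗ Th n I ⟶ Th (n+1) J`, `(c, (P, v)) ↦ (u (1 ⊕ P) uᴴ, u (c, v))`.
-/

open CategoryTheory MonoidalCategory Limits Pretriangulated Matrix
open Vale.Agent.P251.G Vale.Agent.P251.G.LC Vale.Agent.P251.I Vale.Agent.P251.T
open Functor.OplaxMonoidal Functor.LaxMonoidal

universe v u

set_option linter.unusedSectionVars false

noncomputable section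

namespace Vale.Agent.P251.M

section geom

variable {n : ℕ} {I J : Type} [Fintype I] [Fintype J] [DecidableEq I] [DecidableEq J]

/-- The geometric transition map `ℂ ⊗ Th n I ⟶ Th (n+1) J`. -/
def stabMap (n : ℕ) (u : Matrix J (Unit ⊕ I) ℂ) (hu : uᴴ * u = 1) :
    LC.of ℂ ⊗ LC.of (Th n I) ⟶ LC.of (Th (n + 1) J) :=
  (lineTh ▷ LC.of (Th n I)) ≫ Th.sum (Nat.add_comm 1 n) ≫ Th.map u hu

/-- the extension property of the geometric transition map -/
theorem ontoMap_stabMap {E : Q.MultTheory.{v}} (o : Q.Orientation E) (n : ℕ)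
    (u : Matrix J (Unit ⊕ I) ℂ) (hu : uᴴ * u = 1) : OntoMap E (stabMap n u hu) :=
  onto_stab o (Nat.add_comm 1 n) u hu

end geom

section functor

variable {T : Type u} [Category.{v} T] [MonoidalCategory T] [SymmetricCategory T]
variable [ThFC] (F : FCat ⥤ T) [HInv F] [F.Braided]
variable {n : ℕ} {I J : Type} [Fintype I] [Fintype J] [DecidableEq I] [DecidableEq J]

/-- `stabMap` in `FCat` -/
def stabF (n : ℕ) (u : Matrix J (Unit ⊕ I) ℂ) (hu : uᴴ * u = 1) :
    CCF ⊗ ThF n I ⟶ ThF (n + 1) J :=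
  FCat.hom (X := CCF ⊗ ThF n I) (Y := ThF (n + 1) J) (stabMap n u hu)

/-- the image of `stabF` under a functor -/
theorem map_stabF (n : ℕ) (u : Matrix J (Unit ⊕ I) ℂ) (hu : uᴴ * u = 1)
    (h' : Fintype.card Unit + Fintype.card I ≤ Fintype.card J) :
    μ F CCF (ThF n I) ≫ F.map (stabF n u hu) =
      (F.map (FCat.hom (X := CCF) (Y := ThF 1 Unit) lineTh) ▷ TO F n I) ≫
        TO.mul F (Nat.add_comm 1 n) h' := by
  have e1 : stabF n u hu = (FCat.hom (X := CCF) (Y := ThF 1 Unit) lineTh ▷ ThF n I) ≫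
      FCat.hom (X := ThF 1 Unit ⊗ ThF n I) (Y := ThF (n + 1) (Unit ⊕ I))
        (Th.sum (Nat.add_comm 1 n)) ≫
      FCat.hom (X := ThF (n + 1) (Unit ⊕ I)) (Y := ThF (n + 1) J) (Th.map u hu) := rfl
  rw [e1, F.map_comp, F.map_comp, ← μ_natural_left_assoc]
  unfold TO.mul TO.sum
  rw [Category.assoc]
  congr 3
  exact TO.map_eq_j F u hu _

end functor

end Vale.Agent.P251.M
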