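import Vale.Agent.P251.M.ThomT
import Vale.Agent.P251.M.EvenSys
import Vale.Agent.P251.M.SeqDefs

/-!
# P251, part M: multiplicative sequences from graded systems; the sequence of `MU`

* `CommSys.toSeq S x` : the multiplicative sequence with objects `S.X n`, whose transition maps are
  the multiplications by the elements of the multiplicative family `x`.
* `MU` : the multiplicative sequence with `n`-th term `S^{-2n} ⊗ Σ Th n (Fin (2 * n))`.
-/

open CategoryTheory MonoidalCategory

universe v u

namespace Vale.Agent.P251.M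

variable {T : Type u} [Category.{v} T] [MonoidalCategory T] [SymmetricCategory T]

namespace CommSys

section seq

variable {J K : Type} [AddCommMonoid J] [AddCommMonoid K] {S : CommSys T J} {deg : K →+ J}
  (x : Fam S deg)

/-- multiplication by the `k`-th element of a multiplicative family -/
def Fam.tr (k : K) {m n : J} (h : deg k + m = n) : S.X m ⟶ S.X n := S.act (x.e k) h

@[simp] theorem Fam.tr_zero {m : J} (h : deg 0 + m = m) : x.tr 0 h = 𝟙 _ := by
  unfold tr
  rw [x.e_zero, S.act_one']

@[reassoc]
theorem Fam.tr_tr {k l r : K} {m n p : J} (h : deg k + m = n) (h' : deg l + n = p)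
    (hr : l + k = r) (h'' : deg r + m = p) : x.tr k h ≫ x.tr l h' = x.tr r h'' := by
  unfold tr
  rw [S.act_act (x.e k) (x.e l) h h' ((map_add deg l k).symm.trans (congrArg deg hr)) h'',
    ← x.e_add hr]

theorem Fam.tr_congr {k l : K} (hkl : k = l) {m n : J} (h : deg k + m = n)
    (h' : deg l + m = n) : x.tr k h = x.tr l h' := by
  subst hkl; rfl

/-- transition maps and products -/
theorem Fam.tr_mul {k l r : K} {m n p m' n' p' : J} (hk : deg k + m = m') (hl : deg l + n = n')
    (hr : k + l = r) (hp : deg r + p = p') (h : m + n = p) (h' : m' + n' = p') :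
    (x.tr k hk ⊗ₘ x.tr l hl) ≫ S.mul h' = S.mul h ≫ x.tr r hp := by
  unfold tr
  have h1 : deg l + (m' + n) = p' := by rw [← h', ← hl]; abel
  have h2 : deg k + p = m' + n := by rw [← h, ← hk]; abel
  rw [tensorHom_def, Category.assoc, S.whiskerLeft_act_mul (x.e l) hl h' rfl h1,
    S.act_whiskerRight_mul_assoc (x.e k) hk rfl h h2,
    S.act_act (x.e k) (x.e l) h2 h1 ((map_add deg l k).symm.trans
      (congrArg deg ((add_comm l k).trans hr))) hp,
    ← x.e_add ((add_comm l k).trans hr)]

end seq

section toSeq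

variable {J K : Type} [AddCommMonoid J] [AddCommMonoid K] {S : CommSys T J} {deg : K →+ J}

/-- A multiplicative family of elements `x.e k ∈ S.X (deg k)` and a homomorphism `g : ℕ →+ K` give
a multiplicative sequence with terms `S.X (deg (g n))`: the transition maps are the
multiplications by the elements `x.e (g k)`. -/
def Fam.seq (x : Fam S deg) (g : ℕ →+ K) : SeqMonoid T where
  E :=
    { obj := fun n => S.X (deg (g n))
      map := fun {m n} h => x.tr (g (n - m)) (by
        rw [← map_add, ← map_add, Nat.sub_add_cancel (leOfHom h)])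
      map_id := fun m => by
        rw [x.tr_congr (show g (m - m) = 0 by rw [Nat.sub_self, map_zero]) _
          (by rw [map_zero, zero_add]), x.tr_zero]
      map_comp := fun {m n p} f h => by
        have h1 := leOfHom f
        have h2 := leOfHom h
        rw [x.tr_tr _ _ (show g (p - n) + g (n - m) = g (p - m) by
          rw [← map_add]; congr 1; omega)] }
  one := S.one' (by rw [map_zero, map_zero])
  mu {m n p} h := S.mul (by rw [← map_add, ← map_add, h])
  mu_map {m n p m' n' p'} h h' hm hn hp :=
    x.tr_mul _ _ (show g (m' - m) + g (n' - n) = g (p' - p) by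
      rw [← map_add]; congr 1; omega) _ _ _
  one_mu n := S.one'_mul _ _
  mu_assoc h₁ h₂ h₃ h₄ := S.mul_assoc _ _ _ _
  mu_comm h h' := S.mul_comm _ _

variable (x : Fam S deg) (g : ℕ →+ K)

@[simp] theorem seq_obj (n : ℕ) : (x.seq g).E.obj n = S.X (deg (g n)) := rfl

theorem seq_map {m n : ℕ} (h : m ≤ n) (k : ℕ) (hk : k + m = n)
    (hk' : deg (g k) + deg (g m) = deg (g n)) :
    (x.seq g).E.map (homOfLE h) = x.tr (g k) hk' := by
  have : n - m = k := by omega
  exact x.tr_congr (congrArg g this) _ _

theorem seq_one (h : 0 = deg (g 0)) : (x.seq g).one = S.one' h := rfl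

theorem seq_mu {m n p : ℕ} (h : m + n = p) (h' : deg (g m) + deg (g n) = deg (g p)) :
    (x.seq g).mu h = S.mul h' := rfl

end toSeq

/-! ### More structural morphisms of systems -/

section

variable {J : Type} [AddCommMonoid J] (S : CommSys T J)

theorem mul_tensorHom_mul {a b c d ab cd bcd e cd' : J} (h₁ : a + b = ab) (h₂ : c + d = cd)
    (h₃ : ab + cd = e) (h₄ : c + d = cd') (h₅ : b + cd' = bcd) (h₆ : a + bcd = e) :
    (S.mul h₁ ⊗ₘ S.mul h₂) ≫ S.mul h₃ = (α_ (S.X a) (S.X b) (S.X c ⊗ S.X d)).hom ≫
      (S.X a ◁ (S.X b ◁ S.mul h₄)) ≫ (S.X a ◁ S.mul h₅) ≫ S.mul h₆ := by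
  obtain rfl : cd = cd' := h₂.symm.trans h₄
  rw [tensorHom_def', Category.assoc, S.mul_assoc h₁ h₃ h₅ h₆]
  simp

theorem tensorμ_mul_mul {a b c d ab cd ac bd e : J} (h₁ : a + b = ab) (h₂ : c + d = cd)
    (h₃ : ab + cd = e) (h₄ : a + c = ac) (h₅ : b + d = bd) (h₆ : ac + bd = e) :
    tensorμ (S.X a) (S.X b) (S.X c) (S.X d) ≫ (S.mul h₄ ⊗ₘ S.mul h₅) ≫ S.mul h₆ =
      (S.mul h₁ ⊗ₘ S.mul h₂) ≫ S.mul h₃ := by
  have k1 : c + bd = b + cd := by rw [← h₅, ← h₂]; abel
  have k2 : a + (b + cd) = e := by rw [← h₃, ← h₁]; abel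
  rw [S.mul_tensorHom_mul h₁ h₂ h₃ h₂ rfl k2, S.mul_tensorHom_mul h₄ h₅ h₆ h₅ k1 k2]
  have e1 : (S.X b ◁ S.mul h₂) ≫ S.mul (rfl : b + cd = b + cd) =
      (α_ _ _ _).inv ≫ ((β_ (S.X b) (S.X c)).hom ▷ S.X d) ≫ (α_ _ _ _).hom ≫
        (S.X c ◁ S.mul h₅) ≫ S.mul k1 := by
    have k3 : b + c + d = b + cd := by rw [← h₂]; abel
    have k4 : c + b = b + c := add_comm _ _
    rw [← S.mul_assoc k4 k3 h₅ k1, ← comp_whiskerRight_assoc, S.mul_comm rfl k4,
      S.mul_assoc rfl k3 h₂ rfl, Iso.inv_hom_id_assoc]
  unfold tensorμ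
  simp only [Category.assoc, ← whiskerLeft_comp_assoc, e1]
  simp

end

namespace Hom

variable {J K : Type} [AddCommMonoid J] [AddCommMonoid K]

/-- the trivial system is constant -/
def trivComap (f : K →+ J) : Hom (triv T K) ((triv T J).comap f) where
  app _ := 𝟙 _
  app_one := by
    have : ∀ {z : J} (h : 0 = z), (triv T J).one' h = 𝟙 (𝟙_ T) := by
      intro z h; subst h; rfl
    dsimp only
    rw [this, Category.comp_id]
  app_mul _ := by
    dsimp only
    rw [Category.comp_id, id_tensorHom_id, Category.id_comp]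

/-- pull back and tensor product -/
def tensorComap (A B : CommSys T J) (f : K →+ J) :
    Hom ((A.tensor B).comap f) ((A.comap f).tensor (B.comap f)) where
  app _ := 𝟙 _
  app_one := by
    dsimp only
    rw [Category.comp_id, tensor_one']
  app_mul _ := by
    dsimp only
    rw [Category.comp_id, id_tensorHom_id, Category.id_comp]

/-- composition of two pull backs -/
def comapComp {L : Type} [AddCommMonoid L] (A : CommSys T L) (f : K →+ J) (g : J →+ L) :
    Hom ((A.comap g).comap f) (A.comap (g.comp f)) where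
  app _ := 𝟙 _
  app_one := by
    dsimp only
    rw [Category.comp_id, comap_one']
  app_mul _ := by
    dsimp only
    rw [Category.comp_id, id_tensorHom_id, Category.id_comp]

/-- equal homomorphisms of the index monoids -/
def comapCongr (A : CommSys T J) (f g : K →+ J) (h : ∀ k, f k = g k) :
    Hom (A.comap f) (A.comap g) := by
  obtain rfl : f = g := AddMonoidHom.ext h
  exact id _

/-- multiplication as a morphism of systems -/
def mulHom (A : CommSys T J) (f g k : K →+ J) (h : ∀ i, f i + g i = k i) :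
    Hom ((A.comap f).tensor (A.comap g)) (A.comap k) where
  app i := A.mul (h i)
  app_one := by
    dsimp only
    rw [Category.assoc]
    exact A.one'_em_one' _ _ _ _
  app_mul {i j l} hij := by
    dsimp only
    rw [Category.assoc]
    have h1 : f l + g l = k l := h l
    have h2 : k i + k j = k l := by rw [← map_add, hij]
    exact A.tensorμ_mul_mul _ _ _ _ _ _

end Hom

end CommSys

end Vale.Agent.P251.M
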