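import Vale.Agent.P251.M.EvenRing
import Vale.Agent.P251.S.Scal
import Mathlib.CategoryTheory.Monoidal.Limits.Preserves
import Mathlib.CategoryTheory.Limits.Preserves.Shapes.Products

/-!
# P251, part M: the periodic even sphere

`PS E = ∐_{n : ℤ} S^{2n}` is a commutative monoid. For a monoid `R` a homogeneous element
`a : S^{2k} ⟶ R` becomes an honest scalar `sharp a : 𝟙 ⟶ R ⊗ PS` of the monoid `R ⊗ PS`.
-/

open CategoryTheory MonoidalCategory MonObj Limits

universe v u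

namespace Vale.Agent.P251.M

open Vale.Agent.P251.S

set_option linter.unusedSectionVars false

section Coprod

variable {T : Type u} [Category.{v} T] [MonoidalCategory T] [SymmetricCategory T]
  [MonoidalClosed T] [HasCoproducts.{0} T]

/-- Maps out of `X ⊗ ∐ F`. -/
noncomputable def descL (X : T) {I : Type} {F : I → T} {Z : T} (f : ∀ i, X ⊗ F i ⟶ Z) :
    X ⊗ ∐ F ⟶ Z :=
  (PreservesCoproduct.iso (tensorLeft X) F).hom ≫ Sigma.desc f

@[reassoc (attr := simp)]
lemma whiskerLeft_ι_descL (X : T) {I : Type} {F : I → T} {Z : T} (f : ∀ i, X ⊗ F i ⟶ Z) (i : I) :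
    (X ◁ Sigma.ι F i) ≫ descL X f = f i := by
  have h := map_ι_comp_inv_sigmaComparison (tensorLeft X) F i
  have h2 : (X ◁ Sigma.ι F i) ≫ (PreservesCoproduct.iso (tensorLeft X) F).hom =
      Sigma.ι (fun j => X ⊗ F j) i := by
    rw [← cancel_mono (PreservesCoproduct.iso (tensorLeft X) F).inv, Category.assoc,
      Iso.hom_inv_id, Category.comp_id]
    exact (ι_comp_sigmaComparison (tensorLeft X) F i).symm
  unfold descL
  rw [reassoc_of% h2, Sigma.ι_desc]

lemma hom_extL (X : T) {I : Type} {F : I → T} {Z : T} {g h : X ⊗ ∐ F ⟶ Z}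
    (H : ∀ i, (X ◁ Sigma.ι F i) ≫ g = (X ◁ Sigma.ι F i) ≫ h) : g = h := by
  rw [← cancel_epi (PreservesCoproduct.iso (tensorLeft X) F).inv]
  refine Sigma.hom_ext _ _ fun i => ?_
  have h2 := ι_comp_sigmaComparison (tensorLeft X) F i
  have h3 : ∀ k : X ⊗ ∐ F ⟶ Z, Sigma.ι (fun j => (tensorLeft X).obj (F j)) i ≫
      (PreservesCoproduct.iso (tensorLeft X) F).inv ≫ k = (X ◁ Sigma.ι F i) ≫ k := by
    intro k
    rw [← Category.assoc]
    exact congrArg (· ≫ k) h2
  exact (h3 g).trans ((H i).trans (h3 h).symm)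

/-- Maps out of `(∐ F) ⊗ Y`. -/
noncomputable def descR (Y : T) {I : Type} {F : I → T} {Z : T} (f : ∀ i, F i ⊗ Y ⟶ Z) :
    (∐ F) ⊗ Y ⟶ Z :=
  (β_ (∐ F) Y).hom ≫ descL Y (fun i => (β_ Y (F i)).hom ≫ f i)

@[reassoc (attr := simp)]
lemma whiskerRight_ι_descR (Y : T) {I : Type} {F : I → T} {Z : T} (f : ∀ i, F i ⊗ Y ⟶ Z) (i : I) :
    (Sigma.ι F i ▷ Y) ≫ descR Y f = f i := by
  unfold descR
  rw [BraidedCategory.braiding_naturality_left_assoc, whiskerLeft_ι_descL,
    SymmetricCategory.symmetry_assoc]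

lemma hom_extR (Y : T) {I : Type} {F : I → T} {Z : T} {g h : (∐ F) ⊗ Y ⟶ Z}
    (H : ∀ i, (Sigma.ι F i ▷ Y) ≫ g = (Sigma.ι F i ▷ Y) ≫ h) : g = h := by
  rw [← cancel_epi (β_ Y (∐ F)).hom]
  refine hom_extL Y fun i => ?_
  rw [BraidedCategory.braiding_naturality_right_assoc,
    BraidedCategory.braiding_naturality_right_assoc, H]

/-- Maps out of `(∐ F) ⊗ (∐ G)`. -/
noncomputable def desc2 {I J : Type} {F : I → T} {G : J → T} {Z : T}
    (f : ∀ i j, F i ⊗ G j ⟶ Z) : (∐ F) ⊗ (∐ G) ⟶ Z :=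
  descR (∐ G) fun i => descL (F i) fun j => f i j

@[reassoc (attr := simp)]
lemma ι_desc2 {I J : Type} {F : I → T} {G : J → T} {Z : T}
    (f : ∀ i j, F i ⊗ G j ⟶ Z) (i : I) (j : J) :
    (Sigma.ι F i ⊗ₘ Sigma.ι G j) ≫ desc2 f = f i j := by
  unfold desc2
  rw [tensorHom_def', Category.assoc, whiskerRight_ι_descR, whiskerLeft_ι_descL]

lemma hom_ext2 {I J : Type} {F : I → T} {G : J → T} {Z : T} {g h : (∐ F) ⊗ (∐ G) ⟶ Z}
    (H : ∀ i j, (Sigma.ι F i ⊗ₘ Sigma.ι G j) ≫ g = (Sigma.ι F i ⊗ₘ Sigma.ι G j) ≫ h) :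
    g = h := by
  refine hom_extR _ fun i => hom_extL _ fun j => ?_
  have := H i j
  rw [tensorHom_def', Category.assoc, Category.assoc] at this
  exact this

omit [HasCoproducts.{0} T]

/-- Jointly epimorphic families. -/
def JEpi {I : Type*} {F : I → T} {A : T} (e : ∀ i, F i ⟶ A) : Prop :=
  ∀ ⦃Z : T⦄ (g h : A ⟶ Z), (∀ i, e i ≫ g = e i ≫ h) → g = h

lemma JEpi.whiskerLeft {I : Type*} {F : I → T} {A : T} {e : ∀ i, F i ⟶ A} (he : JEpi e) (X : T) :
    JEpi (fun i => X ◁ e i) := by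
  intro Z g h H
  apply MonoidalClosed.curry_injective
  refine he _ _ fun i => ?_
  rw [← MonoidalClosed.curry_natural_left, ← MonoidalClosed.curry_natural_left, H]

lemma JEpi.whiskerRight {I : Type*} {F : I → T} {A : T} {e : ∀ i, F i ⟶ A} (he : JEpi e) (X : T) :
    JEpi (fun i => e i ▷ X) := by
  intro Z g h H
  rw [← cancel_epi (β_ X A).hom]
  refine he.whiskerLeft X _ _ fun i => ?_
  rw [BraidedCategory.braiding_naturality_right_assoc,
    BraidedCategory.braiding_naturality_right_assoc, H]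

lemma JEpi.tensor {I J : Type*} {F : I → T} {A : T} {e : ∀ i, F i ⟶ A} (he : JEpi e)
    {G : J → T} {B : T} {f : ∀ j, G j ⟶ B} (hf : JEpi f) :
    JEpi (fun ij : I × J => e ij.1 ⊗ₘ f ij.2) := by
  intro Z g h H
  refine he.whiskerRight _ _ _ fun i => hf.whiskerLeft _ _ _ fun j => ?_
  have := H (i, j)
  dsimp only at this ⊢
  rw [tensorHom_def', Category.assoc, Category.assoc] at this
  exact this

end Coprod

namespace EvenSpheres

variable {T : Type u} [Category.{v} T] [MonoidalCategory T] [SymmetricCategory T]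
  [MonoidalClosed T] [HasCoproducts.{0} T] (E : EvenSpheres T)

/-- The periodic even sphere. -/
noncomputable def PS : T := ∐ (fun n : ℤ => E.S n)

/-- The inclusion of `S^{2n}`. -/
noncomputable def inPS (n : ℤ) : E.S n ⟶ E.PS := Sigma.ι (fun n : ℤ => E.S n) n

@[reassoc (attr := simp)]
lemma castIso_inPS (m n : ℤ) (h : m = n) : (E.castIso m n h).hom ≫ E.inPS n = E.inPS m := by
  subst h
  simp

/-- The multiplication. -/
noncomputable def mulPS : E.PS ⊗ E.PS ⟶ E.PS :=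
  desc2 fun m n => (E.mu m n (m + n) rfl).hom ≫ E.inPS (m + n)

@[reassoc]
lemma in_mulPS (m n p : ℤ) (h : m + n = p) :
    (E.inPS m ⊗ₘ E.inPS n) ≫ E.mulPS = (E.mu m n p h).hom ≫ E.inPS p := by
  subst h
  exact ι_desc2 _ m n

lemma jEpi_inPS : JEpi E.inPS := fun _ _ _ h => Sigma.hom_ext _ _ h

lemma PS_extR (Y : T) {Z : T} {g h : E.PS ⊗ Y ⟶ Z}
    (H : ∀ n, (E.inPS n ▷ Y) ≫ g = (E.inPS n ▷ Y) ≫ h) : g = h := hom_extR Y H

lemma PS_extL (Y : T) {Z : T} {g h : Y ⊗ E.PS ⟶ Z}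
    (H : ∀ n, (Y ◁ E.inPS n) ≫ g = (Y ◁ E.inPS n) ≫ h) : g = h := hom_extL Y H

lemma PS_ext2 {Z : T} {g h : E.PS ⊗ E.PS ⟶ Z}
    (H : ∀ m n, (E.inPS m ⊗ₘ E.inPS n) ≫ g = (E.inPS m ⊗ₘ E.inPS n) ≫ h) : g = h := hom_ext2 H

noncomputable instance : MonObj E.PS where
  one := E.zero.hom ≫ E.inPS 0
  mul := E.mulPS
  one_mul := by
    refine E.PS_extL _ fun n => ?_
    have h := E.in_mulPS 0 n n (zero_add n)
    rw [tensorHom_def', Category.assoc] at h
    rw [comp_whiskerRight, Category.assoc, whisker_exchange_assoc, h, ← Category.assoc,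
      E.zero_mu', leftUnitor_naturality]
  mul_one := by
    refine E.PS_extR _ fun n => ?_
    have h := E.in_mulPS n 0 n (add_zero n)
    rw [tensorHom_def, Category.assoc] at h
    rw [whiskerLeft_comp, Category.assoc, ← whisker_exchange_assoc, h, ← Category.assoc,
      E.mu_zero', rightUnitor_naturality]
  mul_assoc := by
    refine (E.jEpi_inPS.tensor E.jEpi_inPS).tensor E.jEpi_inPS _ _ fun i => ?_
    obtain ⟨⟨l, m⟩, n⟩ := i
    dsimp only
    rw [← tensorHom_id, ← id_tensorHom, tensorHom_comp_tensorHom_assoc,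
      associator_naturality_assoc, tensorHom_comp_tensorHom_assoc, E.in_mulPS l m _ rfl,
      E.in_mulPS m n _ rfl, Category.comp_id, Category.comp_id]
    have e1 : ((E.mu l m (l + m) rfl).hom ≫ E.inPS (l + m)) ⊗ₘ E.inPS n =
        (E.mu l m (l + m) rfl).hom ▷ E.S n ≫ (E.inPS (l + m) ⊗ₘ E.inPS n) := by
      rw [← tensorHom_id, tensorHom_comp_tensorHom, Category.id_comp]
    have e2 : E.inPS l ⊗ₘ ((E.mu m n (m + n) rfl).hom ≫ E.inPS (m + n)) =
        E.S l ◁ (E.mu m n (m + n) rfl).hom ≫ (E.inPS l ⊗ₘ E.inPS (m + n)) := by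
      rw [← id_tensorHom, tensorHom_comp_tensorHom, Category.id_comp]
    rw [e1, e2, Category.assoc, Category.assoc, E.in_mulPS (l + m) n _ rfl,
      E.in_mulPS l (m + n) (l + m + n) (add_assoc l m n).symm, ← Category.assoc,
      E.mu_assoc l m n (l + m) (m + n) (l + m + n) rfl rfl rfl (add_assoc l m n).symm]
    simp only [Category.assoc]

lemma PS_one : η[E.PS] = E.zero.hom ≫ E.inPS 0 := rfl

@[reassoc]
lemma in_mul (m n p : ℤ) (h : m + n = p) :
    (E.inPS m ⊗ₘ E.inPS n) ≫ μ[E.PS] = (E.mu m n p h).hom ≫ E.inPS p := E.in_mulPS m n p h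

instance : IsCommMonObj E.PS where
  mul_comm := by
    refine E.PS_ext2 fun m n => ?_
    rw [BraidedCategory.braiding_naturality_assoc, E.in_mul n m (m + n) (add_comm n m),
      E.in_mul m n _ rfl, ← Category.assoc, E.mu_comm m n (m + n) rfl (add_comm n m)]

end EvenSpheres

section Inter

variable {T : Type u} [Category.{v} T] [MonoidalCategory T] [SymmetricCategory T]
  (E : EvenSpheres T)

namespace EvenSpheres

lemma isFr_tensorμ (m n m' n' : ℤ) :
    IsFr (((E.fr m).tensor (E.fr n)).tensor ((E.fr m').tensor (E.fr n')))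
      (((E.fr m).tensor (E.fr m')).tensor ((E.fr n).tensor (E.fr n')))
      (tensorμ (E.S m) (E.S n) (E.S m') (E.S n')) := by
  unfold tensorμ
  have e1 := isFr_associator (E.fr m) (E.fr n) ((E.fr m').tensor (E.fr n'))
  have a1 := IsFr.inv' (by omega) (isFr_associator (E.fr n) (E.fr m') (E.fr n'))
  have a2 : IsFr (((E.fr n).tensor (E.fr m')).tensor (E.fr n'))
      (((E.fr m').tensor (E.fr n)).tensor (E.fr n')) ((β_ (E.S n) (E.S m')).hom ▷ E.S n') :=
    IsFr.whiskerRight (by omega) (E.symFr n m')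
  have a3 := isFr_associator (E.fr m') (E.fr n) (E.fr n')
  have a4 := IsFr.comp (by omega) (by omega) a2 a3
  have a := IsFr.comp (by omega) (by omega) a1 a4
  have e2 := IsFr.whiskerLeft (F := E.fr m) (by omega) a
  have e3 := IsFr.inv' (by omega) (isFr_associator (E.fr m) (E.fr m') ((E.fr n).tensor (E.fr n')))
  have e4 := IsFr.comp (by omega) (by omega) e2 e3
  simp only [whiskerLeft_comp, Category.assoc] at e4
  exact IsFr.comp (by omega) (by omega) e1 e4

lemma mu_tensorμ {m n m' n' q q' p p' r : ℤ} (h1 : m + n = q) (h2 : m' + n' = q')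
    (h3 : q + q' = r) (h4 : m + m' = p) (h5 : n + n' = p') (h6 : p + p' = r) :
    tensorμ (E.S m) (E.S n) (E.S m') (E.S n') ≫ ((E.mu m m' p h4).hom ⊗ₘ (E.mu n n' p' h5).hom) ≫
      (E.mu p p' r h6).hom =
    ((E.mu m n q h1).hom ⊗ₘ (E.mu m' n' q' h2).hom) ≫ (E.mu q q' r h3).hom := by
  refine IsFr.unique (F := ((E.fr m).tensor (E.fr n)).tensor ((E.fr m').tensor (E.fr n')))
    (G := E.fr r) (by omega) ?_ ?_
  · have e1 := IsFr.tensor h4 h5 (E.isFr_mu m m' p h4) (E.isFr_mu n n' p' h5)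
    have e2 := IsFr.comp (by omega) (by omega) e1 (E.isFr_mu p p' r h6)
    exact IsFr.comp (by omega) (by omega) (E.isFr_tensorμ m n m' n') e2
  · have e1 := IsFr.tensor h1 h2 (E.isFr_mu m n q h1) (E.isFr_mu m' n' q' h2)
    exact IsFr.comp (by omega) (by omega) e1 (E.isFr_mu q q' r h3)

/-- Interchange of external products. -/
lemma ext_tensorμ {m n m' n' q q' p p' r : ℤ} (h1 : m + n = q) (h2 : m' + n' = q')
    (h3 : q + q' = r) (h4 : m + m' = p) (h5 : n + n' = p') (h6 : p + p' = r)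
    {X Y X' Y' : T} (a : E.S m ⟶ X) (c : E.S n ⟶ Y) (a' : E.S m' ⟶ X') (c' : E.S n' ⟶ Y') :
    E.ext h3 (E.ext h1 a c) (E.ext h2 a' c') ≫ tensorμ X Y X' Y' =
      E.ext h6 (E.ext h4 a a') (E.ext h5 c c') := by
  have key : (E.mu q q' r h3).inv ≫ ((E.mu m n q h1).inv ⊗ₘ (E.mu m' n' q' h2).inv) ≫
      tensorμ (E.S m) (E.S n) (E.S m') (E.S n') =
      (E.mu p p' r h6).inv ≫ ((E.mu m m' p h4).inv ⊗ₘ (E.mu n n' p' h5).inv) := by
    have h := E.mu_tensorμ h1 h2 h3 h4 h5 h6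
    rw [← cancel_mono (((E.mu m m' p h4).hom ⊗ₘ (E.mu n n' p' h5).hom) ≫
      (E.mu p p' r h6).hom)]
    simp only [Category.assoc]
    rw [h]
    simp only [tensorHom_comp_tensorHom_assoc, Iso.inv_hom_id, tensorHom_id, id_whiskerRight,
      Category.id_comp]
  unfold ext
  rw [← tensorHom_comp_tensorHom, ← tensorHom_comp_tensorHom, Category.assoc, Category.assoc,
    tensorμ_natural, reassoc_of% key]

lemma lam_tensor_eq_ext {X Y : T} (x : 𝟙_ T ⟶ X) (y : 𝟙_ T ⟶ Y) :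
    (λ_ (𝟙_ T)).inv ≫ (x ⊗ₘ y) =
      E.zero.hom ≫ E.ext (zero_add 0) (E.zero.inv ≫ x) (E.zero.inv ≫ y) := by
  rw [one_ext, Category.assoc, Iso.hom_inv_id_assoc, leftUnitor_inv_naturality_assoc,
    tensorHom_def']

end EvenSpheres

end Inter

section Sharp

open EvenSpheres

variable {T : Type u} [Category.{v} T] [MonoidalCategory T] [SymmetricCategory T]
  [MonoidalClosed T] [HasCoproducts.{0} T] {E : EvenSpheres T}

/-- The scalar defined by a homogeneous element of degree `2k`. -/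
noncomputable def sharp {X : T} {k : ℤ} (a : E.S k ⟶ X) : 𝟙_ T ⟶ X ⊗ E.PS :=
  E.zero.hom ≫ E.ext (add_neg_cancel k) a (E.inPS (-k))

lemma sharp_eq {X : T} {k l : ℤ} (h : k + l = 0) (a : E.S k ⟶ X) :
    sharp a = E.zero.hom ≫ E.ext h a (E.inPS l) := by
  obtain rfl : l = -k := by omega
  rfl

lemma sharp_comp {X Y : T} {k : ℤ} (a : E.S k ⟶ X) (f : X ⟶ Y) :
    sharp (a ≫ f) = sharp a ≫ (f ▷ E.PS) := by
  unfold sharp
  rw [ext_comp_left, Category.assoc]

lemma sharp_cast {X : T} {k l : ℤ} (h : k = l) (a : E.S l ⟶ X) :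
    sharp ((E.castIso k l h).hom ≫ a) = sharp a := by
  subst h
  simp

lemma sharp_one {R : T} [MonObj R] : sharp (E.zero.inv ≫ η[R]) = η[R ⊗ E.PS] := by
  rw [sharp_eq (add_zero 0), MonObj.tensorObj.one_def, E.lam_tensor_eq_ext]
  rw [E.PS_one, Iso.inv_hom_id_assoc]

lemma gmul_inPS (m n p : ℤ) (h : m + n = p) : gmul h (E.inPS m) (E.inPS n) = E.inPS p := by
  unfold gmul EvenSpheres.ext
  rw [Category.assoc, E.in_mul m n p h, Iso.inv_hom_id_assoc]

lemma sharp_mul {R : T} [MonObj R] {k l p : ℤ} (h : k + l = p) (a : E.S k ⟶ R) (b : E.S l ⟶ R) :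
    scMul (sharp a) (sharp b) = sharp (gmul h a b) := by
  unfold scMul
  rw [reassoc_of% (E.lam_tensor_eq_ext (sharp a) (sharp b)), sharp_eq (add_neg_cancel k),
    sharp_eq (add_neg_cancel l), sharp_eq (add_neg_cancel p), Iso.inv_hom_id_assoc,
    Iso.inv_hom_id_assoc, MonObj.tensorObj.mul_def,
    reassoc_of% (E.ext_tensorμ (add_neg_cancel k) (add_neg_cancel l) (zero_add 0) h
      (show -k + -l = -p by omega) (add_neg_cancel p) a (E.inPS (-k)) b (E.inPS (-l))),
    ← ext_comp]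
  congr 2
  exact gmul_inPS _ _ _ _

section Add

variable [Preadditive T] [MonoidalPreadditive T]

lemma sharp_add {X : T} {k : ℤ} (a b : E.S k ⟶ X) : sharp (a + b) = sharp a + sharp b := by
  unfold sharp
  rw [ext_add_left, Preadditive.comp_add]

lemma sharp_zero {X : T} {k : ℤ} : sharp (0 : E.S k ⟶ X) = 0 := by
  unfold sharp
  rw [ext_zero_left, comp_zero]

/-- The homogeneous elements as scalars of `R ⊗ PS`. -/
noncomputable def sharpHom (R : T) [MonObj R] [IsCommMonObj R] :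
    HRing E R →+* Sc (R ⊗ E.PS) :=
  DirectSum.toSemiring (fun n =>
    { toFun := fun a : E.Gr R n => (sharp a : Sc (R ⊗ E.PS))
      map_zero' := sharp_zero
      map_add' := fun a b => sharp_add a b })
    sharp_one
    (fun a b => (sharp_mul rfl a b).symm)

@[simp] lemma sharpHom_of (R : T) [MonObj R] [IsCommMonObj R] (n : ℤ) (a : E.S n ⟶ R) :
    sharpHom R (HRing.of E R n a) = (sharp a : Sc (R ⊗ E.PS)) :=
  DirectSum.toSemiring_of _ _ _ _ _

end Add

end Sharp

end Vale.Agent.P251.M
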