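import Vale.Agent.P251.M.EvenPer

/-!
# P251, part M: bases over the periodic even sphere

If `B` is a coproduct of copies `E₀ ⊗ S^{2 k_j}` through homogeneous elements `w_j` of `B`, then
`B ⊗ PS` is a coproduct of copies of `E₀ ⊗ PS` through the scalars `per (w_j)`.
-/

open CategoryTheory MonoidalCategory MonObj Limits

universe v u

namespace Vale.Agent.P251.M

open Vale.Agent.P251.S EvenSpheres

set_option linter.unusedSectionVars false

section Coh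

variable {T : Type u} [Category.{v} T] [MonoidalCategory T] [SymmetricCategory T]

lemma coh_aux (A A' X P : T) :
    tensorμ A A' X P ≫ (β_ A X).hom ▷ (A' ⊗ P) ≫ (α_ X A (A' ⊗ P)).hom =
      (α_ (A ⊗ A') X P).inv ≫ (β_ (A ⊗ A') X).hom ▷ P ≫ (α_ X (A ⊗ A') P).hom ≫
        X ◁ (α_ A A' P).hom := by
  unfold tensorμ
  rw [BraidedCategory.braiding_tensor_left_hom]
  simp only [comp_whiskerRight, Category.assoc]
  monoidal

lemma coh_unit (X P : T) :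
    (λ_ (X ⊗ P)).inv ≫ (α_ (𝟙_ T) X P).inv ≫ (β_ (𝟙_ T) X).hom ▷ P ≫ (α_ X (𝟙_ T) P).hom =
      X ◁ (λ_ P).inv := by
  rw [braiding_tensorUnit_left]
  monoidal

lemma coh_key {A A' : T} (i : 𝟙_ T ⟶ A ⊗ A') (X P : T) :
    (λ_ (X ⊗ P)).inv ≫ (i ▷ (X ⊗ P)) ≫ tensorμ A A' X P ≫ (β_ A X).hom ▷ (A' ⊗ P) =
      (X ◁ ((λ_ P).inv ≫ (i ▷ P) ≫ (α_ A A' P).hom)) ≫ (α_ X A (A' ⊗ P)).inv := by
  rw [← cancel_mono (α_ X A (A' ⊗ P)).hom]
  simp only [Category.assoc, Iso.inv_hom_id, Category.comp_id]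
  rw [coh_aux, associator_inv_naturality_left_assoc, ← comp_whiskerRight_assoc,
    BraidedCategory.braiding_naturality_left, comp_whiskerRight_assoc,
    associator_naturality_middle_assoc, ← whiskerLeft_comp, reassoc_of% coh_unit X P,
    ← whiskerLeft_comp]

end Coh

section Tw

variable {T : Type u} [Category.{v} T] [MonoidalCategory T] [SymmetricCategory T]
  [MonoidalClosed T] [HasCoproducts.{0} T] (E : EvenSpheres T)

namespace EvenSpheres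

/-- Multiplication by the class `S^{2k} ⟶ PS`. -/
noncomputable def tw (k : ℤ) : E.S k ⊗ E.PS ⟶ E.PS := (E.inPS k ▷ E.PS) ≫ μ[E.PS]

/-- The inverse of `tw`. -/
noncomputable def twInv (k : ℤ) : E.PS ⟶ E.S k ⊗ E.PS :=
  ((λ_ E.PS).inv ≫ ((E.unitIso k).hom ▷ E.PS) ≫ (α_ _ _ _).hom) ≫ (E.S k ◁ E.tw (-k))

lemma twInv_tw (k : ℤ) : E.twInv k ≫ E.tw k = 𝟙 _ := by
  have h1 : (E.S k ◁ E.tw (-k)) ≫ E.tw k = (α_ (E.S k) (E.S (-k)) E.PS).inv ≫
      ((E.inPS k ⊗ₘ E.inPS (-k)) ▷ E.PS) ≫ (μ[E.PS] ▷ E.PS) ≫ μ[E.PS] := by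
    unfold tw
    rw [MonObj.mul_assoc, whiskerLeft_comp, Category.assoc, whisker_exchange_assoc,
      tensorHom_def', comp_whiskerRight, Category.assoc, associator_naturality_left_assoc]
    simp only [whisker_assoc, Category.assoc, Iso.inv_hom_id_assoc]
  have h2 : ((E.unitIso k).hom ▷ E.PS) ≫ ((E.inPS k ⊗ₘ E.inPS (-k)) ▷ E.PS) ≫ (μ[E.PS] ▷ E.PS) ≫
      μ[E.PS] = (η[E.PS] ▷ E.PS) ≫ μ[E.PS] := by
    have h3 : (E.unitIso k).hom ≫ (E.inPS k ⊗ₘ E.inPS (-k)) ≫ μ[E.PS] = η[E.PS] := by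
      have h4 : (E.inPS k ⊗ₘ E.inPS (-k)) ≫ μ[E.PS] =
          (E.mu k (-k) 0 (add_neg_cancel k)).hom ≫ E.inPS 0 := E.in_mul k (-k) 0 (add_neg_cancel k)
      rw [h4, E.PS_one]
      unfold unitIso
      rw [Iso.trans_hom, Iso.symm_hom, Category.assoc, Iso.inv_hom_id_assoc]
    rw [← h3]
    simp only [comp_whiskerRight, Category.assoc]
  unfold twInv
  rw [Category.assoc, h1]
  simp only [Category.assoc, Iso.hom_inv_id_assoc]
  rw [h2, MonObj.one_mul, Iso.inv_hom_id]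

instance (k : ℤ) : IsIso (E.tw k) := by
  have h : ∀ l : ℤ, IsSplitEpi (E.tw l) := fun l => ⟨⟨⟨E.twInv l, E.twInv_tw l⟩⟩⟩
  have h1 : IsSplitMono (E.twInv k) := ⟨⟨⟨E.tw k, E.twInv_tw k⟩⟩⟩
  have h2 : IsSplitEpi (E.S k ◁ E.tw (-k)) := by
    refine ⟨⟨⟨E.S k ◁ E.twInv (-k), ?_⟩⟩⟩
    rw [← whiskerLeft_comp, E.twInv_tw, whiskerLeft_id]
  have h3 : Epi (E.twInv k) := by
    unfold twInv
    infer_instance
  have h4 : IsIso (E.twInv k) := isIso_of_epi_of_isSplitMono _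
  have h5 : E.tw k = inv (E.twInv k) := by
    rw [← cancel_epi (E.twInv k), E.twInv_tw, IsIso.hom_inv_id]
  rw [h5]
  infer_instance

instance (k : ℤ) : IsIso (E.twInv k) := by
  have h5 : E.twInv k = inv (E.tw k) := by
    rw [← cancel_mono (E.tw k), E.twInv_tw, IsIso.inv_hom_id]
  rw [h5]
  infer_instance

end EvenSpheres

variable {E}

/-- Multiplication by the scalar `per b` on `B ⊗ PS`. -/
theorem smul_per {B X : T} [MonObj B] [IsCommMonObj B] (φ : X ⟶ B) {k : ℤ} (b : E.S k ⟶ B) :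
    (φ ▷ E.PS) ≫ (ModStr.self (B ⊗ E.PS)).smul (sharp b) =
      (X ◁ E.twInv k) ≫ (α_ X (E.S k) E.PS).inv ≫ (((φ ⊗ₘ b) ≫ μ[B]) ▷ E.PS) := by
  have hb : (b ⊗ₘ φ) ≫ μ[B] = (β_ (E.S k) X).hom ≫ (φ ⊗ₘ b) ≫ μ[B] := by
    rw [← BraidedCategory.braiding_naturality_assoc, IsCommMonObj.mul_comm]
  have lhs : (φ ▷ E.PS) ≫ (ModStr.self (B ⊗ E.PS)).smul (sharp b) =
      ((λ_ (X ⊗ E.PS)).inv ≫ ((E.unitIso k).hom ▷ (X ⊗ E.PS)) ≫ tensorμ (E.S k) (E.S (-k)) X E.PS ≫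
        (β_ (E.S k) X).hom ▷ (E.S (-k) ⊗ E.PS)) ≫ (((φ ⊗ₘ b) ≫ μ[B]) ⊗ₘ E.tw (-k)) := by
    have hs : (ModStr.self (B ⊗ E.PS)).smul (sharp b) = (λ_ (B ⊗ E.PS)).inv ≫
        (sharp b ▷ (B ⊗ E.PS)) ≫ μ[B ⊗ E.PS] := rfl
    have hp : sharp b = (E.unitIso k).hom ≫ (b ⊗ₘ E.inPS (-k)) := sharp_eq_unitIso k b
    rw [hs, hp, MonObj.tensorObj.mul_def, leftUnitor_inv_naturality_assoc,
      whisker_exchange_assoc, comp_whiskerRight_assoc]
    have h1 : ((b ⊗ₘ E.inPS (-k)) ▷ (X ⊗ E.PS)) ≫ ((B ⊗ E.PS) ◁ (φ ▷ E.PS)) ≫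
        tensorμ B E.PS B E.PS = tensorμ (E.S k) (E.S (-k)) X E.PS ≫
          ((b ⊗ₘ φ) ⊗ₘ (E.inPS (-k) ▷ E.PS)) := by
      have h := tensorμ_natural b (E.inPS (-k)) φ (𝟙 E.PS)
      rw [tensorHom_id, tensorHom_id] at h
      rw [← h, tensorHom_def ((b ⊗ₘ E.inPS (-k))), Category.assoc]
    rw [reassoc_of% h1, tensorHom_comp_tensorHom, hb]
    simp only [Category.assoc]
    rw [← tensorHom_id (β_ (E.S k) X).hom, tensorHom_comp_tensorHom, Category.id_comp]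
    rfl
  have rhs : (X ◁ E.twInv k) ≫ (α_ X (E.S k) E.PS).inv ≫ (((φ ⊗ₘ b) ≫ μ[B]) ▷ E.PS) =
      ((X ◁ ((λ_ E.PS).inv ≫ ((E.unitIso k).hom ▷ E.PS) ≫ (α_ (E.S k) (E.S (-k)) E.PS).hom)) ≫
        (α_ X (E.S k) (E.S (-k) ⊗ E.PS)).inv) ≫ (((φ ⊗ₘ b) ≫ μ[B]) ⊗ₘ E.tw (-k)) := by
    unfold twInv
    rw [whiskerLeft_comp, Category.assoc, Category.assoc, associator_inv_naturality_right_assoc,
      tensorHom_def' ((φ ⊗ₘ b) ≫ μ[B])]
  rw [lhs, rhs, coh_key]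

end Tw

section Basis

variable {T : Type u} [Category.{v} T] [MonoidalCategory T] [SymmetricCategory T]
  [MonoidalClosed T] [HasCoproducts.{0} T] {E : EvenSpheres T}

/-- Tensoring a coproduct decomposition on the right. -/
lemma isIso_desc_whiskerRight {J : Type} {F : J → T} {B : T} (f : ∀ j, F j ⟶ B)
    (h : IsIso (Sigma.desc f)) (Y : T) : IsIso (Sigma.desc fun j => f j ▷ Y) := by
  have h1 : Sigma.desc (fun j => f j ▷ Y) =
      (Sigma.desc fun j => Sigma.ι F j ▷ Y) ≫ (Sigma.desc f ▷ Y) := by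
    refine Sigma.hom_ext _ _ fun j => ?_
    rw [Sigma.ι_desc, Sigma.ι_desc_assoc, ← comp_whiskerRight, Sigma.ι_desc]
  have h2 : IsIso (Sigma.desc fun j => Sigma.ι F j ▷ Y) := by
    refine ⟨⟨descR Y (fun j => Sigma.ι (fun j => F j ⊗ Y) j), ?_, ?_⟩⟩
    · refine Sigma.hom_ext _ _ fun j => ?_
      rw [Sigma.ι_desc_assoc, whiskerRight_ι_descR, Category.comp_id]
    · refine hom_extR Y fun j => ?_
      rw [whiskerRight_ι_descR_assoc, Sigma.ι_desc, Category.comp_id]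
  rw [h1]
  infer_instance

/-- Precomposition of a coproduct decomposition with isomorphisms. -/
lemma isIso_desc_comp {J : Type} {F G : J → T} {B : T} (f : ∀ j, F j ⟶ B) (e : ∀ j, G j ⟶ F j)
    [∀ j, IsIso (e j)] (h : IsIso (Sigma.desc f)) : IsIso (Sigma.desc fun j => e j ≫ f j) := by
  have h1 : Sigma.desc (fun j => e j ≫ f j) = Limits.Sigma.map e ≫ Sigma.desc f := by
    refine Sigma.hom_ext _ _ fun j => ?_
    simp
  rw [h1]
  infer_instance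

/-- **Bases over `PS`.** -/
theorem isIso_desc_per {E₀ B : T} [MonObj B] [IsCommMonObj B] (φ : E₀ ⟶ B) {J : Type}
    (k : J → ℤ) (w : ∀ j, E.S (k j) ⟶ B)
    (h : IsIso (Sigma.desc fun j => (φ ⊗ₘ w j) ≫ μ[B])) :
    IsIso (Sigma.desc fun j => (φ ▷ E.PS) ≫ (ModStr.self (B ⊗ E.PS)).smul (sharp (w j))) := by
  have h1 := isIso_desc_whiskerRight _ h E.PS
  have h2 := isIso_desc_comp _ (fun j => (E₀ ◁ E.twInv (k j)) ≫ (α_ E₀ (E.S (k j)) E.PS).inv) h1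
  have h3 : (fun j => (φ ▷ E.PS) ≫ (ModStr.self (B ⊗ E.PS)).smul (sharp (w j))) =
      fun j => ((E₀ ◁ E.twInv (k j)) ≫ (α_ E₀ (E.S (k j)) E.PS).inv) ≫
        ((φ ⊗ₘ w j) ≫ μ[B]) ▷ E.PS := by
    funext j
    rw [smul_per, Category.assoc]
  rw [h3]
  exact h2

/-- Composition of bases. -/
theorem isIso_desc_trans {J K : Type} {F G H : T} (f : K → (F ⟶ G)) (g : J → (G ⟶ H))
    (hf : IsIso (Sigma.desc f)) (hg : IsIso (Sigma.desc g)) :
    IsIso (Sigma.desc fun jk : J × K => f jk.2 ≫ g jk.1) := by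
  have hf' : ∀ k, f k ≫ inv (Sigma.desc f) = Sigma.ι (fun _ : K => F) k := fun k => by
    rw [← cancel_mono (Sigma.desc f)]
    simp
  have hg' : ∀ j, g j ≫ inv (Sigma.desc g) = Sigma.ι (fun _ : J => G) j := fun j => by
    rw [← cancel_mono (Sigma.desc g)]
    simp
  refine ⟨⟨inv (Sigma.desc g) ≫ Sigma.desc (fun j => inv (Sigma.desc f) ≫
    Sigma.desc (fun k => Sigma.ι (fun _ : J × K => F) (j, k))), ?_, ?_⟩⟩
  · refine Sigma.hom_ext _ _ fun jk => ?_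
    obtain ⟨j, k⟩ := jk
    rw [Sigma.ι_desc_assoc, Category.assoc, reassoc_of% hg', Sigma.ι_desc, reassoc_of% hf',
      Sigma.ι_desc, Category.comp_id]
  · rw [Category.assoc, ← cancel_epi (Sigma.desc g), IsIso.hom_inv_id_assoc, Category.comp_id]
    refine Sigma.hom_ext _ _ fun j => ?_
    rw [Sigma.ι_desc_assoc, Sigma.ι_desc, Category.assoc, ← cancel_epi (Sigma.desc f),
      IsIso.hom_inv_id_assoc]
    refine Sigma.hom_ext _ _ fun k => ?_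
    rw [Sigma.ι_desc_assoc, Sigma.ι_desc, Sigma.ι_desc_assoc]

/-- Reindexing of bases. -/
theorem isIso_desc_reindex {J K : Type} {F H : T} (σ : J ≃ K) (f : K → (F ⟶ H))
    (hf : IsIso (Sigma.desc f)) : IsIso (Sigma.desc fun j => f (σ j)) := by
  have h1 : Sigma.desc (fun j => f (σ j)) =
      Sigma.desc (fun j => Sigma.ι (fun _ : K => F) (σ j)) ≫ Sigma.desc f := by
    refine Sigma.hom_ext _ _ fun j => ?_
    simp
  have h2 : IsIso (Sigma.desc (fun j => Sigma.ι (fun _ : K => F) (σ j))) := by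
    refine ⟨⟨Sigma.desc (fun k => Sigma.ι (fun _ : J => F) (σ.symm k)), ?_, ?_⟩⟩
    · refine Sigma.hom_ext _ _ fun j => ?_
      simp
    · refine Sigma.hom_ext _ _ fun k => ?_
      rw [Sigma.ι_desc_assoc, Sigma.ι_desc, Category.comp_id, σ.apply_symm_apply]
  rw [h1]
  infer_instance

end Basis

end Vale.Agent.P251.M
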