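import Vale.Agent.P251.M.QOut
import Vale.Agent.P251.M.ThHomot
import Vale.Agent.P251.M.LimTheory
import Vale.Agent.P251.M.CobGlue
import Vale.Agent.P251.M.PiR
import Vale.Agent.P251.M.MUInv
import Vale.Agent.P251.Q.QData

/-!
# P251, part M: from the theory on spaces to the homotopy of `R`

* `QIn.of_qData` : the output of part Q for the theory of a multiplicative sequence, in terms of the
  homotopy groups of its telescope `R`;
* `QIn.of_iso`, `PiConn.of_iso` : transport to `Am R 1`;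
* `muModP_zero` : `MUModP V 0`.
-/

open CategoryTheory MonoidalCategory MonObj Limits Pretriangulated

universe v u

set_option linter.unusedSectionVars false

namespace Vale.Agent.P251.M

open Vale.Agent.P251.S Vale.Agent.P251.T Vale.Agent.P251.F Vale.Agent.P251.Q EvenSpheres
open Vale.Agent.P251.G Vale.Agent.P251.G.LC Vale.Agent.P251.I

section shift

variable {T : Type u} [Category.{v} T] [Preadditive T]
    [HasShift T ℤ] [∀ n : ℤ, (shiftFunctor T n).Additive]

theorem div_of_shift {X X' Y Y' : T} (n : ℤ) (e : X' ≅ X⟦n⟧) (e' : Y⟦n⟧ ≅ Y') {p : ℤ}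
    (h : ∀ g : X' ⟶ Y', ∃ b, g = p • b) (a : X ⟶ Y) : ∃ b, a = p • b := by
  obtain ⟨b, hb⟩ := h (e.hom ≫ a⟦n⟧' ≫ e'.hom)
  obtain ⟨c, hc⟩ := (shiftFunctor T n).map_surjective (e.inv ≫ b ≫ e'.inv)
  refine ⟨c, (shiftFunctor T n).map_injective ?_⟩
  rw [Functor.map_zsmul, hc, ← cancel_epi e.hom, ← cancel_mono e'.hom, Category.assoc, hb]
  simp

theorem tf_of_shift {X X' Y Y' : T} (n : ℤ) (e : X' ≅ X⟦n⟧) (e' : Y⟦n⟧ ≅ Y') {p : ℤ}
    (h : ∀ g : X' ⟶ Y', p • g = 0 → g = 0) (a : X ⟶ Y) (ha : p • a = 0) : a = 0 := by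
  apply (shiftFunctor T n).map_injective
  rw [Functor.map_zero, ← cancel_epi e.hom, ← cancel_mono e'.hom, comp_zero, zero_comp,
    Category.assoc]
  apply h
  rw [← Preadditive.comp_zsmul, ← Preadditive.zsmul_comp, ← Functor.map_zsmul, ha,
    Functor.map_zero, zero_comp, comp_zero]

end shift

variable {T : Type u} [Category.{v} T] [Preadditive T] [HasZeroObject T]
    [HasShift T ℤ] [∀ n : ℤ, (shiftFunctor T n).Additive] [Pretriangulated T] [IsTriangulated T]
    [MonoidalCategory T] [SymmetricCategory T] [TensorTriangulated T] [MonoidalClosed T]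
    [HasCoproducts.{0} T] [HasProducts.{0} T] [StableCat T]

section iso

variable {B B' : T} [MonObj B] [IsCommMonObj B] [MonObj B'] [IsCommMonObj B']
  (f : B ⟶ B') [IsMonHom f] (g : B' ⟶ B) [IsMonHom g] (hfg : f ≫ g = 𝟙 B) (hgf : g ≫ f = 𝟙 B')

include hfg in
theorem QIn.of_iso {F : Law (HRing (stdEven T) B)} {F' : Law (HRing (stdEven T) B')} {p : ℕ}
    (h : QIn B' F' p) (hF : F.map (HRing.map (E := stdEven T) f) = F') : QIn B F p := by
  have hmm : (HRing.map (E := stdEven T) g).comp (HRing.map (E := stdEven T) f) =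
      RingHom.id _ := by
    rw [← HRing.map_comp]
    exact HRing.ringHom_ext fun n a => by
      rw [HRing.map_of, hfg, Category.comp_id, RingHom.id_apply]
  have hF' : F'.map (HRing.map (E := stdEven T) g) = F := by
    rw [← hF, Law.map_map, hmm, Law.map_id]
  refine ⟨?_, ?_, ?_, ?_⟩
  · intro w x hx
    obtain ⟨a, rfl⟩ := exists_of_mem_hgr (neg_neg w) hx
    obtain ⟨c, hc, y, hy, h1⟩ := h.gen w (HRing.of (stdEven T) B' w (a ≫ f))
      (of_mem_hgr (neg_neg w) _)
    obtain ⟨b, rfl⟩ := exists_of_mem_hgr (neg_neg w) hy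
    refine ⟨c, hc, HRing.of (stdEven T) B w (b ≫ g), of_mem_hgr (neg_neg w) _, ?_⟩
    have h2 := congrArg (HRing.map (E := stdEven T) g) h1
    rw [HRing.map_of, _root_.map_add, map_nsmul, HRing.map_of, Category.assoc, hfg,
      Category.comp_id, Laz.map_lift, hF'] at h2
    exact h2
  · intro w a ha
    have h1 := h.torsion w (a ≫ f) (by rw [← Preadditive.zsmul_comp, ha, zero_comp])
    rw [← Category.comp_id a, ← hfg, ← Category.assoc, h1, zero_comp]
  · intro k a
    obtain ⟨b, hb⟩ := h.odd_div k (a ≫ f)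
    refine ⟨b ≫ g, ?_⟩
    rw [← Preadditive.zsmul_comp, ← hb, Category.assoc, hfg, Category.comp_id]
  · intro k a ha
    have h1 := h.odd_torsion k (a ≫ f) (by rw [← Preadditive.zsmul_comp, ha, zero_comp])
    rw [← Category.comp_id a, ← hfg, ← Category.assoc, h1, zero_comp]

include hfg in
omit [IsCommMonObj B] [IsCommMonObj B'] in
theorem PiConn.of_iso (h : PiConn B') : PiConn B := by
  have h1 : η[B'] ≫ g = η[B] := IsMonHom.one_hom g
  have h2 : η[B] ≫ f = η[B'] := IsMonHom.one_hom f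
  refine ⟨?_, ?_, ?_⟩
  · intro n hn a
    rw [← Category.comp_id a, ← hfg, ← Category.assoc, h.neg n hn (a ≫ f), zero_comp]
  · intro a
    obtain ⟨m, hm⟩ := h.zero (a ≫ f)
    refine ⟨m, ?_⟩
    rw [← Category.comp_id a, ← hfg, ← Category.assoc, hm, Preadditive.zsmul_comp, h1]
  · intro m hm
    apply h.inj
    rw [← h2, ← Preadditive.zsmul_comp, hm, zero_comp]

end iso

section amOne

variable (R : T) [MonObj R] [IsCommMonObj R]

omit [Preadditive T] [HasZeroObject T]
    [HasShift T ℤ] [∀ n : ℤ, (shiftFunctor T n).Additive] [Pretriangulated T] [IsTriangulated T]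
    [TensorTriangulated T] [MonoidalClosed T] [IsCommMonObj R]
    [HasCoproducts.{0} T] [HasProducts.{0} T] [StableCat T] in
theorem amOne_v_zero : amOne R ≫ Am.v R (0 : Fin 1) = 𝟙 _ := by
  have h1 : Am.v R (0 : Fin 1) ≫ amOne R = 𝟙 R := v_amOne R
  have : IsIso (amOne R) := inferInstanceAs (IsIso (λ_ R).hom)
  rw [← cancel_mono (amOne R), Category.assoc, h1, Category.comp_id, Category.id_comp]

end amOne

section theory

variable {A : SeqMonoid T} {R : T} {q : ∀ n, A.E.obj n ⟶ R} (tel : IsTel A.E R q)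
  [MonObj R] [IsCommMonObj R] (h : TelMon tel) {F : SpaceFunctor T} (hF : CofTriangles F)
  (s : F.S.obj CCF ⟶ (MSys.ofSeq A (stdEven T)).obj 0 1)
  (hs : (MSys.ofSeq A (stdEven T)).IsSusp s)

/-- divisibility of the groups `H^j(S^1)` -/
theorem div_H {p : ℕ} (hdiv : ∀ y : (theory (MSys.ofSeq A (stdEven T)) F hF s hs).U RR,
    ∃ z, y = p • z) (j : ℤ) (a : (MSys.ofSeq A (stdEven T)).H j (F.S.obj ⟨RR, fcRR⟩)) :
    ∃ b, a = p • b := by
  obtain ⟨z, hz⟩ := hdiv (umk fcRR ((MSys.ofSeq A (stdEven T)).tof _ j a))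
  have h1 : (MSys.ofSeq A (stdEven T)).tof _ j a = p • (uev fcRR z) := by
    have h2 := congrArg (uev fcRR) hz
    rw [uev_umk] at h2
    refine h2.trans ?_
    exact map_nsmul (uev fcRR) p z
  refine ⟨(uev fcRR z) j, ?_⟩
  have h2 := congrArg (fun x : (MSys.ofSeq A (stdEven T)).Tot (F.S.obj ⟨RR, fcRR⟩) => x j) h1
  beta_reduce at h2
  rw [DirectSum.of_eq_same] at h2
  exact h2

theorem tf_H {p : ℕ} (htf : ∀ y : (theory (MSys.ofSeq A (stdEven T)) F hF s hs).U RR,
    p • y = 0 → y = 0) (j : ℤ) (a : (MSys.ofSeq A (stdEven T)).H j (F.S.obj ⟨RR, fcRR⟩))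
    (ha : p • a = 0) : a = 0 := by
  have h1 := htf (umk fcRR ((MSys.ofSeq A (stdEven T)).tof _ j a)) (by
    have h2 : p • umk (M := MSys.ofSeq A (stdEven T)) (F := F) fcRR
        ((MSys.ofSeq A (stdEven T)).tof _ j a) =
        umk fcRR ((MSys.ofSeq A (stdEven T)).tof _ j (p • a)) := by
      rw [map_nsmul, map_nsmul]
    refine h2.trans ?_
    rw [ha, _root_.map_zero, _root_.map_zero]
    rfl)
  have h2 := congrArg (uev fcRR) h1
  rw [uev_umk] at h2
  apply DirectSum.of_injective (β := fun k => (MSys.ofSeq A (stdEven T)).H k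
    (F.S.obj ⟨RR, fcRR⟩)) j
  refine h2.trans ?_
  rw [_root_.map_zero]
  exact _root_.map_zero (uev fcRR)

include tel in
theorem div_T {p : ℕ} (hdiv : ∀ y : (theory (MSys.ofSeq A (stdEven T)) F hF s hs).U RR,
    ∃ z, y = p • z) (j : ℤ) (g : F.S.obj ⟨RR, fcRR⟩ ⟶ R ⊗ (stdEven T).S j) :
    ∃ b, g = (p : ℤ) • b := by
  obtain ⟨a, rfl⟩ := (toTel_bijective (S := stdEven T) tel (k := j)
    (isCpt_space F hF fcRR)).2 g
  obtain ⟨b, rfl⟩ := div_H hF s hs hdiv j a
  exact ⟨toTel tel j _ b, by rw [map_nsmul, natCast_zsmul]⟩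

include tel in
theorem tf_T {p : ℕ} (htf : ∀ y : (theory (MSys.ofSeq A (stdEven T)) F hF s hs).U RR,
    p • y = 0 → y = 0) (j : ℤ) (g : F.S.obj ⟨RR, fcRR⟩ ⟶ R ⊗ (stdEven T).S j)
    (hg : (p : ℤ) • g = 0) : g = 0 := by
  obtain ⟨a, rfl⟩ := (toTel_bijective (S := stdEven T) tel (k := j)
    (isCpt_space F hF fcRR)).2 g
  have h1 : a = 0 := by
    apply tf_H hF s hs htf
    apply (toTel_bijective (S := stdEven T) tel (k := j) (isCpt_space F hF fcRR)).1
    rw [map_nsmul, _root_.map_zero, ← natCast_zsmul]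
    exact hg
  rw [h1, _root_.map_zero]

/-- **The output of part Q in terms of the homotopy groups of `R`.** -/
theorem QIn.of_qData {F₀ : Law (theory (MSys.ofSeq A (stdEven T)) F hF s hs).A} {p : ℕ}
    (hQ : QData (theory (MSys.ofSeq A (stdEven T)) F hF s hs) F₀ p) :
    QIn R (F₀.map (coefRing tel F h hF s hs).toRingHom) p := by
  have ecomp : ∀ k : ℤ, 2 * k + 1 + 2 * (-k) = 1 := fun k => by ring
  refine ⟨?_, ?_, ?_, ?_⟩
  · intro w x hx
    obtain ⟨g, rfl⟩ := exists_of_mem_hgr (neg_neg w) hx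
    obtain ⟨a, ha, hag⟩ := exists_coefRing_eq (S := stdEven T) tel (F := F) h hF s hs
      (neg_add_cancel w) g
    obtain ⟨c, hc, y, hy, h1⟩ := hQ.gen w a ha
    obtain ⟨b, hb⟩ := coefRing_of_mem (S := stdEven T) tel (F := F) h hF s hs
      (neg_add_cancel w) hy
    refine ⟨c, hc, HRing.of (stdEven T) R w b, of_mem_hgr (neg_neg w) _, ?_⟩
    rw [← hag, h1, _root_.map_add, map_nsmul, hb]
    congr 1
    exact Laz.map_lift (coefRing tel F h hF s hs).toRingHom F₀ c
  · intro w a ha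
    obtain ⟨a', ha', hag⟩ := exists_coefRing_eq (S := stdEven T) tel (F := F) h hF s hs
      (neg_add_cancel w) a
    have h1 : a' = 0 := by
      apply hQ.torsion
      apply (coefRing tel F h hF s hs).injective
      rw [map_nsmul, _root_.map_zero, hag, ← natCast_zsmul]
      have h2 := _root_.map_zsmul (DirectSum.of ((stdEven T).Gr R) w) (p : ℤ) a
      refine h2.symm.trans ?_
      rw [ha, _root_.map_zero]
    rw [h1, _root_.map_zero] at hag
    apply DirectSum.of_injective (β := (stdEven T).Gr R) w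
    rw [_root_.map_zero]
    exact hag.symm
  · intro k a
    exact div_of_shift (2 * (-k))
      (F.line ≪≫ (shiftFunctorAdd' T (2 * k + 1) (2 * (-k)) 1 (ecomp k)).app _)
      (((stdEven T).shiftNat (Iso.refl _) (-k)).symm.app R)
      (fun g => div_T tel hF s hs hQ.odd_div (-k) g) a
  · intro k a ha
    exact tf_of_shift (2 * (-k))
      (F.line ≪≫ (shiftFunctorAdd' T (2 * k + 1) (2 * (-k)) 1 (ecomp k)).app _)
      (((stdEven T).shiftNat (Iso.refl _) (-k)).symm.app R)
      (fun g => tf_T tel hF s hs hQ.odd_torsion (-k) g) a ha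

end theory

/-! ### The lowest homotopy groups -/

theorem PiConn.of_dist (F : SpaceFunctor T) {R J : T} [MonObj R] {a : R ⟶ J}
    {b : J ⟶ (𝟙_ T)⟦(1 : ℤ)⟧} (D : H.Dist (η[R] : 𝟙_ T ⟶ R) a b) (hJ : Conn 2 J) : PiConn R where
  neg n hn x := by
    have h1 := conn_ring F D hJ (2 * n) (by omega) ((stdSph n).inv ≫ x)
    rw [← cancel_epi (stdSph n).inv, h1, comp_zero]
  zero x := exists_int_ring F D hJ x
  inj m hm := eq_zero_of_zsmul_unit F D hJ m hm

/-! ### `MUModP V 0` -/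

/-- The fields `odd`, `surj`, `ker` for `s = 0`. -/
theorem MUBasis.muModP_zero {R : T} [MonObj R] [IsCommMonObj R] {V : MUEv R} (b : MUBasis V)
    (hπ : PiConn (Am R 1))
    (h : ∀ p : ℕ, p.Prime → p ≠ 2 → QIn (Am R 1) b.cobEv.law p) : MUModP V 0 where
  odd _ hpf hp _ _ _ hC k f := (h _ hpf.out hp).odd hC k f
  surj _ hpf hp _ _ _ hC w f := b.cobEv.surj₀ (h _ hpf.out hp) hC w f
  ker _ hpf hp _ _ _ hC w z hz a ha h0 :=
    b.cobEv.ker₀ (h _ hpf.out hp) hπ hC w z hz a ha h0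

end Vale.Agent.P251.M
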