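import Vale.Agent.P251.Q.Thom

/-!
# P251, part M (ME): representability, geometric part

`rep_of_stable`: a class which is represented by a map to a Thom space after two suspensions, the
second of which is allowed on both sides, is represented in the sense of `ThomTheory.rep`.
-/

open CategoryTheory MonoidalCategory Matrix

universe v

set_option linter.style.haveILetI false

noncomputable section

namespace Vale.Agent.P251.Q

open Vale.Agent.P251.G Vale.Agent.P251.G.LC MultTheory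

variable {E : MultTheory.{v}} (o : Orientation E)

/-- the suspension class of `ℂ^(N+b)` -/
theorem lin_add (N b : ℕ) :
    E.map ((Th.csum (Fin N) (Fin b)).hom ≫ (cpowIso finSumFinEquiv).hom) (o.lin (Fin (N + b))) =
      E.cross (o.lin (Fin N)) (o.lin (Fin b)) := by
  rw [MultTheory.map_comp, lin_reindex, lin_sum]

/-- `ℂ^(N+b) ≅ ℂ^N ⊗ ℂ^b` -/
def cpowAdd (N b : ℕ) : Cpow (Fin N) ⊗ Cpow (Fin b) ≅ Cpow (Fin (N + b)) :=
  Th.csum (Fin N) (Fin b) ≪≫ cpowIso finSumFinEquiv

theorem lin_add' (N b : ℕ) : E.map (cpowAdd N b).hom (o.lin (Fin (N + b))) =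
    E.cross (o.lin (Fin N)) (o.lin (Fin b)) := lin_add o N b

theorem rep_of_stable {X : LC} [E.Good X] {x : E.U X} {N a b : ℕ} {I : Type} [Fintype I]
    (h : (X ⊗ Cpow (Fin N)) ⊗ Cpow (Fin b) ⟶ LC.of (Th a I) ⊗ Cpow (Fin b))
    (hx : E.cross (E.cross x (o.lin (Fin N))) (o.lin (Fin b)) =
      E.map h (E.cross (o.tau a I) (o.lin (Fin b)))) :
    ∃ f : X ⊗ Cpow (Fin (N + b)) ⟶ LC.of (Th (a + b) (I ⊕ Fin b)),
      E.cross x (o.lin (Fin (N + b))) = E.map f (o.tau (a + b) (I ⊕ Fin b)) := by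
  classical
  haveI := o.goodTh
  let g : LC.of (Th a I) ⊗ Cpow (Fin b) ⟶ LC.of (Th (a + b) (I ⊕ Fin b)) :=
    (LC.of (Th a I) ◁ Th.incl' (Fintype.card_fin b)) ≫ Th.sum rfl
  have hg : E.map g (o.tau (a + b) (I ⊕ Fin b)) = E.cross (o.tau a I) (o.lin (Fin b)) := by
    rw [MultTheory.map_comp, tau_sum', ← cross_map_right, map_incl']
  refine ⟨X ◁ (cpowAdd N b).inv ≫ (α_ X (Cpow (Fin N)) (Cpow (Fin b))).inv ≫ h ≫ g, ?_⟩
  rw [MultTheory.map_comp, MultTheory.map_comp, MultTheory.map_comp, hg, ← hx, cross_assoc_inv,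
    ← lin_add', cross_map_right, ← MultTheory.map_comp, ← MonoidalCategory.whiskerLeft_comp,
    Iso.inv_hom_id, MonoidalCategory.whiskerLeft_id, MultTheory.map_id]

end Vale.Agent.P251.Q
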