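import Vale.Agent.P251.Q.FGLAlg
import Vale.Agent.P251.F.Cob

/-!
# P251, part M4b: coordinates on a projective system and their comparison (algebra)

`CPSys A` : the algebraic shadow of the rings `U(ℂP^n)` and `U(ℂP^n × ℂP^n)` of a multiplicative
theory with coefficients `A`. `P.Coord` : a coordinate `z` (the Euler class of an orientation),
together with its formal group law. Two coordinates with the same restriction to `ℂP^1` differ by a
unique strict series, which is an isomorphism of the formal group laws.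
-/

open MvPowerSeries Vale.Agent.P251.Q Vale.Agent.P251.F Vale.Agent.P217

universe u v u' v'

namespace Vale.Agent.P251.M

section nev

variable {A : Type*} {S : Type*} [CommRing A] [CommRing S] [Algebra A S]

/-- The value of a power series in one variable at a nilpotent element. -/
noncomputable def nev1 (z : S) (g : PowerSeries A) : S := nev (fun _ : Unit => z) g

theorem nev1_eq_sum {z : S} {n : ℕ} (hz : z ^ n = 0) (g : PowerSeries A) :
    nev1 z g = ∑ i ∈ Finset.range n, PowerSeries.coeff i g • z ^ i := by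
  rw [nev1, nev_eq_sum (n := n) (fun _ => hz)]
  refine Finset.sum_bij' (fun f _ => f ()) (fun i _ => fun _ => i) ?_ ?_ ?_ ?_ ?_
  · intro f hf
    rw [Fintype.mem_piFinset] at hf
    exact hf ()
  · intro i hi
    rw [Fintype.mem_piFinset]
    exact fun _ => hi
  · intro f _
    rfl
  · intro i _
    rfl
  · intro f _
    rw [Fintype.prod_unique]
    have : (Finsupp.equivFunOnFinite.symm f : Unit →₀ ℕ) = Finsupp.single () (f ()) := by
      ext; simp
    rw [this]
    rfl

theorem nev1_X {z : S} (hz : IsNilpotent z) : nev1 z (PowerSeries.X : PowerSeries A) = z :=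
  nev_X (A := A) (fun _ => hz) ()

theorem isNilpotent_nev1 {z : S} (hz : IsNilpotent z) {g : PowerSeries A}
    (hg : PowerSeries.constantCoeff g = 0) : IsNilpotent (nev1 z g) :=
  isNilpotent_nev (fun _ => hz) hg

/-- values of a composition, outer series in one variable -/
theorem nev_psubst {σ : Type*} [Finite σ] {a : σ → S} (ha : ∀ s, IsNilpotent (a s))
    {F : MvPowerSeries σ A} (hF : F.constantCoeff = 0) (g : PowerSeries A) :
    nev a (PowerSeries.subst F g) = nev1 (nev a F) g := by
  have h : HasSubst (fun _ : Unit => F) :=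
    hasSubst_of_constantCoeff_zero (fun _ => hF)
  exact nev_subst ha h g

/-- values of a composition of two series in one variable -/
theorem nev1_psubst {z : S} (hz : IsNilpotent z) {f : PowerSeries A}
    (hf : PowerSeries.constantCoeff f = 0) (g : PowerSeries A) :
    nev1 z (PowerSeries.subst f g) = nev1 (nev1 z f) g :=
  nev_psubst (fun _ => hz) hf g

end nev

section semi

variable {A A' : Type*} {S S' : Type*} [CommRing A] [CommRing A'] [CommRing S] [Algebra A S]
  [CommRing S'] [Algebra A' S']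

/-- semilinear naturality of values -/
theorem map_nev_semi {σ : Type*} [Finite σ] (φ : A →+* A') (ψ : S →+* S')
    (h : ∀ r, ψ (algebraMap A S r) = algebraMap A' S' (φ r)) {a : σ → S}
    (ha : ∀ s, IsNilpotent (a s)) (F : MvPowerSeries σ A) :
    ψ (nev a F) = nev (fun s => ψ (a s)) (F.map φ) := by
  classical
  have := Fintype.ofFinite σ
  choose m hm using ha
  obtain ⟨n, hn⟩ : ∃ n, ∀ s, a s ^ n = 0 := by
    refine ⟨∑ s, m s, fun s => ?_⟩
    obtain ⟨k, hk⟩ := Nat.exists_eq_add_of_le (Finset.single_le_sum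
      (f := m) (fun i _ => Nat.zero_le _) (Finset.mem_univ s))
    rw [hk, pow_add, hm, zero_mul]
  have hn' : ∀ s, ψ (a s) ^ n = 0 := fun s => by rw [← map_pow, hn, map_zero]
  rw [nev_eq_sum hn, nev_eq_sum (a := fun s => ψ (a s)) hn', map_sum]
  refine Finset.sum_congr rfl fun g _ => ?_
  rw [Algebra.smul_def, map_mul, h, map_prod, coeff_map, Algebra.smul_def]
  simp only [map_pow]

theorem map_nev1_semi (φ : A →+* A') (ψ : S →+* S')
    (h : ∀ r, ψ (algebraMap A S r) = algebraMap A' S' (φ r)) {z : S}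
    (hz : IsNilpotent z) (F : PowerSeries A) :
    ψ (nev1 z F) = nev1 (ψ z) (PowerSeries.map φ F) :=
  map_nev_semi φ ψ h (fun _ => hz) F

end semi

/-- The algebraic shadow of the rings of complex projective spaces. -/
structure CPSys (A : Type u) [CommRing A] where
  /-- the ring `U(ℂP^n)` -/
  U : ℕ → Type v
  [ring : ∀ n, CommRing (U n)]
  [alg : ∀ n, Algebra A (U n)]
  /-- restriction -/
  res : ∀ n, U (n + 1) →ₐ[A] U n
  /-- the ring `U(ℂP^n × ℂP^n)` -/
  U2 : ℕ → Type v
  [ring2 : ∀ n, CommRing (U2 n)]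
  [alg2 : ∀ n, Algebra A (U2 n)]
  /-- pull back along the first projection -/
  p : ∀ n, U n →ₐ[A] U2 n
  /-- pull back along the second projection -/
  q : ∀ n, U n →ₐ[A] U2 n
  /-- the dimension of the target of the Segre map -/
  N : ℕ → ℕ
  /-- pull back along the Segre map -/
  s : ∀ n, U (N n) →ₐ[A] U2 n

attribute [instance] CPSys.ring CPSys.alg CPSys.ring2 CPSys.alg2

namespace CPSys

variable {A : Type u} [CommRing A] (P : CPSys.{u, v} A)

/-- A coordinate with its formal group law. -/
structure Coord where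
  /-- the coordinate on `ℂP^n` -/
  z : ∀ n, P.U n
  res_z : ∀ n, P.res n (z (n + 1)) = z n
  pow_z : ∀ n, z n ^ (n + 1) = 0
  li : ∀ n, LinearIndependent A (fun i : Fin (n + 1) => z n ^ (i : ℕ))
  span : ∀ n, ⊤ ≤ Submodule.span A (Set.range fun i : Fin (n + 1) => z n ^ (i : ℕ))
  li2 : ∀ n, LinearIndependent A
    (fun g : Fin 2 → Fin (n + 1) => ∏ s, ![P.p n (z n), P.q n (z n)] s ^ (g s : ℕ))
  /-- the formal group law -/
  law : Law A
  s_z : ∀ n, P.s n (z (P.N n)) = nev ![P.p n (z n), P.q n (z n)] law.ps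

namespace Coord

variable {P} (c c' c'' : P.Coord)

theorem nil (n : ℕ) : IsNilpotent (c.z n) := ⟨_, c.pow_z n⟩

theorem nil2 (n : ℕ) : ∀ s, IsNilpotent (![P.p n (c.z n), P.q n (c.z n)] s) :=
  isNilpotent_pair ((c.nil n).map _) ((c.nil n).map _)

theorem pow2 (n : ℕ) : ∀ s, ![P.p n (c.z n), P.q n (c.z n)] s ^ (n + 1) = 0 := by
  intro s
  fin_cases s
  · change P.p n (c.z n) ^ (n + 1) = 0
    rw [← map_pow, c.pow_z, map_zero]
  · change P.q n (c.z n) ^ (n + 1) = 0
    rw [← map_pow, c.pow_z, map_zero]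

/-- `g` expresses the second coordinate by the first. -/
def IsCmp (g : PowerSeries A) : Prop := ∀ n, c'.z n = nev1 (c.z n) g

variable {c c' c''}

theorem eq_of_nev1_eq {f g : PowerSeries A} (h : ∀ n, nev1 (c.z n) f = nev1 (c.z n) g) :
    f = g := by
  ext n
  have h' := h n
  rw [nev1_eq_sum (c.pow_z n), nev1_eq_sum (c.pow_z n), ← sub_eq_zero,
    ← Finset.sum_sub_distrib] at h'
  have h'' : ∑ i : Fin (n + 1), (PowerSeries.coeff i f - PowerSeries.coeff i g) •
      c.z n ^ (i : ℕ) = 0 := by
    rw [← h', Finset.sum_range]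
    refine Finset.sum_congr rfl fun i _ => ?_
    rw [sub_smul]
  have := Fintype.linearIndependent_iff.mp (c.li n) _ h'' (Fin.last n)
  exact sub_eq_zero.mp this

theorem IsCmp.unique {f g : PowerSeries A} (hf : IsCmp c c' f) (hg : IsCmp c c' g) : f = g :=
  eq_of_nev1_eq (c := c) fun n => (hf n).symm.trans (hg n)

theorem exists_isCmp (c c' : P.Coord) : ∃ g, IsCmp c c' g := by
  have h : ∀ n, ∃ a : Fin (n + 1) → A, ∑ i, a i • c.z n ^ (i : ℕ) = c'.z n := by
    intro n
    have := c.span n (Submodule.mem_top (x := c'.z n))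
    rwa [Submodule.mem_span_range_iff_exists_fun] at this
  choose a ha using h
  have hstep : ∀ n (i : Fin (n + 1)), a (n + 1) i.castSucc = a n i := by
    intro n i
    have h1 := congrArg (P.res n) (ha (n + 1))
    rw [map_sum, Fin.sum_univ_castSucc] at h1
    simp only [map_smul, map_pow, c.res_z, c'.res_z, Fin.val_castSucc, Fin.val_last, c.pow_z,
      smul_zero, add_zero] at h1
    rw [← ha n, ← sub_eq_zero, ← Finset.sum_sub_distrib] at h1
    have h2 := Fintype.linearIndependent_iff.mp (c.li n)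
      (fun i => a (n + 1) i.castSucc - a n i) (by simpa only [sub_smul] using h1) i
    exact sub_eq_zero.mp h2
  have hall : ∀ k n (h : n < k + 1), a k ⟨n, h⟩ = a n (Fin.last n) := by
    intro k
    induction k with
    | zero =>
      intro n h
      obtain rfl : n = 0 := by omega
      rfl
    | succ k ih =>
      intro n h
      rcases Nat.lt_or_ge n (k + 1) with h' | h'
      · rw [← ih n h', ← hstep k ⟨n, h'⟩]
        rfl
      · obtain rfl : n = k + 1 := by omega
        rfl
  refine ⟨PowerSeries.mk fun n => a n (Fin.last n), fun n => ?_⟩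
  rw [nev1_eq_sum (c.pow_z n), ← ha n, Finset.sum_range]
  refine Finset.sum_congr rfl fun i _ => ?_
  rw [PowerSeries.coeff_mk, ← hall n i i.2]

/-- the constant coefficient of the comparison series vanishes -/
theorem IsCmp.cc {g : PowerSeries A} (hg : IsCmp c c' g) : PowerSeries.constantCoeff g = 0 := by
  have h := hg 0
  rw [nev1_eq_sum (c.pow_z 0)] at h
  have h0 : c'.z 0 = 0 := by simpa using c'.pow_z 0
  rw [h0, zero_add, Finset.sum_range_one, pow_zero] at h
  have := Fintype.linearIndependent_iff.mp (c.li 0) (fun _ => PowerSeries.coeff 0 g)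
    (by simpa using h.symm) 0
  simpa using this

theorem IsCmp.coeff_one {g : PowerSeries A} (hg : IsCmp c c' g) (h1 : c'.z 1 = c.z 1) :
    PowerSeries.coeff 1 g = 1 := by
  have h := hg 1
  rw [nev1_eq_sum (c.pow_z 1), h1, Finset.sum_range_succ, Finset.sum_range_one, pow_zero, pow_one,
    PowerSeries.coeff_zero_eq_constantCoeff_apply, hg.cc, zero_smul, zero_add, ← sub_eq_zero] at h
  have := Fintype.linearIndependent_iff.mp (c.li 1)
    ![0, 1 - PowerSeries.coeff 1 g] (by
      rw [Fin.sum_univ_two]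
      simp only [Matrix.cons_val_zero, Matrix.cons_val_one, zero_smul, zero_add, sub_smul,
        one_smul, Fin.val_one, pow_one]
      exact h) 1
  simp only [Matrix.cons_val_one] at this
  exact (sub_eq_zero.mp this).symm

theorem IsCmp.refl (c : P.Coord) : IsCmp c c PowerSeries.X := fun n => (nev1_X (c.nil n)).symm

theorem IsCmp.trans {f g : PowerSeries A} (hf : IsCmp c c' f) (hg : IsCmp c' c'' g) :
    IsCmp c c'' (PowerSeries.subst f g) := by
  intro n
  rw [nev1_psubst (c.nil n) hf.cc, ← hf n, hg n]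

/-- the comparison series is a homomorphism of formal group laws -/
theorem IsCmp.isHom {g : PowerSeries A} (hg : IsCmp c c' g) : IsHom c.law.toFG c'.law.toFG g := by
  refine ⟨hg.cc, ?_⟩
  have hcF : (c.law.ps).constantCoeff = 0 := c.law.toFG.zero_constantCoeff
  have hX : ∀ i : Fin 2, (PowerSeries.subst (X i : MvPowerSeries (Fin 2) A) g :
      MvPowerSeries (Fin 2) A).constantCoeff = 0 := fun i =>
    PowerSeries.constantCoeff_subst_eq_zero (by simp) _ hg.cc
  ext d
  set n := d 0 + d 1 with hn
  refine coeff_eq_of_nev_eq (c.pow2 n) (c.li2 n) ?_ ?_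
  · have e0 : P.p n (c'.z n) = nev1 (P.p n (c.z n)) g := by
      rw [hg n]
      exact map_nev (P.p n) (fun _ => c.nil n) g
    have e1 : P.q n (c'.z n) = nev1 (P.q n (c.z n)) g := by
      rw [hg n]
      exact map_nev (P.q n) (fun _ => c.nil n) g
    have e2 : P.s n (c'.z (P.N n)) = nev1 (P.s n (c.z (P.N n))) g := by
      rw [hg (P.N n)]
      exact map_nev (P.s n) (fun _ => c.nil (P.N n)) g
    rw [nev_psubst (c.nil2 n) hcF, ← c.s_z n, ← e2, c'.s_z n]
    have hs : HasSubst ![(PowerSeries.subst (X 0 : MvPowerSeries (Fin 2) A) g :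
        MvPowerSeries (Fin 2) A), (PowerSeries.subst (X 1 : MvPowerSeries (Fin 2) A) g :
        MvPowerSeries (Fin 2) A)] := by
      refine hasSubst_of_constantCoeff_zero fun i => ?_
      fin_cases i
      · exact hX 0
      · exact hX 1
    refine Eq.trans ?_ (nev_subst (c.nil2 n) hs c'.law.ps).symm
    congr 1
    funext s
    fin_cases s
    · change P.p n (c'.z n) = nev _ (PowerSeries.subst (X 0) g)
      rw [nev_psubst (c.nil2 n) (by simp), nev_X (c.nil2 n), e0]
      rfl
    · change P.q n (c'.z n) = nev _ (PowerSeries.subst (X 1) g)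
      rw [nev_psubst (c.nil2 n) (by simp), nev_X (c.nil2 n), e1]
      rfl
  · intro s
    fin_cases s
    · simp only [Fin.zero_eta]; omega
    · simp only [Fin.mk_one]; omega

/-- The comparison series of two coordinates which agree on `ℂP^1`. -/
noncomputable def cmp (c c' : P.Coord) (h : c'.z 1 = c.z 1) : InvSeries A where
  val := (exists_isCmp c c').choose
  cc := (exists_isCmp c c').choose_spec.cc
  isUnit := by
    rw [(exists_isCmp c c').choose_spec.coeff_one h]
    exact isUnit_one

theorem isCmp_cmp (c c' : P.Coord) (h : c'.z 1 = c.z 1) : IsCmp c c' (cmp c c' h).val :=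
  (exists_isCmp c c').choose_spec

theorem cmp_mem_strict (c c' : P.Coord) (h : c'.z 1 = c.z 1) : cmp c c' h ∈ strict A :=
  (isCmp_cmp c c' h).coeff_one h

theorem cmp_unique {h : c'.z 1 = c.z 1} {g : InvSeries A} (hg : IsCmp c c' g.val) :
    g = cmp c c' h :=
  InvSeries.ext (hg.unique (isCmp_cmp c c' h))

/-- The comparison series is an isomorphism of laws. -/
theorem cmp_smul (c c' : P.Coord) (h : c'.z 1 = c.z 1) : cmp c c' h • c.law = c'.law :=
  (InvSeries.smul_eq_iff_isHom _ _ _).2 (isCmp_cmp c c' h).isHom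

theorem cmp_self (c : P.Coord) : cmp c c rfl = 1 :=
  (cmp_unique (h := rfl) (g := 1) (IsCmp.refl c)).symm

theorem cmp_mul (c c' c'' : P.Coord) (h : c'.z 1 = c.z 1) (h' : c''.z 1 = c'.z 1)
    (h'' : c''.z 1 = c.z 1) : cmp c' c'' h' * cmp c c' h = cmp c c'' h'' :=
  cmp_unique ((isCmp_cmp c c' h).trans (isCmp_cmp c' c'' h'))

/-- The comparison series determines and is determined by the law if the coordinates are the
same. -/
theorem law_eq (c c' : P.Coord) (h : ∀ n, c'.z n = c.z n) : c'.law = c.law := by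
  have hc : IsCmp c c' PowerSeries.X := fun n => (h n).trans (nev1_X (c.nil n)).symm
  have := (InvSeries.smul_eq_iff_isHom 1 c.law c'.law).2 hc.isHom
  rw [one_smul] at this
  exact this.symm

end Coord

/-! ### Naturality -/

/-- Morphisms of projective systems over a ring homomorphism. -/
structure Hom {A' : Type u'} [CommRing A'] (P : CPSys.{u, v} A) (P' : CPSys.{u', v'} A')
    (φ : A →+* A') where
  /-- the component `U(ℂP^n) → U'(ℂP^n)` -/
  f : ∀ n, P.U n →+* P'.U n
  f_alg : ∀ n r, f n (algebraMap A (P.U n) r) = algebraMap A' (P'.U n) (φ r)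
  /-- the component on `ℂP^n × ℂP^n` -/
  f2 : ∀ n, P.U2 n →+* P'.U2 n
  f2_alg : ∀ n r, f2 n (algebraMap A (P.U2 n) r) = algebraMap A' (P'.U2 n) (φ r)
  N_eq : ∀ n, P.N n = P'.N n
  f2_p : ∀ n x, f2 n (P.p n x) = P'.p n (f n x)
  f2_q : ∀ n x, f2 n (P.q n x) = P'.q n (f n x)

variable {P} {A' : Type u'} [CommRing A'] {P' : CPSys.{u', v'} A'} {φ : A →+* A'}

/-- Naturality of the comparison series. -/
theorem Coord.cmp_map (f : Hom P P' φ) (c c' : P.Coord) (d d' : P'.Coord)
    (hc : ∀ n, f.f n (c.z n) = d.z n) (hc' : ∀ n, f.f n (c'.z n) = d'.z n)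
    (h : c'.z 1 = c.z 1) (h' : d'.z 1 = d.z 1) :
    InvSeries.map φ (Coord.cmp c c' h) = Coord.cmp d d' h' := by
  refine Coord.cmp_unique ?_
  intro n
  rw [← hc' n, Coord.isCmp_cmp c c' h n, map_nev1_semi φ (f.f n) (f.f_alg n) (c.nil n), hc n]
  rfl

/-- Naturality of the law. -/
theorem Coord.law_map (f : Hom P P' φ) (c : P.Coord) (d : P'.Coord)
    (hc : ∀ n, f.f n (c.z n) = d.z n)
    (hs : ∀ n, f.f2 n (P.s n (c.z (P.N n))) = P'.s n (d.z (P'.N n))) :
    c.law.map φ = d.law := by
  apply Law.ext_ps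
  ext e
  set n := e 0 + e 1 with hn
  refine coeff_eq_of_nev_eq (d.pow2 n) (d.li2 n) ?_ ?_
  · have h := hs n
    rw [c.s_z n, d.s_z n, map_nev_semi φ (f.f2 n) (f.f2_alg n) (c.nil2 n)] at h
    rw [← h]
    congr 1
    funext s
    fin_cases s
    · change P'.p n (d.z n) = f.f2 n (P.p n (c.z n))
      rw [f.f2_p, hc]
    · change P'.q n (d.z n) = f.f2 n (P.q n (c.z n))
      rw [f.f2_q, hc]
  · intro s
    fin_cases s
    · simp only [Fin.zero_eta]; omega
    · simp only [Fin.mk_one]; omega

end CPSys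

end Vale.Agent.P251.M
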