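import Vale.Agent.P251.M.TelPi
import Mathlib.CategoryTheory.Monoidal.CommMon_

/-!
# P251, part M: commutative monoids from multiplicative sequences
-/

open CategoryTheory MonoidalCategory Limits Pretriangulated

universe v u

set_option linter.unusedSectionVars false

namespace Vale.Agent.P251.M

open Vale.Agent.P251.T

variable {T : Type u} [Category.{v} T] [Preadditive T] [HasZeroObject T]
    [HasShift T ℤ] [∀ n : ℤ, (shiftFunctor T n).Additive] [Pretriangulated T] [IsTriangulated T]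
    [MonoidalCategory T] [SymmetricCategory T] [TensorTriangulated T] [MonoidalClosed T]
    [HasCoproducts.{0} T] [HasProducts.{0} T] [StableCat T]

/-- the unit is compact -/
lemma isCpt_unit : IsCpt (𝟙_ T) :=
  IsCpt.of_iso (isCpt_sph 0) ((shiftFunctorZero T ℤ).app (𝟙_ T))

/-- A multiplicative sequence: a sequence `E` with telescope `R`, and products
`E m ⊗ E n ⟶ E (m + n)` which satisfy all axioms after composition with the maps to `R`. -/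
structure MulSeq (E : ℕ ⥤ T) (R : T) where
  /-- the maps to the telescope -/
  ι : ∀ n, E.obj n ⟶ R
  tel : IsTel E R ι
  /-- the unit -/
  unit : 𝟙_ T ⟶ E.obj 0
  /-- the products -/
  mul : ∀ m n, E.obj m ⊗ E.obj n ⟶ E.obj (m + n)
  mul_succ_left : ∀ m n, (E.map (homOfLE (Nat.le_succ m)) ▷ E.obj n) ≫ mul (m + 1) n ≫
    ι (m + 1 + n) = mul m n ≫ ι (m + n)
  mul_comm : ∀ m n, (β_ (E.obj m) (E.obj n)).hom ≫ mul n m ≫ ι (n + m) = mul m n ≫ ι (m + n)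
  one_mul : ∀ n, (unit ▷ E.obj n) ≫ mul 0 n ≫ ι (0 + n) = (λ_ (E.obj n)).hom ≫ ι n
  mul_assoc : ∀ l m n, (mul l m ▷ E.obj n) ≫ mul (l + m) n ≫ ι (l + m + n) =
    (α_ (E.obj l) (E.obj m) (E.obj n)).hom ≫ (E.obj l ◁ mul m n) ≫ mul l (m + n) ≫
      ι (l + (m + n))

/-- `(R, one, m)` is a commutative monoid as seen by maps from compact objects. -/
structure IsCptMon (R : T) (one : 𝟙_ T ⟶ R) (m : R ⊗ R ⟶ R) : Prop where
  comm : ∀ {V W : T} (_ : IsCpt V) (_ : IsCpt W) (f : V ⟶ R) (g : W ⟶ R),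
    (β_ V W).hom ≫ (g ⊗ₘ f) ≫ m = (f ⊗ₘ g) ≫ m
  one_mul : ∀ {W : T} (_ : IsCpt W) (f : W ⟶ R), (one ⊗ₘ f) ≫ m = (λ_ W).hom ≫ f
  assoc : ∀ {U V W : T} (_ : IsCpt U) (_ : IsCpt V) (_ : IsCpt W) (f : U ⟶ R) (g : V ⟶ R)
    (h : W ⟶ R), (((f ⊗ₘ g) ≫ m) ⊗ₘ h) ≫ m = (α_ U V W).hom ≫ (f ⊗ₘ ((g ⊗ₘ h) ≫ m)) ≫ m

lemma IsCptMon.mul_one {R : T} {one : 𝟙_ T ⟶ R} {m : R ⊗ R ⟶ R} (h : IsCptMon R one m) {W : T}
    (hW : IsCpt W) (f : W ⟶ R) : (f ⊗ₘ one) ≫ m = (ρ_ W).hom ≫ f := by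
  rw [← h.comm hW isCpt_unit f one, h.one_mul hW]
  simp

namespace MulSeq

variable {E : ℕ ⥤ T} {R : T} (A : MulSeq E R)

lemma mul_succ_right (m n : ℕ) : (E.obj m ◁ E.map (homOfLE (Nat.le_succ n))) ≫ A.mul m (n + 1) ≫
    A.ι (m + (n + 1)) = A.mul m n ≫ A.ι (m + n) := by
  rw [← A.mul_comm m (n + 1), ← A.mul_comm m n, BraidedCategory.braiding_naturality_right_assoc,
    A.mul_succ_left]

lemma mul_left {m m' : ℕ} (h : m ≤ m') (n : ℕ) : (E.map (homOfLE h) ▷ E.obj n) ≫ A.mul m' n ≫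
    A.ι (m' + n) = A.mul m n ≫ A.ι (m + n) := by
  induction m', h using Nat.le_induction with
  | base =>
    have : E.map (homOfLE (le_refl m)) = 𝟙 _ := E.map_id m
    rw [this, id_whiskerRight, Category.id_comp]
  | succ k hk ih =>
    have : E.map (homOfLE (Nat.le_succ_of_le hk)) =
      E.map (homOfLE hk) ≫ E.map (homOfLE (Nat.le_succ k)) := E.map_comp _ _
    rw [this, comp_whiskerRight, Category.assoc, A.mul_succ_left, ih]

lemma mul_right (m : ℕ) {n n' : ℕ} (h : n ≤ n') : (E.obj m ◁ E.map (homOfLE h)) ≫ A.mul m n' ≫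
    A.ι (m + n') = A.mul m n ≫ A.ι (m + n) := by
  rw [← A.mul_comm m n', ← A.mul_comm m n, BraidedCategory.braiding_naturality_right_assoc,
    A.mul_left h]

lemma mul_both {m m' n n' : ℕ} (h : m ≤ m') (h' : n ≤ n') :
    (E.map (homOfLE h) ⊗ₘ E.map (homOfLE h')) ≫ A.mul m' n' ≫ A.ι (m' + n') =
      A.mul m n ≫ A.ι (m + n) := by
  rw [tensorHom_def, Category.assoc, A.mul_right, A.mul_left]

/-- existence of a multiplication -/
theorem exists_mul : ∃ m : R ⊗ R ⟶ R, ∀ i j, (A.ι i ⊗ₘ A.ι j) ≫ m = A.mul i j ≫ A.ι (i + j) := by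
  obtain ⟨m, hm⟩ := (A.tel.tensor A.tel).exists_lift (fun n => A.mul n n ≫ A.ι (n + n))
    (fun n => A.mul_both (Nat.le_succ n) (Nat.le_succ n))
  have hm' : ∀ n : ℕ, (A.ι n ⊗ₘ A.ι n : E.obj n ⊗ E.obj n ⟶ R ⊗ R) ≫ m =
    A.mul n n ≫ A.ι (n + n) := hm
  refine ⟨m, fun i j => ?_⟩
  have h1 : A.ι i ⊗ₘ A.ι j = (E.map (homOfLE (le_max_left i j)) ⊗ₘ
      E.map (homOfLE (le_max_right i j))) ≫ (A.ι (max i j) ⊗ₘ A.ι (max i j)) := by
    rw [tensorHom_comp_tensorHom, A.tel.comp, A.tel.comp]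
  rw [h1, Category.assoc, hm', A.mul_both]

/-- any multiplication satisfies the monoid axioms on compact objects -/
theorem isCptMon {m : R ⊗ R ⟶ R}
    (hm : ∀ i j, (A.ι i ⊗ₘ A.ι j) ≫ m = A.mul i j ≫ A.ι (i + j)) :
    IsCptMon R (A.unit ≫ A.ι 0) m where
  comm := by
    intro V W hV hW f g
    obtain ⟨i, f', rfl⟩ := A.tel.exists_factor' hV f
    obtain ⟨j, g', rfl⟩ := A.tel.exists_factor' hW g
    rw [← tensorHom_comp_tensorHom, Category.assoc, hm, ← tensorHom_comp_tensorHom,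
      Category.assoc, hm, ← A.mul_comm i j, BraidedCategory.braiding_naturality_assoc]
  one_mul := by
    intro W hW f
    obtain ⟨j, f', rfl⟩ := A.tel.exists_factor' hW f
    rw [← tensorHom_comp_tensorHom, Category.assoc, hm, tensorHom_def', Category.assoc,
      A.one_mul, leftUnitor_naturality_assoc]
  assoc := by
    intro U V W hU hV hW f g h
    obtain ⟨i, f', rfl⟩ := A.tel.exists_factor' hU f
    obtain ⟨j, g', rfl⟩ := A.tel.exists_factor' hV g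
    obtain ⟨k, h', rfl⟩ := A.tel.exists_factor' hW h
    have h1 : (((f' ≫ A.ι i) ⊗ₘ (g' ≫ A.ι j)) ≫ m) = (f' ⊗ₘ g') ≫ A.mul i j ≫ A.ι (i + j) := by
      rw [← tensorHom_comp_tensorHom, Category.assoc, hm]
    have h2 : (((g' ≫ A.ι j) ⊗ₘ (h' ≫ A.ι k)) ≫ m) = (g' ⊗ₘ h') ≫ A.mul j k ≫ A.ι (j + k) := by
      rw [← tensorHom_comp_tensorHom, Category.assoc, hm]
    rw [h1, h2]
    have h3 : (((f' ⊗ₘ g') ≫ A.mul i j ≫ A.ι (i + j)) ⊗ₘ (h' ≫ A.ι k)) ≫ m =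
        ((f' ⊗ₘ g') ⊗ₘ h') ≫ (A.mul i j ▷ E.obj k) ≫ A.mul (i + j) k ≫ A.ι (i + j + k) := by
      rw [← hm (i + j) k, ← Category.assoc (f' ⊗ₘ g'), ← tensorHom_comp_tensorHom,
        ← Category.comp_id h', ← tensorHom_comp_tensorHom, tensorHom_id, Category.comp_id,
        Category.assoc, Category.assoc]
    have h4 : ((f' ≫ A.ι i) ⊗ₘ ((g' ⊗ₘ h') ≫ A.mul j k ≫ A.ι (j + k))) ≫ m =
        (f' ⊗ₘ (g' ⊗ₘ h')) ≫ (E.obj i ◁ A.mul j k) ≫ A.mul i (j + k) ≫ A.ι (i + (j + k)) := by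
      rw [← hm i (j + k), ← Category.assoc (g' ⊗ₘ h'), ← tensorHom_comp_tensorHom,
        ← Category.comp_id f', ← tensorHom_comp_tensorHom, id_tensorHom, Category.comp_id,
        Category.assoc, Category.assoc]
    rw [h3, h4, A.mul_assoc, associator_naturality_assoc]

/-- The `lim¹` hypothesis: maps `(E n)⟦1⟧ ⟶ R`, `(E n ⊗ E n)⟦1⟧ ⟶ R` and
`((E n ⊗ E n) ⊗ E n)⟦1⟧ ⟶ R` extend to the next stage. -/
structure LimOne (E : ℕ ⥤ T) (R : T) : Prop where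
  one : ∀ (n : ℕ) (g : (E.obj n)⟦(1 : ℤ)⟧ ⟶ R), ∃ g' : (E.obj (n + 1))⟦(1 : ℤ)⟧ ⟶ R,
    (E.map (homOfLE (Nat.le_succ n)))⟦(1 : ℤ)⟧' ≫ g' = g
  two : ∀ (n : ℕ) (g : (E.obj n ⊗ E.obj n)⟦(1 : ℤ)⟧ ⟶ R),
    ∃ g' : (E.obj (n + 1) ⊗ E.obj (n + 1))⟦(1 : ℤ)⟧ ⟶ R,
    (E.map (homOfLE (Nat.le_succ n)) ⊗ₘ E.map (homOfLE (Nat.le_succ n)))⟦(1 : ℤ)⟧' ≫ g' = g
  three : ∀ (n : ℕ) (g : ((E.obj n ⊗ E.obj n) ⊗ E.obj n)⟦(1 : ℤ)⟧ ⟶ R),
    ∃ g' : ((E.obj (n + 1) ⊗ E.obj (n + 1)) ⊗ E.obj (n + 1))⟦(1 : ℤ)⟧ ⟶ R,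
    ((E.map (homOfLE (Nat.le_succ n)) ⊗ₘ E.map (homOfLE (Nat.le_succ n))) ⊗ₘ
      E.map (homOfLE (Nat.le_succ n)))⟦(1 : ℤ)⟧' ≫ g' = g

lemma ext_one (h : LimOne E R) {a b : R ⟶ R} (hab : ∀ n, A.ι n ≫ a = A.ι n ≫ b) : a = b :=
  A.tel.hom_ext_of_surj h.one a b hab

lemma ext_two (h : LimOne E R) {a b : R ⊗ R ⟶ R}
    (hab : ∀ n, (A.ι n ⊗ₘ A.ι n) ≫ a = (A.ι n ⊗ₘ A.ι n) ≫ b) : a = b :=
  (A.tel.tensor A.tel).hom_ext_of_surj h.two a b hab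

lemma ext_three (h : LimOne E R) {a b : (R ⊗ R) ⊗ R ⟶ R}
    (hab : ∀ n, ((A.ι n ⊗ₘ A.ι n) ⊗ₘ A.ι n) ≫ a = ((A.ι n ⊗ₘ A.ι n) ⊗ₘ A.ι n) ≫ b) : a = b :=
  ((A.tel.tensor A.tel).tensor A.tel).hom_ext_of_surj h.three a b hab

section Lim

variable (h : LimOne E R) {m : R ⊗ R ⟶ R}
  (hm : ∀ i j, (A.ι i ⊗ₘ A.ι j) ≫ m = A.mul i j ≫ A.ι (i + j))

include h hm

lemma lim_comm : (β_ R R).hom ≫ m = m := by
  apply A.ext_two h
  intro n
  rw [BraidedCategory.braiding_naturality_assoc, hm, A.mul_comm]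

lemma lim_one_mul : ((A.unit ≫ A.ι 0) ▷ R) ≫ m = (λ_ R).hom := by
  have h1 : (λ_ R).inv ≫ ((A.unit ≫ A.ι 0) ▷ R) ≫ m = 𝟙 R := by
    apply A.ext_one h
    intro n
    rw [leftUnitor_inv_naturality_assoc, ← tensorHom_def'_assoc, ← Category.id_comp (A.ι n),
      ← tensorHom_comp_tensorHom_assoc, hm, tensorHom_id, A.one_mul, Iso.inv_hom_id_assoc,
      Category.comp_id, Category.id_comp]
  rw [← cancel_epi (λ_ R).inv, h1, Iso.inv_hom_id]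

lemma lim_mul_one : (R ◁ (A.unit ≫ A.ι 0)) ≫ m = (ρ_ R).hom := by
  rw [← A.lim_comm h hm, BraidedCategory.braiding_naturality_right_assoc,
    A.lim_one_mul h hm, braiding_leftUnitor]

lemma lim_assoc : (m ▷ R) ≫ m = (α_ R R R).hom ≫ (R ◁ m) ≫ m := by
  apply A.ext_three h
  intro n
  rw [associator_naturality_assoc, ← Category.assoc, ← tensorHom_id, tensorHom_comp_tensorHom,
    hm, Category.comp_id, ← Category.assoc (A.ι n ⊗ₘ (A.ι n ⊗ₘ A.ι n)), ← id_tensorHom,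
    tensorHom_comp_tensorHom, hm, Category.comp_id]
  have h3 : ((A.mul n n ≫ A.ι (n + n)) ⊗ₘ A.ι n) ≫ m =
      (A.mul n n ▷ E.obj n) ≫ A.mul (n + n) n ≫ A.ι (n + n + n) := by
    rw [← hm (n + n) n, ← tensorHom_id, tensorHom_comp_tensorHom_assoc, Category.id_comp]
  have h4 : (A.ι n ⊗ₘ (A.mul n n ≫ A.ι (n + n))) ≫ m =
      (E.obj n ◁ A.mul n n) ≫ A.mul n (n + n) ≫ A.ι (n + (n + n)) := by
    rw [← hm n (n + n), ← id_tensorHom, tensorHom_comp_tensorHom_assoc, Category.id_comp]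
  rw [h3, h4, A.mul_assoc]

end Lim

/-- uniqueness of the multiplication -/
lemma mul_unique (h : LimOne E R) {m m' : R ⊗ R ⟶ R}
    (hm : ∀ i j, (A.ι i ⊗ₘ A.ι j) ≫ m = A.mul i j ≫ A.ι (i + j))
    (hm' : ∀ i j, (A.ι i ⊗ₘ A.ι j) ≫ m' = A.mul i j ≫ A.ι (i + j)) : m = m' := by
  apply A.ext_two h
  intro n
  rw [hm, hm']

/-- the chosen multiplication -/
noncomputable def muHom : R ⊗ R ⟶ R := A.exists_mul.choose

@[reassoc]
lemma ι_muHom (i j : ℕ) : (A.ι i ⊗ₘ A.ι j) ≫ A.muHom = A.mul i j ≫ A.ι (i + j) :=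
  A.exists_mul.choose_spec i j

/-- the unit of the monoid -/
def oneHom : 𝟙_ T ⟶ R := A.unit ≫ A.ι 0

lemma isCptMon_muHom : IsCptMon R A.oneHom A.muHom := A.isCptMon A.ι_muHom

/-- the monoid structure -/
@[reducible]
noncomputable def monObj (h : LimOne E R) : MonObj R where
  one := A.oneHom
  mul := A.muHom
  one_mul := A.lim_one_mul h A.ι_muHom
  mul_one := A.lim_mul_one h A.ι_muHom
  mul_assoc := A.lim_assoc h A.ι_muHom

lemma isCommMonObj (h : LimOne E R) : @IsCommMonObj T _ _ _ R (A.monObj h) :=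
  @IsCommMonObj.mk T _ _ _ R (A.monObj h) (A.lim_comm h A.ι_muHom)

end MulSeq

end Vale.Agent.P251.M
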