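import Vale.Agent.P251.M.Theory
import Vale.Agent.P251.M.SeqSys
import Vale.Agent.P251.M.ThHom

/-!
# P251, part M4b: functoriality of the theory of a multiplicative system

Morphisms of multiplicative systems (`MSys.Hom`) and of multiplicative sequences
(`SeqMonoid.Hom`) induce morphisms of multiplicative theories.
-/

open CategoryTheory MonoidalCategory Limits Pretriangulated
open Vale.Agent.P251.G Vale.Agent.P251.G.LC Vale.Agent.P251.I Vale.Agent.P251.T
open Functor.OplaxMonoidal Functor.LaxMonoidal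

universe v u

noncomputable section

namespace Vale.Agent.P251.M

/-! ### Morphisms of multiplicative systems -/

namespace MSys

section

variable {T : Type u} [Category.{v} T] [MonoidalCategory T] [SymmetricCategory T]

/-- Morphisms of multiplicative systems. -/
structure Hom (M M' : MSys T) where
  /-- the components -/
  app (n : ℕ) (k : ℤ) : M.obj n k ⟶ M'.obj n k
  map_app {m n : ℕ} (k : ℤ) (h : m ≤ n) : M.map k h ≫ app n k = app m k ≫ M'.map k h
  one_app : M.one ≫ app 0 0 = M'.one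
  mul_app {m n p : ℕ} {k l q : ℤ} (hn : m + n = p) (hk : k + l = q) :
    M.mul hn hk ≫ app p q = (app m k ⊗ₘ app n l) ≫ M'.mul hn hk

/-- the identity -/
def Hom.id (M : MSys T) : Hom M M where
  app _ _ := 𝟙 _
  map_app _ _ := by simp
  one_app := by simp
  mul_app _ _ := by simp

/-- composition -/
def Hom.comp {M M' M'' : MSys T} (f : Hom M M') (g : Hom M' M'') : Hom M M'' where
  app n k := f.app n k ≫ g.app n k
  map_app k h := by
    rw [← Category.assoc, f.map_app, Category.assoc, g.map_app, Category.assoc]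
  one_app := by rw [← Category.assoc, f.one_app, g.one_app]
  mul_app hn hk := by
    rw [← Category.assoc, f.mul_app, Category.assoc, g.mul_app, ← tensorHom_comp_tensorHom,
      Category.assoc]

end

variable {T : Type u} [Category.{v} T] [Preadditive T] [MonoidalCategory T] [SymmetricCategory T]
  {M M' M'' : MSys T}

/-- The induced map on cohomology groups. -/
def Hom.hmap (f : Hom M M') (k : ℤ) (X : T) : M.H k X →+ M'.H k X :=
  M.lift (fun n => (cls n).comp (Preadditive.rightComp X (f.app n k))) (fun m n h x => by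
    change cls n ((x ≫ M.map k h) ≫ f.app n k) = cls m (x ≫ f.app m k)
    rw [Category.assoc, f.map_app, ← Category.assoc, cls_map])

@[simp] theorem Hom.hmap_cls (f : Hom M M') {k : ℤ} {X : T} (n : ℕ) (x : X ⟶ M.obj n k) :
    f.hmap k X (cls n x) = cls n (x ≫ f.app n k) := rfl

theorem Hom.hmap_id (k : ℤ) (X : T) (a : M.H k X) : (Hom.id M).hmap k X a = a := by
  obtain ⟨n, x, rfl⟩ := exists_cls a
  rw [hmap_cls]
  exact congrArg _ (Category.comp_id x)

theorem Hom.hmap_comp (f : Hom M M') (g : Hom M' M'') (k : ℤ) (X : T) (a : M.H k X) :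
    (f.comp g).hmap k X a = g.hmap k X (f.hmap k X a) := by
  obtain ⟨n, x, rfl⟩ := exists_cls a
  rw [hmap_cls, hmap_cls, hmap_cls, Category.assoc]
  rfl

theorem Hom.hmap_pull (f : Hom M M') {k : ℤ} {X Y : T} (g : X ⟶ Y) (a : M.H k Y) :
    f.hmap k X (M.pull k g a) = M'.pull k g (f.hmap k Y a) := by
  obtain ⟨n, x, rfl⟩ := exists_cls a
  rw [pull_cls, hmap_cls, hmap_cls, pull_cls, Category.assoc]

theorem Hom.hmap_unit (f : Hom M M') : f.hmap 0 (𝟙_ T) M.unit = M'.unit := by
  rw [unit, hmap_cls, f.one_app, unit]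

section

variable [MonoidalPreadditive T]

theorem Hom.hmap_xprod (f : Hom M M') {k l q : ℤ} (hk : k + l = q) {X Y : T} (a : M.H k X)
    (b : M.H l Y) :
    f.hmap q (X ⊗ Y) (M.xprod hk a b) = M'.xprod hk (f.hmap k X a) (f.hmap l Y b) := by
  obtain ⟨m, x, rfl⟩ := exists_cls a
  obtain ⟨n, y, rfl⟩ := exists_cls b
  rw [xprod_cls hk rfl, hmap_cls, hmap_cls, hmap_cls, xprod_cls hk rfl, Category.assoc, f.mul_app,
    ← Category.assoc, tensorHom_comp_tensorHom]

end

/-- The induced map on total groups. -/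
def Hom.tmap (f : Hom M M') (X : T) : M.Tot X →+ M'.Tot X :=
  DirectSum.map (fun k => f.hmap k X)

@[simp] theorem Hom.tmap_of (f : Hom M M') {X : T} (k : ℤ) (a : M.H k X) :
    f.tmap X (M.tof X k a) = M'.tof X k (f.hmap k X a) :=
  DirectSum.map_of _ _ _

theorem Hom.tmap_id (X : T) (a : M.Tot X) : (Hom.id M).tmap X a = a := by
  have : (Hom.id M).tmap X = AddMonoidHom.id _ := tot_ext (fun k a => by
    rw [tmap_of, hmap_id]; rfl)
  rw [this]; rfl

theorem Hom.tmap_comp (f : Hom M M') (g : Hom M' M'') (X : T) (a : M.Tot X) :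
    (f.comp g).tmap X a = g.tmap X (f.tmap X a) := by
  have : (f.comp g).tmap X = (g.tmap X).comp (f.tmap X) := tot_ext (fun k a => by
    rw [AddMonoidHom.comp_apply, tmap_of, tmap_of, tmap_of, hmap_comp])
  rw [this]; rfl

theorem Hom.tmap_tpull (f : Hom M M') {X Y : T} (g : X ⟶ Y) (a : M.Tot Y) :
    f.tmap X (M.tpull g a) = M'.tpull g (f.tmap Y a) := by
  have : (f.tmap X).comp (M.tpull g) = (M'.tpull g).comp (f.tmap Y) := tot_ext (fun k a => by
    rw [AddMonoidHom.comp_apply, AddMonoidHom.comp_apply, tpull_of, tmap_of, tmap_of, tpull_of,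
      hmap_pull])
  exact DFunLike.congr_fun this a

theorem Hom.tmap_mem_tdeg (f : Hom M M') {X : T} {k : ℤ} {a : M.Tot X} (h : a ∈ M.tdeg X k) :
    f.tmap X a ∈ M'.tdeg X k := by
  obtain ⟨b, rfl⟩ := h
  rw [tmap_of]
  exact tof_mem_tdeg _

theorem Hom.tmap_tone (f : Hom M M') : f.tmap (𝟙_ T) M.tone = M'.tone := by
  rw [tone, tmap_of, hmap_unit, tone]

section

variable [MonoidalPreadditive T]

theorem Hom.tmap_tcross (f : Hom M M') {X Y : T} (a : M.Tot X) (b : M.Tot Y) :
    f.tmap (X ⊗ Y) (M.tcross a b) = M'.tcross (f.tmap X a) (f.tmap Y b) := by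
  refine tcross_induction (f := (AddMonoidHom.compr₂ M.tcross (f.tmap (X ⊗ Y))))
    (g := (AddMonoidHom.compl₂ (M'.tcross.comp (f.tmap X)) (f.tmap Y))) ?_ a b
  intro k a l b
  simp only [AddMonoidHom.compl₂_apply, AddMonoidHom.comp_apply, AddMonoidHom.compr₂_apply]
  rw [tmap_of, tmap_of, tcross_of_of, tcross_of_of, tmap_of, hmap_xprod]

end

end MSys

/-! ### Morphisms of theories -/

section theory

variable {T : Type u} [Category.{v} T] [Preadditive T] [HasZeroObject T]
    [HasShift T ℤ] [∀ n : ℤ, (shiftFunctor T n).Additive] [Pretriangulated T]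
    [MonoidalCategory T] [SymmetricCategory T] [TensorTriangulated T]
    {M M' M'' : MSys T} {F : SpaceFunctor T}

/-- The induced map on the groups of a space. -/
def uhom (F : SpaceFunctor T) (f : MSys.Hom M M') (X : LC) : UU M F X →+ UU M' F X where
  toFun u := fun h => f.tmap _ (u h)
  map_zero' := by
    funext h
    exact map_zero (f.tmap _)
  map_add' u u' := by
    funext h
    exact map_add (f.tmap _) _ _

theorem uev_uhom (f : MSys.Hom M M') {X : LC} (h : FC X) (u : UU M F X) :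
    uev h (uhom F f X u) = f.tmap _ (uev h u) := rfl

theorem uhom_mem_udeg (f : MSys.Hom M M') {X : LC} (hX : FC X) {k : ℤ} {x : UU M F X}
    (hx : x ∈ udeg M F X k) : uhom F f X x ∈ udeg M' F X k := by
  rw [mem_udeg hX, uev_uhom]
  exact f.tmap_mem_tdeg ((mem_udeg hX).mp hx)

theorem uhom_umap (f : MSys.Hom M M') {X Y : LC} (hX : FC X) (hY : FC Y) (g : X ⟶ Y)
    (y : UU M F Y) : uhom F f X (umap M F g y) = umap M' F g (uhom F f Y y) := by
  apply uev_inj hX
  rw [uev_uhom, uev_umap hX hY, uev_umap hX hY, uev_uhom, f.tmap_tpull]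

theorem uhom_ucross (f : MSys.Hom M M') {X Y : LC} (hX : FC X) (hY : FC Y)
    (x : UU M F X) (y : UU M F Y) :
    uhom F f (X ⊗ Y) (ucross M F x y) = ucross M' F (uhom F f X x) (uhom F f Y y) := by
  apply uev_inj (fc_tensor hX hY)
  rw [uev_uhom, uev_ucross hX hY, uev_ucross hX hY, uev_uhom, uev_uhom, f.tmap_tpull,
    f.tmap_tcross]

theorem uhom_one (f : MSys.Hom M M') :
    uhom F f (𝟙_ LC) (umk fc_unit (M.tpull (η F.S) M.tone)) =
      umk fc_unit (M'.tpull (η F.S) M'.tone) := by
  apply uev_inj fc_unit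
  rw [uev_uhom, uev_umk, uev_umk, f.tmap_tpull, f.tmap_tone]

theorem uhom_sg (f : MSys.Hom M M') {s : F.S.obj CCF ⟶ M.obj 0 1}
    {s' : F.S.obj CCF ⟶ M'.obj 0 1} (hss : s ≫ f.app 0 1 = s') :
    uhom F f (LC.of ℂ) (umk fcCC (M.tof _ 1 (MSys.cls 0 s))) =
      umk fcCC (M'.tof _ 1 (MSys.cls 0 s')) := by
  apply uev_inj fcCC
  rw [uev_uhom, uev_umk, uev_umk, f.tmap_of, f.hmap_cls, hss]

/-- The morphism of theories induced by a morphism of multiplicative systems. -/
def theoryHom (f : MSys.Hom M M') (hF : CofTriangles F) {s : F.S.obj CCF ⟶ M.obj 0 1}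
    (hs : M.IsSusp s) {s' : F.S.obj CCF ⟶ M'.obj 0 1} (hs' : M'.IsSusp s')
    (hss : s ≫ f.app 0 1 = s') :
    Q.MultTheory.Hom (theory M F hF s hs) (theory M' F hF s' hs') where
  good' h := h
  app X := uhom F f X
  app_deg' hX _ _ hx := uhom_mem_udeg f hX hx
  app_map' hX hY g y := uhom_umap f hX hY g y
  app_cross' hX hY x y := uhom_ucross f hX hY x y
  app_one := uhom_one f
  app_sg := uhom_sg f hss

theorem uev_theoryHom_app (f : MSys.Hom M M') (hF : CofTriangles F)
    {s : F.S.obj CCF ⟶ M.obj 0 1} (hs : M.IsSusp s) {s' : F.S.obj CCF ⟶ M'.obj 0 1}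
    (hs' : M'.IsSusp s') (hss : s ≫ f.app 0 1 = s') {X : LC} (h : FC X) (u : UU M F X) :
    uev (M := M') (F := F) h ((theoryHom f hF hs hs' hss).app X u) = f.tmap _ (uev h u) := rfl

end theory

/-! ### Morphisms of multiplicative sequences -/

namespace SeqMonoid

variable {T : Type u} [Category.{v} T] [MonoidalCategory T] [SymmetricCategory T]

/-- Morphisms of multiplicative sequences. -/
structure Hom (E E' : SeqMonoid T) where
  /-- the components -/
  app (n : ℕ) : E.E.obj n ⟶ E'.E.obj n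
  map_app {m n : ℕ} (h : m ≤ n) :
    E.E.map (homOfLE h) ≫ app n = app m ≫ E'.E.map (homOfLE h)
  one_app : E.one ≫ app 0 = E'.one
  mu_app {m n p : ℕ} (h : m + n = p) : E.mu h ≫ app p = (app m ⊗ₘ app n) ≫ E'.mu h

/-- the identity -/
def Hom.id (E : SeqMonoid T) : Hom E E where
  app _ := 𝟙 _
  map_app _ := by simp
  one_app := by simp
  mu_app _ := by simp

/-- composition -/
def Hom.comp {E E' E'' : SeqMonoid T} (f : Hom E E') (g : Hom E' E'') : Hom E E'' where
  app n := f.app n ≫ g.app n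
  map_app h := by
    rw [← Category.assoc, f.map_app, Category.assoc, g.map_app, Category.assoc]
  one_app := by rw [← Category.assoc, f.one_app, g.one_app]
  mu_app h := by
    rw [← Category.assoc, f.mu_app, Category.assoc, g.mu_app, ← tensorHom_comp_tensorHom,
      Category.assoc]

/-- A monoid map gives a morphism of constant sequences. -/
def Hom.const {R R' : T} [MonObj R] [IsCommMonObj R] [MonObj R'] [IsCommMonObj R'] (f : R ⟶ R')
    [IsMonHom f] : Hom (SeqMonoid.const R) (SeqMonoid.const R') where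
  app _ := f
  map_app _ := by
    change 𝟙 R ≫ f = f ≫ 𝟙 R'
    rw [Category.id_comp, Category.comp_id]
  one_app := IsMonHom.one_hom f
  mu_app _ := IsMonHom.mul_hom f

/-- The morphism of multiplicative systems given by a morphism of multiplicative sequences. -/
def Hom.msys {E E' : SeqMonoid T} (f : Hom E E') (S : EvenSpheres T) :
    MSys.Hom (MSys.ofSeq E S) (MSys.ofSeq E' S) where
  app n k := f.app n ▷ S.S k
  map_app {m n} k h := by
    change (E.E.map (homOfLE h) ▷ S.S k) ≫ (f.app n ▷ S.S k) =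
      (f.app m ▷ S.S k) ≫ (E'.E.map (homOfLE h) ▷ S.S k)
    rw [← comp_whiskerRight, f.map_app, comp_whiskerRight]
  one_app := by
    change ((λ_ (𝟙_ T)).inv ≫ (E.one ⊗ₘ S.z)) ≫ (f.app 0 ▷ S.S 0) =
      (λ_ (𝟙_ T)).inv ≫ (E'.one ⊗ₘ S.z)
    rw [Category.assoc, ← tensorHom_id, tensorHom_comp_tensorHom, f.one_app, Category.comp_id]
  mul_app {m n p k l q} hn hk := by
    change (tensorμ _ _ _ _ ≫ (E.mu hn ⊗ₘ (S.mu _ _ _ hk).hom)) ≫ (f.app p ▷ S.S q) =
      ((f.app m ▷ S.S k) ⊗ₘ (f.app n ▷ S.S l)) ≫ tensorμ _ _ _ _ ≫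
        (E'.mu hn ⊗ₘ (S.mu _ _ _ hk).hom)
    rw [Category.assoc, ← tensorHom_id, tensorHom_comp_tensorHom, f.mu_app, Category.comp_id,
      ← tensorHom_id, ← tensorHom_id, tensorμ_natural_assoc, tensorHom_comp_tensorHom,
      id_tensorHom_id, Category.id_comp]

theorem sig_msys_app {E E' : SeqMonoid T} (f : Hom E E') (S : EvenSpheres T) :
    MSys.sig E S ≫ (f.msys S).app 0 1 = MSys.sig E' S := by
  change ((λ_ (S.S 1)).inv ≫ (E.one ▷ S.S 1)) ≫ (f.app 0 ▷ S.S 1) =
    (λ_ (S.S 1)).inv ≫ (E'.one ▷ S.S 1)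
  rw [Category.assoc, ← comp_whiskerRight, f.one_app]

end SeqMonoid

end Vale.Agent.P251.M
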