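import Vale.Agent.P251.M.ThomTheta
import Vale.Agent.P251.M.SeqSys

/-!
# P251, part M: the universal property of the sequence of `MU`

`ThomSys.Cls R K`: Thom classes `t (n, N) ⟶ K ⊗ S^{2n}` of a Thom system `R` with values in a
commutative monoid `K`.  Such classes define a morphism of multiplicative sequences
`C.θK n : MU n ⟶ K` (`θK_map`, `θK_mul`, `θK_one`) compatible with the comparison maps
(`θ_θK`).
-/

open CategoryTheory MonoidalCategory MonObj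

universe v u

noncomputable section

namespace Vale.Agent.P251.M

variable {T : Type u} [Category.{v} T] [MonoidalCategory T] [SymmetricCategory T]

namespace CommSys

/-- the constant system of a commutative monoid -/
abbrev const (K : T) [MonObj K] [IsCommMonObj K] (J : Type) [AddCommMonoid J] : CommSys T J where
  X _ := K
  one := η[K]
  mul _ := μ[K]
  one_mul _ := MonObj.one_mul K
  mul_assoc _ _ _ _ := MonObj.mul_assoc K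
  mul_comm _ _ := IsCommMonObj.mul_comm K

variable {J J' : Type} [AddCommMonoid J] [AddCommMonoid J']

namespace Hom

/-- pull back of a constant system -/
def constComap (K : T) [MonObj K] [IsCommMonObj K] (f : J →+ J') :
    Hom ((const K J').comap f) (const K J) where
  app _ := 𝟙 _
  app_one := by
    have : ∀ {z : J'} (h : 0 = z), (const K J').one' h = η[K] := by
      intro z h; subst h; rfl
    dsimp only
    rw [this, Category.comp_id]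
  app_mul _ := by
    dsimp only
    rw [Category.comp_id, id_tensorHom_id, Category.id_comp]

/-- pull back and tensor product -/
def tensorComapInv (A B : CommSys T J') (f : J →+ J') :
    Hom ((A.comap f).tensor (B.comap f)) ((A.tensor B).comap f) where
  app _ := 𝟙 _
  app_one := by
    dsimp only
    rw [Category.comp_id, tensor_one']
  app_mul _ := by
    dsimp only
    rw [Category.comp_id, id_tensorHom_id, Category.id_comp]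

/-- the constant system as a pull back -/
def constComapInv (K : T) [MonObj K] [IsCommMonObj K] (f : J →+ J') :
    Hom (const K J) ((const K J').comap f) where
  app _ := 𝟙 _
  app_one := by
    have : ∀ {z : J'} (h : 0 = z), (const K J').one' h = η[K] := by
      intro z h; subst h; rfl
    dsimp only
    rw [this, Category.comp_id]
  app_mul _ := by
    dsimp only
    rw [Category.comp_id, id_tensorHom_id, Category.id_comp]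

/-- `A ⊗ (B ⊗ C) ≅ B ⊗ (A ⊗ C)` -/
def swap (A B C : CommSys T J) : Hom (A.tensor (B.tensor C)) (B.tensor (A.tensor C)) :=
  ((assocInv A B C).comp (tensor (braid A B) (id C))).comp (assoc B A C)

section at'

variable {S : CommSys T J} {S' : CommSys T J'} {δ : J →+ J'} (f : Hom S (S'.comap δ))

/-- the components of a morphism of systems over a homomorphism of the index monoids -/
def at' (x : J) {e : J'} (h : δ x = e) : S.X x ⟶ S'.X e := h ▸ f.app x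

theorem at'_rfl (x : J) : f.at' x rfl = f.app x := rfl

@[reassoc]
theorem mul_at' {x y z : J} {e e' e'' : J'} (h : x + y = z) (hx : δ x = e) (hy : δ y = e')
    (hz : δ z = e'') (h' : e + e' = e'') :
    S.mul h ≫ f.at' z hz = (f.at' x hx ⊗ₘ f.at' y hy) ≫ S'.mul h' := by
  subst hx hy hz
  exact f.app_mul h

@[reassoc]
theorem one'_at' {z : J} {e : J'} (hz : 0 = z) (he : 0 = e) (h : δ z = e) :
    S.one' hz ≫ f.at' z h = S'.one' he := by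
  subst hz h
  exact f.app_one

@[reassoc]
theorem em_at' {x y z : J} {e e' e'' : J'} (h : x + y = z) (hx : δ x = e) (hy : δ y = e')
    (hz : δ z = e'') (h' : e + e' = e'') (a : 𝟙_ T ⟶ S.X x) (b : 𝟙_ T ⟶ S.X y) :
    S.em a b h ≫ f.at' z hz = S'.em (a ≫ f.at' x hx) (b ≫ f.at' y hy) h' := by
  subst hx hy hz
  exact f.em_app a b h

@[reassoc]
theorem act_at' {x y z : J} {e e' e'' : J'} (h : x + y = z) (hx : δ x = e) (hy : δ y = e')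
    (hz : δ z = e'') (h' : e + e' = e'') (a : 𝟙_ T ⟶ S.X x) :
    S.act a h ≫ f.at' z hz = f.at' y hy ≫ S'.act (a ≫ f.at' x hx) h' := by
  subst hx hy hz
  exact f.act_app a h

end at'

end Hom

end CommSys

namespace ThomSys

open CommSys

variable (R : ThomSys T) (K : T) [MonObj K] [IsCommMonObj K]

/-- Thom classes of a Thom system with values in a commutative monoid. -/
structure Cls where
  /-- the classes -/
  τ (n N : ℕ) : R.t.X (n, N) ⟶ K ⊗ R.E.S n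
  zt_τ {n N N' l : ℕ} (h : l + N = N') : R.zt l h ≫ τ n N' = τ n N
  τ_mul {n m p N M Q : ℕ} (h : ((n, N) + (m, M) : ℕ × ℕ) = (p, Q)) (h' : (n : ℤ) + m = p) :
    (τ n N ⊗ₘ τ m M) ≫ tensorμ K (R.E.S n) K (R.E.S m) ≫ (μ[K] ⊗ₘ (R.E.mu n m p h').hom) =
      R.t.mul h ≫ τ p Q
  τ_one : R.t.one ≫ τ 0 0 = (λ_ (𝟙_ T)).inv ≫ (η[K] ⊗ₘ R.E.z)
  τ_ℓ : R.ℓ ≫ τ 1 1 = (ρ_ R.E.L).inv ≫ (λ_ (R.E.S 1)).inv ≫ (η[K] ▷ R.E.S 1)

/-- `(n, N) ↦ n` -/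
def nn : ℕ × ℕ →+ ℤ := (Nat.castAddMonoidHom ℤ).comp (AddMonoidHom.fst ℕ ℕ)

/-- `(d, (n, N)) ↦ d + n` -/
def dn : ℤ × (ℕ × ℕ) →+ ℤ :=
  AddMonoidHom.fst ℤ (ℕ × ℕ) + nn.comp (AddMonoidHom.snd ℤ (ℕ × ℕ))

theorem dn_apply (d : ℤ) (n N : ℕ) : dn (d, (n, N)) = d + n := rfl

namespace Cls

variable {R K} (C : Cls R K)

/-- the classes as a morphism of systems -/
def τHom : Hom R.t ((const K (ℕ × ℕ)).tensor (R.E.sys.comap nn)) where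
  app y := C.τ y.1 y.2
  app_one := by
    refine C.τ_one.trans ?_
    rfl
  app_mul {x y z} h := by
    have h' : (x.1 : ℤ) + y.1 = z.1 := by rw [← h]; simp
    exact (C.τ_mul (n := x.1) (N := x.2) (m := y.1) (M := y.2) (p := z.1) (Q := z.2) h h').symm

/-- the target system -/
abbrev G (R : ThomSys T) (K : T) [MonObj K] [IsCommMonObj K] : CommSys T ℤ :=
  (const K ℤ).tensor R.E.sys

/-- auxiliary form of `φ` -/
def φ₀ : Hom R.P ((const K (ℤ × (ℕ × ℕ))).tensor ((R.E.sys.comap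
    (AddMonoidHom.fst ℤ (ℕ × ℕ))).tensor (R.E.sys.comap (nn.comp (AddMonoidHom.snd ℤ (ℕ × ℕ)))))) :=
  (Hom.tensor (Hom.id _) (((C.τHom.comap (AddMonoidHom.snd ℤ (ℕ × ℕ))).comp
    (Hom.tensorComap _ _ _)).comp
      (Hom.tensor (Hom.constComap K _) (Hom.comapComp _ _ _)))).comp (Hom.swap _ _ _)

/-- `S^{2d} ⊗ t (n, N) ⟶ K ⊗ S^{2(d+n)}` -/
def φ : Hom R.P ((G R K).comap dn) :=
  (C.φ₀.comp (Hom.tensor (Hom.constComapInv K dn)
    (Hom.mulHom R.E.sys (AddMonoidHom.fst ℤ (ℕ × ℕ)) (nn.comp (AddMonoidHom.snd ℤ (ℕ × ℕ))) dn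
      (fun _ => rfl)))).comp (Hom.tensorComapInv _ _ _)

theorem φ_at' (d e : ℤ) (n N : ℕ) (h : d + n = e) :
    C.φ.at' (d, (n, N)) h = (R.E.S d ◁ C.τ n N) ≫ (α_ (R.E.S d) K (R.E.S n)).inv ≫
      ((β_ (R.E.S d) K).hom ▷ R.E.S n) ≫ (α_ K (R.E.S d) (R.E.S n)).hom ≫
        (K ◁ (R.E.mu d n e h).hom) := by
  subst h
  change ((((𝟙 _ ⊗ₘ ((C.τ n N ≫ 𝟙 _) ≫ (𝟙 _ ⊗ₘ 𝟙 _))) ≫ (((α_ _ _ _).inv ≫
    ((β_ _ _).hom ⊗ₘ 𝟙 _)) ≫ (α_ _ _ _).hom)) ≫ (𝟙 _ ⊗ₘ (R.E.mu d n (d + n) rfl).hom)) ≫ 𝟙 _) = _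
  simp only [Category.comp_id, id_whiskerRight, id_tensorHom, tensorHom_id, Category.assoc]

theorem swap_unit_left (K B : T) :
    (λ_ (K ⊗ B)).inv ≫ (α_ (𝟙_ T) K B).inv ≫ ((β_ (𝟙_ T) K).hom ▷ B) ≫ (α_ K (𝟙_ T) B).hom ≫
      (K ◁ (λ_ B).hom) = 𝟙 (K ⊗ B) := by
  rw [braiding_tensorUnit_left]
  monoidal

theorem j0_φ (n N : ℕ) (h : dn (0, (n, N)) = (n : ℤ)) :
    R.j0 (n, N) ≫ C.φ.at' (0, (n, N)) h = C.τ n N := by
  have h0 : (0 : ℤ) + n = n := zero_add _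
  rw [C.φ_at' 0 n n N h0]
  have e1 : R.j0 (n, N) = (λ_ (R.t.X (n, N))).inv := by
    change (λ_ (R.t.X (n, N))).inv ≫ (𝟙 (𝟙_ T) ⊗ₘ 𝟙 (R.t.X (n, N))) = _
    rw [id_tensorHom_id, Category.comp_id]
  have e2 := R.E.zero_mu n h0
  rw [e1]
  have e3 : (λ_ (R.t.X (n, N))).inv ≫ (𝟙_ T ◁ C.τ n N) ≫ (α_ (𝟙_ T) K (R.E.S n)).inv ≫
      ((β_ (𝟙_ T) K).hom ▷ R.E.S n) ≫ (α_ K (𝟙_ T) (R.E.S n)).hom ≫
        (K ◁ (λ_ (R.E.S n)).hom) = C.τ n N := by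
    rw [← leftUnitor_inv_naturality_assoc, swap_unit_left, Category.comp_id]
  have e4 := congrArg (fun q => (λ_ (R.t.X (n, N))).inv ≫ (𝟙_ T ◁ C.τ n N) ≫
    (α_ (𝟙_ T) K (R.E.S n)).inv ≫ ((β_ (𝟙_ T) K).hom ▷ R.E.S n) ≫
      (α_ K (𝟙_ T) (R.E.S n)).hom ≫ (K ◁ q)) e2
  exact e4.trans e3

/-- the unit map of `K ⊗ S^{2n}` -/
def _root_.Vale.Agent.P251.M.ThomSys.ηS (R : ThomSys T) (K : T) [MonObj K] [IsCommMonObj K]
    (n : ℤ) : R.E.S n ⟶ K ⊗ R.E.S n := (λ_ (R.E.S n)).inv ≫ (η[K] ▷ R.E.S n)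

theorem swap_η {A B : T} (K : T) [MonObj K] :
    (A ◁ ((λ_ B).inv ≫ (η[K] ▷ B))) ≫ (α_ A K B).inv ≫ ((β_ A K).hom ▷ B) ≫
      (α_ K A B).hom = (λ_ (A ⊗ B)).inv ≫ (η[K] ▷ (A ⊗ B)) := by
  have h1 : (A ◁ η[K]) ≫ (β_ A K).hom = (β_ A (𝟙_ T)).hom ≫ (η[K] ▷ A) :=
    BraidedCategory.braiding_naturality_right _ _
  have h2 : (A ◁ (η[K] ▷ B)) ≫ (α_ A K B).inv = (α_ A (𝟙_ T) B).inv ≫ ((A ◁ η[K]) ▷ B) := by
    rw [associator_inv_naturality_middle]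
  rw [MonoidalCategory.whiskerLeft_comp, Category.assoc, reassoc_of% h2,
    ← comp_whiskerRight_assoc, h1, braiding_tensorUnit_right]
  monoidal

theorem s1_φ (n : ℤ) (h : dn (n, (0, 0)) = n) :
    R.s1 n ≫ C.φ.at' (n, (0, 0)) h = R.ηS K n := by
  have h0 : n + ((0 : ℕ) : ℤ) = n := by simp
  rw [C.φ_at' n n 0 0 h0]
  have e1 : R.s1 n = (ρ_ (R.E.S n)).inv ≫ (R.E.S n ◁ R.t.one) := R.s0_app n
  have e3 : R.t.one ≫ C.τ 0 0 = (λ_ (𝟙_ T)).inv ≫ (η[K] ▷ 𝟙_ T) := by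
    refine C.τ_one.trans ?_
    rw [← tensorHom_id]
    rfl
  have e5 := R.E.mu_zero n h0
  have e7 : ∀ (A X : T) (o : 𝟙_ T ⟶ X) (t : X ⟶ K ⊗ 𝟙_ T)
      (_ : o ≫ t = (λ_ (𝟙_ T)).inv ≫ (η[K] ▷ 𝟙_ T)),
      ((ρ_ A).inv ≫ (A ◁ o)) ≫ (A ◁ t) ≫
      (α_ A K (𝟙_ T)).inv ≫ ((β_ A K).hom ▷ 𝟙_ T) ≫
        (α_ K A (𝟙_ T)).hom ≫ (K ◁ (ρ_ A).hom) = (λ_ A).inv ≫ (η[K] ▷ A) := by
    intro A X o t ht
    have e6 := swap_η (A := A) (B := 𝟙_ T) K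
    have e4 : (A ◁ o) ≫ (A ◁ t) = (A ◁ ((λ_ (𝟙_ T)).inv ≫ (η[K] ▷ 𝟙_ T))) := by
      rw [← MonoidalCategory.whiskerLeft_comp, ← ht]
    rw [Category.assoc, reassoc_of% e4, reassoc_of% e6, ← whisker_exchange]
    rw [← leftUnitor_inv_naturality_assoc, Iso.inv_hom_id_assoc]
  have e8 := e7 (R.E.S n) (R.t.X (0, 0)) R.t.one (C.τ 0 0) e3
  rw [e1]
  refine Eq.trans ?_ e8
  exact congrArg (fun q => ((ρ_ (R.E.S n)).inv ≫ (R.E.S n ◁ R.t.one)) ≫ (R.E.S n ◁ C.τ 0 0) ≫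
      (α_ (R.E.S n) K (𝟙_ T)).inv ≫ ((β_ (R.E.S n) K).hom ▷ 𝟙_ T) ≫
        (α_ K (R.E.S n) (𝟙_ T)).hom ≫ (K ◁ q)) e5

/-- the unit of `K`, as an element of the target system -/
theorem G_one : (G R K).one = (λ_ (𝟙_ T)).inv ≫ (η[K] ▷ 𝟙_ T) := by
  change (λ_ (𝟙_ T)).inv ≫ (η[K] ⊗ₘ 𝟙 (𝟙_ T)) = _
  rw [tensorHom_id]

theorem dn_degZ (l : ℕ) : dn (degZ l) = 0 := by
  rw [degZ_apply, dn_apply]; simp

theorem dn_degU (k : ℕ) : dn (degU k) = 0 := by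
  rw [degU_apply, dn_apply]; simp

theorem dn_degUZ (p : ℕ × ℕ) : dn (degUZ p) = 0 := by
  obtain ⟨k, l⟩ := p
  rw [degUZ_apply, dn_apply]; simp

theorem one_zt (l : ℕ) : R.t.one ≫ R.zt (n := 0) l (Nat.add_zero l) = R.ze l := by
  have h : AddMonoidHom.inr ℕ ℕ l + 0 = AddMonoidHom.inr ℕ ℕ l := add_zero _
  have e := R.t.comp_act (R.z.e l) R.t.one h
  exact e.trans (R.t.em_one (R.z.e l))

theorem zP_φ (l : ℕ) : R.zP.e l ≫ C.φ.at' (degZ l) (dn_degZ l) = (G R K).one := by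
  rw [← R.z_e_j0]
  have h : dn (0, (0, l)) = ((0 : ℕ) : ℤ) := dn_degZ l
  have e1 : R.j0 (0, l) ≫ C.φ.at' (0, (0, l)) h = C.τ 0 l := C.j0_φ 0 l h
  have e2 : R.ze l ≫ C.τ 0 l = (G R K).one := by
    rw [← one_zt l, Category.assoc, C.zt_τ, C.τ_one]
    rfl
  exact ((Category.assoc _ _ _).trans (congrArg (fun q => R.ze l ≫ q) e1)).trans e2

theorem b_one_τ : R.b 1 ≫ C.τ 1 1 = R.ηS K 1 := by
  rw [R.b_one]
  refine (Category.assoc _ _ _).trans ?_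
  exact (congrArg (fun q => (ρ_ R.E.L).hom ≫ q) C.τ_ℓ).trans (Iso.hom_inv_id_assoc (ρ_ R.E.L) _)

theorem uP_one_φ : R.uP.e 1 ≫ C.φ.at' (degU 1) (dn_degU 1) = (G R K).one := by
  have h0 : -((1 : ℕ) : ℤ) + (1 : ℕ) = 0 := by norm_num
  have e1 := C.φ_at' (-((1 : ℕ) : ℤ)) 0 1 1 h0
  have e2 := R.uP_e 1 h0
  have key : ∀ (A B X Z : T) (m : Z ≅ A ⊗ B) (b : B ⟶ X) (t : X ⟶ K ⊗ B)
      (_ : b ≫ t = (λ_ B).inv ≫ (η[K] ▷ B)),
      (m.hom ≫ (A ◁ b)) ≫ (A ◁ t) ≫ (α_ A K B).inv ≫ ((β_ A K).hom ▷ B) ≫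
        (α_ K A B).hom ≫ (K ◁ m.inv) = (λ_ Z).inv ≫ (η[K] ▷ Z) := by
    intro A B X Z m b t hbt
    have e6 := swap_η (A := A) (B := B) K
    have e4 : (A ◁ b) ≫ (A ◁ t) = (A ◁ ((λ_ B).inv ≫ (η[K] ▷ B))) := by
      rw [← MonoidalCategory.whiskerLeft_comp, ← hbt]
    rw [Category.assoc, reassoc_of% e4, reassoc_of% e6, ← whisker_exchange,
      leftUnitor_inv_naturality_assoc, ← MonoidalCategory.whiskerLeft_comp_assoc,
      Iso.hom_inv_id, whiskerLeft_id, Category.id_comp]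
  have e3 := key (R.E.S (-((1 : ℕ) : ℤ))) (R.E.S ((1 : ℕ) : ℤ)) (R.t.X (1, 1)) (R.E.S 0)
    (R.E.mu (-((1 : ℕ) : ℤ)) ((1 : ℕ) : ℤ) 0 h0).symm (R.b 1) (C.τ 1 1) C.b_one_τ
  rw [G_one]
  refine Eq.trans ?_ e3
  exact congrArg₂ (fun a b => a ≫ b) e2 e1

theorem uP_φ (k : ℕ) : R.uP.e k ≫ C.φ.at' (degU k) (dn_degU k) = (G R K).one := by
  induction k with
  | zero =>
    have h : (0 : ℤ × (ℕ × ℕ)) = degU 0 := (map_zero degU).symm
    rw [R.uP.e_zero]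
    exact C.φ.one'_at' h rfl (dn_degU 0)
  | succ k ih =>
    rw [← R.uP.e_add (rfl : k + 1 = k + 1), C.φ.em_at' _ (dn_degU k) (dn_degU 1) _ (zero_add 0), ih,
      C.uP_one_φ]
    exact (G R K).one_em _

theorem uz_φ (p : ℕ × ℕ) : R.uz.e p ≫ C.φ.at' (degUZ p) (dn_degUZ p) = (G R K).one := by
  have e1 := C.φ.em_at' (x := degU p.1) (y := degZ p.2) (z := degUZ p) rfl (dn_degU p.1)
    (dn_degZ p.2) (dn_degUZ p) (zero_add 0) (R.uP.e p.1) (R.zP.e p.2)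
  rw [C.uP_φ, C.zP_φ] at e1
  exact e1.trans ((G R K).one_em _)

/-- The morphism of multiplicative sequences `MU ⟶ K` defined by the Thom classes. -/
def θK (a : ℕ) : R.MU.E.obj a ⟶ K := C.φ.at' (degUZ (dg a)) (dn_degUZ (dg a)) ≫ (ρ_ K).hom

theorem θK_map {a b : ℕ} (h : a ≤ b) : R.MU.E.map (homOfLE h) ≫ C.θK b = C.θK a := by
  have h1 : degUZ (dg (b - a)) + degUZ (dg a) = degUZ (dg b) := by
    rw [← map_add, ← map_add, Nat.sub_add_cancel h]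
  have e1 : R.P.act (R.uz.e (dg (b - a))) h1 ≫ C.φ.at' (degUZ (dg b)) (dn_degUZ (dg b)) =
      C.φ.at' (degUZ (dg a)) (dn_degUZ (dg a)) := by
    rw [C.φ.act_at' h1 (dn_degUZ (dg (b - a))) (dn_degUZ (dg a)) (dn_degUZ (dg b)) (zero_add 0),
      C.uz_φ, (G R K).act_one, Category.comp_id]
  exact (Category.assoc _ _ _).symm.trans (congrArg (fun q => q ≫ (ρ_ K).hom) e1)

theorem θK_one : R.MU.one ≫ C.θK 0 = η[K] := by
  have h : (0 : ℤ × (ℕ × ℕ)) = degUZ (dg 0) := by rw [map_zero, map_zero]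
  have e1 : R.P.one' h ≫ C.φ.at' (degUZ (dg 0)) (dn_degUZ (dg 0)) = (G R K).one :=
    C.φ.one'_at' h rfl _
  have e3 : ((λ_ (𝟙_ T)).inv ≫ (η[K] ▷ 𝟙_ T)) ≫ (ρ_ K).hom = η[K] := by
    rw [Category.assoc, rightUnitor_naturality, ← unitors_equal, Iso.inv_hom_id_assoc]
  have e2 : (G R K).one ≫ (ρ_ K).hom = η[K] :=
    (congrArg (fun q => q ≫ (ρ_ K).hom) (G_one (R := R) (K := K))).trans e3
  exact (Category.assoc _ _ _).symm.trans ((congrArg (fun q => q ≫ (ρ_ K).hom) e1).trans e2)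

theorem θK_mul {a b c : ℕ} (h : a + b = c) :
    (C.θK a ⊗ₘ C.θK b) ≫ μ[K] = R.MU.mu h ≫ C.θK c := by
  have h1 : degUZ (dg a) + degUZ (dg b) = degUZ (dg c) := by
    rw [← map_add, ← map_add, h]
  have e1 := C.φ.mul_at' h1 (dn_degUZ (dg a)) (dn_degUZ (dg b)) (dn_degUZ (dg c)) (zero_add 0)
  have e2 : (G R K).mul (zero_add 0) ≫ (ρ_ K).hom = ((ρ_ K).hom ⊗ₘ (ρ_ K).hom) ≫ μ[K] := by
    have q1 : tensorμ K (𝟙_ T) K (𝟙_ T) ≫ (μ[K] ⊗ₘ (λ_ (𝟙_ T)).hom) ≫ (ρ_ K).hom =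
        ((ρ_ K).hom ⊗ₘ (ρ_ K).hom) ≫ μ[K] := by
      rw [tensorHom_def', Category.assoc, rightUnitor_naturality]
      have := rightUnitor_monoidal K K
      rw [this]
      simp
    have q2 := R.E.zero_mu 0 (zero_add 0)
    refine Eq.trans ?_ q1
    exact (Category.assoc _ _ _).trans
      (congrArg (fun q => tensorμ K (𝟙_ T) K (𝟙_ T) ≫ (μ[K] ⊗ₘ q) ≫ (ρ_ K).hom) q2)
  have e3 : (C.θK a ⊗ₘ C.θK b) = (C.φ.at' (degUZ (dg a)) (dn_degUZ (dg a)) ⊗ₘ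
      C.φ.at' (degUZ (dg b)) (dn_degUZ (dg b))) ≫ ((ρ_ K).hom ⊗ₘ (ρ_ K).hom) :=
    (tensorHom_comp_tensorHom _ _ _ _).symm
  have e4 : ((C.φ.at' (degUZ (dg a)) (dn_degUZ (dg a)) ⊗ₘ
      C.φ.at' (degUZ (dg b)) (dn_degUZ (dg b))) ≫ ((ρ_ K).hom ⊗ₘ (ρ_ K).hom)) ≫ μ[K] =
      (R.P.mul h1 ≫ C.φ.at' (degUZ (dg c)) (dn_degUZ (dg c))) ≫ (ρ_ K).hom := by
    rw [e1]
    exact (Category.assoc _ _ _).trans ((congrArg (fun q => (C.φ.at' (degUZ (dg a))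
      (dn_degUZ (dg a)) ⊗ₘ C.φ.at' (degUZ (dg b)) (dn_degUZ (dg b))) ≫ q) e2.symm).trans
        (Category.assoc _ _ _).symm)
  exact ((congrArg (fun q => q ≫ μ[K]) e3).trans e4).trans (Category.assoc _ _ _)

theorem dn_pt (n a : ℕ) : dn (pt n a) = n := by
  change ((n : ℤ) - a) + a = n
  ring

theorem mulR_φ {m m' : ℤ × (ℕ × ℕ)} (n : ℤ) (hm : dn m = 0) (h : m + (n, 0) = m')
    (hm' : dn m' = n) : R.Rf n h ≫ C.φ.at' m' hm' =
      (C.φ.at' m hm ⊗ₘ R.ηS K n) ≫ (G R K).mul (zero_add n) := by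
  have h0 : dn (n, (0, 0)) = n := by rw [dn_apply]; simp
  have e1 : ((R.P.X m ◁ R.s1 n) ≫ R.P.mul h) ≫ C.φ.at' m' hm' =
      (C.φ.at' m hm ⊗ₘ R.ηS K n) ≫ (G R K).mul (zero_add n) := by
    rw [Category.assoc, C.φ.mul_at' h hm h0 hm' (zero_add n), ← Category.assoc, ← id_tensorHom,
      tensorHom_comp_tensorHom, Category.id_comp]
    exact congrArg (fun q => (C.φ.at' m hm ⊗ₘ q) ≫ (G R K).mul (zero_add n)) (C.s1_φ n h0)
  exact e1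

theorem rf_φ (n a : ℕ) :
    R.rf n a ≫ C.φ.at' (pt n a) (dn_pt n a) = (C.θK a ▷ R.E.S n) := by
  have e1 := C.mulR_φ (n : ℤ) (dn_degUZ (dg a)) (pt_R n a) (dn_pt n a)
  refine e1.trans ?_
  have q2 := R.E.zero_mu n (zero_add _)
  have e2 : (C.φ.at' (degUZ (dg a)) (dn_degUZ (dg a)) ⊗ₘ R.ηS K n) ≫
      (G R K).mul (zero_add (n : ℤ)) = (C.φ.at' (degUZ (dg a)) (dn_degUZ (dg a)) ⊗ₘ R.ηS K n) ≫
      tensorμ K (𝟙_ T) K (R.E.S n) ≫ (μ[K] ⊗ₘ (λ_ (R.E.S n)).hom) :=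
    congrArg (fun q => (C.φ.at' (degUZ (dg a)) (dn_degUZ (dg a)) ⊗ₘ R.ηS K n) ≫
      tensorμ K (𝟙_ T) K (R.E.S n) ≫ (μ[K] ⊗ₘ q)) q2
  refine e2.trans ?_
  have key : ∀ (X B : T) (x : X ⟶ K ⊗ 𝟙_ T),
      (x ⊗ₘ ((λ_ B).inv ≫ (η[K] ▷ B))) ≫ tensorμ K (𝟙_ T) K B ≫ (μ[K] ⊗ₘ (λ_ B).hom) =
        (x ≫ (ρ_ K).hom) ▷ B := by
    intro X B x
    rw [mul_sig_aux η[K] μ[K] (MonObj.mul_one K) (λ_ B).hom x, comp_whiskerRight, triangle]
  exact key _ _ (C.φ.at' (degUZ (dg a)) (dn_degUZ (dg a)))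

/-- The comparison maps of the Thom system are sent to the given Thom classes. -/
@[reassoc]
theorem θ_θK {n N a : ℕ} (h : n ≤ a) (h' : N ≤ a + n) :
    R.θ h h' ≫ (C.θK a ▷ R.E.S n) = C.τ n N := by
  have h0 : dn (0, (n, N)) = (n : ℤ) := by rw [dn_apply]; simp
  have e1 : R.uz.tr (m := (0, (n, N))) (a - n, a + n - N) (pt_tr h h') ≫
      C.φ.at' (pt n a) (dn_pt n a) = C.φ.at' (0, (n, N)) h0 := by
    change R.P.act (R.uz.e (a - n, a + n - N)) (pt_tr h h') ≫ C.φ.at' (pt n a) (dn_pt n a) = _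
    rw [C.φ.act_at' (pt_tr h h') (dn_degUZ _) h0 (dn_pt n a) (zero_add _), C.uz_φ,
      (G R K).act_one, Category.comp_id]
  have e2 : (R.θ h h' ≫ R.rf n a) ≫ C.φ.at' (pt n a) (dn_pt n a) = C.τ n N := by
    rw [R.θ_rf, Category.assoc, e1, C.j0_φ]
  exact (congrArg (fun q => R.θ h h' ≫ q) (C.rf_φ n a).symm).trans
    ((Category.assoc _ _ _).symm.trans e2)

end Cls

end ThomSys

end Vale.Agent.P251.M
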