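import Vale.Agent.P251.M.ThomFM
import Vale.Agent.P251.M.BUInst
import Vale.Agent.P251.M.ThomUniv
import Vale.Agent.P251.M.ThomInst

/-!
# P251, part M: Thom structures over a commutative monoid with Thom classes

`S : SpaceFunctor T`, `E` even spheres, `e : S.S ℂ ≅ E.L`, `K` a commutative monoid and
`C : ThomSys.Cls (thomSys S E e) K` Thom classes with values in `K`.

* `thomSeqK C : ThomSeq (FR S K) (sphK E K)`, `thomStrK C : ThomStr (FR S K)`;
* `buDataK C : BUData (FM K)`.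
-/

set_option linter.unusedSectionVars false
set_option linter.style.haveILetI false

open CategoryTheory MonoidalCategory Limits Pretriangulated Topology OnePoint Matrix MonObj

universe v u

noncomputable section

namespace Vale.Agent.P251.M

open G G.LC I Vale.Agent.P251.T

variable {T : Type u} [Category.{v} T] [Preadditive T] [HasZeroObject T]
    [HasShift T ℤ] [∀ n : ℤ, (shiftFunctor T n).Additive] [Pretriangulated T]
    [MonoidalCategory T] [SymmetricCategory T] [TensorTriangulated T]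

section general

variable (S : SpaceFunctor T) (K : T) [MonObj K] [IsCommMonObj K]
variable {n m k : ℕ} {I J L : Type} [Fintype I] [Fintype J] [Fintype L]
  [DecidableEq I] [DecidableEq J] [DecidableEq L]

theorem tj_FR (h : Fintype.card I ≤ Fintype.card J) :
    tj (FR S K) n h = (FM.free K).map (tj S.S n h) := rfl

theorem tmu_FR (h : n + m = k) (hc : Fintype.card I + Fintype.card J ≤ Fintype.card L) :
    tmu (FR S K) h hc = (FM.free K).map (tmu S.S h hc) := by
  rw [tmu, tmu, tn_FR, Functor.map_comp, Functor.map_comp]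
  rfl

theorem un_FR : (un (FR S K)).hom = (FM.free K).map (un S.S).hom := Category.id_comp _

/-- The spheres of free modules. -/
abbrev sphK (E : EvenSpheres T) (K : T) [MonObj K] [IsCommMonObj K] : SphD (FM K) :=
  (SphD.ofEven E).push (FM.free K)

theorem sphK_mu (E : EvenSpheres T) {m n p : ℤ} (h : m + n = p) :
    ((sphK E K).mu m n p h).hom = (FM.free K).map (E.mu m n p h).hom := Category.id_comp _

theorem sphK_e0 (E : EvenSpheres T) :
    (sphK E K).e0.hom = (FM.free K).map E.zero.hom := Category.id_comp _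

end general

variable {S : SpaceFunctor T} {E : EvenSpheres T} {e : S.S.obj CCF ≅ E.L}
  {K : T} [MonObj K] [IsCommMonObj K] (C : ThomSys.Cls (thomSys S E e) K)

namespace ThomSys.Cls

/-- The Thom classes, typed. -/
def τT (n N : ℕ) : TO S.S n (Fin N) ⟶ K ⊗ E.S n := C.τ n N

theorem τT_j {n N N' : ℕ} (h : N ≤ N')
    (hk : Fintype.card (Fin N) ≤ Fintype.card (Fin N')) :
    TO.j S.S n hk ≫ C.τT n N' = C.τT n N := by
  have h1 := C.zt_τ (n := n) (N := N) (N' := N') (l := N' - N) (by omega)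
  rw [thomSys_zt S E e _ hk] at h1
  exact h1

theorem τT_mul {n m k N N' : ℕ} (h : n + m = k) (h' : (n : ℤ) + m = k)
    (hc : Fintype.card (Fin N) + Fintype.card (Fin N') ≤ Fintype.card (Fin (N + N'))) :
    (C.τT n N ⊗ₘ C.τT m N') ≫ tensorμ K (E.S n) K (E.S m) ≫ (μ[K] ⊗ₘ (E.mu n m k h').hom) =
      TO.mul S.S h hc ≫ C.τT k (N + N') := by
  have h0 : ((n, N) + (m, N') : ℕ × ℕ) = (k, N + N') := by rw [← h]; rfl
  exact C.τ_mul h0 h'

theorem τT_one : TO.unit S.S (Fin 0) ≫ C.τT 0 0 = (λ_ (𝟙_ T)).inv ≫ (η[K] ⊗ₘ E.zero.hom) :=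
  C.τ_one

theorem τT_ℓ : lineTO S ≫ C.τT 1 1 = (e.hom ≫ (ρ_ E.L).inv) ≫ FM.unit K (E.S 1) := by
  have h : (e.inv ≫ lineTO S) ≫ C.τT 1 1 =
      (ρ_ E.L).inv ≫ (λ_ (E.S 1)).inv ≫ (η[K] ▷ E.S 1) := C.τ_ℓ
  rw [Category.assoc, Iso.inv_comp_eq] at h
  rw [h, FM.unit]
  exact (Category.assoc _ _ _).symm

/-- The Thom classes as morphisms of free modules. -/
def wK (n N : ℕ) : ob (FR S K) (ThO n (Fin N)) ⟶ (sphK E K).S n :=
  (⟨C.τT n N⟩ : (FM.free K).obj (TO S.S n (Fin N)) ⟶ (FM.free K).obj (E.S n))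

theorem wK_hom (n N : ℕ) : FM.Hom.hom (C.wK n N) = C.τT n N := rfl

end ThomSys.Cls

instance isFC_CC : IsFC (LC.of ℂ) := ⟨CCF.property⟩

/-- The reindexing `ℂ^Unit ⟶ ℂ^(Fin 1)`. -/
theorem lineTO_eq : lineTO S = mp S.S (Q.cpowUnit.inv ≫
    Th.cmap (injMat (Equiv.ofUnique Unit (Fin 1))) (injMat_isom (Equiv.injective _))) ≫
      mp S.S (Th.incl' (Fintype.card_fin 1) : LC.of (Fin 1 → ℂ) ⟶ ThO 1 (Fin 1)) := by
  have hu' : injMat (Equiv.ofUnique Unit (Fin 1)) *
      (injMat (Equiv.ofUnique Unit (Fin 1)))ᴴ = (1 : Matrix (Fin 1) (Fin 1) ℂ) := by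
    have h2 := injMat_isom (I := Fin 1) (J := Unit) (Equiv.ofUnique Unit (Fin 1)).symm.injective
    rwa [injMat_equiv_conjTranspose, Equiv.symm_symm, ← injMat_equiv_conjTranspose] at *
  have h1 := Th.incl_map (Fintype.card_unit) (Fintype.card_fin 1)
    (injMat (Equiv.ofUnique Unit (Fin 1))) (injMat_isom (Equiv.injective _)) hu'
  have h3 : lineTO S = mp S.S lineTh ≫ tj S.S (I := Unit) (J := Fin 1) 1 (by simp) := by
    rw [tj_eq_TO]
    rfl
  have h4 : lineTh = Q.cpowUnit.inv ≫ Th.incl' (Fintype.card_unit) := rfl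
  rw [h3, ← mp_tmap S.S (injMat (Equiv.ofUnique Unit (Fin 1))) (injMat_isom (Equiv.injective _)),
    h4, ← mp_comp, ← mp_comp, Category.assoc, Category.assoc, h1]

theorem FR_mp_hom {X Y : LC} [IsFC X] [IsFC Y] (f : X ⟶ Y) {Z : T}
    (g : (FM.free K).obj (ob S.S Y) ⟶ (FM.free K).obj Z) :
    FM.Hom.hom ((show ob (FR S K) X ⟶ (FM.free K).obj (ob S.S Y) from mp (FR S K) f) ≫ g) =
      mp S.S f ≫ FM.Hom.hom g := FM.free_map_comp_hom _ _

/-- The Thom classes as a Thom sequence. -/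
def thomSeqK : ThomSeq (FR S K) (sphK E K) where
  w n N := C.wK n N
  w_j n {N N'} h := by
    apply FM.hom_ext
    rw [tj_FR]
    refine (FM.free_map_comp_hom _ _).trans ?_
    rw [tj_eq_TO]
    exact C.τT_j h _
  w_mul {n m k} h h' N N' := by
    have h1 := C.τT_mul (N := N) (N' := N') h h' (by simp)
    rw [tmu_FR, sphK_mu]
    apply FM.hom_ext
    refine Eq.trans ?_ (FM.free_map_comp_hom _ _).symm
    refine (FM.comp_free_map_hom _ _).trans ?_
    rw [tmu_eq_TO]
    refine Eq.trans ?_ h1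
    change ((C.τT n N ⊗ₘ C.τT m N') ≫ FM.ten K (E.S n) (E.S m)) ≫
      (K ◁ (E.mu (↑n) (↑m) (↑k) h').hom) = _
    rw [FM.ten, Category.assoc, Category.assoc, ← MonoidalCategory.tensorHom_def]
  w_unit := by
    rw [un_FR]
    have h1 := C.τT_one
    have h2 : (un S.S).hom ≫ mp S.S (Th.unit (Fin 0)) ≫ C.τT 0 0 =
        (E.zero.hom ≫ FM.unit K (E.S 0)) := by
      have h3 : ((un S.S).hom ≫ mp S.S (Th.unit (Fin 0))) ≫ C.τT 0 0 =
        (λ_ (𝟙_ T)).inv ≫ (η[K] ⊗ₘ E.zero.hom) := h1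
      rw [Category.assoc] at h3
      rw [h3, FM.unit, leftUnitor_inv_naturality_assoc, tensorHom_def']
    apply FM.hom_ext
    refine (FM.free_map_comp_hom _ _).trans ?_
    refine (congrArg ((un S.S).hom ≫ ·) (FM.free_map_comp_hom _ _)).trans ?_
    refine h2.trans ?_
    exact (congrArg FM.Hom.hom (sphK_e0 K E)).symm
  w_one := by
    have h1 := C.τT_ℓ
    rw [lineTO_eq, Category.assoc] at h1
    have hu' : injMat (Equiv.ofUnique Unit (Fin 1)) *
        (injMat (Equiv.ofUnique Unit (Fin 1)))ᴴ = (1 : Matrix (Fin 1) (Fin 1) ℂ) := by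
      have h2 := injMat_isom (I := Fin 1) (J := Unit) (Equiv.ofUnique Unit (Fin 1)).symm.injective
      rwa [injMat_equiv_conjTranspose, Equiv.symm_symm, ← injMat_equiv_conjTranspose] at *
    have i1 := ThomSeq.isIso_cmap (injMat (Equiv.ofUnique Unit (Fin 1)))
      (injMat_isom (Equiv.injective _)) hu'
    have h3 : mp (FR S K) (Q.cpowUnit.inv ≫
        Th.cmap (injMat (Equiv.ofUnique Unit (Fin 1))) (injMat_isom (Equiv.injective _))) ≫
          mp (FR S K) (Th.incl' (Fintype.card_fin 1) : LC.of (Fin 1 → ℂ) ⟶ ThO 1 (Fin 1)) ≫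
            C.wK 1 1 = (FM.free K).map (e.hom ≫ (ρ_ E.L).inv) := by
      apply FM.hom_ext
      refine (FM.free_map_comp_hom _ _).trans ?_
      refine (congrArg (mp S.S _ ≫ ·) (FM.free_map_comp_hom _ _)).trans ?_
      exact h1
    have i2 : IsIso (mp (FR S K) (Q.cpowUnit.inv ≫
        Th.cmap (injMat (Equiv.ofUnique Unit (Fin 1))) (injMat_isom (Equiv.injective _))) ≫
          mp (FR S K) (Th.incl' (Fintype.card_fin 1) : LC.of (Fin 1 → ℂ) ⟶ ThO 1 (Fin 1)) ≫
            C.wK 1 1) := by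
      rw [h3]
      exact inferInstanceAs (IsIso ((FM.free K).mapIso (e ≪≫ (ρ_ E.L).symm)).hom)
    exact (isIso_comp_left_iff _ _).mp i2

/-- The Thom structure of Thom classes. -/
def thomStrK : ThomStr (FR S K) := (thomSeqK C).toThomStr

/-- The spheres of the Thom structure. -/
def compatK : SphCompat (thomStrK C) (sphK E K) where
  e n := Iso.refl _
  e_mu {n m k} h h' := by
    change (𝟙 _ ⊗ₘ 𝟙 _) ≫ ((sphK E K).mu n m k h').hom = ((sphK E K).mu n m k h').hom ≫ 𝟙 _
    rw [id_tensorHom_id, Category.id_comp, Category.comp_id]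

/-- The data for the computation of the `K`-homology of `BU(n)`. -/
def buDataK : BUData (FM K) := buData S K (compatK C)

end Vale.Agent.P251.M
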