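import Vale.Agent.P251.M.BUTheta
import Vale.Agent.P251.M.BUData

/-!
# P251, part M: Thom structures from Thom classes of the standard Thom spaces

* `ThomSeq F A`: Thom classes `w n N : F (Th n (Fin N)) ⟶ A.S n` with values in coherent spheres
  `A : SphD D`;
* `ThomSeq.toThomStr : ThomStr F`, with spheres `A.S n`, products `A.mu` and unit `A.e0`.
-/

set_option linter.unusedSectionVars false
set_option linter.style.haveILetI false

open CategoryTheory MonoidalCategory Filter Topology OnePoint Matrix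

universe v u

noncomputable section

namespace Vale.Agent.P251.M

open G G.LC I

variable {D : Type u} [Category.{v} D] [MonoidalCategory D] [SymmetricCategory D]

/-! ### Products of Thom spaces -/

section tmu

variable (F : FCat ⥤ D) [F.Braided] [HInv F]
variable {n m k : ℕ} {I J K I' J' K' : Type} [Fintype I] [Fintype J] [Fintype K] [Fintype I']
  [Fintype J'] [Fintype K'] [DecidableEq I] [DecidableEq J] [DecidableEq K] [DecidableEq I']
  [DecidableEq J'] [DecidableEq K']

/-- The product of Thom spaces. -/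
def tmu (h : n + m = k) (hc : Fintype.card I + Fintype.card J ≤ Fintype.card K) :
    ob F (ThO n I) ⊗ ob F (ThO m J) ⟶ ob F (ThO k K) :=
  (tn F (ThO n I) (ThO m J)).hom ≫ mp F (Th.sum h) ≫ tj F k (Thh.card_sum_le hc)

theorem tmu_eq_TO (h : n + m = k) (hc : Fintype.card I + Fintype.card J ≤ Fintype.card K) :
    tmu F h hc = TO.mul F h hc := by
  rw [tmu, tj_eq_TO, TO.mul, TO.sum, Category.assoc]
  rfl

/-- Naturality of the product. -/
@[reassoc]
theorem tmu_naturality (h : n + m = k) (hI : Fintype.card I ≤ Fintype.card I')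
    (hJ : Fintype.card J ≤ Fintype.card J') (hK : Fintype.card K ≤ Fintype.card K')
    (hc : Fintype.card I + Fintype.card J ≤ Fintype.card K)
    (hc' : Fintype.card I' + Fintype.card J' ≤ Fintype.card K') :
    (tj F n hI ⊗ₘ tj F m hJ) ≫ tmu F h hc' = tmu F h hc ≫ tj F k hK := by
  rw [tmu, tmu, tj, tj, tn_natural_assoc, ← mp_comp_assoc, Th.sum_naturality, mp_comp_assoc,
    mp_tmap F _ _ (Thh.card_sum_le_sum hI hJ)]
  simp only [Category.assoc]
  rw [tj_tj, tj_tj]

@[reassoc]
theorem tmu_tj {L : Type} [Fintype L] [DecidableEq L] (h : n + m = k)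
    (hc : Fintype.card I + Fintype.card J ≤ Fintype.card K)
    (hL : Fintype.card K ≤ Fintype.card L) :
    tmu F h hc ≫ tj F k hL = tmu F h (hc.trans hL) := by
  rw [tmu, tmu, Category.assoc, Category.assoc, tj_tj]

end tmu

/-- Thom classes of the standard Thom spaces with values in coherent spheres. -/
structure ThomSeq (F : FCat ⥤ D) [F.Braided] [HInv F] (A : SphD D) where
  /-- the classes -/
  w (n N : ℕ) : ob F (ThO n (Fin N)) ⟶ A.S n
  w_j (n : ℕ) {N N' : ℕ} (h : N ≤ N') :
    tj F (I := Fin N) (J := Fin N') n (by simpa using h) ≫ w n N' = w n N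
  w_mul {n m k : ℕ} (h : n + m = k) (h' : (n : ℤ) + m = k) (N N' : ℕ) :
    (w n N ⊗ₘ w m N') ≫ (A.mu n m k h').hom =
      tmu F (I := Fin N) (J := Fin N') (K := Fin (N + N')) h (by simp) ≫ w k (N + N')
  w_unit : (un F).hom ≫ mp F (Th.unit (Fin 0)) ≫ w 0 0 = (show 𝟙_ D ⟶ A.S ((0 : ℕ) : ℤ) from A.e0.hom)
  w_one : IsIso (mp F (Th.incl' (Fintype.card_fin 1) : LC.of (Fin 1 → ℂ) ⟶ ThO 1 (Fin 1)) ≫ w 1 1)

namespace ThomSeq

variable {F : FCat ⥤ D} [F.Braided] [HInv F] {A : SphD D} (t : ThomSeq F A)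
variable {n m k : ℕ} {I J K : Type} [Fintype I] [Fintype J] [Fintype K]

/-- The Thom class of `Th n I`. -/
def th (n : ℕ) (I : Type) [Fintype I] : ob F (ThO n I) ⟶ A.S n := by
  classical
  exact tj F (J := Fin (Fintype.card I)) n (by simp) ≫ t.w n (Fintype.card I)

section

theorem th_eq [d : DecidableEq I] (n : ℕ) : t.th n I =
    tj F (J := Fin (Fintype.card I)) n (by simp) ≫ t.w n (Fintype.card I) := by
  obtain rfl : d = fun a b => Classical.propDecidable (a = b) := Subsingleton.elim _ _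
  rfl

variable [DecidableEq I] [DecidableEq J] [DecidableEq K]

theorem th_eq_of_le (n : ℕ) {N : ℕ} (h : Fintype.card I ≤ Fintype.card (Fin N)) :
    tj F n h ≫ t.w n N = t.th n I := by
  rw [t.th_eq, ← t.w_j n (N := Fintype.card I) (N' := N) (by simpa using h), tj_tj_assoc]

theorem tj_th (n : ℕ) (h : Fintype.card I ≤ Fintype.card J) : tj F n h ≫ t.th n J = t.th n I := by
  rw [t.th_eq, tj_tj_assoc, t.th_eq_of_le]

theorem tmu_th (h : n + m = k) (h' : (n : ℤ) + m = k)
    (hc : Fintype.card I + Fintype.card J ≤ Fintype.card K) :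
    tmu F h hc ≫ t.th k K = (t.th n I ⊗ₘ t.th m J) ≫ (A.mu n m k h').hom := by
  have e1 : tmu F h hc ≫ t.th k K =
      tmu F (I := I) (J := J) (K := Fin (Fintype.card I + Fintype.card J)) h (by simp) ≫
        t.w k (Fintype.card I + Fintype.card J) := by
    have hK : Fintype.card (Fin (Fintype.card I + Fintype.card J)) ≤ Fintype.card K := by
      simpa using hc
    rw [← tmu_tj F h (by simp : Fintype.card I + Fintype.card J ≤
      Fintype.card (Fin (Fintype.card I + Fintype.card J))) hK, Category.assoc, t.tj_th,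
      ← t.th_eq_of_le k (N := Fintype.card I + Fintype.card J) (I := Fin _) (by simp), tj_refl,
      Category.id_comp]
  rw [e1, t.th_eq, t.th_eq, ← tensorHom_comp_tensorHom, Category.assoc, t.w_mul h h',
    tmu_naturality_assoc F h _ _ (le_refl _)
      (by simp : Fintype.card I + Fintype.card J ≤
        Fintype.card (Fin (Fintype.card I + Fintype.card J))), tj_refl, Category.id_comp]

theorem th_map (n : ℕ) (u : Matrix J I ℂ) (hu : uᴴ * u = 1) :
    mp F (Th.map u hu) ≫ t.th n J = t.th n I := by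
  rw [mp_tmap F u hu (card_le_of_isom hu), t.tj_th]

end

theorem th_sum (h : n + m = k) (h' : (n : ℤ) + m = k) :
    (tn F (ThO n I) (ThO m J)).hom ≫ mp F (Th.sum h) ≫ t.th k (I ⊕ J) =
      (t.th n I ⊗ₘ t.th m J) ≫ (A.mu n m k h').hom := by
  classical
  rw [← t.tmu_th h h' (K := I ⊕ J) (by simp), tmu, tj_refl, Category.comp_id, Category.assoc]

theorem th_unit [DecidableEq I] :
    (un F).hom ≫ mp F (Th.unit I) ≫ t.th 0 I = (show 𝟙_ D ⟶ A.S ((0 : ℕ) : ℤ) from A.e0.hom) := by
  have hi : Function.Injective (Fin.elim0 : Fin 0 → I) := fun x => x.elim0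
  rw [← t.w_unit, ← Th.unit_map (injMat (Fin.elim0 : Fin 0 → I)) (injMat_isom hi), mp_comp,
    Category.assoc, t.th_map, ← t.th_eq_of_le 0 (N := 0) (I := Fin 0) le_rfl, tj_refl,
    Category.id_comp]

/-! ### The linear Thom classes -/

section lin

variable [DecidableEq I] [DecidableEq J] [DecidableEq K]

/-- The linear Thom class is an isomorphism. -/
def Lin (t : ThomSeq F A) (I : Type) [Fintype I] [DecidableEq I] : Prop :=
  ∀ (n : ℕ) (h : Fintype.card I = n),
    IsIso (mp F (Th.incl' h : LC.of (I → ℂ) ⟶ ThO n I) ≫ t.th n I)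

theorem isIso_cmap (u : Matrix J I ℂ) (hu : uᴴ * u = 1) (hu' : u * uᴴ = 1) :
    IsIso (Th.cmap u hu) := by
  have h2 : (uᴴ)ᴴ * uᴴ = 1 := by rw [conjTranspose_conjTranspose, hu']
  refine ⟨Th.cmap uᴴ h2, ?_, ?_⟩
  · rw [Th.cmap_comp, Th.cmap_congr hu _ isom_one, Th.cmap_one]
  · rw [Th.cmap_comp, Th.cmap_congr hu' _ isom_one, Th.cmap_one]

theorem Lin.equiv (h : t.Lin J) (e : I ≃ J) : t.Lin I := by
  intro n hn
  have hu : (injMat e)ᴴ * injMat e = (1 : Matrix I I ℂ) := injMat_isom e.injective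
  have hu' : injMat e * (injMat e)ᴴ = (1 : Matrix J J ℂ) := by
    have h2 := injMat_isom (I := J) (J := I) e.symm.injective
    rwa [injMat_equiv_conjTranspose, Equiv.symm_symm, ← injMat_equiv_conjTranspose] at *
  have hJ : Fintype.card J = n := (Fintype.card_congr e).symm.trans hn
  have h1 := Th.incl_map hn hJ (injMat e) hu hu'
  rw [← t.th_map n (injMat e) hu, ← mp_comp_assoc, h1, mp_comp_assoc]
  have := h n hJ
  have := isIso_cmap (injMat e) hu hu'
  infer_instance

theorem Lin.sum (hI : t.Lin I) (hJ : t.Lin J) : t.Lin (I ⊕ J) := by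
  intro k hk
  have h : Fintype.card I + Fintype.card J = k := by rw [← hk, Fintype.card_sum]
  have h' : ((Fintype.card I : ℕ) : ℤ) + (Fintype.card J : ℕ) = (k : ℕ) := by exact_mod_cast h
  have e1 : ((mp F (Th.incl' rfl) ≫ t.th _ I) ⊗ₘ (mp F (Th.incl' rfl) ≫ t.th _ J)) ≫
      (A.mu _ _ k h').hom =
      (tn F (LC.of (I → ℂ)) (LC.of (J → ℂ))).hom ≫ mp F (Th.csum I J).hom ≫
        mp F (Th.incl' hk) ≫ t.th k (I ⊕ J) := by
    rw [← tensorHom_comp_tensorHom, Category.assoc, ← t.th_sum h h', tn_natural_assoc,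
      ← mp_comp_assoc, Th.incl_sum rfl rfl hk h, mp_comp_assoc]
  have i1 := hI _ rfl
  have i2 := hJ _ rfl
  have i3 : IsIso (((mp F (Th.incl' rfl) ≫ t.th _ I) ⊗ₘ (mp F (Th.incl' rfl) ≫ t.th _ J)) ≫
      (A.mu _ _ k h').hom) := inferInstance
  rw [e1] at i3
  have i4 := (isIso_comp_left_iff _ _).mp i3
  exact (isIso_comp_left_iff _ _).mp i4

theorem lin_zero : t.Lin (Fin 0) := by
  rintro n rfl
  have h1 : Th.unit (Fin 0) = (Q.cpowEmpty (Fin 0)).hom ≫
      (Th.incl' (Fintype.card_fin 0) : LC.of (Fin 0 → ℂ) ⟶ ThO 0 (Fin 0)) := by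
    apply LC.hom_ext
    intro x
    change (((Th.zeroPt (Fin 0) : Th 0 (Fin 0))) : OnePoint (Th 0 (Fin 0))) = _
    refine congrArg _ (Th.ext ?_ ?_)
    · exact Subsingleton.elim _ _
    · exact Subsingleton.elim _ _
  have h2 := t.th_unit (I := Fin 0)
  rw [h1, mp_comp, Category.assoc] at h2
  have i1 : IsIso ((un F).hom ≫ mp F (Q.cpowEmpty (Fin 0)).hom ≫
      mp F (Th.incl' (Fintype.card_fin 0)) ≫ t.th 0 (Fin 0)) := by
    rw [h2]
    change IsIso A.e0.hom
    infer_instance
  have i2 := (isIso_comp_left_iff _ _).mp i1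
  exact (isIso_comp_left_iff _ _).mp i2

theorem lin_one : t.Lin (Fin 1) := by
  rintro n rfl
  have h : t.th 1 (Fin 1) = t.w 1 1 := by
    rw [← t.th_eq_of_le 1 (N := 1) (I := Fin 1) le_rfl, tj_refl, Category.id_comp]
  have := t.w_one
  rw [← h] at this
  exact this

theorem lin_fin (n : ℕ) : t.Lin (Fin n) := by
  induction n with
  | zero => exact t.lin_zero
  | succ n ih => exact Lin.equiv t (Lin.sum t ih t.lin_one) finSumFinEquiv.symm

theorem lin : t.Lin I := Lin.equiv t (t.lin_fin (Fintype.card I)) (Fintype.equivFin I)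

end lin

/-- The Thom structure. -/
def toThomStr : ThomStr F where
  map_eq f g h := HInv.map_eq f g h
  S n := A.S n
  inv n := ⟨A.S (-n), ⟨A.mu n (-n) 0 (by ring) ≪≫ A.e0.symm⟩⟩
  mu {m n p} h := A.mu m n p (by exact_mod_cast h)
  th n I _ := t.th n I
  th_map n {I J} _ _ _ _ u hu := t.th_map n u hu
  th_sum {n m p} h {I J} _ _ := t.th_sum h (by exact_mod_cast h)
  th_lin {n I} _ _ h := t.lin n h

@[simp] theorem toThomStr_S (n : ℕ) : t.toThomStr.S n = A.S n := rfl

theorem toThomStr_mu (h : n + m = k) (h' : (n : ℤ) + m = k) :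
    t.toThomStr.mu h = A.mu n m k h' := rfl

theorem toThomStr_th (n : ℕ) (I : Type) [Fintype I] : t.toThomStr.th n I = t.th n I := rfl

theorem toThomStr_S0 : t.toThomStr.S0 = (show 𝟙_ D ⟶ A.S ((0 : ℕ) : ℤ) from A.e0.hom) :=
  t.th_unit (I := Empty)

end ThomSeq

end Vale.Agent.P251.M
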