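import Vale.Agent.P251.G.ThMap
import Vale.Agent.P251.G.Cofibre
import Vale.Agent.P251.G.Segre
import Mathlib.Data.Matrix.ColumnRowPartitioned
import Mathlib.Analysis.SpecialFunctions.Trigonometric.Basic

/-!
# P251, part M: the geometry of the Thom isomorphism

For a bundle `V : Bun X I` of rank `n` over a locally compact space `X`:
* `dg V h : V.tot ⟶ X ⊗ Th n I`, `(x, v) ↦ (x, (V.P x, v))`;
* `dg_sum`: the diagonal map of `V.sum W` is obtained from those of `V` and of the pull back of `W`
  to `V.tot`;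
* `dg_iso_homotopic`: an isometric isomorphism of bundles is compatible with the diagonal maps up
  to homotopy, after adding the indices.
-/

open CategoryTheory MonoidalCategory Filter Topology OnePoint Matrix

set_option linter.unusedSectionVars false

noncomputable section

namespace Vale.Agent.P251.M

open G G.LC

section proper

variable {A B C : Type} [TopologicalSpace A] [TopologicalSpace B] [TopologicalSpace C]

/-- `f` is proper if `k ∘ f` is. -/
theorem tendsto_of_comp {f : A → B} {k : B → C} (hk : Continuous k)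
    (h : Tendsto (k ∘ f) (cocompact A) (cocompact C)) : Tendsto f (cocompact A) (cocompact B) := by
  have h1 : Tendsto f (cocompact A) (comap k (cocompact C)) := tendsto_comap_iff.mpr h
  exact h1.mono_right (comap_cocompact_le hk)

/-- A map with a continuous left inverse is proper. -/
theorem tendsto_of_leftInverse {f : A → B} {k : B → A} (hk : Continuous k)
    (h : ∀ a, k (f a) = a) : Tendsto f (cocompact A) (cocompact B) := by
  refine tendsto_of_comp hk ?_
  have : k ∘ f = id := funext h
  rw [this]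
  exact tendsto_id

/-- A homotopy with a continuous family of left inverses is proper. -/
theorem tendsto_of_leftInverse_family {F : A × unitInterval → B} {k : B × unitInterval → A}
    (hk : Continuous k) (h : ∀ p, k (F p, p.2) = p.1) :
    Tendsto F (cocompact (A × unitInterval)) (cocompact B) := by
  have h1 : Tendsto (fun p => (F p, p.2) : A × unitInterval → B × unitInterval)
      (cocompact (A × unitInterval)) (cocompact (B × unitInterval)) :=
    tendsto_of_leftInverse (k := fun q => (k q, q.2)) (hk.prodMk continuous_snd)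
      fun p => Prod.ext (h p) rfl
  exact (tendsto_fst_cocompact (X := B) (Y := unitInterval)).comp h1

end proper

variable {X Y : Type} [TopologicalSpace X] [LocallyCompactSpace X] [T2Space X]
  [TopologicalSpace Y] [LocallyCompactSpace Y] [T2Space Y]
variable {I J K : Type} [Fintype I] [Fintype J] [Fintype K] {n m k : ℕ}

/-- the point `(P x, v)` of `Th n I` -/
def toTh (V : Bun X I) (h : V.IsRank n) (p : V.E) : Th n I :=
  Th.mk (V.P (Bun.base p)) (Bun.vec p) (h.isProj _) (Bun.P_vec p)

@[simp] theorem toTh_P (V : Bun X I) (h : V.IsRank n) (p : V.E) :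
    (toTh V h p).P = V.P (Bun.base p) := rfl
@[simp] theorem toTh_v (V : Bun X I) (h : V.IsRank n) (p : V.E) :
    (toTh V h p).v = Bun.vec p := rfl

theorem continuous_toTh (V : Bun X I) (h : V.IsRank n) : Continuous (toTh V h) :=
  ((V.cont.comp Bun.continuous_base).prodMk Bun.continuous_vec).subtype_mk _

/-- The diagonal map `V.tot ⟶ X ⊗ Th n I`, `(x, v) ↦ (x, (P x, v))`. -/
def dg (V : Bun X I) (h : V.IsRank n) : V.tot ⟶ LC.of X ⊗ LC.of (Th n I) :=
  LC.ofProper (X := V.tot) (Y := LC.of (X × Th n I)) (fun p => (Bun.base p, toTh V h p))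
    (Bun.continuous_base.prodMk (continuous_toTh V h))
    (tendsto_of_leftInverse (k := fun q : X × Th n I => V.ofVec q.1 q.2.v)
      (V.continuous_ofVec.comp (continuous_fst.prodMk (Th.continuous_v.comp continuous_snd)))
      fun p => Bun.E_ext rfl (Bun.P_vec p))

theorem app_dg_coe (V : Bun X I) (h : V.IsRank n) (p : V.E) :
    app (dg V h) (p : OnePoint V.E) =
      smash ((Bun.base p : X) : OnePoint X) (toTh V h p : OnePoint (Th n I)) :=
  rfl

/-! ### Direct sums -/

section sum

theorem isRank_sum {V : Bun X I} {W : Bun X J} (hV : V.IsRank n) (hW : W.IsRank m)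
    (h : n + m = k) : (V.sum W).IsRank k := by
  intro x
  subst h
  exact (hV.isProj x |>.fromBlocks (hW.isProj x)).trace

theorem sum_fixed {V : Bun X I} {W : Bun X J} (x : X) (u : I ⊕ J → ℂ) :
    (V.sum W).P x *ᵥ u = u ↔ (V.P x *ᵥ (u ∘ Sum.inl) = u ∘ Sum.inl) ∧
      (W.P x *ᵥ (u ∘ Sum.inr) = u ∘ Sum.inr) := by
  rw [Bun.sum_P, fromBlocks_mulVec]
  simp only [zero_mulVec, add_zero, zero_add]
  constructor
  · intro h
    exact ⟨funext fun i => congrFun h (Sum.inl i), funext fun j => congrFun h (Sum.inr j)⟩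
  · rintro ⟨h1, h2⟩
    ext (i | j)
    · exact congrFun h1 i
    · exact congrFun h2 j

/-- The base as a continuous map. -/
def baseC (V : Bun X I) : C(V.E, X) := ⟨Bun.base, Bun.continuous_base⟩

/-- The total space of the pull back of `W` to the total space of `V` is the total space of
`V ⊕ W`. -/
def sumHomeo (V : Bun X I) (W : Bun X J) : (W.pullback (baseC V)).E ≃ₜ (V.sum W).E where
  toFun q := (V.sum W).mkE (Bun.base (Bun.base q)) (Sum.elim (Bun.vec (Bun.base q)) (Bun.vec q)) (by
    rw [sum_fixed]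
    exact ⟨Bun.P_vec (Bun.base q), Bun.P_vec q⟩)
  invFun p := (W.pullback (baseC V)).mkE
    (V.mkE (Bun.base p) (Bun.vec p ∘ Sum.inl) (((sum_fixed _ _).mp (Bun.P_vec p)).1))
    (Bun.vec p ∘ Sum.inr) ((sum_fixed _ _).mp (Bun.P_vec p)).2
  left_inv q := rfl
  right_inv p := Bun.E_ext rfl (by ext (i | j) <;> rfl)
  continuous_toFun := by
    refine Bun.continuous_mkE (Bun.continuous_base.comp Bun.continuous_base)
      (continuous_pi fun i => ?_) _
    rcases i with i | j
    · exact (continuous_apply i).comp (Bun.continuous_vec.comp Bun.continuous_base)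
    · exact (continuous_apply j).comp Bun.continuous_vec
  continuous_invFun := by
    refine Bun.continuous_mkE (Bun.continuous_mkE Bun.continuous_base ?_ _) ?_ _
    · exact continuous_pi fun i => (continuous_apply _).comp Bun.continuous_vec
    · exact continuous_pi fun i => (continuous_apply _).comp Bun.continuous_vec

/-- The diagonal map of a direct sum. -/
theorem dg_sum (V : Bun X I) (W : Bun X J) (hV : V.IsRank n) (hW : W.IsRank m)
    (hW' : (W.pullback (baseC V)).IsRank m) (h : n + m = k) :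
    dg (W.pullback (baseC V)) hW' ≫ (dg V hV ▷ LC.of (Th m J)) ≫
      (α_ (LC.of X) (LC.of (Th n I)) (LC.of (Th m J))).hom ≫ (LC.of X ◁ Th.sum h) =
    (LC.ofHomeo (X := (W.pullback (baseC V)).tot) (Y := (V.sum W).tot) (sumHomeo V W)).hom ≫
      dg (V.sum W) (isRank_sum hV hW h) := by
  apply LC.hom_ext
  intro q
  rw [app_comp, app_dg_coe, app_comp, app_whiskerRight_smash, app_dg_coe, app_comp,
    app_associator_smash, app_whiskerLeft_smash, Th.app_sum_smash, app_comp]
  rfl

end sum

/-! ### Isometric isomorphisms -/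

section iso

variable [DecidableEq I] [DecidableEq J]

theorem iso_fixed {P : Matrix I I ℂ} {Q : Matrix J J ℂ} {u : Matrix J I ℂ}
    (h1 : uᴴ * u = P) (h2 : u * uᴴ = Q) {v : I → ℂ} (hv : P *ᵥ v = v) :
    Q *ᵥ (u *ᵥ v) = u *ᵥ v := by
  rw [← h2, mulVec_mulVec, Matrix.mul_assoc, h1, ← mulVec_mulVec, hv]

theorem iso_fixed' {P : Matrix I I ℂ} {Q : Matrix J J ℂ} {u : Matrix J I ℂ}
    (h1 : uᴴ * u = P) (h2 : u * uᴴ = Q) {v : J → ℂ} (hv : Q *ᵥ v = v) :
    P *ᵥ (uᴴ *ᵥ v) = uᴴ *ᵥ v := by
  rw [← h1, mulVec_mulVec, Matrix.mul_assoc, h2, ← mulVec_mulVec, hv]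

/-- the homeomorphism of total spaces of an isometric isomorphism `u : V ≅ W` -/
def isoHomeo (V : Bun X I) (W : Bun X J) (u : X → Matrix J I ℂ) (hu : Continuous u)
    (h1 : ∀ x, (u x)ᴴ * u x = V.P x) (h2 : ∀ x, u x * (u x)ᴴ = W.P x) : V.E ≃ₜ W.E where
  toFun p := W.mkE (Bun.base p) (u (Bun.base p) *ᵥ Bun.vec p)
    (iso_fixed (h1 _) (h2 _) (Bun.P_vec p))
  invFun q := V.mkE (Bun.base q) ((u (Bun.base q))ᴴ *ᵥ Bun.vec q)
    (iso_fixed' (h1 _) (h2 _) (Bun.P_vec q))
  left_inv p := Bun.E_ext rfl (by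
    change (u (Bun.base p))ᴴ *ᵥ (u (Bun.base p) *ᵥ Bun.vec p) = Bun.vec p
    rw [mulVec_mulVec, h1, Bun.P_vec])
  right_inv q := Bun.E_ext rfl (by
    change u (Bun.base q) *ᵥ ((u (Bun.base q))ᴴ *ᵥ Bun.vec q) = Bun.vec q
    rw [mulVec_mulVec, h2, Bun.P_vec])
  continuous_toFun := Bun.continuous_mkE Bun.continuous_base
    ((hu.comp Bun.continuous_base).matrix_mulVec Bun.continuous_vec) _
  continuous_invFun := Bun.continuous_mkE Bun.continuous_base
    ((hu.comp Bun.continuous_base).matrix_conjTranspose.matrix_mulVec Bun.continuous_vec) _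

@[simp] theorem base_isoHomeo (V : Bun X I) (W : Bun X J) (u : X → Matrix J I ℂ)
    (hu : Continuous u) (h1 : ∀ x, (u x)ᴴ * u x = V.P x) (h2 : ∀ x, u x * (u x)ᴴ = W.P x)
    (p : V.E) : Bun.base (isoHomeo V W u hu h1 h2 p) = Bun.base p := rfl

@[simp] theorem vec_isoHomeo (V : Bun X I) (W : Bun X J) (u : X → Matrix J I ℂ)
    (hu : Continuous u) (h1 : ∀ x, (u x)ᴴ * u x = V.P x) (h2 : ∀ x, u x * (u x)ᴴ = W.P x)
    (p : V.E) : Bun.vec (isoHomeo V W u hu h1 h2 p) = u (Bun.base p) *ᵥ Bun.vec p := rfl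

/-- cosine of the angle -/
def cs (t : unitInterval) : ℂ := ((Real.cos (Real.pi / 2 * t) : ℝ) : ℂ)
/-- sine of the angle -/
def sn (t : unitInterval) : ℂ := ((Real.sin (Real.pi / 2 * t) : ℝ) : ℂ)

@[fun_prop] theorem continuous_cs : Continuous cs :=
  Complex.continuous_ofReal.comp (Real.continuous_cos.comp
    (continuous_const.mul continuous_subtype_val))
@[fun_prop] theorem continuous_sn : Continuous sn :=
  Complex.continuous_ofReal.comp (Real.continuous_sin.comp
    (continuous_const.mul continuous_subtype_val))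

@[simp] theorem cs_zero : cs 0 = 1 := by simp [cs]
@[simp] theorem cs_one : cs 1 = 0 := by simp [cs]
@[simp] theorem sn_zero : sn 0 = 0 := by simp [sn]
@[simp] theorem sn_one : sn 1 = 1 := by simp [sn]
@[simp] theorem star_cs (t : unitInterval) : star (cs t) = cs t := by
  rw [cs, Complex.star_def, Complex.conj_ofReal]
@[simp] theorem star_sn (t : unitInterval) : star (sn t) = sn t := by
  rw [sn, Complex.star_def, Complex.conj_ofReal]

theorem cs_sn (t : unitInterval) : cs t * cs t + sn t * sn t = 1 := by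
  have h := Real.cos_sq_add_sin_sq (Real.pi / 2 * t)
  simp only [cs, sn, ← Complex.ofReal_mul, ← Complex.ofReal_add]
  rw [← sq, ← sq, h, Complex.ofReal_one]

/-- the rotating family of isometries -/
def rotM (V : Bun X I) (u : X → Matrix J I ℂ) (p : X × unitInterval) : Matrix (I ⊕ J) I ℂ :=
  Matrix.fromRows (cs p.2 • V.P p.1) (sn p.2 • u p.1)

theorem continuous_fromRows {Z : Type*} [TopologicalSpace Z] {A : Z → Matrix I K ℂ}
    {B : Z → Matrix J K ℂ} (hA : Continuous A) (hB : Continuous B) :
    Continuous fun z => Matrix.fromRows (A z) (B z) := by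
  refine continuous_matrix fun i k => ?_
  rcases i with i | j
  · exact hA.matrix_elem i k
  · exact hB.matrix_elem j k

theorem continuous_rotM (V : Bun X I) {u : X → Matrix J I ℂ} (hu : Continuous u) :
    Continuous (rotM V u) :=
  continuous_fromRows ((continuous_cs.comp continuous_snd).smul (V.cont.comp continuous_fst))
    ((continuous_sn.comp continuous_snd).smul (hu.comp continuous_fst))

theorem rotM_isom (V : Bun X I) {u : X → Matrix J I ℂ} (h1 : ∀ x, (u x)ᴴ * u x = V.P x)
    (p : X × unitInterval) : (rotM V u p)ᴴ * rotM V u p = V.P p.1 := by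
  rw [rotM, conjTranspose_fromRows_eq_fromCols_conjTranspose, fromCols_mul_fromRows,
    conjTranspose_smul, conjTranspose_smul, V.herm, Matrix.smul_mul, Matrix.mul_smul,
    Matrix.smul_mul, Matrix.mul_smul, smul_smul, smul_smul,
    V.idem, h1, star_cs, star_sn, ← add_smul, cs_sn, one_smul]

theorem rotM_isProj (V : Bun X I) (h : V.IsRank n) {u : X → Matrix J I ℂ}
    (h1 : ∀ x, (u x)ᴴ * u x = V.P x) (p : X × unitInterval) :
    IsProj n (rotM V u p * (rotM V u p)ᴴ) where
  idem := by
    rw [Matrix.mul_assoc, ← Matrix.mul_assoc (rotM V u p)ᴴ, rotM_isom V h1, ← Matrix.mul_assoc,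
      mul_of_isometry (rotM_isom V h1 p) (V.herm p.1) (V.idem p.1)]
  herm := by rw [conjTranspose_mul, conjTranspose_conjTranspose]
  trace := by
    rw [trace_mul_comm, rotM_isom V h1]
    exact h p.1

theorem rotM_fixed (V : Bun X I) {u : X → Matrix J I ℂ}
    (h1 : ∀ x, (u x)ᴴ * u x = V.P x) (p : X × unitInterval) {v : I → ℂ}
    (hv : V.P p.1 *ᵥ v = v) :
    (rotM V u p * (rotM V u p)ᴴ) *ᵥ (rotM V u p *ᵥ v) = rotM V u p *ᵥ v :=
  iso_fixed (rotM_isom V h1 p) rfl hv

/-- The diagonal maps of isometrically isomorphic bundles are homotopic after adding the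
indices. -/
theorem dg_iso_homotopic (V : Bun X I) (W : Bun X J) (hV : V.IsRank n) (hW : W.IsRank n)
    (u : X → Matrix J I ℂ) (hu : Continuous u)
    (h1 : ∀ x, (u x)ᴴ * u x = V.P x) (h2 : ∀ x, u x * (u x)ᴴ = W.P x) :
    Homotopic (dg V hV ≫ (LC.of X ◁ Th.inj (Sum.inl : I → I ⊕ J) Sum.inl_injective))
      ((LC.ofHomeo (X := V.tot) (Y := W.tot) (isoHomeo V W u hu h1 h2)).hom ≫ dg W hW ≫
        (LC.of X ◁ Th.inj (Sum.inr : J → I ⊕ J) Sum.inr_injective)) := by
  let R : V.E × unitInterval → Matrix (I ⊕ J) I ℂ := fun p => rotM V u (Bun.base p.1, p.2)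
  have hR : Continuous R := (continuous_rotM V hu).comp
    ((Bun.continuous_base.comp continuous_fst).prodMk continuous_snd)
  let H : V.E × unitInterval → X × Th n (I ⊕ J) := fun p =>
    (Bun.base p.1, Th.mk (R p * (R p)ᴴ) (R p *ᵥ Bun.vec p.1)
      (rotM_isProj V hV h1 _) (rotM_fixed V h1 _ (Bun.P_vec p.1)))
  refine Th.homotopic_of (X := V.tot) (Y := LC.of X ⊗ LC.of (Th n (I ⊕ J))) H ?_ ?_ ?_ ?_
  · exact (Bun.continuous_base.comp continuous_fst).prodMk
      (((hR.matrix_mul hR.matrix_conjTranspose).prodMk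
        (hR.matrix_mulVec (Bun.continuous_vec.comp continuous_fst))).subtype_mk _)
  · refine tendsto_of_leftInverse_family (k := fun q : (X × Th n (I ⊕ J)) × unitInterval =>
      V.ofVec q.1.1 ((rotM V u (q.1.1, q.2))ᴴ *ᵥ q.1.2.v)) ?_ ?_
    · refine V.continuous_ofVec.comp ((continuous_fst.comp continuous_fst).prodMk ?_)
      refine ((continuous_rotM V hu).comp ((continuous_fst.comp continuous_fst).prodMk
        continuous_snd)).matrix_conjTranspose.matrix_mulVec
          (Th.continuous_v.comp (continuous_snd.comp continuous_fst))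
    · intro p
      refine Bun.E_ext rfl ?_
      change V.P (Bun.base p.1) *ᵥ ((R p)ᴴ *ᵥ (R p *ᵥ Bun.vec p.1)) = Bun.vec p.1
      rw [mulVec_mulVec (Bun.vec p.1), rotM_isom V h1]
      change V.P (Bun.base p.1) *ᵥ (V.P (Bun.base p.1) *ᵥ Bun.vec p.1) = _
      rw [Bun.P_vec, Bun.P_vec]
  · intro p
    rw [app_comp, app_dg_coe, app_whiskerLeft_smash, Th.app_map_coe]
    refine congrArg (fun t : Th n (I ⊕ J) => smash ((Bun.base p : X) : OnePoint X)
      (t : OnePoint (Th n (I ⊕ J)))) (Th.ext ?_ ?_)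
    · change injMat Sum.inl * V.P (Bun.base p) * (injMat Sum.inl)ᴴ =
        rotM V u (Bun.base p, 0) * (rotM V u (Bun.base p, 0))ᴴ
      rw [injMat_inl_conj]
      simp only [rotM, cs_zero, sn_zero, one_smul, zero_smul,
        conjTranspose_fromRows_eq_fromCols_conjTranspose, fromRows_mul_fromCols, V.herm, V.idem]
      simp
    · change injMat Sum.inl *ᵥ Bun.vec p = rotM V u (Bun.base p, 0) *ᵥ Bun.vec p
      rw [injMat_inl_mulVec]
      simp only [rotM, cs_zero, sn_zero, one_smul, zero_smul, fromRows_mulVec, Bun.P_vec,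
        zero_mulVec]
  · intro p
    rw [app_comp, app_comp]
    change app (LC.of X ◁ _) (app (dg W hW) ((isoHomeo V W u hu h1 h2 p : W.E) : OnePoint W.E)) = _
    rw [app_dg_coe, app_whiskerLeft_smash, Th.app_map_coe]
    refine congrArg (fun t : Th n (I ⊕ J) => smash ((Bun.base p : X) : OnePoint X)
      (t : OnePoint (Th n (I ⊕ J)))) (Th.ext ?_ ?_)
    · change injMat Sum.inr * W.P (Bun.base p) * (injMat Sum.inr)ᴴ =
        rotM V u (Bun.base p, 1) * (rotM V u (Bun.base p, 1))ᴴ
      rw [injMat_inr_conj]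
      simp only [rotM, cs_one, sn_one, one_smul, zero_smul,
        conjTranspose_fromRows_eq_fromCols_conjTranspose, fromRows_mul_fromCols, h2]
      simp
    · change injMat Sum.inr *ᵥ (u (Bun.base p) *ᵥ Bun.vec p) =
        rotM V u (Bun.base p, 1) *ᵥ Bun.vec p
      rw [injMat_inr_mulVec]
      simp only [rotM, cs_one, sn_one, one_smul, zero_smul, fromRows_mulVec, zero_mulVec]

end iso

/-! ### Complements -/

section compl

variable [DecidableEq I] [DecidableEq J]

theorem isRank_triv (h : Fintype.card I = n) : (Bun.triv X I).IsRank n := by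
  intro x
  rw [Bun.triv_P, Matrix.trace_one, h]

/-- the diagonal map of the trivial bundle -/
theorem dg_triv (h : Fintype.card I = n) :
    dg (Bun.triv X I) (isRank_triv h) =
      (LC.ofHomeo (X := (Bun.triv X I).tot) (Y := LC.of X ⊗ Th.CC I) (Bun.trivHomeo X I)).hom ≫
        (LC.of X ◁ Th.incl' h) := by
  apply LC.hom_ext
  intro p
  rfl

/-- the isometric isomorphism `ℂ^I ≅ V ⊕ W` for complementary bundles -/
def compU (V W : Bun X I) (x : X) : Matrix (I ⊕ I) I ℂ := Matrix.fromRows (V.P x) (W.P x)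

theorem continuous_compU (V W : Bun X I) : Continuous (compU V W) :=
  continuous_fromRows V.cont W.cont

theorem compU_isom (V W : Bun X I) (h : ∀ x, V.P x + W.P x = 1) (x : X) :
    (compU V W x)ᴴ * compU V W x = (Bun.triv X I).P x := by
  rw [compU, conjTranspose_fromRows_eq_fromCols_conjTranspose, fromCols_mul_fromRows, V.herm,
    W.herm, V.idem, W.idem, h, Bun.triv_P]

theorem compU_image (V W : Bun X I) (h : ∀ x, V.P x + W.P x = 1) (x : X) :
    compU V W x * (compU V W x)ᴴ = (V.sum W).P x := by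
  have hW : W.P x = 1 - V.P x := eq_sub_of_add_eq' (h x)
  rw [compU, conjTranspose_fromRows_eq_fromCols_conjTranspose, fromRows_mul_fromCols, V.herm,
    W.herm, V.idem, W.idem, Bun.sum_P]
  have h1 : V.P x * W.P x = 0 := by
    rw [hW, Matrix.mul_sub, Matrix.mul_one, V.idem, sub_self]
  have h2 : W.P x * V.P x = 0 := by
    rw [hW, Matrix.sub_mul, Matrix.one_mul, V.idem, sub_self]
  rw [h1, h2]

/-- the homeomorphism `X × ℂ^I ≅ V ⊕ W` for complementary bundles -/
def compHomeo (V W : Bun X I) (h : ∀ x, V.P x + W.P x = 1) :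
    (Bun.triv X I).E ≃ₜ (V.sum W).E :=
  isoHomeo (Bun.triv X I) (V.sum W) (compU V W) (continuous_compU V W) (compU_isom V W h)
    (compU_image V W h)

/-- The diagonal map of `V ⊕ W ≅ ℂ^I` for complementary bundles. -/
theorem dg_compl_homotopic (V W : Bun X I) (h : ∀ x, V.P x + W.P x = 1)
    (hc : Fintype.card I = k) (hS : (V.sum W).IsRank k) :
    Homotopic
      ((LC.ofHomeo (X := (Bun.triv X I).tot) (Y := LC.of X ⊗ Th.CC I) (Bun.trivHomeo X I)).hom ≫
        (LC.of X ◁ (Th.incl' hc ≫ Th.inj (Sum.inl : I → I ⊕ (I ⊕ I)) Sum.inl_injective)))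
      ((LC.ofHomeo (X := (Bun.triv X I).tot) (Y := (V.sum W).tot) (compHomeo V W h)).hom ≫
        dg (V.sum W) hS ≫
          (LC.of X ◁ Th.inj (Sum.inr : I ⊕ I → I ⊕ (I ⊕ I)) Sum.inr_injective)) := by
  have h1 := dg_iso_homotopic (Bun.triv X I) (V.sum W) (isRank_triv hc) hS (compU V W)
    (continuous_compU V W) (compU_isom V W h) (compU_image V W h)
  rw [dg_triv hc, Category.assoc, ← MonoidalCategory.whiskerLeft_comp] at h1
  exact h1

end compl

/-! ### Pull backs -/

section pullback

/-- Naturality of the diagonal map for bundle maps given by a base map and constant index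
type: for any morphisms of `LC` which are given by points. -/
theorem dg_pullback (V : Bun X I) (f : C(Y, X)) (hf : Tendsto f (cocompact Y) (cocompact X))
    (hV : V.IsRank n) (hV' : (V.pullback f).IsRank n)
    (hp : Tendsto (fun q : (V.pullback f).E => V.mkE (f (Bun.base q)) (Bun.vec q) (Bun.P_vec q))
      (cocompact _) (cocompact _)) :
    dg (V.pullback f) hV' ≫ (LC.ofProper (X := LC.of Y) (Y := LC.of X) f f.continuous hf ▷
        LC.of (Th n I)) =
      LC.ofProper (X := (V.pullback f).tot) (Y := V.tot)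
        (fun q => V.mkE (f (Bun.base q)) (Bun.vec q) (Bun.P_vec q))
        (Bun.continuous_mkE (f.continuous.comp Bun.continuous_base) Bun.continuous_vec _) hp ≫
          dg V hV := by
  apply LC.hom_ext
  intro p
  rfl

end pullback

end Vale.Agent.P251.M
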