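import Vale.Agent.P251.Q.Thom
import Vale.Agent.P251.I.Spaces

/-!
# P251, part M: Thom classes in a symmetric monoidal category, and the Thom isomorphism

Let `F : FCat ⥤ D` be a symmetric monoidal functor on the category of finite cell spaces (for
instance the composition of the suspension spectrum functor with the free module functor
`T ⥤ FM R` of a commutative monoid `R`).  A `ThomStr F` consists of invertible objects `S n` and
Thom classes `th n I : F (Th n I) ⟶ S n` which are multiplicative, invariant under isometries and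
isomorphisms on the fibres `ℂ^I`.

For a bundle `V` of rank `n` over a space `Z` we define the Thom map
`t.Theta V : F V.tot ⟶ F Z ⊗ S n` and prove that it is an isomorphism, natural and multiplicative.
-/

set_option linter.unusedSectionVars false
set_option linter.style.haveILetI false

open CategoryTheory MonoidalCategory Filter Topology OnePoint Matrix
open Functor.LaxMonoidal Functor.OplaxMonoidal Functor.Monoidal

universe v u

noncomputable section

namespace Vale.Agent.P251.M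

open G G.LC I

/-! ### Finite cell spaces as a class -/

/-- Finite cell spaces, as a class. -/
class IsFC (X : LC) : Prop where
  /-- the space is a finite cell space -/
  out : FC X

instance : IsFC (𝟙_ LC) := ⟨(𝟙_ FCat).property⟩

instance {X Y : LC} [hX : IsFC X] [hY : IsFC Y] : IsFC (X ⊗ Y) := ⟨FC.tensor hX.out hY.out⟩

theorem IsFC.of_iso {X Y : LC} [hX : IsFC X] (e : X ≅ Y) : IsFC Y := ⟨hX.out.of_iso e⟩

instance {X Y : Type} [TopologicalSpace X] [LocallyCompactSpace X] [T2Space X]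
    [TopologicalSpace Y] [LocallyCompactSpace Y] [T2Space Y]
    [hX : IsFC (LC.of X)] [hY : IsFC (LC.of Y)] : IsFC (LC.of (X × Y)) :=
  ⟨FC.tensor hX.out hY.out⟩

/-- real and imaginary parts -/
def reImHomeo (I : Type) [Fintype I] : (Fin (Fintype.card I + Fintype.card I) → ℝ) ≃ₜ (I → ℂ) where
  toFun w i := ⟨w (finSumFinEquiv (Sum.inl (Fintype.equivFin I i))),
    w (finSumFinEquiv (Sum.inr (Fintype.equivFin I i)))⟩
  invFun v k := Sum.elim (fun a => (v ((Fintype.equivFin I).symm a)).re)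
    (fun a => (v ((Fintype.equivFin I).symm a)).im) (finSumFinEquiv.symm k)
  left_inv w := by
    funext k
    obtain ⟨k, rfl⟩ := finSumFinEquiv.surjective k
    rcases k with k | k <;>
      simp only [Equiv.symm_apply_apply, Equiv.apply_symm_apply, Sum.elim_inl, Sum.elim_inr]
  right_inv v := by
    funext i
    apply Complex.ext <;>
      simp only [Equiv.symm_apply_apply, Sum.elim_inl, Sum.elim_inr]
  continuous_toFun := by
    refine continuous_pi fun i => ?_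
    have h : (fun w : Fin (Fintype.card I + Fintype.card I) → ℝ =>
        (⟨w (finSumFinEquiv (Sum.inl (Fintype.equivFin I i))),
          w (finSumFinEquiv (Sum.inr (Fintype.equivFin I i)))⟩ : ℂ)) = fun w =>
        (w (finSumFinEquiv (Sum.inl (Fintype.equivFin I i))) : ℂ) +
          (w (finSumFinEquiv (Sum.inr (Fintype.equivFin I i))) : ℂ) * Complex.I := by
      funext w
      apply Complex.ext <;> simp
    rw [h]
    fun_prop
  continuous_invFun := by
    refine continuous_pi fun k => ?_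
    obtain ⟨k, rfl⟩ := finSumFinEquiv.surjective k
    rcases k with k | k
    · simp only [Equiv.symm_apply_apply, Sum.elim_inl]
      fun_prop
    · simp only [Equiv.symm_apply_apply, Sum.elim_inr]
      fun_prop

instance (I : Type) [Fintype I] : IsFC (LC.of (I → ℂ)) :=
  ⟨(FC.sph (Fintype.card I + Fintype.card I)).of_homeo (Y := LC.of (I → ℂ)) (reImHomeo I)⟩

/-! ### A symmetric monoidal functor on finite cell spaces -/

section functor

variable {D : Type u} [Category.{v} D] [MonoidalCategory D] [SymmetricCategory D]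
variable (F : FCat ⥤ D) [F.Braided]

/-- the value of `F` on a finite cell space -/
abbrev ob (X : LC) [h : IsFC X] : D := F.obj ⟨X, h.out⟩

/-- the value of `F` on a morphism -/
def mp {X Y : LC} [hX : IsFC X] [hY : IsFC Y] (f : X ⟶ Y) : ob F X ⟶ ob F Y :=
  F.map (X := ⟨X, hX.out⟩) (Y := ⟨Y, hY.out⟩) (FCat.hom f)

variable {X Y Z W : LC} [IsFC X] [IsFC Y] [IsFC Z] [IsFC W]

@[simp] theorem mp_id : mp F (𝟙 X) = 𝟙 (ob F X) := F.map_id _

@[reassoc]
theorem mp_comp (f : X ⟶ Y) (g : Y ⟶ Z) : mp F (f ≫ g) = mp F f ≫ mp F g :=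
  F.map_comp (X := ⟨X, IsFC.out⟩) (Y := ⟨Y, IsFC.out⟩) (Z := ⟨Z, IsFC.out⟩)
    (FCat.hom f) (FCat.hom g)

/-- an isomorphism of spaces gives an isomorphism -/
@[simps] def mpIso (e : X ≅ Y) : ob F X ≅ ob F Y where
  hom := mp F e.hom
  inv := mp F e.inv
  hom_inv_id := by rw [← mp_comp, e.hom_inv_id, mp_id]
  inv_hom_id := by rw [← mp_comp, e.inv_hom_id, mp_id]

instance isIso_mp (f : X ⟶ Y) [IsIso f] : IsIso (mp F f) :=
  inferInstanceAs (IsIso (mpIso F (asIso f)).hom)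

/-- the value on a product -/
def tn (X Y : LC) [hX : IsFC X] [hY : IsFC Y] : ob F X ⊗ ob F Y ≅ ob F (X ⊗ Y) :=
  μIso F (⟨X, hX.out⟩ : FCat) ⟨Y, hY.out⟩

/-- the value on the unit -/
def un : 𝟙_ D ≅ ob F (𝟙_ LC) := εIso F

@[reassoc]
theorem tn_natural (f : X ⟶ Z) (g : Y ⟶ W) :
    (mp F f ⊗ₘ mp F g) ≫ (tn F Z W).hom = (tn F X Y).hom ≫ mp F (f ⊗ₘ g) :=
  μ_natural F (X := ⟨X, IsFC.out⟩) (Y := ⟨Z, IsFC.out⟩) (X' := ⟨Y, IsFC.out⟩)
    (Y' := ⟨W, IsFC.out⟩) (FCat.hom f) (FCat.hom g)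

@[reassoc]
theorem tn_natural_left (f : X ⟶ Z) :
    (mp F f ▷ ob F Y) ≫ (tn F Z Y).hom = (tn F X Y).hom ≫ mp F (f ▷ Y) := by
  have h := tn_natural F f (𝟙 Y)
  rwa [mp_id, tensorHom_id, tensorHom_id] at h

@[reassoc]
theorem tn_natural_right (g : Y ⟶ W) :
    (ob F X ◁ mp F g) ≫ (tn F X W).hom = (tn F X Y).hom ≫ mp F (X ◁ g) := by
  have h := tn_natural F (𝟙 X) g
  rwa [mp_id, id_tensorHom, id_tensorHom] at h

@[reassoc]
theorem tn_inv_natural (f : X ⟶ Z) (g : Y ⟶ W) :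
    mp F (f ⊗ₘ g) ≫ (tn F Z W).inv = (tn F X Y).inv ≫ (mp F f ⊗ₘ mp F g) := by
  rw [Iso.eq_inv_comp, ← tn_natural_assoc, Iso.hom_inv_id, Category.comp_id]

@[reassoc]
theorem tn_inv_natural_left (f : X ⟶ Z) :
    mp F (f ▷ Y) ≫ (tn F Z Y).inv = (tn F X Y).inv ≫ (mp F f ▷ ob F Y) := by
  rw [Iso.eq_inv_comp, ← tn_natural_left_assoc, Iso.hom_inv_id, Category.comp_id]

@[reassoc]
theorem tn_inv_natural_right (g : Y ⟶ W) :
    mp F (X ◁ g) ≫ (tn F X W).inv = (tn F X Y).inv ≫ (ob F X ◁ mp F g) := by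
  rw [Iso.eq_inv_comp, ← tn_natural_right_assoc, Iso.hom_inv_id, Category.comp_id]

@[reassoc]
theorem tn_assoc :
    ((tn F X Y).hom ▷ ob F Z) ≫ (tn F (X ⊗ Y) Z).hom ≫ mp F (α_ X Y Z).hom =
      (α_ (ob F X) (ob F Y) (ob F Z)).hom ≫ (ob F X ◁ (tn F Y Z).hom) ≫
        (tn F X (Y ⊗ Z)).hom :=
  associativity F (⟨X, IsFC.out⟩ : FCat) ⟨Y, IsFC.out⟩ ⟨Z, IsFC.out⟩

@[reassoc]
theorem tn_assoc_inv :
    mp F (α_ X Y Z).hom ≫ (tn F X (Y ⊗ Z)).inv ≫ (ob F X ◁ (tn F Y Z).inv) =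
      (tn F (X ⊗ Y) Z).inv ≫ ((tn F X Y).inv ▷ ob F Z) ≫
        (α_ (ob F X) (ob F Y) (ob F Z)).hom := by
  rw [Iso.eq_inv_comp, ← cancel_epi ((tn F X Y).hom ▷ ob F Z), tn_assoc_assoc]
  simp

@[reassoc]
theorem tn_braiding :
    (tn F X Y).hom ≫ mp F (β_ X Y).hom = (β_ (ob F X) (ob F Y)).hom ≫ (tn F Y X).hom :=
  Functor.LaxBraided.braided (F := F) (⟨X, IsFC.out⟩ : FCat) ⟨Y, IsFC.out⟩

@[reassoc]
theorem tn_leftUnitor :
    (un F).hom ▷ ob F X ≫ (tn F (𝟙_ LC) X).hom ≫ mp F (λ_ X).hom = (λ_ (ob F X)).hom :=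
  (Functor.LaxMonoidal.left_unitality F (⟨X, IsFC.out⟩ : FCat)).symm

@[reassoc]
theorem tn_rightUnitor :
    ob F X ◁ (un F).hom ≫ (tn F X (𝟙_ LC)).hom ≫ mp F (ρ_ X).hom = (ρ_ (ob F X)).hom :=
  (Functor.LaxMonoidal.right_unitality F (⟨X, IsFC.out⟩ : FCat)).symm

end functor

/-! ### Invertible objects -/

section invertible

variable {D : Type u} [Category.{v} D] [MonoidalCategory D]

theorem eq_conj_whiskerRight {S M : D} (e : S ⊗ M ≅ 𝟙_ D) {X Y : D} (f : X ⟶ Y) :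
    f = (ρ_ X).inv ≫ X ◁ e.inv ≫ (α_ X S M).inv ≫ (f ▷ S) ▷ M ≫ (α_ Y S M).hom ≫ Y ◁ e.hom ≫
      (ρ_ Y).hom := by
  rw [associator_naturality_left_assoc, ← whisker_exchange_assoc]
  simp

theorem isIso_of_whiskerRight {S M : D} (e : S ⊗ M ≅ 𝟙_ D) {X Y : D} (f : X ⟶ Y)
    [IsIso (f ▷ S)] : IsIso f := by
  rw [eq_conj_whiskerRight e f]
  infer_instance

theorem exists_section_of_whiskerRight {S M : D} (e : S ⊗ M ≅ 𝟙_ D) {X Y : D} (f : X ⟶ Y)
    (s : Y ⊗ S ⟶ X ⊗ S) (hs : s ≫ f ▷ S = 𝟙 _) : ∃ s' : Y ⟶ X, s' ≫ f = 𝟙 Y := by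
  refine ⟨(ρ_ Y).inv ≫ Y ◁ e.inv ≫ (α_ Y S M).inv ≫ s ▷ M ≫ (α_ X S M).hom ≫ X ◁ e.hom ≫
      (ρ_ X).hom, ?_⟩
  conv_lhs => rw [eq_conj_whiskerRight e f]
  simp only [Category.assoc, Iso.hom_inv_id_assoc, whiskerLeft_hom_inv_assoc]
  rw [← comp_whiskerRight_assoc, hs]
  simp

theorem isIso_of_middle {S M : D} (e : S ⊗ M ≅ 𝟙_ D) {X Y A B : D} (θ : X ⟶ Y)
    (g : A ⟶ X ⊗ S) (hg : IsIso (g ≫ θ ▷ S)) (k : Y ⟶ B) (hk : IsIso (θ ≫ k)) : IsIso θ := by
  obtain ⟨s, hs⟩ := exists_section_of_whiskerRight e θ (inv (g ≫ θ ▷ S) ≫ g)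
    (by rw [Category.assoc]; exact IsIso.inv_hom_id _)
  refine ⟨s, ?_, hs⟩
  rw [← cancel_mono (θ ≫ k), Category.id_comp, Category.assoc, reassoc_of% hs]

end invertible

/-! ### Thom classes -/

variable {D : Type u} [Category.{v} D] [MonoidalCategory D] [SymmetricCategory D]

/-- Thom classes for a symmetric monoidal functor on finite cell spaces. -/
structure ThomStr (F : FCat ⥤ D) [F.Braided]
    [∀ (n : ℕ) (I : Type) [Fintype I], IsFC (ThO n I)] where
  /-- homotopy invariance of the functor -/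
  map_eq : ∀ {X Y : FCat} (f g : X ⟶ Y), Homotopic f.hom g.hom → F.map f = F.map g
  /-- the even spheres -/
  S : ℕ → D
  /-- they are invertible -/
  inv : ∀ n, ∃ M : D, Nonempty (S n ⊗ M ≅ 𝟙_ D)
  /-- their multiplication -/
  mu : ∀ {m n p : ℕ}, m + n = p → (S m ⊗ S n ≅ S p)
  /-- the Thom classes -/
  th : ∀ (n : ℕ) (I : Type) [Fintype I], ob F (ThO n I) ⟶ S n
  th_map : ∀ (n : ℕ) {I J : Type} [Fintype I] [Fintype J] [DecidableEq I] [DecidableEq J]
    (u : Matrix J I ℂ) (hu : uᴴ * u = 1), mp F (Th.map u hu) ≫ th n J = th n I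
  th_sum : ∀ {n m p : ℕ} (h : n + m = p) {I J : Type} [Fintype I] [Fintype J],
    (tn F (ThO n I) (ThO m J)).hom ≫ mp F (Th.sum h) ≫ th p (I ⊕ J) =
      (th n I ⊗ₘ th m J) ≫ (mu h).hom
  th_lin : ∀ {n : ℕ} {I : Type} [Fintype I] [DecidableEq I] (h : Fintype.card I = n),
    IsIso (mp F (Th.incl' h : LC.of (I → ℂ) ⟶ ThO n I) ≫ th n I)

namespace ThomStr

variable {F : FCat ⥤ D} [F.Braided] [∀ (n : ℕ) (I : Type) [Fintype I], IsFC (ThO n I)]
variable (t : ThomStr F)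
variable {X Y Z W : LC} [IsFC X] [IsFC Y] [IsFC Z] [IsFC W]
variable {I J K : Type} [Fintype I] [Fintype J] [Fintype K] {n m k : ℕ}

theorem mp_eq (t : ThomStr F) {f g : X ⟶ Y} (h : Homotopic f g) : mp F f = mp F g :=
  t.map_eq (X := ⟨X, IsFC.out⟩) (Y := ⟨Y, IsFC.out⟩) (FCat.hom f) (FCat.hom g) h

/-- Slant product with the Thom class along a morphism `g : X ⟶ Z ⊗ Th n I`. -/
def sl (g : X ⟶ Z ⊗ ThO n I) : ob F X ⟶ ob F Z ⊗ t.S n :=
  mp F g ≫ (tn F Z (ThO n I)).inv ≫ (ob F Z ◁ t.th n I)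

theorem sl_homotopic {g g' : X ⟶ Z ⊗ ThO n I} (h : Homotopic g g') : t.sl g = t.sl g' := by
  rw [sl, sl, t.mp_eq h]

@[reassoc]
theorem sl_comp (f : X ⟶ Y) (g : Y ⟶ Z ⊗ ThO n I) : t.sl (f ≫ g) = mp F f ≫ t.sl g := by
  rw [sl, sl, mp_comp, Category.assoc]

@[reassoc]
theorem sl_whiskerRight (g : X ⟶ Z ⊗ ThO n I) (f : Z ⟶ W) :
    t.sl (g ≫ f ▷ ThO n I) = t.sl g ≫ (mp F f ▷ t.S n) := by
  rw [sl, sl, mp_comp, Category.assoc, tn_inv_natural_left_assoc, ← whisker_exchange]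
  simp only [Category.assoc]

theorem sl_map [DecidableEq I] [DecidableEq J] (g : X ⟶ Z ⊗ ThO n I) (u : Matrix J I ℂ)
    (hu : uᴴ * u = 1) : t.sl (g ≫ Z ◁ Th.map u hu) = t.sl g := by
  rw [sl, sl, mp_comp, Category.assoc, tn_inv_natural_right_assoc, ← whiskerLeft_comp,
    t.th_map]

/-- Slant products compose. -/
theorem sl_sl (h : n + m = k) (g : X ⟶ Y ⊗ ThO m J) (f : Y ⟶ Z ⊗ ThO n I) :
    t.sl g ≫ (t.sl f ▷ t.S m) ≫ (α_ (ob F Z) (t.S n) (t.S m)).hom ≫ (ob F Z ◁ (t.mu h).hom) =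
      t.sl (g ≫ (f ▷ ThO m J) ≫ (α_ Z (ThO n I) (ThO m J)).hom ≫ (Z ◁ Th.sum h)) := by
  have hs : mp F (Th.sum h) ≫ t.th k (I ⊕ J) =
      (tn F (ThO n I) (ThO m J)).inv ≫ (t.th n I ⊗ₘ t.th m J) ≫ (t.mu h).hom := by
    rw [← t.th_sum h, Iso.inv_hom_id_assoc]
  symm
  calc _ = mp F g ≫ mp F (f ▷ ThO m J) ≫ mp F (α_ Z (ThO n I) (ThO m J)).hom ≫
        (tn F Z (ThO n I ⊗ ThO m J)).inv ≫ (ob F Z ◁ (mp F (Th.sum h) ≫ t.th k (I ⊕ J))) := by
        rw [sl, mp_comp, mp_comp, mp_comp]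
        simp only [Category.assoc]
        rw [tn_inv_natural_right_assoc, whiskerLeft_comp]
    _ = mp F g ≫ (tn F Y (ThO m J)).inv ≫ (mp F f ▷ ob F (ThO m J)) ≫
        ((tn F Z (ThO n I)).inv ▷ ob F (ThO m J)) ≫
          (α_ (ob F Z) (ob F (ThO n I)) (ob F (ThO m J))).hom ≫
            (ob F Z ◁ ((t.th n I ⊗ₘ t.th m J) ≫ (t.mu h).hom)) := by
        rw [hs, whiskerLeft_comp, tn_assoc_inv_assoc, tn_inv_natural_left_assoc]
    _ = _ := by
        have e : ∀ {A B C C' E' E'' : D} (a : A ⟶ B ⊗ C) (c : C ⟶ C') (b : E' ⟶ E''),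
            A ◁ b ≫ (a ≫ B ◁ c) ▷ E'' ≫ (α_ B C' E'').hom =
              a ▷ E' ≫ (α_ B C E').hom ≫ B ◁ (c ⊗ₘ b) := by
          intro A B C C' E' E'' a c b
          rw [whisker_exchange_assoc, comp_whiskerRight, Category.assoc, tensorHom_def]
          simp
        rw [sl, sl]
        have e' := e (mp F f ≫ (tn F Z (ThO n I)).inv) (t.th n I) (t.th m J)
        simp only [Category.assoc, whiskerLeft_comp, comp_whiskerRight] at e' ⊢
        rw [reassoc_of% e']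

/-! ### The Thom map -/

variable {V : Bun Z I}

/-- The Thom map of a bundle of rank `n` over `Z`. -/
def Theta (V : Bun Z I) (hV : V.IsRank n) [IsFC V.tot] : ob F V.tot ⟶ ob F Z ⊗ t.S n :=
  t.sl (thomMor V hV)

theorem Theta_eq (V : Bun Z I) (hV : V.IsRank n) [IsFC V.tot] :
    t.Theta V hV = t.sl (thomMor V hV) := rfl

/-- Naturality of the Thom map, for any morphism compatible with the bundles. -/
@[reassoc]
theorem Theta_natural (f : Z ⟶ W) {V : Bun Z I} {V' : Bun W I} [IsFC V.tot] [IsFC V'.tot]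
    (h : Bun.Over f V V') (hV : V.IsRank n) (hV' : V'.IsRank n) :
    mp F (totMap f h) ≫ t.Theta V' hV' = t.Theta V hV ≫ (mp F f ▷ t.S n) := by
  rw [Theta, ← sl_comp, totMap_thomMor f h hV hV', sl_whiskerRight]
  rfl

/-- Invariance of the Thom map under isometric isomorphisms. -/
@[reassoc]
theorem Theta_isom {V : Bun Z I} {V' : Bun Z J} [IsFC V.tot] [IsFC V'.tot]
    (φ : V.Isom V') (hV : V.IsRank n) (hV' : V'.IsRank n) :
    mp F φ.iso.hom ≫ t.Theta V' hV' = t.Theta V hV := by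
  classical
  have ha : (injMat (Sum.inl : I → I ⊕ J))ᴴ * injMat (Sum.inl : I → I ⊕ J) = 1 :=
    injMat_isom Sum.inl_injective
  have hb : (injMat (Sum.inr : J → I ⊕ J))ᴴ * injMat (Sum.inr : J → I ⊕ J) = 1 :=
    injMat_isom Sum.inr_injective
  have hab : (injMat (Sum.inl : I → I ⊕ J))ᴴ * injMat (Sum.inr : J → I ⊕ J) = 0 := by
    ext i j
    rw [Matrix.mul_apply, Matrix.zero_apply]
    refine Finset.sum_eq_zero fun k _ => ?_
    rw [conjTranspose_apply, injMat_apply, injMat_apply]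
    rcases k with k | k <;> simp
  have key := φ.homotopic hV hV' ha hb hab (Q.isIsomMap_map (n := n) _ ha)
    (Q.isIsomMap_map (n := n) _ hb)
  rw [Theta, ← sl_comp, ← t.sl_map (φ.iso.hom ≫ thomMor V' hV') _ hb, Category.assoc,
    ← t.sl_homotopic key, t.sl_map, Theta]

/-- The Thom map of a direct sum. -/
theorem Theta_sum (V : Bun Z I) (W : Bun Z J) [IsFC V.tot] [IsFC (V.sum W).tot]
    [IsFC (W.pullback (⟨Bun.base, Bun.continuous_base⟩ : C(V.E, Z))).tot]
    (hV : V.IsRank n) (hW : W.IsRank m) (h : n + m = k) :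
    mp F (Q.sumIso V W).hom ≫ t.Theta (Z := V.tot)
        (W.pullback (⟨Bun.base, Bun.continuous_base⟩ : C(V.E, Z)))
        (Q.isRank_pullback_base hW) ≫ (t.Theta V hV ▷ t.S m) ≫
          (α_ (ob F Z) (t.S n) (t.S m)).hom ≫ (ob F Z ◁ (t.mu h).hom) =
      t.Theta (V.sum W) (Q.isRank_sum hV hW h) := by
  rw [Theta, Theta, t.sl_sl h, ← sl_comp, Theta, Q.thomMor_sum V W hV hW h]

/-- The Thom map of a trivial bundle is an isomorphism. -/
theorem isIso_Theta_triv (Z : LC) [IsFC Z] (I : Type) [Fintype I] [DecidableEq I]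
    [IsFC (Bun.triv Z I).tot] (hV : (Bun.triv Z I).IsRank n) (h : Fintype.card I = n) :
    IsIso (t.Theta (Bun.triv Z I) hV) := by
  have h1 : thomMor (Bun.triv Z I) hV = (Q.trivIso Z I).hom ≫ Z ◁ Th.incl' h := by
    apply LC.hom_ext
    intro p
    rfl
  have h2 : t.Theta (Bun.triv Z I) hV = mp F (Q.trivIso Z I).hom ≫
      (tn F Z (LC.of (I → ℂ))).inv ≫
        (ob F Z ◁ (mp F (Th.incl' h : LC.of (I → ℂ) ⟶ ThO n I) ≫ t.th n I)) := by
    rw [Theta, h1, sl_comp, sl, tn_inv_natural_right_assoc, whiskerLeft_comp]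
  have := t.th_lin h
  rw [h2]
  infer_instance

/-- The Thom map of the sum of a bundle and its complement is an isomorphism. -/
theorem isIso_Theta_compl [DecidableEq I] (V : Bun Z I) [IsFC V.tot]
    [IsFC (V.sum V.compl).tot] (hS : (V.sum V.compl).IsRank k) (h : Fintype.card I = k) :
    IsIso (t.Theta (V.sum V.compl) hS) := by
  haveI : IsFC (Bun.triv Z I).tot := IsFC.of_iso (Bun.Isom.sumCompl V).iso
  have hr : (Bun.triv Z I).IsRank k := (Bun.Isom.sumCompl V).isRank hS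
  have := t.isIso_Theta_triv Z I hr h
  rw [← t.Theta_isom (Bun.Isom.sumCompl V) hS hr]
  infer_instance

/-- Finiteness of the total spaces. -/
theorem isFC_sum_compl [DecidableEq I] (V : Bun Z I) : IsFC (V.sum V.compl).tot :=
  haveI : IsFC (Bun.triv Z I).tot := IsFC.of_iso (Q.trivIso Z I).symm
  IsFC.of_iso (Bun.Isom.sumCompl V).iso.symm

/-- The Thom map of the complement, over the total space. -/
theorem compl_comp [DecidableEq I] (V : Bun Z I) [IsFC V.tot]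
    [IsFC (V.compl.pullback (⟨Bun.base, Bun.continuous_base⟩ : C(V.E, Z))).tot]
    (hV : V.IsRank n) (h : n + m = Fintype.card I) :
    IsIso (t.Theta (Z := V.tot)
        (V.compl.pullback (⟨Bun.base, Bun.continuous_base⟩ : C(V.E, Z)))
        (Q.isRank_pullback_base (Q.isRank_compl hV h)) ≫ (t.Theta V hV ▷ t.S m)) := by
  haveI := isFC_sum_compl V
  have h1 := t.Theta_sum V V.compl hV (Q.isRank_compl hV h) h
  have h2 := t.isIso_Theta_compl V (Q.isRank_sum hV (Q.isRank_compl hV h) h) rfl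
  rw [← h1] at h2
  have h3 : IsIso ((t.Theta (Z := V.tot)
        (V.compl.pullback (⟨Bun.base, Bun.continuous_base⟩ : C(V.E, Z)))
        (Q.isRank_pullback_base (Q.isRank_compl hV h)) ≫ (t.Theta V hV ▷ t.S m)) ≫
          (α_ (ob F Z) (t.S n) (t.S m)).hom ≫ (ob F Z ◁ (t.mu h).hom)) := by
    rw [Category.assoc]
    exact (isIso_comp_left_iff _ _).mp h2
  exact (isIso_comp_right_iff _ _).mp h3

/-- **The Thom isomorphism.** -/
theorem isIso_Theta (V : Bun Z I) [IsFC V.tot] (hV : V.IsRank n) (hn : n ≤ Fintype.card I) :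
    IsIso (t.Theta V hV) := by
  classical
  obtain ⟨m, hm⟩ := Nat.exists_eq_add_of_le hn
  have hm' : n + m = Fintype.card I := hm.symm
  haveI := isFC_sum_compl V
  haveI hW : IsFC (V.compl.pullback (⟨Bun.base, Bun.continuous_base⟩ : C(V.E, Z))).tot :=
    IsFC.of_iso (Q.sumIso V V.compl)
  have hWr := Q.isRank_pullback_base (V := V) (Q.isRank_compl hV hm')
  have c1 := t.compl_comp V hV hm'
  haveI := isFC_sum_compl (Z := V.tot)
    (V.compl.pullback (⟨Bun.base, Bun.continuous_base⟩ : C(V.E, Z)))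
  haveI : IsFC ((V.compl.pullback (⟨Bun.base, Bun.continuous_base⟩ : C(V.E, Z))).compl.pullback
      (⟨Bun.base, Bun.continuous_base⟩ :
        C((V.compl.pullback (⟨Bun.base, Bun.continuous_base⟩ : C(V.E, Z))).E, V.tot))).tot :=
    IsFC.of_iso (Q.sumIso (Z := V.tot)
      (V.compl.pullback (⟨Bun.base, Bun.continuous_base⟩ : C(V.E, Z)))
      (V.compl.pullback (⟨Bun.base, Bun.continuous_base⟩ : C(V.E, Z))).compl)
  have c2 := t.compl_comp (Z := V.tot)
    (V.compl.pullback (⟨Bun.base, Bun.continuous_base⟩ : C(V.E, Z))) hWr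
    (show m + n = _ by rw [add_comm]; exact hm')
  -- the middle map
  have hmid : IsIso (t.Theta (Z := V.tot)
      (V.compl.pullback (⟨Bun.base, Bun.continuous_base⟩ : C(V.E, Z))) hWr) := by
    obtain ⟨M, ⟨e⟩⟩ := t.inv n
    exact isIso_of_middle e _ _ c2 _ c1
  obtain ⟨M, ⟨e⟩⟩ := t.inv m
  haveI : IsIso (t.Theta V hV ▷ t.S m) := (isIso_comp_left_iff _ _).mp c1
  exact isIso_of_whiskerRight e _

end ThomStr

end Vale.Agent.P251.M
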