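import Vale.Agent.P251.M.ThomIso
import Vale.Agent.P251.G.GrHtpy
import Vale.Agent.P251.Q.Euler

/-!
# P251, part M: products, Euler maps and the tautological case of the Thom isomorphism

For a `ThomStr F`:
* `sl_compat`, `sl_tensor`: naturality and external products of slant maps;
* `Theta_extSum`: the Thom map of an external sum;
* `Eu V : ob Z ⟶ ob Z ⊗ S n`: the Euler map of a bundle (zero section followed by the Thom map);
* `TT n I : ob (Th n I) ⟶ ob (Gr n I) ⊗ S n`: the Thom map of the tautological bundle, an isomorphism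
  which is natural for isometries and multiplicative;
* normalisations: `S 0 ≅ 𝟙`, rank zero.
-/

set_option linter.unusedSectionVars false
set_option linter.style.haveILetI false

open CategoryTheory MonoidalCategory Filter Topology OnePoint Matrix
open Functor.LaxMonoidal Functor.OplaxMonoidal Functor.Monoidal

universe v u

noncomputable section

namespace Vale.Agent.P251.M

open G G.LC I

section functor

variable {D : Type u} [Category.{v} D] [MonoidalCategory D] [SymmetricCategory D]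
variable (F : FCat ⥤ D) [F.Braided]
variable {X Y Z W : LC} [IsFC X] [IsFC Y] [IsFC Z] [IsFC W]

@[reassoc]
theorem tn_tensorμ :
    ((tn F W X).hom ⊗ₘ (tn F Y Z).hom) ≫ (tn F (W ⊗ X) (Y ⊗ Z)).hom ≫ mp F (tensorμ W X Y Z) =
      tensorμ (ob F W) (ob F X) (ob F Y) (ob F Z) ≫
        ((tn F W Y).hom ⊗ₘ (tn F X Z).hom) ≫ (tn F (W ⊗ Y) (X ⊗ Z)).hom :=
  (tensorμ_comp_μ_tensorHom_μ_comp_μ F (⟨W, IsFC.out⟩ : FCat) ⟨X, IsFC.out⟩ ⟨Y, IsFC.out⟩
    ⟨Z, IsFC.out⟩).symm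

end functor

variable {D : Type u} [Category.{v} D] [MonoidalCategory D] [SymmetricCategory D]

namespace ThomStr

variable {F : FCat ⥤ D} [F.Braided] [∀ (n : ℕ) (I : Type) [Fintype I], IsFC (ThO n I)]
variable (t : ThomStr F)
variable {X Y Z W : LC} [IsFC X] [IsFC Y] [IsFC Z] [IsFC W]
variable {I J K : Type} [Fintype I] [Fintype J] [Fintype K] {n m k : ℕ}

/-- Naturality of slant maps. -/
@[reassoc]
theorem sl_compat [DecidableEq I] [DecidableEq J] (a : X ⟶ Y) (b : Z ⟶ W) (u : Matrix J I ℂ)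
    (hu : uᴴ * u = 1) (g : X ⟶ Z ⊗ ThO n I) (g' : Y ⟶ W ⊗ ThO n J)
    (h : Homotopic (a ≫ g') (g ≫ (b ⊗ₘ Th.map u hu))) :
    mp F a ≫ t.sl g' = t.sl g ≫ (mp F b ▷ t.S n) := by
  rw [← t.sl_comp, t.sl_homotopic h, tensorHom_def, ← Category.assoc, t.sl_map,
    t.sl_whiskerRight]

/-- External products of slant maps. -/
theorem sl_tensor (h : n + m = k) (g : X ⟶ Z ⊗ ThO n I) (g' : Y ⟶ W ⊗ ThO m J) :
    (t.sl g ⊗ₘ t.sl g') ≫ tensorμ (ob F Z) (t.S n) (ob F W) (t.S m) ≫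
        ((tn F Z W).hom ⊗ₘ (t.mu h).hom) =
      (tn F X Y).hom ≫
        t.sl ((g ⊗ₘ g') ≫ tensorμ Z (ThO n I) W (ThO m J) ≫ (Z ⊗ W) ◁ Th.sum h) := by
  have e1 : (t.sl g ⊗ₘ t.sl g') ≫ tensorμ (ob F Z) (t.S n) (ob F W) (t.S m) ≫
        ((tn F Z W).hom ⊗ₘ (t.mu h).hom) =
      (mp F g ⊗ₘ mp F g') ≫ ((tn F Z (ThO n I)).inv ⊗ₘ (tn F W (ThO m J)).inv) ≫
        tensorμ (ob F Z) (ob F (ThO n I)) (ob F W) (ob F (ThO m J)) ≫
          ((tn F Z W).hom ⊗ₘ ((t.th n I ⊗ₘ t.th m J) ≫ (t.mu h).hom)) := by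
    rw [sl, sl, ← tensorHom_comp_tensorHom, ← tensorHom_comp_tensorHom]
    simp only [Category.assoc]
    have e2 := tensorμ_natural (𝟙 (ob F Z)) (t.th n I) (𝟙 (ob F W)) (t.th m J)
    rw [id_tensorHom, id_tensorHom, id_tensorHom_id, id_tensorHom] at e2
    rw [reassoc_of% e2, ← id_tensorHom, tensorHom_comp_tensorHom, Category.id_comp]
  rw [e1, ← t.th_sum h, sl, mp_comp, mp_comp]
  simp only [Category.assoc]
  rw [← tn_natural_assoc, tn_inv_natural_right_assoc, ← whiskerLeft_comp]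
  congr 1
  rw [← cancel_epi ((tn F Z (ThO n I)).hom ⊗ₘ (tn F W (ThO m J)).hom),
    tn_tensorμ_assoc]
  rw [← Category.assoc ((tn F Z (ThO n I)).hom ⊗ₘ (tn F W (ThO m J)).hom)
    ((tn F Z (ThO n I)).inv ⊗ₘ (tn F W (ThO m J)).inv), tensorHom_comp_tensorHom,
    Iso.hom_inv_id, Iso.hom_inv_id, id_tensorHom_id, Category.id_comp]
  congr 1
  rw [Iso.hom_inv_id_assoc, ← id_tensorHom, tensorHom_comp_tensorHom, Category.comp_id]

/-! ### External sums of bundles -/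

end ThomStr

section geometry

variable {X Y Z W : LC} {I J K : Type} [Fintype I] [Fintype J] [Fintype K] {n m k : ℕ}

theorem app_tensorμ_smash (X Y Z W : LC) (x : OnePoint X) (y : OnePoint Y) (z : OnePoint Z)
    (w : OnePoint W) :
    app (tensorμ X Y Z W) (smash (smash x y) (smash z w)) = smash (smash x z) (smash y w) := by
  have h : tensorμ X Y Z W = (α_ X Y (Z ⊗ W)).hom ≫ (X ◁ (α_ Y Z W).inv) ≫
      (X ◁ (β_ Y Z).hom ▷ W) ≫ (X ◁ (α_ Z Y W).hom) ≫ (α_ X Z (Y ⊗ W)).inv := rfl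
  rw [h, app_comp]
  erw [app_associator_smash X Y (Z ⊗ W) x y (smash z w)]
  rw [app_comp, app_whiskerLeft_smash]
  erw [app_associator_inv_smash Y Z W y z w]
  rw [app_comp, app_whiskerLeft_smash]
  erw [app_whiskerRight_smash]
  rw [app_braiding_smash, app_comp, app_whiskerLeft_smash]
  erw [app_associator_smash Z Y W z y w]
  exact app_associator_inv_smash X Z (Y ⊗ W) x z (smash y w)

/-- The total space of an external sum. -/
def extIso (V : Bun Z I) (V' : Bun W J) :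
    Bun.tot (X := (Z ⊗ W : LC)) (V.extSum V') ≅ V.tot ⊗ V'.tot :=
  LC.ofHomeo (X := Bun.tot (X := (Z ⊗ W : LC)) (V.extSum V')) (Y := LC.of (V.E × V'.E))
    (Bun.extSumHomeo V V')

theorem isRank_extSum {V : Bun Z I} {V' : Bun W J} (hV : V.IsRank n) (hV' : V'.IsRank m)
    (h : n + m = k) : Bun.IsRank (X := (Z ⊗ W : LC)) (V.extSum V') k := by
  intro z
  subst h
  exact (IsProj.fromBlocks (V.isProj hV z.1) (V'.isProj hV' z.2)).trace

theorem thomMor_extSum (V : Bun Z I) (V' : Bun W J) (hV : V.IsRank n) (hV' : V'.IsRank m)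
    (h : n + m = k) :
    (extIso V V').inv ≫ thomMor (Z := Z ⊗ W) (V.extSum V') (isRank_extSum hV hV' h) =
      (thomMor V hV ⊗ₘ thomMor V' hV') ≫ tensorμ Z (ThO n I) W (ThO m J) ≫
        ((Z ⊗ W) ◁ Th.sum h) := by
  apply tensor_ext
  intro p q
  rw [app_comp, app_comp, app_tensorHom_smash, app_thomMor, app_thomMor, app_comp]
  erw [app_tensorμ_smash]
  rw [app_whiskerLeft_smash]
  rfl

end geometry

namespace ThomStr

variable {F : FCat ⥤ D} [F.Braided] [∀ (n : ℕ) (I : Type) [Fintype I], IsFC (ThO n I)]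
variable (t : ThomStr F)
variable {X Y Z W : LC} [IsFC X] [IsFC Y] [IsFC Z] [IsFC W]
variable {I J K : Type} [Fintype I] [Fintype J] [Fintype K] {n m k : ℕ}

/-- The Thom map of an external sum. -/
theorem Theta_extSum (V : Bun Z I) (V' : Bun W J) [IsFC V.tot] [IsFC V'.tot]
    [IsFC (Bun.tot (X := (Z ⊗ W : LC)) (V.extSum V'))]
    (hV : V.IsRank n) (hV' : V'.IsRank m) (h : n + m = k) :
    (t.Theta V hV ⊗ₘ t.Theta V' hV') ≫ tensorμ (ob F Z) (t.S n) (ob F W) (t.S m) ≫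
        ((tn F Z W).hom ⊗ₘ (t.mu h).hom) =
      (tn F V.tot V'.tot).hom ≫ mp F (extIso V V').inv ≫
        t.Theta (Z := Z ⊗ W) (V.extSum V') (isRank_extSum hV hV' h) := by
  rw [Theta, Theta, t.sl_tensor h, Theta, ← t.sl_comp, thomMor_extSum]

/-! ### Euler maps -/

/-- The Euler map of a bundle: the zero section followed by the Thom map. -/
def Eu (V : Bun Z I) (hV : V.IsRank n) [IsFC V.tot] : ob F Z ⟶ ob F Z ⊗ t.S n :=
  mp F (Q.zeroMor V) ≫ t.Theta V hV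

/-- Every section computes the Euler map. -/
theorem sec_Theta (V : Bun Z I) (hV : V.IsRank n) [IsFC V.tot] (s : Q.Sec V) :
    mp F s.mor ≫ t.Theta V hV = t.Eu V hV := by
  rw [Eu, t.mp_eq s.homotopic]

@[reassoc]
theorem Eu_natural (f : Z ⟶ W) {V : Bun Z I} {V' : Bun W I} [IsFC V.tot] [IsFC V'.tot]
    (h : Bun.Over f V V') (hV : V.IsRank n) (hV' : V'.IsRank n) :
    mp F f ≫ t.Eu V' hV' = t.Eu V hV ≫ (mp F f ▷ t.S n) := by
  rw [Eu, ← mp_comp_assoc, ← Q.zeroMor_totMap f h, mp_comp_assoc, t.Theta_natural f h hV hV', Eu,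
    Category.assoc]

theorem Eu_isom {V : Bun Z I} {V' : Bun Z J} [IsFC V.tot] [IsFC V'.tot]
    (φ : V.Isom V') (hV : V.IsRank n) (hV' : V'.IsRank n) : t.Eu V hV = t.Eu V' hV' := by
  have h1 : Q.zeroMor V ≫ φ.iso.hom = Q.zeroMor V' := by
    apply LC.hom_ext
    intro z
    change ((φ.toFun (V.zeroSec z) : V'.E) : OnePoint V'.E) = ((V'.zeroSec z : V'.E) : OnePoint V'.E)
    refine congrArg _ (Bun.E_ext rfl ?_)
    change φ.u z *ᵥ (0 : I → ℂ) = 0
    exact mulVec_zero _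
  rw [Eu, ← t.Theta_isom φ hV hV', ← mp_comp_assoc, h1]
  rfl

theorem Eu_sum (V : Bun Z I) (W' : Bun Z J) [IsFC V.tot] [IsFC W'.tot] [IsFC (V.sum W').tot]
    (hV : V.IsRank n) (hW : W'.IsRank m) (h : n + m = k) :
    t.Eu (V.sum W') (Q.isRank_sum hV hW h) =
      t.Eu W' hW ≫ (t.Eu V hV ▷ t.S m) ≫ (α_ (ob F Z) (t.S n) (t.S m)).hom ≫
        (ob F Z ◁ (t.mu h).hom) := by
  haveI : IsFC (W'.pullback (⟨Bun.base, Bun.continuous_base⟩ : C(V.E, Z))).tot :=
    IsFC.of_iso (Q.sumIso V W')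
  have h1 : Q.zeroMor (V.sum W') ≫ (Q.sumIso V W').hom =
      Q.zeroMor V ≫ Q.zeroMor (Z := V.tot)
        (W'.pullback (⟨Bun.base, Bun.continuous_base⟩ : C(V.E, Z))) := by
    apply LC.hom_ext
    intro z
    rfl
  have h2 : Bun.Over (Q.zeroMor V) W'
      (W'.pullback (⟨Bun.base, Bun.continuous_base⟩ : C(V.E, Z))) := by
    intro z p hp
    have h3 : V.zeroSec z = p := OnePoint.coe_injective hp
    rw [← h3]
    rfl
  rw [Eu, ← t.Theta_sum V W' hV hW h, ← mp_comp_assoc, h1, mp_comp_assoc]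
  have h4 := t.Eu_natural (Q.zeroMor V) h2 hW (Q.isRank_pullback_base hW)
  rw [Eu] at h4
  rw [reassoc_of% h4, ← comp_whiskerRight_assoc]
  rfl

/-- The Euler map of an external sum. -/
theorem Eu_extSum (V : Bun Z I) (V' : Bun W J) [IsFC V.tot] [IsFC V'.tot]
    [IsFC (Bun.tot (X := (Z ⊗ W : LC)) (V.extSum V'))]
    (hV : V.IsRank n) (hV' : V'.IsRank m) (h : n + m = k) :
    (t.Eu V hV ⊗ₘ t.Eu V' hV') ≫ tensorμ (ob F Z) (t.S n) (ob F W) (t.S m) ≫
        ((tn F Z W).hom ⊗ₘ (t.mu h).hom) =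
      (tn F Z W).hom ≫ t.Eu (Z := Z ⊗ W) (V.extSum V') (isRank_extSum hV hV' h) := by
  have h1 : (Q.zeroMor V ⊗ₘ Q.zeroMor V') ≫ (extIso V V').inv =
      Q.zeroMor (Z := Z ⊗ W) (V.extSum V') := by
    rw [Iso.comp_inv_eq]
    symm
    apply tensor_ext
    intro z w
    rfl
  rw [Eu, Eu, ← tensorHom_comp_tensorHom, Category.assoc, t.Theta_extSum V V' hV hV' h,
    tn_natural_assoc, ← mp_comp_assoc, h1]
  rfl

/-! ### Coactions -/

/-- Slant maps are compatible with coactions. -/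
theorem sl_coact {A : LC} [IsFC A] (g : X ⟶ Z ⊗ ThO n I) (c : Z ⟶ A ⊗ Z) (c' : X ⟶ A ⊗ X)
    (h : c' ≫ A ◁ g = g ≫ c ▷ ThO n I ≫ (α_ A Z (ThO n I)).hom) :
    mp F c' ≫ (tn F A X).inv ≫ (ob F A ◁ t.sl g) =
      t.sl g ≫ ((mp F c ≫ (tn F A Z).inv) ▷ t.S n) ≫ (α_ (ob F A) (ob F Z) (t.S n)).hom := by
  have h1 := congrArg (mp F) h
  rw [mp_comp, mp_comp, mp_comp] at h1
  have e1 : mp F c' ≫ (tn F A X).inv ≫ (ob F A ◁ t.sl g) =
      (mp F c' ≫ mp F (A ◁ g)) ≫ (tn F A (Z ⊗ ThO n I)).inv ≫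
        (ob F A ◁ (tn F Z (ThO n I)).inv) ≫ (ob F A ◁ ob F Z ◁ t.th n I) := by
    rw [sl, whiskerLeft_comp, whiskerLeft_comp, Category.assoc, tn_inv_natural_right_assoc]
  rw [e1, h1]
  simp only [Category.assoc]
  rw [tn_assoc_inv_assoc, tn_inv_natural_left_assoc, sl, comp_whiskerRight]
  simp only [Category.assoc]
  rw [whisker_exchange_assoc, whisker_exchange_assoc, associator_naturality_right]

end ThomStr

/-! ### The tautological bundle -/

section tautgeometry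

variable {I J : Type} [Fintype I] [Fintype J] {n m k : ℕ}

/-- the Grassmannian as an object of `LC` -/
abbrev GrO (n : ℕ) (I : Type) [Fintype I] : LC := LC.of (Gr n I)

/-- `f` is the map of Grassmannians induced by `u`. -/
def IsGrMap (u : Matrix J I ℂ) (f : GrO n I ⟶ GrO n J) : Prop :=
  ∀ x : Gr n I, ∃ y : Gr n J, y.P = u * x.P * uᴴ ∧
    app f (x : OnePoint (Gr n I)) = (y : OnePoint (Gr n J))

/-- `s` is the direct sum map of Grassmannians. -/
def IsGrSum (s : GrO n I ⊗ GrO m J ⟶ GrO k (I ⊕ J)) : Prop :=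
  ∀ (x : Gr n I) (y : Gr m J), ∃ z : Gr k (I ⊕ J), z.P = Matrix.fromBlocks x.P 0 0 y.P ∧
    app s (((x, y) : Gr n I × Gr m J) : OnePoint (Gr n I × Gr m J)) = (z : OnePoint (Gr k (I ⊕ J)))

/-- The total space of the tautological bundle is the Thom space. -/
def tautIso (n : ℕ) (I : Type) [Fintype I] :
    Bun.tot (X := GrO n I) (taut n I) ≅ ThO n I :=
  LC.ofHomeo (X := Bun.tot (X := GrO n I) (taut n I)) (Y := ThO n I) (tautHomeo n I)

theorem thomMor_taut : thomMor (Z := GrO n I) (taut n I) (taut_isRank n I) =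
    (tautIso n I).hom ≫ Th.delta := by
  apply LC.hom_ext
  intro p
  rfl

theorem map_delta [DecidableEq I] [DecidableEq J] (u : Matrix J I ℂ) (hu : uᴴ * u = 1)
    (f : GrO n I ⟶ GrO n J) (hf : IsGrMap u f) :
    Th.map u hu ≫ Th.delta = Th.delta ≫ (f ⊗ₘ Th.map u hu) := by
  apply LC.hom_ext
  intro x
  obtain ⟨y, hy, hy'⟩ := hf x.gr
  rw [app_comp, Th.app_map_coe, app_comp]
  have h1 : app (f ⊗ₘ Th.map u hu) (smash (x.gr : OnePoint (Gr n I)) (x : OnePoint (Th n I))) =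
      smash (y : OnePoint (Gr n J)) (Th.mapFun u hu x : OnePoint (Th n J)) := by
    rw [app_tensorHom_smash, hy', Th.app_map_coe]
  refine Eq.trans ?_ h1.symm
  have h2 : (Th.mapFun u hu x).gr = y := Gr.ext hy.symm
  rw [← h2]
  rfl

theorem app_delta (x : Th n I) : app Th.delta (x : OnePoint (Th n I)) =
    smash (x.gr : OnePoint (Gr n I)) (x : OnePoint (Th n I)) := rfl

theorem sum_delta (h : n + m = k) (s : GrO n I ⊗ GrO m J ⟶ GrO k (I ⊕ J)) (hs : IsGrSum s) :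
    Th.sum h ≫ Th.delta = (Th.delta ⊗ₘ Th.delta) ≫ tensorμ (GrO n I) (ThO n I) (GrO m J) (ThO m J) ≫
      (s ⊗ₘ Th.sum h) := by
  apply tensor_ext
  intro x y
  obtain ⟨z, hz, hz'⟩ := hs x.gr y.gr
  have h1 : app ((Th.delta ⊗ₘ Th.delta) ≫ tensorμ (GrO n I) (ThO n I) (GrO m J) (ThO m J) ≫
      (s ⊗ₘ Th.sum h)) (smash (x : OnePoint (Th n I)) (y : OnePoint (Th m J))) =
      smash (z : OnePoint (Gr k (I ⊕ J))) (Th.sumFun h x y : OnePoint (Th k (I ⊕ J))) := by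
    rw [app_comp, app_comp, app_tensorHom_smash, app_delta, app_delta]
    refine (congrArg (app (s ⊗ₘ Th.sum h)) (app_tensorμ_smash (GrO n I) (ThO n I) (GrO m J)
      (ThO m J) (x.gr : OnePoint (Gr n I)) (x : OnePoint (Th n I)) (y.gr : OnePoint (Gr m J))
      (y : OnePoint (Th m J)))).trans ?_
    rw [app_tensorHom_smash, Th.app_sum_smash]
    exact congrArg₂ smash hz' rfl
  refine Eq.trans ?_ h1.symm
  have h2 : (Th.sumFun h x y).gr = z := Gr.ext hz.symm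
  rw [app_comp, Th.app_sum_smash, app_delta, h2]

end tautgeometry

namespace ThomStr

variable {F : FCat ⥤ D} [F.Braided] [∀ (n : ℕ) (I : Type) [Fintype I], IsFC (ThO n I)]
variable (t : ThomStr F)
variable {X Y Z W : LC} [IsFC X] [IsFC Y] [IsFC Z] [IsFC W]
variable {I J K : Type} [Fintype I] [Fintype J] [Fintype K] {n m k : ℕ}

section taut

variable [∀ (n : ℕ) (I : Type) [Fintype I], IsFC (GrO n I)]

/-- The Thom map of the tautological bundle. -/
def TT (n : ℕ) (I : Type) [Fintype I] : ob F (ThO n I) ⟶ ob F (GrO n I) ⊗ t.S n :=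
  t.sl (Th.delta (n := n) (I := I))

instance isFC_taut : IsFC (Bun.tot (X := GrO n I) (taut n I)) :=
  IsFC.of_iso (tautIso n I).symm

theorem Theta_taut : t.Theta (Z := GrO n I) (taut n I) (taut_isRank n I) =
    mp F (tautIso n I).hom ≫ t.TT n I := by
  rw [Theta, thomMor_taut, sl_comp]
  rfl

/-- The Thom isomorphism for the tautological bundle. -/
theorem isIso_TT (h : n ≤ Fintype.card I) : IsIso (t.TT n I) := by
  have h1 := t.isIso_Theta (Z := GrO n I) (taut n I) (taut_isRank n I) h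
  rw [t.Theta_taut] at h1
  exact (isIso_comp_left_iff _ _).mp h1

/-- Naturality for isometries. -/
@[reassoc]
theorem TT_map [DecidableEq I] [DecidableEq J] (u : Matrix J I ℂ) (hu : uᴴ * u = 1)
    (f : GrO n I ⟶ GrO n J) (hf : IsGrMap u f) :
    mp F (Th.map u hu) ≫ t.TT n J = t.TT n I ≫ (mp F f ▷ t.S n) :=
  t.sl_compat (Th.map u hu) f u hu _ _ (by rw [map_delta u hu f hf]; exact Homotopic.refl _)

/-- Multiplicativity. -/
@[reassoc]
theorem TT_sum (h : n + m = k) (s : GrO n I ⊗ GrO m J ⟶ GrO k (I ⊕ J)) (hs : IsGrSum s) :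
    (tn F (ThO n I) (ThO m J)).hom ≫ mp F (Th.sum h) ≫ t.TT k (I ⊕ J) =
      (t.TT n I ⊗ₘ t.TT m J) ≫ tensorμ (ob F (GrO n I)) (t.S n) (ob F (GrO m J)) (t.S m) ≫
        (((tn F (GrO n I) (GrO m J)).hom ≫ mp F s) ⊗ₘ (t.mu h).hom) := by
  have h1 := t.sl_tensor h (Th.delta (n := n) (I := I)) (Th.delta (n := m) (I := J))
  have h2 : (t.TT n I ⊗ₘ t.TT m J) ≫
      tensorμ (ob F (GrO n I)) (t.S n) (ob F (GrO m J)) (t.S m) ≫
        (((tn F (GrO n I) (GrO m J)).hom ≫ mp F s) ⊗ₘ (t.mu h).hom) =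
      ((t.TT n I ⊗ₘ t.TT m J) ≫ tensorμ (ob F (GrO n I)) (t.S n) (ob F (GrO m J)) (t.S m) ≫
        ((tn F (GrO n I) (GrO m J)).hom ⊗ₘ (t.mu h).hom)) ≫ (mp F s ▷ t.S k) := by
    simp only [Category.assoc]
    rw [← tensorHom_id, tensorHom_comp_tensorHom, Category.comp_id]
  rw [h2]
  change _ = ((t.sl _ ⊗ₘ t.sl _) ≫ _) ≫ _
  have h3 : ((Th.delta (n := n) (I := I) ⊗ₘ Th.delta (n := m) (I := J)) ≫
      tensorμ (GrO n I) (ThO n I) (GrO m J) (ThO m J) ≫
        ((GrO n I ⊗ GrO m J) ◁ Th.sum h)) ≫ (s ▷ ThO k (I ⊕ J)) = Th.sum h ≫ Th.delta := by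
    rw [sum_delta h s hs, Category.assoc, Category.assoc, tensorHom_def' s (Th.sum h)]
  rw [h1, Category.assoc, ← t.sl_whiskerRight, h3, t.sl_comp]
  rfl

/-- The Thom class is the Thom map followed by the projection to a point. -/
theorem TT_aug (a : GrO n I ⟶ 𝟙_ LC)
    (ha : ∀ x : Gr n I, app a (x : OnePoint (Gr n I)) = ((() : Unit) : OnePoint Unit)) :
    t.TT n I ≫ ((mp F a ≫ (un F).inv) ▷ t.S n) ≫ (λ_ (t.S n)).hom = t.th n I := by
  have h1 : (Th.delta (n := n) (I := I)) ≫ a ▷ ThO n I = (λ_ (ThO n I)).inv := by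
    rw [← cancel_mono (λ_ (ThO n I)).hom, Iso.inv_hom_id]
    apply LC.hom_ext
    intro x
    rw [app_comp, app_comp]
    have h2 : app (a ▷ ThO n I) (smash (x.gr : OnePoint (Gr n I)) (x : OnePoint (Th n I))) =
        smash ((() : Unit) : OnePoint Unit) (x : OnePoint (Th n I)) := by
      rw [app_whiskerRight_smash, ha]
    refine (congrArg (app (λ_ (ThO n I)).hom) h2).trans ?_
    exact app_leftUnitor_smash (ThO n I) (x : OnePoint (Th n I))
  rw [TT, comp_whiskerRight, Category.assoc, ← t.sl_whiskerRight_assoc, h1, sl, Category.assoc,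
    Category.assoc, whisker_exchange_assoc, leftUnitor_naturality]
  have h3 := tn_leftUnitor F (X := ThO n I)
  have h4 : mp F (λ_ (ThO n I)).inv ≫ (tn F (𝟙_ LC) (ThO n I)).inv ≫
      ((un F).inv ▷ ob F (ThO n I)) ≫ (λ_ (ob F (ThO n I))).hom = 𝟙 _ := by
    rw [← h3]
    simp only [inv_hom_whiskerRight_assoc, Iso.inv_hom_id_assoc]
    rw [← mp_comp, Iso.inv_hom_id, mp_id]
  rw [reassoc_of% h4]

/-- The Euler map of the tautological bundle. -/
def EE (n : ℕ) (I : Type) [Fintype I] : ob F (GrO n I) ⟶ ob F (GrO n I) ⊗ t.S n :=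
  mp F (Gr.zeroHom (n := n) (J := I)) ≫ t.TT n I

theorem EE_eq : t.EE n I = t.Eu (Z := GrO n I) (taut n I) (taut_isRank n I) := by
  have h : Gr.zeroHom (n := n) (J := I) = Q.zeroMor (Z := GrO n I) (taut n I) ≫
      (tautIso n I).hom := by
    apply LC.hom_ext
    intro x
    rfl
  rw [EE, Eu, Theta_taut, ← mp_comp_assoc, h]

end taut

/-! ### Normalisations -/

/-- The linear Thom class. -/
def lin [DecidableEq I] (h : Fintype.card I = n) : ob F (LC.of (I → ℂ)) ≅ t.S n :=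
  haveI := t.th_lin h
  asIso (mp F (Th.incl' h : LC.of (I → ℂ) ⟶ ThO n I) ≫ t.th n I)

theorem lin_hom [DecidableEq I] (h : Fintype.card I = n) :
    (t.lin h).hom = mp F (Th.incl' h : LC.of (I → ℂ) ⟶ ThO n I) ≫ t.th n I := rfl

@[reassoc]
theorem lin_sum [DecidableEq I] [DecidableEq J] (h1 : Fintype.card I = n)
    (h2 : Fintype.card J = m) (h3 : Fintype.card (I ⊕ J) = k) (h : n + m = k) :
    ((t.lin h1).hom ⊗ₘ (t.lin h2).hom) ≫ (t.mu h).hom =
      (tn F (LC.of (I → ℂ)) (LC.of (J → ℂ))).hom ≫ mp F (Th.csum I J).hom ≫ (t.lin h3).hom := by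
  rw [lin_hom, lin_hom, lin_hom, ← tensorHom_comp_tensorHom, Category.assoc, ← t.th_sum h,
    tn_natural_assoc, ← mp_comp_assoc, Th.incl_sum h1 h2 h3 h, mp_comp_assoc]

@[reassoc]
theorem lin_map [DecidableEq I] [DecidableEq J] (h1 : Fintype.card I = n)
    (h2 : Fintype.card J = n) (u : Matrix J I ℂ) (hu : uᴴ * u = 1) (hu' : u * uᴴ = 1) :
    mp F (Th.cmap u hu) ≫ (t.lin h2).hom = (t.lin h1).hom := by
  rw [lin_hom, lin_hom, ← mp_comp_assoc]
  have h := Th.incl_map h1 h2 u hu hu'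
  rw [← h, mp_comp, Category.assoc, t.th_map]

/-- `th ⊗ th` followed by the multiplication. -/
theorem th_tensor_mu {A B : D} (f : A ⟶ ob F (ThO n I)) (g : B ⟶ ob F (ThO m J)) (h : n + m = k) :
    ((f ≫ t.th n I) ⊗ₘ (g ≫ t.th m J)) ≫ (t.mu h).hom =
      (f ⊗ₘ g) ≫ (tn F (ThO n I) (ThO m J)).hom ≫ mp F (Th.sum h) ≫ t.th k (I ⊕ J) := by
  rw [t.th_sum h, ← tensorHom_comp_tensorHom, Category.assoc]

/-- `S` is associative. -/
theorem mu_assoc {a b c ab bc abc : ℕ} (h1 : a + b = ab) (h2 : ab + c = abc) (h3 : b + c = bc)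
    (h4 : a + bc = abc) :
    ((t.mu h1).hom ▷ t.S c) ≫ (t.mu h2).hom =
      (α_ (t.S a) (t.S b) (t.S c)).hom ≫ (t.S a ◁ (t.mu h3).hom) ≫ (t.mu h4).hom := by
  have key : ((t.th a (Fin a) ⊗ₘ t.th b (Fin b)) ⊗ₘ t.th c (Fin c)) ≫
      ((t.mu h1).hom ▷ t.S c) ≫ (t.mu h2).hom =
      ((t.th a (Fin a) ⊗ₘ t.th b (Fin b)) ⊗ₘ t.th c (Fin c)) ≫
      (α_ (t.S a) (t.S b) (t.S c)).hom ≫ (t.S a ◁ (t.mu h3).hom) ≫ (t.mu h4).hom := by
    have e1 : ((t.th a (Fin a) ⊗ₘ t.th b (Fin b)) ⊗ₘ t.th c (Fin c)) ≫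
        ((t.mu h1).hom ▷ t.S c) ≫ (t.mu h2).hom =
        ((tn F (ThO a (Fin a)) (ThO b (Fin b))).hom ▷ ob F (ThO c (Fin c))) ≫
          (tn F (ThO a (Fin a) ⊗ ThO b (Fin b)) (ThO c (Fin c))).hom ≫
            mp F ((Th.sum h1 ▷ ThO c (Fin c)) ≫ Th.sum h2 ≫
              (Th.reindex (Equiv.sumAssoc (Fin a) (Fin b) (Fin c))).hom) ≫
                t.th abc (Fin a ⊕ (Fin b ⊕ Fin c)) := by
      have e2 : mp F (Th.reindex (Equiv.sumAssoc (Fin a) (Fin b) (Fin c))).hom ≫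
          t.th abc (Fin a ⊕ (Fin b ⊕ Fin c)) = t.th abc ((Fin a ⊕ Fin b) ⊕ Fin c) :=
        t.th_map _ _ _
      rw [mp_comp, mp_comp]
      simp only [Category.assoc]
      rw [e2, ← tensorHom_id, tensorHom_comp_tensorHom_assoc, Category.comp_id, ← t.th_sum h1,
        ← Category.assoc (tn F (ThO a (Fin a)) (ThO b (Fin b))).hom]
      have e3 := t.th_tensor_mu ((tn F (ThO a (Fin a)) (ThO b (Fin b))).hom ≫ mp F (Th.sum h1))
        (𝟙 (ob F (ThO c (Fin c)))) h2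
      rw [Category.id_comp] at e3
      rw [e3, tensorHom_id, comp_whiskerRight, Category.assoc, tn_natural_left_assoc]
    have e4 : ((t.th a (Fin a) ⊗ₘ t.th b (Fin b)) ⊗ₘ t.th c (Fin c)) ≫
        (α_ (t.S a) (t.S b) (t.S c)).hom ≫ (t.S a ◁ (t.mu h3).hom) ≫ (t.mu h4).hom =
        (α_ _ _ _).hom ≫ (ob F (ThO a (Fin a)) ◁ (tn F (ThO b (Fin b)) (ThO c (Fin c))).hom) ≫
          (tn F (ThO a (Fin a)) (ThO b (Fin b) ⊗ ThO c (Fin c))).hom ≫
            mp F ((ThO a (Fin a) ◁ Th.sum h3) ≫ Th.sum h4) ≫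
                t.th abc (Fin a ⊕ (Fin b ⊕ Fin c)) := by
      rw [mp_comp, associator_naturality_assoc, ← id_tensorHom, tensorHom_comp_tensorHom_assoc,
        Category.comp_id, ← t.th_sum h3]
      congr 1
      have e3 := t.th_tensor_mu (𝟙 (ob F (ThO a (Fin a))))
        ((tn F (ThO b (Fin b)) (ThO c (Fin c))).hom ≫ mp F (Th.sum h3)) h4
      simp only [Category.assoc, Category.id_comp] at e3 ⊢
      rw [e3, id_tensorHom, whiskerLeft_comp, Category.assoc, tn_natural_right_assoc]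
    rw [e1, e4, Th.sum_assoc h1 h2 h3 h4, mp_comp]
    simp only [Category.assoc]
    rw [tn_assoc_assoc]
  have key2 := congrArg (fun x => ((mp F (Th.incl' (Fintype.card_fin a)) ⊗ₘ
    mp F (Th.incl' (Fintype.card_fin b))) ⊗ₘ mp F (Th.incl' (Fintype.card_fin c))) ≫ x) key
  rw [tensorHom_comp_tensorHom_assoc, tensorHom_comp_tensorHom_assoc,
    tensorHom_comp_tensorHom] at key2
  have h5 : IsIso (((mp F (Th.incl' (Fintype.card_fin a)) ≫ t.th a (Fin a)) ⊗ₘ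
      (mp F (Th.incl' (Fintype.card_fin b)) ≫ t.th b (Fin b))) ⊗ₘ
        (mp F (Th.incl' (Fintype.card_fin c)) ≫ t.th c (Fin c))) := by
    have h6 := t.th_lin (Fintype.card_fin a)
    have h7 := t.th_lin (Fintype.card_fin b)
    have h8 := t.th_lin (Fintype.card_fin c)
    infer_instance
  exact (cancel_epi _).mp key2

/-- `S` is commutative. -/
theorem mu_comm {a b c : ℕ} (h : a + b = c) (h' : b + a = c) :
    (β_ (t.S a) (t.S b)).hom ≫ (t.mu h').hom = (t.mu h).hom := by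
  have e1 : (t.th a (Fin a) ⊗ₘ t.th b (Fin b)) ≫ (β_ (t.S a) (t.S b)).hom ≫ (t.mu h').hom =
      (t.th a (Fin a) ⊗ₘ t.th b (Fin b)) ≫ (t.mu h).hom := by
    have e2 : mp F (Th.reindex (Equiv.sumComm (Fin a) (Fin b))).hom ≫
        t.th c (Fin b ⊕ Fin a) = t.th c (Fin a ⊕ Fin b) := t.th_map _ _ _
    rw [BraidedCategory.braiding_naturality_assoc, ← t.th_sum h', ← tn_braiding_assoc,
      ← mp_comp_assoc, ← Th.sum_comm h h', mp_comp_assoc, e2, t.th_sum h]
  have key2 := congrArg (fun x => (mp F (Th.incl' (Fintype.card_fin a)) ⊗ₘ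
    mp F (Th.incl' (Fintype.card_fin b))) ≫ x) e1
  rw [tensorHom_comp_tensorHom_assoc, tensorHom_comp_tensorHom_assoc] at key2
  have h5 : IsIso ((mp F (Th.incl' (Fintype.card_fin a)) ≫ t.th a (Fin a)) ⊗ₘ
      (mp F (Th.incl' (Fintype.card_fin b)) ≫ t.th b (Fin b))) := by
    have h6 := t.th_lin (Fintype.card_fin a)
    have h7 := t.th_lin (Fintype.card_fin b)
    infer_instance
  exact (cancel_epi _).mp key2

/-- The unit `𝟙 ⟶ S 0`. -/
def S0 : 𝟙_ D ⟶ t.S 0 := (un F).hom ≫ mp F (Th.unit Empty) ≫ t.th 0 Empty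

theorem un_unit_th [DecidableEq I] : (un F).hom ≫ mp F (Th.unit I) ≫ t.th 0 I = t.S0 := by
  have hi : Function.Injective (Empty.elim : Empty → I) := fun x => x.elim
  rw [S0, ← Th.unit_map (injMat (Empty.elim : Empty → I)) (injMat_isom hi), mp_comp,
    Category.assoc, t.th_map]

instance isIso_S0 : IsIso t.S0 := by
  have h := t.th_lin (n := 0) (I := Empty) rfl
  have h1 : Th.unit Empty = (Q.cpowEmpty Empty).hom ≫
      (Th.incl' (rfl : Fintype.card Empty = 0) : LC.of (Empty → ℂ) ⟶ ThO 0 Empty) := by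
    apply LC.hom_ext
    intro x
    change (((Th.zeroPt Empty : Th 0 Empty)) : OnePoint (Th 0 Empty)) = _
    refine congrArg _ (Th.ext ?_ ?_)
    · exact Subsingleton.elim _ _
    · exact Subsingleton.elim _ _
  rw [S0, h1, mp_comp, Category.assoc]
  infer_instance

/-- `S` is left unital. -/
theorem S0_mu (h : 0 + n = n) : (t.S0 ▷ t.S n) ≫ (t.mu h).hom = (λ_ (t.S n)).hom := by
  have e1 : (𝟙_ D ◁ t.th n (Fin n)) ≫ (t.S0 ▷ t.S n) ≫ (t.mu h).hom =
      (𝟙_ D ◁ t.th n (Fin n)) ≫ (λ_ (t.S n)).hom := by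
    have e2 := t.th_tensor_mu ((un F).hom ≫ mp F (Th.unit Empty))
      (𝟙 (ob F (ThO n (Fin n)))) h
    have e3 : mp F (Th.inj (n := n) (Sum.inr : Fin n → Empty ⊕ Fin n) Sum.inr_injective) ≫
        t.th n (Empty ⊕ Fin n) = t.th n (Fin n) := t.th_map _ _ _
    rw [Category.id_comp] at e2
    rw [leftUnitor_naturality, whisker_exchange_assoc, ← tensorHom_def_assoc]
    have e4 : t.S0 = ((un F).hom ≫ mp F (Th.unit Empty)) ≫ t.th 0 Empty := by
      rw [S0, Category.assoc]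
    rw [e4, e2, tensorHom_id, comp_whiskerRight, Category.assoc, tn_natural_left_assoc,
      ← mp_comp_assoc, Th.unit_sum h, mp_comp_assoc, e3, tn_leftUnitor_assoc]
  have key2 := congrArg (fun x => (𝟙_ D ◁ mp F (Th.incl' (Fintype.card_fin n))) ≫ x) e1
  rw [← whiskerLeft_comp_assoc, ← whiskerLeft_comp_assoc] at key2
  have h5 := t.th_lin (Fintype.card_fin n)
  exact (cancel_epi _).mp key2

/-- `S` is right unital. -/
theorem mu_S0 (h : n + 0 = n) : (t.S n ◁ t.S0) ≫ (t.mu h).hom = (ρ_ (t.S n)).hom := by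
  have h' : 0 + n = n := zero_add n
  rw [← t.mu_comm h h', BraidedCategory.braiding_naturality_right_assoc, t.S0_mu]
  simp

/-- The unit is determined by being idempotent. -/
theorem eq_S0 (e : 𝟙_ D ⟶ t.S 0) [IsIso e] (h : 0 + 0 = 0)
    (he : (e ⊗ₘ e) ≫ (t.mu h).hom = (λ_ (𝟙_ D)).hom ≫ e) : e = t.S0 := by
  have h1 : (t.S0 ⊗ₘ t.S0) ≫ (t.mu h).hom = (λ_ (𝟙_ D)).hom ≫ t.S0 := by
    rw [tensorHom_def', Category.assoc, t.S0_mu, leftUnitor_naturality]
  obtain ⟨w, hw⟩ : ∃ w : 𝟙_ D ⟶ 𝟙_ D, e = w ≫ t.S0 :=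
    ⟨e ≫ CategoryTheory.inv t.S0, by simp⟩
  have he' : IsIso (w ≫ t.S0) := hw ▸ (inferInstance : IsIso e)
  have hw' : IsIso w := (isIso_comp_right_iff w t.S0).mp he'
  rw [hw, ← tensorHom_comp_tensorHom, Category.assoc, h1, tensorHom_def', Category.assoc] at he
  have h2 : (w ▷ 𝟙_ D) ≫ (λ_ (𝟙_ D)).hom = (λ_ (𝟙_ D)).hom ≫ w := by
    rw [unitors_equal, rightUnitor_naturality]
  rw [reassoc_of% h2, leftUnitor_naturality_assoc, cancel_epi, ← Category.assoc,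
    cancel_mono] at he
  have h3 : w = 𝟙 _ := by
    rw [← cancel_epi w, he, Category.comp_id]
  rw [hw, h3, Category.id_comp]

end ThomStr

end Vale.Agent.P251.M
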