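import Vale.Agent.P251.M.ThomSys

/-!
# P251, part M: the comparison maps `t (n, N) ⟶ MU a ⊗ S^{2n}`

For a Thom system `R` and `n ≤ a`, `N ≤ a + n` we construct `R.θ : R.t.X (n, N) ⟶ MU a ⊗ S^{2n}`,
compatible with the transition maps of `MU` (`θ_map`), with the stabilisation in `N` (`z_θ`), with
products (`θ_mul`) and with the bottom cells (`σ_θ`).
-/

open CategoryTheory MonoidalCategory

universe v u

namespace Vale.Agent.P251.M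

variable {T : Type u} [Category.{v} T] [MonoidalCategory T] [SymmetricCategory T]

instance isIso_tensorμ (A B C D : T) : IsIso (tensorμ A B C D) :=
  ⟨tensorδ A B C D, tensorμ_tensorδ A B C D, tensorδ_tensorμ A B C D⟩

namespace CommSys

section mulR

variable {J K : Type} [AddCommMonoid J] [AddCommMonoid K] {S : CommSys T J} {A : CommSys T K}
  {ι : K →+ J} (s : Hom A (S.comap ι))

/-- right multiplication by a system -/
def Hom.mulR {m m' : J} (k : K) (h : m + ι k = m') : S.X m ⊗ A.X k ⟶ S.X m' :=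
  (S.X m ◁ s.app k) ≫ S.mul h

/-- `mulR` commutes with multiplication by elements -/
@[reassoc]
theorem Hom.act_mulR {i m n m' n' : J} (k : K) (x : 𝟙_ T ⟶ S.X i) (h₁ : i + m = n)
    (h₂ : n + ι k = n') (h₃ : m + ι k = m') (h₄ : i + m' = n') :
    (S.act x h₁ ▷ A.X k) ≫ s.mulR k h₂ = s.mulR k h₃ ≫ S.act x h₄ := by
  unfold mulR
  rw [← whisker_exchange_assoc, S.act_whiskerRight_mul x h₁ h₂ h₃ h₄, Category.assoc]

/-- `mulR` is multiplicative -/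
@[reassoc]
theorem Hom.mulR_mul {m m' m'' q q' q'' : J} {k k' k'' : K} (hm : m + m' = m'')
    (hk : k + k' = k'') (h : m + ι k = q) (h' : m' + ι k' = q') (h'' : m'' + ι k'' = q'')
    (hq : q + q' = q'') :
    tensorμ (S.X m) (A.X k) (S.X m') (A.X k') ≫ (S.mul hm ⊗ₘ A.mul hk) ≫ s.mulR k'' h'' =
      (s.mulR k h ⊗ₘ s.mulR k' h') ≫ S.mul hq := by
  unfold mulR
  have hι : ι k + ι k' = ι k'' := by rw [← map_add, hk]
  have e1 : (S.mul hm ⊗ₘ A.mul hk) ≫ (S.X m'' ◁ s.app k'') =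
      ((𝟙 (S.X m) ⊗ₘ 𝟙 (S.X m')) ⊗ₘ (s.app k ⊗ₘ s.app k')) ≫ (S.mul hm ⊗ₘ S.mul hι) := by
    rw [← id_tensorHom, tensorHom_comp_tensorHom, tensorHom_comp_tensorHom, Category.comp_id,
      id_tensorHom_id, Category.id_comp]
    congr 1
    exact s.app_mul hk
  rw [reassoc_of% e1, ← tensorHom_comp_tensorHom, Category.assoc,
    ← S.tensorμ_mul_mul h h' hq hm hι h'', ← id_tensorHom, ← id_tensorHom, ← Category.assoc
      (tensorμ _ _ _ _), ← tensorμ_natural, Category.assoc]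

end mulR

end CommSys

namespace ThomSys

open CommSys

variable (R : ThomSys T)

theorem degU_apply (k : ℕ) : degU k = (-(k : ℤ), (k, k)) := rfl

theorem degZ_apply (l : ℕ) : degZ l = (0, (0, l)) := rfl

theorem degUZ_apply (k l : ℕ) : degUZ (k, l) = (-(k : ℤ), (k, k + l)) := by
  change degU k + degZ l = _
  rw [degU_apply, degZ_apply]
  simp

/-- auxiliary form of `s0` -/
noncomputable def s0' : Hom R.E.sys (R.E.sys.tensor (R.t.comap (0 : ℤ →+ ℕ × ℕ))) :=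
  ((Hom.leftUnitorInv R.E.sys).comp (Hom.braid _ _)).comp
    (Hom.tensor (Hom.id R.E.sys) (unitHom R.t))

theorem s0'_app (n : ℤ) : R.s0'.app n = (ρ_ (R.E.sys.X n)).inv ≫ (R.E.sys.X n ◁ R.t.one) := by
  change ((λ_ (R.E.sys.X n)).inv ≫ (β_ (𝟙_ T) (R.E.sys.X n)).hom) ≫
    (𝟙 (R.E.sys.X n) ⊗ₘ R.t.one) = _
  rw [id_tensorHom, braiding_tensorUnit_left]
  simp

/-- `S^{2n} ⟶ S^{2n} ⊗ t (0, 0)` -/
noncomputable def s0 : Hom R.E.sys (R.P.comap (AddMonoidHom.inl ℤ (ℕ × ℕ))) where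
  app n := R.s0'.app n
  app_one := by
    refine R.s0'.app_one.trans ?_
    have e1 : R.P.one' (map_zero (AddMonoidHom.inl ℤ (ℕ × ℕ))).symm = (λ_ (𝟙_ T)).inv ≫
        ((R.E.sys.comap (AddMonoidHom.fst ℤ (ℕ × ℕ))).one'
          (map_zero (AddMonoidHom.inl ℤ (ℕ × ℕ))).symm ⊗ₘ
          (R.t.comap (AddMonoidHom.snd ℤ (ℕ × ℕ))).one'
            (map_zero (AddMonoidHom.inl ℤ (ℕ × ℕ))).symm) :=
      tensor_one' _ _ _
    refine Eq.trans ?_ e1.symm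
    rw [comap_one', comap_one']
    rfl
  app_mul h := R.s0'.app_mul h

theorem s0_app (n : ℤ) : R.s0.app n = (ρ_ (R.E.sys.X n)).inv ≫ (R.E.sys.X n ◁ R.t.one) :=
  R.s0'_app n

/-- `s0`, typed -/
noncomputable def s1 (n : ℤ) : R.E.S n ⟶ R.P.X (n, 0) := R.s0.app n

/-- `(S^{2d} ⊗ t y) ⊗ S^{2n} ⟶ S^{2(d+n)} ⊗ t y` -/
noncomputable def Rf {m m' : ℤ × (ℕ × ℕ)} (n : ℤ) (h : m + (n, 0) = m') :
    R.P.X m ⊗ R.E.sys.X n ⟶ R.P.X m' :=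
  R.s0.mulR n h

theorem Rf_eq (d e n : ℤ) (y : ℕ × ℕ) (h : ((d, y) : ℤ × (ℕ × ℕ)) + (n, 0) = (e, y))
    (h' : d + n = e) :
    R.Rf n h = ((R.E.sys.X d ⊗ R.t.X y) ◁ (ρ_ (R.E.sys.X n)).inv) ≫
      tensorμ _ _ _ _ ≫ (R.E.sys.mul h' ⊗ₘ (ρ_ (R.t.X y)).hom) := by
  unfold Rf Hom.mulR
  rw [s0_app]
  have hy : y + 0 = y := add_zero y
  change ((R.E.sys.X d ⊗ R.t.X y) ◁ ((ρ_ (R.E.sys.X n)).inv ≫ (R.E.sys.X n ◁ R.t.one))) ≫
    tensorμ _ _ _ _ ≫ (R.E.sys.mul h' ⊗ₘ R.t.mul hy) = _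
  have e1 := tensorμ_natural_right (R.E.sys.X d) (R.t.X y) (𝟙 (R.E.sys.X n)) R.t.one
  rw [id_tensorHom, whiskerLeft_id] at e1
  rw [whiskerLeft_comp, Category.assoc, reassoc_of% e1, tensorHom_comp_tensorHom,
    Category.id_comp, R.t.mul_one]

instance isIso_mul_sys {m n p : ℤ} (h : m + n = p) : IsIso (R.E.sys.mul h) :=
  inferInstanceAs (IsIso (R.E.mu m n p h).hom)

theorem isIso_Rf {m m' : ℤ × (ℕ × ℕ)} (n : ℤ) (h : m + (n, 0) = m') : IsIso (R.Rf n h) := by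
  obtain ⟨d, y⟩ := m
  obtain ⟨e, y'⟩ := m'
  have h1 : d + n = e := congrArg Prod.fst h
  obtain rfl : y = y' := (add_zero y).symm.trans (congrArg Prod.snd h)
  rw [R.Rf_eq d e n y h h1]
  have i1 : IsIso (R.E.sys.mul h1) := R.isIso_mul_sys h1
  have i2 : IsIso (R.E.sys.mul h1 ⊗ₘ (ρ_ (R.t.X y)).hom) := inferInstance
  have i3 : IsIso (tensorμ (R.E.sys.X d) (R.t.X y) (R.E.sys.X n) (𝟙_ T)) := isIso_tensorμ _ _ _ _
  have i4 : IsIso ((R.E.sys.X d ⊗ R.t.X y) ◁ (ρ_ (R.E.sys.X n)).inv) := inferInstance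
  exact IsIso.comp_isIso' i4 (IsIso.comp_isIso' i3 i2)

/-- the point `(n - a, (a, a + a))` -/
def pt (n a : ℕ) : ℤ × (ℕ × ℕ) := ((n : ℤ) - a, (a, a + a))

theorem pt_tr {n N a : ℕ} (h : n ≤ a) (h' : N ≤ a + n) :
    degUZ (a - n, a + n - N) + (0, (n, N)) = pt n a := by
  rw [degUZ_apply]
  simp only [pt, Prod.mk_add_mk, Prod.mk.injEq]
  omega

theorem pt_R (n a : ℕ) : degUZ (dg a) + ((n : ℤ), 0) = pt n a := by
  rw [dg_apply, degUZ_apply]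
  simp only [pt, Prod.mk_add_mk, Prod.mk.injEq, add_zero, and_true]
  omega

/-- the comparison isomorphism `MU a ⊗ S^{2n} ≅ S^{2(n-a)} ⊗ t (a, a + a)` -/
noncomputable def rf (n a : ℕ) : R.MU.E.obj a ⊗ R.E.S n ⟶ R.P.X (pt n a) :=
  R.Rf (m := degUZ (dg a)) n (pt_R n a)

instance (n a : ℕ) : IsIso (R.rf n a) := R.isIso_Rf _ _

/-- the maps `t y ⟶ S^0 ⊗ t y` -/
noncomputable def j0 (y : ℕ × ℕ) : R.t.X y ⟶ R.P.X (0, y) := R.i0.app y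

@[reassoc]
theorem mul_j0 {y y' y'' : ℕ × ℕ} (h : y + y' = y'')
    (h' : ((0, y) + (0, y') : ℤ × (ℕ × ℕ)) = (0, y'')) :
    R.t.mul h ≫ R.j0 y'' = (R.j0 y ⊗ₘ R.j0 y') ≫ R.P.mul h' := R.i0.app_mul h

theorem one_j0 (h : 0 = ((0, 0) : ℤ × (ℕ × ℕ))) : R.t.one ≫ R.j0 0 = R.P.one' h := R.i0.app_one

theorem j0_act {i y y' : ℕ × ℕ} (x : 𝟙_ T ⟶ R.t.X i) (h : i + y = y')
    (h' : ((0, i) + (0, y) : ℤ × (ℕ × ℕ)) = (0, y')) :
    R.t.act x h ≫ R.j0 y' = R.j0 y ≫ R.P.act (x ≫ R.j0 i) h' := R.i0.act_app x h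

/-- `z l`, typed -/
noncomputable def ze (l : ℕ) : 𝟙_ T ⟶ R.t.X (0, l) := R.z.e l

/-- multiplication by `z l` -/
noncomputable def zt {n N N' : ℕ} (l : ℕ) (h : l + N = N') : R.t.X (n, N) ⟶ R.t.X (n, N') :=
  R.z.tr l (show AddMonoidHom.inr ℕ ℕ l + (n, N) = (n, N') by rw [← h]; simp)

/-- The comparison maps `t (n, N) ⟶ MU a ⊗ S^{2n}`. -/
noncomputable def θ {n N a : ℕ} (h : n ≤ a) (h' : N ≤ a + n) :
    R.t.X (n, N) ⟶ R.MU.E.obj a ⊗ R.E.S n :=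
  R.j0 (n, N) ≫ R.uz.tr (m := (0, (n, N))) (a - n, a + n - N) (pt_tr h h') ≫ inv (R.rf n a)

@[reassoc]
theorem θ_rf {n N a : ℕ} (h : n ≤ a) (h' : N ≤ a + n) :
    R.θ h h' ≫ R.rf n a =
      R.j0 (n, N) ≫ R.uz.tr (m := (0, (n, N))) (a - n, a + n - N) (pt_tr h h') := by
  unfold θ
  rw [Category.assoc, Category.assoc, IsIso.inv_hom_id, Category.comp_id]

theorem pt_map {n a b : ℕ} (h : a ≤ b) : degUZ (dg (b - a)) + pt n a = pt n b := by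
  rw [dg_apply, degUZ_apply]
  simp only [pt, Prod.mk_add_mk, Prod.mk.injEq]
  omega

theorem map_rf {n a b : ℕ} (h : a ≤ b) :
    (R.MU.E.map (homOfLE h) ▷ R.E.S n) ≫ R.rf n b =
      R.rf n a ≫ R.uz.tr (dg (b - a)) (pt_map h) := by
  have h1 : degUZ (dg (b - a)) + degUZ (dg a) = degUZ (dg b) := by
    rw [← map_add, ← map_add, Nat.sub_add_cancel h]
  exact R.s0.act_mulR (A := R.E.sys) (ι := AddMonoidHom.inl ℤ (ℕ × ℕ)) (n : ℤ)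
    (R.uz.e (dg (b - a))) h1 (pt_R n b) (pt_R n a) (pt_map h)

/-- compatibility with the transition maps of `MU` -/
@[reassoc]
theorem θ_map {n N a b : ℕ} (h : n ≤ a) (h' : N ≤ a + n) (hab : a ≤ b) :
    R.θ h h' ≫ (R.MU.E.map (homOfLE hab) ▷ R.E.S n) =
      R.θ (h.trans hab) (h'.trans (Nat.add_le_add_right hab n)) := by
  rw [← cancel_mono (R.rf n b), Category.assoc, R.map_rf hab, R.θ_rf_assoc, R.θ_rf,
    R.uz.tr_tr (pt_tr h h') (pt_map hab) (r := (b - n, b + n - N)) (by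
      rw [dg_apply, Prod.mk_add_mk, Prod.mk.injEq]
      omega) (pt_tr (by omega) (by omega))]

/-- `u k * z l` acts as `z l` followed by `u k` -/
theorem uz_tr {k l : ℕ} {m n p : ℤ × (ℕ × ℕ)} (h₁ : degZ l + m = n) (h₂ : degU k + n = p)
    (h₃ : degUZ (k, l) + m = p) : R.uz.tr (k, l) h₃ = R.zP.tr l h₁ ≫ R.uP.tr k h₂ := by
  unfold Fam.tr
  rw [R.P.act_act (R.zP.e l) (R.uP.e k) h₁ h₂ rfl h₃]
  rfl

theorem uz_tr_zero {l : ℕ} {m n : ℤ × (ℕ × ℕ)} (h₁ : degZ l + m = n)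
    (h₃ : degUZ (0, l) + m = n) : R.uz.tr (0, l) h₃ = R.zP.tr l h₁ := by
  have h2 : degU 0 + n = n := by rw [map_zero, zero_add]
  rw [R.uz_tr h₁ h2 h₃, R.uP.tr_zero, Category.comp_id]

theorem uz_tr_zero' {k : ℕ} {m n : ℤ × (ℕ × ℕ)} (h₁ : degU k + m = n)
    (h₃ : degUZ (k, 0) + m = n) : R.uz.tr (k, 0) h₃ = R.uP.tr k h₁ := by
  have h2 : degZ 0 + m = m := by rw [map_zero, zero_add]
  rw [R.uz_tr h2 h₁ h₃, R.zP.tr_zero, Category.id_comp]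

theorem z_e_j0 (l : ℕ) : R.ze l ≫ R.j0 (0, l) = R.zP.e l := by
  change R.ze l ≫ (λ_ (R.t.X (0, l))).inv ≫
    (R.E.sys.one ⊗ₘ 𝟙 (R.t.X (0, l))) = (λ_ (𝟙_ T)).inv ≫ (R.E.sys.one ⊗ₘ R.z.e l)
  rw [leftUnitor_inv_naturality_assoc, ← id_tensorHom, tensorHom_comp_tensorHom,
    Category.id_comp, Category.comp_id]
  rfl

/-- `j0` and the stabilisation in `N` -/
@[reassoc]
theorem zt_j0 {l n N N' : ℕ} (h : l + N = N')
    (h' : degZ l + (0, (n, N)) = ((0, (n, N')) : ℤ × (ℕ × ℕ))) :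
    R.zt (n := n) l h ≫ R.j0 (n, N') = R.j0 (n, N) ≫ R.zP.tr l h' := by
  have h1 : ((0, l) : ℕ × ℕ) + (n, N) = (n, N') := by rw [← h]; simp
  have e := R.j0_act (R.ze l) h1 h'
  refine e.trans ?_
  rw [R.z_e_j0]
  rfl

/-- compatibility with the stabilisation in `N` -/
@[reassoc]
theorem zt_θ {n N N' a l : ℕ} (h : n ≤ a) (h' : N' ≤ a + n) (hl : l + N = N') :
    R.zt l hl ≫ R.θ h h' = R.θ (N := N) h (by omega) := by
  have h1 : degZ l + (0, (n, N)) = ((0, (n, N')) : ℤ × (ℕ × ℕ)) := by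
    rw [degZ_apply, ← hl]; simp
  have h2 : degUZ (0, l) + (0, (n, N)) = ((0, (n, N')) : ℤ × (ℕ × ℕ)) := by
    rw [degUZ_apply, ← hl]; simp
  rw [← cancel_mono (R.rf n a), Category.assoc, R.θ_rf, R.θ_rf,
    R.zt_j0_assoc hl h1, ← R.uz_tr_zero h1 h2,
    R.uz.tr_tr h2 (pt_tr h h') (r := (a - n, a + n - N)) (by
      rw [Prod.mk_add_mk, Prod.mk.injEq]
      omega) (pt_tr (by omega) (by omega))]

theorem pt_add {n n' a a' : ℕ} : pt n a + pt n' a' = pt (n + n') (a + a') := by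
  simp only [pt, Prod.mk_add_mk, Nat.cast_add]
  refine Prod.ext ?_ (Prod.ext rfl ?_)
  · dsimp only; omega
  · dsimp only; omega

theorem rf_mul {n n' n'' a a' a'' : ℕ} (ha : a + a' = a'')
    (h' : (n : ℤ) + n' = n'') (hp : pt n a + pt n' a' = pt n'' a'') :
    tensorμ (R.MU.E.obj a) (R.E.S n) (R.MU.E.obj a') (R.E.S n') ≫
      (R.MU.mu ha ⊗ₘ (R.E.mu n n' n'' h').hom) ≫ R.rf n'' a'' =
      (R.rf n a ⊗ₘ R.rf n' a') ≫ R.P.mul hp := by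
  have h1 : degUZ (dg a) + degUZ (dg a') = degUZ (dg a'') := by
    rw [← map_add, ← map_add, ha]
  exact R.s0.mulR_mul (A := R.E.sys) (ι := AddMonoidHom.inl ℤ (ℕ × ℕ)) h1 h' (pt_R n a)
    (pt_R n' a') (pt_R n'' a'') hp

/-- compatibility with products -/
@[reassoc]
theorem θ_mul {n n' n'' N N' N'' a a' a'' : ℕ} (hn : n + n' = n'') (hN : N + N' = N'')
    (ha : a + a' = a'') (hn' : (n : ℤ) + n' = n'') (h₁ : n ≤ a) (h₂ : N ≤ a + n) (h₁' : n' ≤ a')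
    (h₂' : N' ≤ a' + n') (hm : ((n, N) + (n', N') : ℕ × ℕ) = (n'', N'')) :
    (R.θ h₁ h₂ ⊗ₘ R.θ h₁' h₂') ≫
      tensorμ (R.MU.E.obj a) (R.E.S n) (R.MU.E.obj a') (R.E.S n') ≫
        (R.MU.mu ha ⊗ₘ (R.E.mu n n' n'' hn').hom) =
      R.t.mul hm ≫ R.θ (a := a'') (by omega) (by omega) := by
  have hp : pt n a + pt n' a' = pt n'' a'' := by rw [pt_add, hn, ha]
  have h0 : ((0, (n, N)) + (0, (n', N')) : ℤ × (ℕ × ℕ)) = (0, (n'', N'')) := by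
    rw [← hn, ← hN]; simp
  rw [← cancel_mono (R.rf n'' a''), Category.assoc, Category.assoc, Category.assoc,
    R.rf_mul ha hn' hp, R.θ_rf, ← Category.assoc (_ ⊗ₘ _), tensorHom_comp_tensorHom, R.θ_rf,
    R.θ_rf, ← tensorHom_comp_tensorHom, Category.assoc,
    R.uz.tr_mul (pt_tr h₁ h₂) (pt_tr h₁' h₂') (r := (a'' - n'', a'' + n'' - N'')) (by
      rw [Prod.mk_add_mk, Prod.mk.injEq]
      omega) (pt_tr (by omega) (by omega)) h0 hp, R.mul_j0_assoc hm h0]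

/-! ### bottom cells -/

theorem _root_.Vale.Agent.P251.M.EvenSpheres.dual_swap (E : EvenSpheres T) (n : ℤ)
    (h : -n + n = 0) (h'' : 0 + n = n) :
    (E.mu 0 n n h'').inv ≫ ((E.mu (-n) n 0 h).inv ▷ E.S n) ≫
      ((E.S (-n) ⊗ E.S n) ◁ (ρ_ (E.S n)).inv) ≫ tensorμ (E.S (-n)) (E.S n) (E.S n) (𝟙_ T) ≫
        ((E.mu (-n) n 0 h).hom ⊗ₘ (ρ_ (E.S n)).hom) = (E.mu 0 n n h'').inv := by
  have f1 := IsFr.inv' (by ring) (E.isFr_mu 0 n n h'')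
  refine IsFr.unique (F := E.fr n) (G := (E.fr 0).tensor (E.fr n)) (by ring) ?_ f1
  refine IsFr.comp (by ring) (by ring) f1 ?_
  refine IsFr.comp (by ring) (by ring) (IsFr.whiskerRight (by ring)
    (IsFr.inv' (by ring) (E.isFr_mu (-n) n 0 h))) ?_
  refine IsFr.comp (by ring) (by ring) (IsFr.whiskerLeft (by ring)
    (IsFr.inv' (by ring) (isFr_rightUnitor (E.fr n)))) ?_
  refine IsFr.comp (by ring) (by ring) (isFr_tensorμ _ _ _ _ (E.symFr _ _)) ?_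
  exact IsFr.tensor (by ring) (by ring) (E.isFr_mu (-n) n 0 h) (isFr_rightUnitor (E.fr n))

/-- the bottom cell `S^{2n} ⟶ t (n, n)` -/
noncomputable def b (n : ℕ) : R.E.S n ⟶ R.t.X (n, n) := R.σ.app n

theorem b_zero : R.b 0 = R.t.one := rfl

theorem b_mul {m n p : ℕ} (h : m + n = p) (h' : (m : ℤ) + n = p)
    (h'' : ((m, m) + (n, n) : ℕ × ℕ) = (p, p)) :
    (R.E.mu m n p h').hom ≫ R.b p = (R.b m ⊗ₘ R.b n) ≫ R.t.mul h'' := R.σ.app_mul h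

theorem b_one : R.b 1 = (ρ_ R.E.L).hom ≫ R.ℓ := by
  have h : dg 1 + dg 0 = dg (0 + 1) := rfl
  have e := R.E.sig_succ R.t dg R.ℓ 0 h
  have e2 : (R.ℓ ⊗ₘ R.t.one) ≫ R.t.mul (add_zero (1, 1)) = (ρ_ R.E.L).hom ≫ R.ℓ := by
    rw [tensorHom_def, Category.assoc, R.t.mul_one, rightUnitor_naturality]
  exact e.trans e2

theorem uP_e (n : ℕ) (h : -(n : ℤ) + n = 0) :
    R.uP.e n = (R.E.mu (-n) n 0 h).inv ≫ (R.E.S (-n) ◁ R.b n) := by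
  change ((𝟙 _ ≫ (R.E.mu (-n) n 0 h).inv) ≫ 𝟙 _) ≫ (𝟙 _ ⊗ₘ (𝟙 _ ≫ R.b n)) = _
  rw [Category.id_comp, Category.comp_id, Category.id_comp, id_tensorHom]

/-- composing a map with the multiplication by an element -/
@[reassoc]
theorem _root_.Vale.Agent.P251.M.CommSys.comp_act' {J : Type} [AddCommMonoid J]
    (S : CommSys T J) {A : T} {i m n : J} (x : 𝟙_ T ⟶ S.X i) (f : A ⟶ S.X m) (h : i + m = n) :
    f ≫ S.act x h = (λ_ A).inv ≫ (x ▷ A) ≫ (S.X i ◁ f) ≫ S.mul h := by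
  unfold act
  rw [leftUnitor_inv_naturality_assoc, whisker_exchange_assoc]

theorem mu_zero_inv (n : ℤ) (h : 0 + n = n) :
    (R.E.mu 0 n n h).inv = (λ_ (R.E.S n)).inv := by
  have h0 : R.E.mu 0 n n h = λ_ (R.E.S n) := Iso.ext (R.E.zero_mu n h)
  exact congrArg Iso.inv h0

theorem s0_uz_aux {A B C : T} (m : 𝟙_ T ⟶ A ⊗ B) (g : A ⊗ B ⟶ 𝟙_ T) (f : B ⟶ C)
    (h : (λ_ B).inv ≫ (m ▷ B) ≫ ((A ⊗ B) ◁ (ρ_ B).inv) ≫ tensorμ A B B (𝟙_ T) ≫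
      (g ⊗ₘ (ρ_ B).hom) = (λ_ B).inv) :
    (λ_ B).inv ≫ ((m ≫ (A ◁ f)) ▷ B) ≫ ((A ⊗ C) ◁ (ρ_ B).inv) ≫ tensorμ A C B (𝟙_ T) ≫
      (g ⊗ₘ (ρ_ C).hom) = f ≫ (λ_ C).inv := by
  have q1 := tensorμ_natural_left (𝟙 A) f B (𝟙_ T)
  rw [id_tensorHom, id_whiskerRight] at q1
  have q2 : (𝟙 (A ⊗ B) ⊗ₘ (f ▷ 𝟙_ T)) ≫ (g ⊗ₘ (ρ_ C).hom) =
      (g ⊗ₘ (ρ_ B).hom) ≫ (𝟙_ T ◁ f) := by
    rw [tensorHom_comp_tensorHom, Category.id_comp, rightUnitor_naturality, ← id_tensorHom,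
      tensorHom_comp_tensorHom, Category.comp_id]
  rw [comp_whiskerRight, Category.assoc, ← whisker_exchange_assoc, reassoc_of% q1, q2,
    reassoc_of% h, leftUnitor_inv_naturality]

theorem s0_uz (n : ℕ) (h : degUZ (n, 0) + ((n : ℤ), 0) = (0, (n, n))) :
    R.s1 n ≫ R.uz.tr (n, 0) h =
      R.b n ≫ R.j0 (n, n) := by
  have h1 : degU n + ((n : ℤ), 0) = (0, (n, n)) := by
    rw [degU_apply]; simp
  have h2 : -(n : ℤ) + n = 0 := by ring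
  have h3 : (0 : ℤ) + n = n := by ring
  rw [R.uz_tr_zero' h1 h]
  unfold Fam.tr
  rw [comp_act']
  have e1 : ((R.P.X (degU n)) ◁ R.s1 n) ≫
      R.P.mul h1 = ((R.E.S (-n) ⊗ R.t.X (n, n)) ◁ (ρ_ (R.E.S n)).inv) ≫
      tensorμ _ _ _ _ ≫ ((R.E.mu (-n) n 0 h2).hom ⊗ₘ (ρ_ (R.t.X (n, n))).hom) :=
    R.Rf_eq (-n) 0 n (n, n) h1 h2
  rw [e1, R.uP_e n h2]
  have e2 : R.j0 (n, n) = (λ_ (R.t.X (n, n))).inv := by
    change (λ_ (R.t.X (n, n))).inv ≫ (𝟙 (𝟙_ T) ⊗ₘ 𝟙 (R.t.X (n, n))) = _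
    rw [id_tensorHom_id, Category.comp_id]
  rw [e2]
  have e3 := R.E.dual_swap n h2 h3
  rw [R.mu_zero_inv n h3] at e3
  exact s0_uz_aux (R.E.mu (-n) n 0 h2).inv (R.E.mu (-n) n 0 h2).hom (R.b n) e3

/-- the elements `𝟙 ⟶ MU a` -/
noncomputable def ua (a : ℕ) : 𝟙_ T ⟶ R.MU.E.obj a := R.uz.e (dg a)

theorem _root_.Vale.Agent.P251.M.CommSys.em_one' {J : Type} [AddCommMonoid J]
    (S : CommSys T J) {z i : J} (hz : 0 = z) (x : 𝟙_ T ⟶ S.X i) (h : i + z = i) :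
    S.em x (S.one' hz) h = x := by
  subst hz; exact S.em_one x

theorem one_map (a : ℕ) : R.MU.one ≫ R.MU.E.map (homOfLE (Nat.zero_le a)) = R.ua a := by
  have h1 : 0 = degUZ (dg 0) := by rw [map_zero, map_zero]
  have h2 : degUZ (dg a) + degUZ (dg 0) = degUZ (dg a) := by rw [← h1, add_zero]
  have e : R.P.one' h1 ≫ R.P.act (R.uz.e (dg a)) h2 = R.uz.e (dg a) := by
    rw [R.P.comp_act, R.P.em_one' h1]
  exact e

/-- compatibility with the bottom cells -/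
@[reassoc]
theorem b_θ {n a : ℕ} (h : n ≤ a) (h' : n ≤ a + n) :
    R.b n ≫ R.θ h h' = (λ_ (R.E.S n)).inv ≫ (R.ua a ▷ R.E.S n) := by
  have k1 : degUZ (n, 0) + ((n : ℤ), 0) = (0, (n, n)) := by rw [degUZ_apply]; simp
  have e1 : (λ_ (R.E.S n)).inv ≫ (R.ua a ▷ R.E.S n) ≫ R.rf n a =
      R.s1 n ≫
        R.uz.tr (dg a) (pt_R n a) :=
    (R.P.comp_act' (R.uz.e (dg a)) (R.s1 n)
      (pt_R n a)).symm
  rw [← cancel_mono (R.rf n a), Category.assoc, Category.assoc, R.θ_rf, e1,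
    ← reassoc_of% R.s0_uz n k1, R.uz.tr_tr k1 (pt_tr h h') (r := dg a) (by
      rw [dg_apply, Prod.mk_add_mk, Prod.mk.injEq]
      omega) (pt_R n a)]

end ThomSys

end Vale.Agent.P251.M
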